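import Crest.Agent.R151.ASite

/-! R151/A: what a good cell gives. Deterministic. -/

set_option autoImplicit false
set_option linter.unusedSectionVars false
set_option linter.unusedVariables false
open MeasureTheory ProbabilityTheory Crest.ProbabilityR.FirstPassage Filter Topology
open scoped ENNReal

namespace Crest.Agent.R151.PA

variable {G : Measure ℝ} [IsProbabilityMeasure G] [NullSingletonClass G] (P : Setup G)
variable {h : ℕ} {t : Env} {c : V}

theorem acelld_piece (hc : t ∉ P.BadI h c) {q : ℤ → V} {i j u : ℤ} (hq : PathIn Set.univ q i j)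
    (hinj : Set.InjOn q (Set.Icc i j)) (hu : i ≤ u) (hu' : u + SS h ≤ j)
    (hin : q u ∈ ball (corner (SS h) c) (P.r1 * SS h)) : P.θ * SS h ≤ cost t q u (u + SS h) := by
  have h1 := (hq.sub hu (by omega) hu').reindex u
  have h2 := cost_reindex (t := t) (p := q) (i := u) (j := u + SS h) u
  rw [sub_self, add_sub_cancel_left] at h1 h2
  refine not_lt.1 fun h3 => hc (Or.inr ⟨fun k => q (k + u), h1, fun k hk l hl e => ?_,
    by simpa only [zero_add] using hin, h2 ▸ h3⟩)
  have := hinj ⟨by have := hk.1; omega, by have := hk.2; omega⟩ ⟨by have := hl.1; omega, by have := hl.2; omega⟩ e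
  omega

theorem acelld_nt_le {h : ℕ} (hb : P.Big h) : nt h ≤ SS h :=
  Nat.pow_le_pow_right (le_trans (by norm_num) hb.1) (by norm_num)

theorem acelld_one {h : ℕ} (hb : P.Big h) : 1 ≤ h := le_trans (by norm_num) hb.1

theorem acelld_chain (ht : ∀ e, 0 ≤ t e) (hc : t ∉ P.BadI h c) {x y a b : V} {H H' : Set V} {d : ℤ}
    (hx : x ∈ ball (corner (SS h) c) (P.r1 * SS h)) (hy : y ∈ ball (corner (SS h) c) (P.r1 * SS h))
    (hH : IsHash KK t x H) (hH' : IsHash KK t y H') (ha : a ∈ H) (hb : b ∈ H') (hd : nrm (y - x) ≤ d) :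
    T t a b ≤ 2 * ((2 * d + 1) * h) := by
  obtain ⟨w, n, h1, -, rfl, rfl, h2, h3⟩ := exists_staircase x y
  have h4 := (hash_chain (S := Set.univ) (by norm_num [KK]) ht h1 (fun _ _ _ => Set.subset_univ _) hH hH' ha hb).2
  refine h4.trans (mul_le_mul_of_nonneg_left ?_ zero_le_two)
  have h5 : ∀ k ∈ Finset.Icc 0 n, Yv KK t (w k) ≤ h := fun k hk => by
    obtain ⟨-, -, -, -, h6⟩ := h3 k (Finset.mem_Icc.1 hk).1 (Finset.mem_Icc.1 hk).2
    refine not_lt.1 fun h7 => hc (Or.inl ⟨w k, ?_, h7⟩)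
    rw [bpath_mem_ball] at hx hy ⊢
    obtain ⟨a1, a2, a3, a4⟩ := h6
    omega
  refine (Finset.sum_le_card_nsmul _ _ _ h5).trans ?_
  rw [nsmul_eq_mul]
  refine mul_le_mul_of_nonneg_right ?_ (Nat.cast_nonneg _)
  have h6 : n ≤ 2 * d := by
    have a1 : |(w n).1 - (w 0).1| ≤ d := (le_max_left _ _).trans hd
    have a2 : |(w n).2 - (w 0).2| ≤ d := (le_max_right _ _).trans hd
    omega
  have h7 : ((Finset.Icc 0 n).card : ℤ) ≤ 2 * d + 1 := by
    have := h1.1
    rw [Int.card_Icc]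
    omega
  exact_mod_cast h7

theorem acelld_far (hb : P.Big h) {q : ℤ → V} {u : ℤ} (hinj : Set.InjOn q (Set.Icc u (u + SS h))) (x : V) :
    ∃ l, u ≤ l ∧ l ≤ u + SS h ∧ (KK : ℤ) ≤ nrm (q l - x) := by
  by_contra hn
  push Not at hn
  have h1 := Set.ncard_le_ncard_of_injOn q (t := ball x (KK : ℕ)) (fun l hl => (hn l hl.1 hl.2).le) hinj
    (ball_finite _ _)
  rw [← Finset.coe_Icc, Set.ncard_coe_finset, Int.card_Icc] at h1
  have h2 := ncard_ball_le x KK
  have h3 := KK_le_nt hb.1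
  have h4 := acelld_nt_le P hb
  have h5 : (2 * KK + 1) ^ 2 ≤ (6 * KK + 1) ^ 2 := Nat.pow_le_pow_left (by omega) 2
  omega

theorem acelld_cell (hb : P.Big h) {x : V} (hx : cell (SS h) x = c) :
    x ∈ ball (corner (SS h) c) (P.r1 * SS h) := by
  have h1 := nrm_sub_corner (SS_pos (acelld_one P hb)) x
  rw [hx] at h1
  have h2 : (1 : ℤ) ≤ P.r1 := by have := P.r1_ge.2; omega
  have h3 := mul_le_mul_of_nonneg_right h2 (Int.natCast_nonneg (SS h))
  show nrm _ ≤ _
  omega

theorem acelld_sum (S : ℕ) (q : ℤ → V) (a m : ℕ) : cost t q (a * S) ((a + m : ℕ) * S) =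
    ∑ k ∈ Finset.Ico a (a + m), cost t q (k * S) (k * S + S) := by
  induction m with
  | zero => simp [cost_self]
  | succ m ih =>
    have h1 : ((a + (m + 1) : ℕ) : ℤ) * S = (a + m : ℕ) * S + S := by push_cast; ring
    have h2 : (a : ℤ) * S ≤ (a + m : ℕ) * S := mul_le_mul_of_nonneg_right (by omega) (Int.natCast_nonneg _)
    rw [← add_assoc, Finset.sum_Ico_succ_top (by omega), ← ih, add_assoc, h1, cost_add h2 (by omega)]

/-- cut the first `m S` steps into `m` pieces (`cost_add`, reindexing); each starts in the ball -/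
theorem cost_ge_of_not_BadI (ht : ∀ e, 0 ≤ t e) (hc : t ∉ P.BadI h c) {q : ℤ → V} {i j : ℤ} {m : ℕ}
    (hq : PathIn Set.univ q i j) (hinj : Set.InjOn q (Set.Icc i j)) (hm : i + m * SS h ≤ j)
    (hin : ∀ k : ℕ, k < m → q (i + k * SS h) ∈ ball (corner (SS h) c) (P.r1 * SS h)) :
    P.θ * m * SS h ≤ cost t q i j := by
  have key : ∀ n : ℕ, n ≤ m → P.θ * n * SS h ≤ cost t q i (i + n * SS h) := by
    intro n hn
    induction n with
    | zero => simp [cost_self]
    | succ n ih =>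
      have h1 : ((n + 1 : ℕ) : ℤ) * SS h ≤ m * SS h :=
        mul_le_mul_of_nonneg_right (by omega) (Int.natCast_nonneg _)
      have h2 : ((n + 1 : ℕ) : ℤ) * SS h = n * SS h + SS h := by push_cast; ring
      have h3 : (0 : ℤ) ≤ n * SS h := by positivity
      have h4 := acelld_piece P hc hq hinj (u := i + n * SS h) (by omega) (by omega) (hin n hn)
      rw [h2, ← add_assoc, cost_add (j := i + n * SS h) (by omega) (by omega)]
      push_cast
      linarith [ih (by omega)]
  exact (key m le_rfl).trans (cost_sub_le ht le_rfl hm)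

/-- `le_TS_injOn`: a self-avoiding path stays in the ball of radius `r1 S` (cost `≥ TS`) or leaves it, which takes at least
`(r1 - r0 - 1) S` steps, cost `≥ θ (r1 - r0 - 1) S ≥ 2C (r0+1) S ≥ mT (y - x)` -/
theorem T_net (ht : ∀ e, 0 ≤ t e) (hb : P.Big h) (hc : t ∉ P.BadC h c) {x y : V} (hx : x ∈ P.Net h c)
    (hy : y ∈ P.Net h c) : mT G (y - x) - la h ≤ T t x y := by
  refine le_TS_injOn ht (conn_univ x y) ?_
  rintro p n hp hinj rfl rfl
  by_cases hin : ∀ k, 0 ≤ k → k ≤ n → p k ∈ ball (corner (SS h) c) (P.r1 * SS h)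
  · refine le_trans (not_lt.1 fun h1 => hc (Or.inr (Or.inr ⟨_, hx, _, hy, h1⟩))) ?_
    exact TS_le_cost ht (hp.restrict hin)
  push Not at hin
  obtain ⟨k, k0, kn, hk⟩ := hin
  obtain ⟨m, hm⟩ : ∃ m : ℕ, P.r1 = P.r0 + 1 + m := Nat.exists_eq_add_of_le P.r1_ge.2
  have hx1 : nrm (p 0 - corner (SS h) c) ≤ (P.r0 + 1) * SS h := hx.1
  have hy1 : nrm (p n - corner (SS h) c) ≤ (P.r0 + 1) * SS h := hy.1
  have hr : (P.r1 : ℤ) * SS h = (P.r0 + 1) * SS h + m * SS h := by rw [hm]; push_cast; ring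
  have tri : ∀ l, 0 ≤ l → l ≤ n → nrm (p l - corner (SS h) c) ≤ l + (P.r0 + 1) * SS h := fun l l0 ln => by
    have a1 := (hp.sub le_rfl l0 ln).nrm_le
    have a2 := nrm_add_le (p l - p 0) (p 0 - corner (SS h) c)
    rw [sub_add_sub_cancel] at a2
    omega
  have hk' : P.r1 * SS h < nrm (p k - corner (SS h) c) := not_le.1 hk
  have hmn : 0 + (m : ℤ) * SS h ≤ n := by have := tri k k0 kn; omega
  have h1 := cost_ge_of_not_BadI P ht (fun h => hc (Or.inl h)) hp hinj hmn fun l hl => by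
    have a1 : (l : ℤ) * SS h ≤ m * SS h := mul_le_mul_of_nonneg_right (by omega) (Int.natCast_nonneg _)
    have a2 : (0 : ℤ) ≤ l * SS h := by positivity
    have a3 := tri (0 + l * SS h) (by omega) (by omega)
    show nrm _ ≤ _
    omega
  have h2 : nrm (p n - p 0) ≤ 2 * ((P.r0 + 1) * SS h) := by
    have a2 := nrm_add_le (p n - corner (SS h) c) (corner (SS h) c - p 0)
    rw [sub_add_sub_cancel, nrm_sub_comm (corner _ _)] at a2
    omega
  have h3 : (nrm (p n - p 0) : ℝ) ≤ 2 * ((P.r0 + 1) * SS h) := by exact_mod_cast h2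
  have h4 := (P.mT_le (p n - p 0)).trans (mul_le_mul_of_nonneg_left h3 (zero_le_one.trans P.C_ge))
  have h5 := P.r1_ge.1
  rw [hm] at h5
  push_cast at h5
  have h6 := mul_le_mul_of_nonneg_right h5 (Nat.cast_nonneg (α := ℝ) (SS h))
  have h7 := Nat.cast_nonneg (α := ℝ) (la h)
  linarith

/-- `x' = nt ⌊x / nt⌋` coordinatewise is a net point within `nt h` of `x`; `IsHash.reach`, `hash_chain` along a staircase with at most
`2 nt + 1` sites: `T x' a ≤ la + 2 (2 nt + 1) h ≤ 7 la` -/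
theorem exists_net (ht : ∀ e, 0 ≤ t e) (hb : P.Big h) (hc : t ∉ P.BadC h c) {x : V}
    (hx : x ∈ ball (corner (SS h) c) (P.r0 * SS h)) {H : Set V} (hH : IsHash KK t x H) :
    ∃ x' ∈ P.Net h c, nrm (x - x') ≤ nt h ∧ ∀ a ∈ H, T t x' a ≤ 7 * la h := by
  have h1 : 1 ≤ nt h := Nat.one_le_pow _ _ (acelld_one P hb)
  have h2 := nrm_sub_corner h1 x
  have h3 := acelld_nt_le P hb
  have hx1 : nrm (x - corner (SS h) c) ≤ P.r0 * SS h := hx
  set x' := corner (nt h) (cell (nt h) x) with hx'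
  have h4 : nrm (x' - corner (SS h) c) ≤ (P.r0 + 1) * SS h := by
    have a2 := nrm_add_le (x' - x) (x - corner (SS h) c)
    rw [sub_add_sub_cancel, nrm_sub_comm x' x] at a2
    rw [add_mul]
    omega
  have hr : ((P.r0 : ℤ) + 1) * SS h ≤ P.r1 * SS h :=
    mul_le_mul_of_nonneg_right (by have := P.r1_ge.2; omega) (Int.natCast_nonneg _)
  have hnet : x' ∈ P.Net h c := ⟨h4, dvd_mul_left _ _, dvd_mul_left _ _⟩
  refine ⟨x', hnet, by omega, fun a ha => ?_⟩
  obtain ⟨H', hH'⟩ := exists_hash (K := KK) (by norm_num [KK]) ht x'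
  obtain ⟨a', ha', h5, h6⟩ := hH'.reach ht
  have h7 : Zv KK t x' ≤ la h := not_lt.1 fun h7 => hc (Or.inr (Or.inl ⟨x', hnet, h7⟩))
  have h8 : x' ∈ ball x' (KK : ℕ) := by
    show nrm _ ≤ _
    rw [sub_self, nrm_eq_zero.2 rfl]
    positivity
  have h9 := T_le_TS ht (conn_ball h8 h5)
  have h10 := acelld_chain P ht (fun h => hc (Or.inl h)) (x := x') (y := x) (h4.trans hr)
    (show nrm _ ≤ _ by rw [add_mul] at hr; omega) hH' hH ha' ha h2
  have h11 := T_triangle (x := x') (y := a') (z := a) ht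
  have h12 : (la h : ℝ) = h * nt h := by exact_mod_cast la_eq h
  have h13 := Nat.cast_nonneg (α := ℝ) h
  have h14 := Nat.cast_nonneg (α := ℝ) (la h)
  push_cast at h10
  linarith

/-- If `nrm (y - x) < KK` then `mT ≤ C KK ≤ lam1`.  Otherwise every path from `x` to `y` meets the hash of `x` and the hash of `y`
(`IsHash.meets`, also for the reversed path) at `a`, `b`, and costs at least `T a b ≥ T x' y' - 14 la ≥ mT (y - x) - 2 C nt - 15 la`. -/
theorem good_cell (ht : ∀ e, 0 ≤ t e) (hb : P.Big h) (hc : t ∉ P.BadC h c) {x y : V}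
    (hx : x ∈ ball (corner (SS h) c) (P.r0 * SS h)) (hy : y ∈ ball (corner (SS h) c) (P.r0 * SS h)) :
    mT G (y - x) - P.lam1 h ≤ T t x y := by
  have hC := P.C_ge
  have hl : (nt h : ℝ) ≤ la h := by exact_mod_cast nt_le_la (acelld_one P hb)
  have hl0 := Nat.cast_nonneg (α := ℝ) (la h)
  have hCl := le_mul_of_one_le_left hl0 hC
  rw [Setup.lam1]
  rcases lt_or_ge (nrm (y - x)) KK with hk | hk
  · have h1 : KK ≤ nt h := le_trans (by norm_num [KK]) (KK_le_nt hb.1)
    have h2 : (nrm (y - x) : ℝ) ≤ nt h := by exact_mod_cast (show nrm (y - x) ≤ nt h by omega)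
    have h3 := (P.mT_le (y - x)).trans (mul_le_mul_of_nonneg_left (h2.trans hl) (zero_le_one.trans hC))
    linarith [T_nonneg (x := x) (y := y) ht]
  obtain ⟨H, hH⟩ := exists_hash (K := KK) (by norm_num [KK]) ht x
  obtain ⟨H', hH'⟩ := exists_hash (K := KK) (by norm_num [KK]) ht y
  obtain ⟨x', hx', hx1, hx2⟩ := exists_net P ht hb hc hx hH
  obtain ⟨y', hy', hy1, hy2⟩ := exists_net P ht hb hc hy hH'
  have h1 := T_net P ht hb hc hx' hy'
  have h2 : nrm (y - x - (y' - x')) ≤ 2 * nt h := by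
    have a2 := nrm_add_le (y - y') (x' - x)
    rw [nrm_sub_comm x' x, show y - y' + (x' - x) = y - x - (y' - x') by abel] at a2
    omega
  have h3 : (nrm (y - x - (y' - x')) : ℝ) ≤ 2 * la h := by
    have : (nrm (y - x - (y' - x')) : ℝ) ≤ 2 * nt h := by exact_mod_cast h2
    linarith
  have h4 := (le_abs_self _).trans
    ((P.mT_lip (y - x) (y' - x')).trans (mul_le_mul_of_nonneg_left h3 (zero_le_one.trans hC)))
  refine le_TS (conn_univ x y) ?_
  rintro p i j hp rfl rfl
  obtain ⟨k, k1, k2, k3⟩ := hH.meets hp rfl hk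
  obtain ⟨l, l1, l2, l3⟩ := hH'.meets hp.rev (by rw [neg_neg]) (by rwa [neg_neg, nrm_sub_comm])
  have h5 : T t (p k) (p (-l)) ≤ cost t p i j := by
    rcases le_total k (-l) with d | d
    · exact (T_le_cost ht (hp.sub k1.le d (by omega))).trans (cost_sub_le ht k1.le (by omega))
    · rw [T_comm]
      exact (T_le_cost ht (hp.sub (by omega) d k2)).trans (cost_sub_le ht (by omega) k2)
  have h6 := T_triangle (x := x') (y := p k) (z := y') ht
  have h7 := T_triangle (x := p k) (y := p (-l)) (z := y') ht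
  have h8 := hy2 _ l3
  rw [T_comm] at h8
  linarith [hx2 _ k3]


variable {a b : V} {p : ℤ → V} {N : ℤ}

/-- Pieces `k + 3 ≤ k'` starting in the same cell.  Among the `S + 1` distinct points `p l`, `kS ≤ l ≤ (k+1)S`, one is at distance `≥ KK`
from `x = p (kS)` (`ncard_ball_le`), so `p` meets the hash of `x` at an index in `(kS, (k+1)S]`; likewise the hash of `y = p (k'S)` at an index in
`[(k'-1)S, k'S)`.  The geodesic between these indices costs `T ≤ 2 (2S+1) h ≤ 6 S h` (`hash_chain` along a staircase in the cell). -/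
theorem piece_gap (ht : ∀ e, 0 ≤ t e) (hb : P.Big h) (hc : t ∉ P.BadI h c) (hp : IsG t a b p N) {k k' : ℕ}
    (hk : k + 3 ≤ k') (hk' : (k' : ℤ) * SS h < N) (h1 : cell (SS h) (p (k * SS h)) = c)
    (h2 : cell (SS h) (p (k' * SS h)) = c) : cost t p ((k + 1) * SS h) ((k' - 1) * SS h) ≤ 6 * h * SS h := by
  have hS := SS_pos (acelld_one P hb)
  have a0 : (0 : ℤ) ≤ k * SS h := by positivity
  have a1 : ((k : ℤ) + 3) * SS h ≤ k' * SS h := mul_le_mul_of_nonneg_right (by omega) (Int.natCast_nonneg _)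
  rw [add_mul] at a1
  rw [add_mul, sub_mul, one_mul]
  obtain ⟨H, hH⟩ := exists_hash (K := KK) (by norm_num [KK]) ht (p (k * SS h))
  obtain ⟨H', hH'⟩ := exists_hash (K := KK) (by norm_num [KK]) ht (p (k' * SS h))
  obtain ⟨l, l1, l2, l3⟩ := acelld_far P hb (q := p) (u := k * SS h)
    (hp.geo.2.1.mono (Set.Icc_subset_Icc a0 (by omega))) (p (k * SS h))
  obtain ⟨l', l1', l2', l3'⟩ := acelld_far P hb (q := p) (u := k' * SS h - SS h)
    (hp.geo.2.1.mono (Set.Icc_subset_Icc (by omega) (by omega))) (p (k' * SS h))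
  obtain ⟨u, u1, u2, u3⟩ := hH.meets (hp.geo.1.sub a0 l1 (by omega)) rfl l3
  obtain ⟨v, v1, v2, v3⟩ := hH'.meets (hp.geo.1.sub (i' := l') (j' := k' * SS h) (by omega) (by omega) hk'.le).rev
    (by rw [neg_neg]) (by rwa [neg_neg])
  refine (cost_sub_le ht (i := u) (j := -v) (by omega) (by omega)).trans ?_
  rw [hp.cost_sub ht (by omega) (by omega) (by omega)]
  have h3 := acelld_chain P ht hc (acelld_cell P hb h1) (acelld_cell P hb h2) hH hH' u3 v3
    (nrm_sub_of_cell_eq hS (h1.trans h2.symm))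
  have h4 := Nat.cast_nonneg (α := ℝ) h
  have h5 := mul_nonneg h4 (Nat.cast_nonneg (α := ℝ) (SS h))
  push_cast at h3
  linarith

/-- Pieces starting in the cell `c` cost `≥ θ S` each when they are full.  If `n` pieces start in `c`, with least index `k` and largest `k'`, then at least
`n - 3` of them have index in `[k+1, k'-2]`; they are disjoint parts of `[(k+1)S, (k'-1)S]`, so `(n - 3) θ S ≤ 6 h S` (`piece_gap`). -/
theorem mult_good (ht : ∀ e, 0 ≤ t e) (hb : P.Big h) (hc : t ∉ P.BadI h c) (hp : IsG t a b p N) (A : Finset ℕ)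
    (hA : ∀ k ∈ A, (k : ℤ) * SS h < N ∧ cell (SS h) (p (k * SS h)) = c) :
    (A.card : ℝ) ≤ 9 * h / P.θ := by
  have hθ := P.θ_pos
  have h1 : (1 : ℝ) ≤ h := by exact_mod_cast acelld_one P hb
  have hS : (0 : ℝ) < SS h := by exact_mod_cast SS_pos (acelld_one P hb)
  rw [le_div_iff₀ hθ]
  rcases A.eq_empty_or_nonempty with rfl | hne
  · simp
  set k := A.min' hne with hk
  set k' := A.max' hne with hk'
  set A' := A.filter fun m => k + 1 ≤ m ∧ m + 2 ≤ k' with hA'
  have h2 : A.card ≤ A'.card + 3 := by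
    refine (Finset.card_le_card (t := A' ∪ {k, k' - 1, k'}) fun m hm => ?_).trans
      ((Finset.card_union_le _ _).trans (Nat.add_le_add_left Finset.card_le_three _))
    have a1 : k ≤ m := A.min'_le m hm
    have a2 : m ≤ k' := A.le_max' m hm
    simp only [hA', Finset.mem_union, Finset.mem_filter, Finset.mem_insert, Finset.mem_singleton, hm, true_and]
    omega
  have h3 : (A'.card : ℝ) * P.θ ≤ 6 * h := by
    rcases A'.eq_empty_or_nonempty with e | ⟨m, hm⟩
    · rw [e, Finset.card_empty, Nat.cast_zero, zero_mul]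
      positivity
    have a1 := (Finset.mem_filter.1 hm).2
    obtain ⟨d, hd⟩ : ∃ d, k' = k + 1 + d + 1 := ⟨k' - (k + 2), by omega⟩
    have b1 := hA k (A.min'_mem hne)
    have b2 := hA k' (A.max'_mem hne)
    have h4 := piece_gap P ht hb hc hp (k := k) (k' := k') (by omega) b2.1 b1.2 b2.2
    have h5 := acelld_sum (t := t) (SS h) p (k + 1) d
    rw [show ((k + 1 + d : ℕ) : ℤ) = k' - 1 by omega, Nat.cast_succ] at h5
    rw [h5] at h4
    have h6 : ∑ l ∈ A', cost t p (l * SS h) (l * SS h + SS h) ≤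
        ∑ l ∈ Finset.Ico (k + 1) (k + 1 + d), cost t p (l * SS h) (l * SS h + SS h) :=
      Finset.sum_le_sum_of_subset_of_nonneg (fun l hl => by
        have := (Finset.mem_filter.1 hl).2
        rw [Finset.mem_Ico]
        omega) fun _ _ _ => cost_nonneg ht
    have h7 := Finset.card_nsmul_le_sum A' (fun l : ℕ => cost t p (l * SS h) (l * SS h + SS h)) (P.θ * SS h)
      fun l hl => by
        obtain ⟨c1, c2⟩ := Finset.mem_filter.1 hl
        have c3 : ((l : ℤ) + 1) * SS h ≤ k' * SS h :=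
          mul_le_mul_of_nonneg_right (by omega) (Int.natCast_nonneg _)
        rw [add_mul, one_mul] at c3
        exact acelld_piece P hc hp.geo.1 hp.geo.2.1 (by positivity) (c3.trans b2.1.le)
          (acelld_cell P hb (hA l c1).2)
    rw [nsmul_eq_mul, ← mul_assoc] at h7
    exact le_of_mul_le_mul_right ((h7.trans h6).trans h4) hS
  have h4 : (A.card : ℝ) ≤ A'.card + 3 := by exact_mod_cast h2
  have h5 := mul_le_mul_of_nonneg_right h4 hθ.le
  linarith [P.θ_le]

/-- the starts are distinct points of the cell (`ncard_cell_le`) -/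
theorem mult_any (hb : P.Big h) (hp : IsG t a b p N) (A : Finset ℕ)
    (hA : ∀ k ∈ A, (k : ℤ) * SS h < N ∧ cell (SS h) (p (k * SS h)) = c) :
    (A.card : ℝ) ≤ (SS h : ℝ) ^ 2 := by
  have hS := SS_pos (acelld_one P hb)
  obtain ⟨h1, h2⟩ := ncard_cell_le hS c
  have h3 := Set.ncard_le_ncard_of_injOn (s := (A : Set ℕ)) (fun k : ℕ => p (k * SS h))
    (fun k hk => (hA k hk).2) (fun k hk l hl e => by
      have a1 := hp.geo.2.1 ⟨by positivity, (hA k hk).1.le⟩ ⟨by positivity, (hA l hl).1.le⟩ e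
      have a2 := mul_right_cancel₀ (by omega : (SS h : ℤ) ≠ 0) a1
      omega) h1
  rw [Set.ncard_coe_finset] at h3
  exact_mod_cast h3.trans h2

open Classical in
/-- `card_pieces_le` twice -/
theorem card_badP_le (ht : ∀ e, 0 ≤ t e) (hb : P.Big h) (hp : IsG t a b p N) (Λ : ℕ) :
    (((Finset.range (Λ / SS h + 1)).filter fun k : ℕ => (k : ℤ) * SS h < N ∧ P.BadP h t p k).card : ℝ) ≤
      (SS h : ℝ) ^ 2 * cellCnt (SS h) Λ (P.BadI h) t p + 9 * h / P.θ * cellCnt (SS h) Λ (P.BadII h) t p := by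
  have h1 := card_pieces_le (S := SS h) (Λ := Λ) (B := P.BadI h) (t := t) (p := p)
    (fun k : ℕ => (k : ℤ) * SS h < N ∧ t ∈ P.BadI h (cell (SS h) (p (k * SS h)))) (m := (SS h : ℝ) ^ 2)
    (by positivity) (fun k _ hk => hk.2) fun c _ => mult_any P hb hp _ fun k hk =>
      ⟨(Finset.mem_filter.1 hk).2.1.1, (Finset.mem_filter.1 hk).2.2⟩
  have hm : 0 ≤ 9 * h / P.θ := by have := P.θ_pos; positivity
  have h2 := card_pieces_le (S := SS h) (Λ := Λ) (B := P.BadII h) (t := t) (p := p)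
    (fun k : ℕ => (k : ℤ) * SS h < N ∧ t ∉ P.BadI h (cell (SS h) (p (k * SS h))) ∧
      t ∈ P.BadII h (cell (SS h) (p (k * SS h)))) hm (fun k _ hk => hk.2.2) fun c _ => by
      by_cases hc : t ∈ P.BadI h c
      · rw [Finset.filter_false_of_mem fun k _ hk => hk.1.2.1 (hk.2 ▸ hc), Finset.card_empty, Nat.cast_zero]
        exact hm
      · exact mult_good P ht hb hc hp _ fun k hk => ⟨(Finset.mem_filter.1 hk).2.1.1, (Finset.mem_filter.1 hk).2.2⟩
  refine le_trans ?_ (add_le_add h1 h2)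
  rw [← Nat.cast_add, Nat.cast_le]
  refine le_trans (Finset.card_le_card fun k hk => ?_) (Finset.card_union_le _ _)
  obtain ⟨a1, a2, a3⟩ := Finset.mem_filter.1 hk
  by_cases hc : t ∈ P.BadI h (cell (SS h) (p (k * SS h)))
  · exact Finset.mem_union_left _ (Finset.mem_filter.2 ⟨a1, a2, hc⟩)
  · exact Finset.mem_union_right _ (Finset.mem_filter.2 ⟨a1, a2, hc, a3.resolve_left hc⟩)


end Crest.Agent.R151.PA
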