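import Crest.Agent.R151.ACellP
import Crest.Agent.R151.ACellD

/-! R151/A: accounting of the excess along pieces; the rate lemma. -/

set_option autoImplicit false
open MeasureTheory ProbabilityTheory Crest.ProbabilityR.FirstPassage Filter Topology
open scoped ENNReal

namespace Crest.Agent.R151.PA

variable {G : Measure ℝ} [IsProbabilityMeasure G] [NullSingletonClass G] (P : Setup G)
variable {h : ℕ} {t : Env} {a b : V} {p : ℤ → V} {N : ℤ}

/-- two indices whose points lie in the controlled ball of a good cell: `cost = T ≥ mT - lam1` (`IsG.cost_sub`, `good_cell`,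
`rh_lat_le`, `rh_back_le`) -/
theorem exc_good (ht : ∀ e, 0 ≤ t e) (hb : P.Big h) (hp : IsG t a b p N) {c : V} (hc : t ∉ P.BadC h c)
    {u v : ℤ} (h0 : 0 ≤ u) (huv : u ≤ v) (hv : v ≤ N) (hu' : p u ∈ ball (corner (SS h) c) (P.r0 * SS h))
    (hv' : p v ∈ ball (corner (SS h) c) (P.r0 * SS h)) :
    mT G (p v - p u) - P.rh (p v - p u) ≤ P.exc t p u v + P.lam1 h ∧
    P.c * |P.lat (p v - p u)| ≤ P.exc t p u v + P.lam1 h ∧
    -(P.c * ((p v).2 - (p u).2 : ℤ)) ≤ P.exc t p u v + P.lam1 h := by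
  have h1 := good_cell P ht hb hc hu' hv'
  rw [← hp.cost_sub ht h0 huv hv] at h1
  have h2 := P.rh_lat_le (p v - p u)
  have h3 := P.rh_back_le (p v - p u)
  have h4 : ((p v - p u).2 : ℝ) = (((p v).2 - (p u).2 : ℤ) : ℝ) := by simp
  rw [h4] at h3
  unfold Setup.exc
  refine ⟨by linarith, by linarith, by linarith⟩
omit [IsProbabilityMeasure G] [NullSingletonClass G] in
theorem AAcc_nrm (hp : IsG t a b p N) {k : ℕ} (hk : (k : ℤ) * SS h < N) :
    nrm (p (min ((k + 1) * SS h) N) - p (k * SS h)) ≤ SS h := by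
  have h1 := hp.sap.nrm_le (k * SS h) (min ((k + 1) * SS h) N)
  refine h1.trans ?_
  have h2 : (0 : ℤ) ≤ SS h := Int.natCast_nonneg _
  have h3 : ((k : ℤ) + 1) * SS h = k * SS h + SS h := by ring
  rw [h3, abs_le]
  constructor
  · have : (k : ℤ) * SS h ≤ min ((k : ℤ) * SS h + SS h) N := le_min (by omega) hk.le
    omega
  · have : min ((k : ℤ) * SS h + SS h) N ≤ (k : ℤ) * SS h + SS h := min_le_left _ _
    omega
theorem AAcc_one_le (hb : P.Big h) : 1 ≤ h := le_trans (by norm_num) hb.1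
theorem AAcc_r0 : 2 ≤ P.r0 := by
  unfold Setup.r0
  omega
theorem AAcc_good (ht : ∀ e, 0 ≤ t e) (hb : P.Big h) (hp : IsG t a b p N) {k : ℕ} (hk : (k : ℤ) * SS h < N)
    (hB : ¬ P.BadP h t p k) :
    mT G (p (min ((k + 1) * SS h) N) - p (k * SS h)) - P.rh (p (min ((k + 1) * SS h) N) - p (k * SS h)) ≤
      P.ee h t p N k ∧
    P.c * |P.lat (p (min ((k + 1) * SS h) N) - p (k * SS h))| ≤ P.ee h t p N k ∧
    -(P.c * ((p (min ((k + 1) * SS h) N)).2 - (p (k * SS h)).2 : ℤ)) ≤ P.ee h t p N k := by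
  have hS : 1 ≤ SS h := SS_pos (AAcc_one_le P hb)
  have hS' : (1 : ℤ) ≤ SS h := by exact_mod_cast hS
  have hr : (2 : ℤ) ≤ P.r0 := by exact_mod_cast AAcc_r0 P
  have h1 := nrm_sub_corner hS (p (k * SS h))
  have h2 := AAcc_nrm hp hk
  have hee : P.ee h t p N k = P.exc t p (k * SS h) (min ((k + 1) * SS h) N) + P.lam1 h := by
    unfold Setup.ee
    rw [if_pos hk, if_neg hB]
  rw [hee]
  have h3 : ((k : ℤ) + 1) * SS h = k * SS h + SS h := by ring
  refine exc_good P ht hb hp (c := cell (SS h) (p (k * SS h))) hB (by positivity)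
    (le_min (by rw [h3]; omega) hk.le) (min_le_right _ _) ?_ ?_
  · show nrm _ ≤ _
    nlinarith
  · show nrm _ ≤ _
    have h4 := nrm_add_le (p (min ((k + 1) * SS h) N) - p (k * SS h))
      (p (k * SS h) - corner (SS h) (cell (SS h) (p (k * SS h))))
    rw [sub_add_sub_cancel] at h4
    nlinarith

/-- bad piece: `exc ≥ -rh ≥ -3 C S` -/
theorem ee_bad (ht : ∀ e, 0 ≤ t e) (hp : IsG t a b p N) {k : ℕ} (hk : (k : ℤ) * SS h < N)
    (hB : P.BadP h t p k) : (SS h : ℝ) ≤ P.ee h t p N k := by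
  have hee : P.ee h t p N k = P.exc t p (k * SS h) (min ((k + 1) * SS h) N) + (3 * P.C + 1) * SS h := by
    unfold Setup.ee
    rw [if_pos hk, if_pos hB]
  rw [hee]
  have h1 := P.abs_rh_le (p (min ((k + 1) * SS h) N) - p (k * SS h))
  have h2 : (nrm (p (min ((k + 1) * SS h) N) - p (k * SS h)) : ℝ) ≤ SS h := by
    exact_mod_cast AAcc_nrm hp hk
  have h3 : 0 ≤ cost t p (k * SS h) (min ((k + 1) * SS h) N) := cost_nonneg ht
  have h4 := le_abs_self (P.rh (p (min ((k + 1) * SS h) N) - p (k * SS h)))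
  have hC := P.C_ge
  unfold Setup.exc
  nlinarith
theorem ee_nonneg (ht : ∀ e, 0 ≤ t e) (hb : P.Big h) (hp : IsG t a b p N) (k : ℕ) : 0 ≤ P.ee h t p N k := by
  by_cases hk : (k : ℤ) * SS h < N
  · by_cases hB : P.BadP h t p k
    · exact le_trans (Nat.cast_nonneg _) (ee_bad P ht hp hk hB)
    · exact le_trans (mul_nonneg P.c_pos.le (abs_nonneg _)) (AAcc_good P ht hb hp hk hB).2.1
  · unfold Setup.ee
    rw [if_neg hk]
theorem exc_le_ee (k : ℕ) (hk : (k : ℤ) * SS h < N) :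
    P.exc t p (k * SS h) (min ((k + 1) * SS h) N) ≤ P.ee h t p N k := by
  unfold Setup.ee
  rw [if_pos hk]
  have hC := P.C_ge
  have h1 := P.lam1_nonneg h
  split_ifs
  · have : (0 : ℝ) ≤ (3 * P.C + 1) * SS h := by positivity
    linarith
  · linarith
/-- Full piece, `Δ` its displacement, `e = ee`.  Bad: `Δ.2 ≥ -S`, `e ≥ S`.  Good: `cost ≥ θ S`, `rh Δ = cost - exc ≥ θ S - e`, `c |lat Δ| ≤ e`,
`-c Δ.2 ≤ e`, `μv Δ.2 = rh Δ - ρ1 lat Δ ≥ θ S - e (1 + C/c)`; if this is `≥ 0` divide by `μv ≤ C`, otherwise use `Δ.2 ≥ -e/c`. -/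
theorem progress (ht : ∀ e, 0 ≤ t e) (hb : P.Big h) (hp : IsG t a b p N) {k : ℕ}
    (hk : ((k : ℤ) + 1) * SS h ≤ N) :
    P.θ / P.C * SS h - 3 / P.c * P.ee h t p N k ≤ ((p ((k + 1) * SS h)).2 - (p (k * SS h)).2 : ℤ) := by
  have hS : 1 ≤ SS h := SS_pos (AAcc_one_le P hb)
  have hS' : (1 : ℤ) ≤ SS h := by exact_mod_cast hS
  have h3 : ((k : ℤ) + 1) * SS h = k * SS h + SS h := by ring
  have hk' : (k : ℤ) * SS h < N := by omega
  have hmin : min (((k : ℤ) + 1) * SS h) N = (k + 1) * SS h := min_eq_left hk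
  have hC := P.C_ge
  have hc := P.c_pos
  have hc1 := P.c_le
  have hθ := P.θ_pos
  have hθ1 := P.θ_le
  have hSR : (0 : ℝ) ≤ SS h := Nat.cast_nonneg _
  have he0 := ee_nonneg P ht hb hp k
  set e := P.ee h t p N k with he
  have hec : e ≤ e / P.c := by
    rw [le_div_iff₀ hc]
    nlinarith
  have h3e : 3 / P.c * e = 3 * (e / P.c) := by ring
  rw [h3e]
  by_cases hB : P.BadP h t p k
  · have h1 := ee_bad P ht hp hk' hB
    have h2 := AAcc_nrm hp hk'
    rw [hmin] at h2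
    have h4 : -(SS h : ℤ) ≤ (p ((k + 1) * SS h)).2 - (p (k * SS h)).2 := by
      have : |(p ((k + 1) * SS h) - p (k * SS h)).2| ≤ SS h := le_trans (le_max_right _ _) h2
      rw [Prod.snd_sub] at this
      exact (abs_le.1 this).1
    have h5 : -(SS h : ℝ) ≤ (((p ((k + 1) * SS h)).2 - (p (k * SS h)).2 : ℤ) : ℝ) := by
      exact_mod_cast h4
    have h6 : P.θ / P.C * SS h ≤ SS h := by
      have : P.θ / P.C ≤ 1 := by
        rw [div_le_one (by linarith)]
        linarith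
      nlinarith
    linarith
  · obtain ⟨-, h1, h2⟩ := AAcc_good P ht hb hp hk' hB
    rw [hmin] at h1 h2
    have hee : e = P.exc t p (k * SS h) ((k + 1) * SS h) + P.lam1 h := by
      rw [he]
      unfold Setup.ee
      rw [if_pos hk', if_neg hB, hmin]
    have hI : t ∉ P.BadI h (cell (SS h) (p (k * SS h))) := fun hh => hB (Or.inl hh)
    have hk0 : (0 : ℤ) ≤ k * SS h := by positivity
    have hcost := cost_ge_of_not_BadI P ht hI (q := p) (i := k * SS h) (j := (k + 1) * SS h) (m := 1)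
      (hp.geo.1.sub hk0 (by omega) hk)
      (hp.geo.2.1.mono (Set.Icc_subset_Icc hk0 hk)) (by rw [h3]; push_cast; omega) (by
        intro j hj
        have hj0 : j = 0 := by omega
        subst hj0
        have h1 := nrm_sub_corner hS (p (k * SS h))
        have hr : (1 : ℤ) ≤ P.r1 := by
          have := P.r1_ge.2
          exact_mod_cast le_trans (Nat.le_add_left 1 _) this
        show nrm _ ≤ _
        simp only [Nat.cast_zero, zero_mul, add_zero]
        nlinarith)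
    have hrh := P.rh_eq (p ((k + 1) * SS h) - p (k * SS h))
    have h4 : ((p ((k + 1) * SS h) - p (k * SS h)).2 : ℝ) =
        (((p ((k + 1) * SS h)).2 - (p (k * SS h)).2 : ℤ) : ℝ) := by simp
    rw [h4] at hrh
    set D : ℝ := (((p ((k + 1) * SS h)).2 - (p (k * SS h)).2 : ℤ) : ℝ) with hD
    set L := P.lat (p ((k + 1) * SS h) - p (k * SS h)) with hL
    have hl1 := P.lam1_nonneg h
    have h5 : P.θ * SS h - e ≤ P.μv * D + P.ρ1 * L := by
      rw [← hrh, hee]
      unfold Setup.exc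
      simp only [Nat.cast_one, mul_one] at hcost
      linarith
    have h6 : |L| ≤ e / P.c := by
      rw [le_div_iff₀ hc]
      linarith
    have h7 : P.ρ1 * L ≤ P.C * (e / P.c) := by
      calc P.ρ1 * L ≤ |P.ρ1 * L| := le_abs_self _
        _ = |P.ρ1| * |L| := abs_mul _ _
        _ ≤ P.C * (e / P.c) := mul_le_mul P.ρ1_le h6 (abs_nonneg _) (by linarith)
    have h8 : -(e / P.c) ≤ D := by
      rw [neg_le, le_div_iff₀ hc]
      linarith
    have hCpos : 0 < P.C := by linarith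
    have hec0 : 0 ≤ e / P.c := div_nonneg he0 hc.le
    have h9 : P.θ / P.C * SS h = P.θ * SS h / P.C := by ring
    rw [h9]
    have hμ := P.μv_pos
    have hμC := P.μv_le
    rcases le_total 0 D with hD0 | hD0
    · have : P.θ * SS h / P.C ≤ D + 3 * (e / P.c) := by
        rw [div_le_iff₀ hCpos]
        nlinarith
      linarith
    · have : P.θ * SS h / P.C ≤ 2 * (e / P.c) := by
        rw [div_le_iff₀ hCpos]
        nlinarith
      linarith
/-- telescoping of `exc` over consecutive pieces -/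
theorem sum_exc (hS : 1 ≤ SS h) (k1 k2 : ℕ) (hk : k1 ≤ k2) (hN : 0 ≤ N) :
    P.exc t p (min (k1 * SS h) N) (min (k2 * SS h) N) = ∑ k ∈ Finset.Ico k1 k2,
      if (k : ℤ) * SS h < N then P.exc t p (k * SS h) (min ((k + 1) * SS h) N) else 0 := by
  have hS' : (0 : ℤ) ≤ SS h := Int.natCast_nonneg _
  induction k2, hk using Nat.le_induction with
  | base => simp [P.exc_self]
  | succ k hk ih =>
    rw [Finset.sum_Ico_succ_top hk, ← ih]
    have hk' : (k1 : ℤ) ≤ k := by exact_mod_cast hk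
    have h1 : (k1 : ℤ) * SS h ≤ k * SS h := mul_le_mul_of_nonneg_right hk' hS'
    have h2 : (k : ℤ) * SS h ≤ (k + 1) * SS h := by nlinarith
    push_cast
    rw [P.exc_add t p (u := min (k1 * SS h) N) (v := min (k * SS h) N) (w := min ((k + 1) * SS h) N)
      (min_le_min_right _ h1) (min_le_min_right _ h2)]
    congr 1
    split_ifs with hlt
    · rw [min_eq_left hlt.le]
    · push Not at hlt
      rw [min_eq_right hlt, min_eq_right (hlt.trans h2), P.exc_self]
theorem eeSum_le (ht : ∀ e, 0 ≤ t e) (hb : P.Big h) (hp : IsG t a b p N) {Λ : ℕ} (hN : N ≤ Λ) :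
    P.eeSum h Λ t p N ≤ T t a b - P.rh (b - a) + P.lam1 h * (Λ / SS h + 1 : ℝ) +
      (3 * P.C + 1) * SS h * ((SS h : ℝ) ^ 2 * cellCnt (SS h) Λ (P.BadI h) t p +
        9 * h / P.θ * cellCnt (SS h) Λ (P.BadII h) t p) := by
  classical
  have hS : 1 ≤ SS h := SS_pos (AAcc_one_le P hb)
  have hS' : (1 : ℤ) ≤ SS h := by exact_mod_cast hS
  have hN0 := hp.nonneg
  have h1 := sum_exc P (t := t) (p := p) hS 0 (Λ / SS h + 1) (Nat.zero_le _) hN0
  have hΛ : Λ < (Λ / SS h + 1) * SS h := by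
    have := Nat.lt_div_mul_add (a := Λ) (b := SS h) (by omega)
    nlinarith
  have hΛ' : (Λ : ℤ) < ((Λ / SS h + 1 : ℕ) : ℤ) * SS h := by exact_mod_cast hΛ
  rw [min_eq_right (by omega : N ≤ ((Λ / SS h + 1 : ℕ) : ℤ) * SS h), Nat.cast_zero, zero_mul,
    min_eq_left hN0, ← Finset.range_eq_Ico] at h1
  have h2 : P.exc t p 0 N = T t a b - P.rh (b - a) := by
    unfold Setup.exc
    rw [hp.cost_eq, hp.start, hp.stop]
  have hC := P.C_ge
  have hl := P.lam1_nonneg h
  have hK : (0 : ℝ) ≤ (3 * P.C + 1) * SS h := by positivity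
  have h3 : P.eeSum h Λ t p N ≤ ∑ k ∈ Finset.range (Λ / SS h + 1),
      ((if (k : ℤ) * SS h < N then P.exc t p (k * SS h) (min ((k + 1) * SS h) N) else 0) + P.lam1 h +
        (3 * P.C + 1) * SS h * (if (k : ℤ) * SS h < N ∧ P.BadP h t p k then 1 else 0)) := by
    unfold Setup.eeSum
    refine Finset.sum_le_sum fun k _ => ?_
    unfold Setup.ee
    by_cases hk : (k : ℤ) * SS h < N
    · by_cases hB : P.BadP h t p k
      · rw [if_pos hk, if_pos hB, if_pos hk, if_pos ⟨hk, hB⟩]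
        linarith
      · rw [if_pos hk, if_neg hB, if_pos hk, if_neg (fun hh => hB hh.2)]
        linarith
    · rw [if_neg hk, if_neg hk, if_neg (fun hh => hk hh.1)]
      linarith
  rw [Finset.sum_add_distrib, Finset.sum_add_distrib, ← h1, h2, ← Finset.mul_sum, Finset.sum_boole,
    Finset.sum_const, Finset.card_range, nsmul_eq_mul] at h3
  have h4 := card_badP_le P ht hb hp Λ
  have h5 : ((Λ / SS h + 1 : ℕ) : ℝ) ≤ (Λ / SS h + 1 : ℝ) := by
    push_cast
    have := Nat.cast_div_le (α := ℝ) (m := Λ) (n := SS h)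
    linarith
  have h6 := mul_le_mul_of_nonneg_left h4 hK
  have h7 := mul_le_mul_of_nonneg_left h5 hl
  refine h3.trans ?_
  have h8 : ((Λ / SS h + 1 : ℕ) : ℝ) * P.lam1 h = P.lam1 h * ((Λ / SS h + 1 : ℕ) : ℝ) := mul_comm _ _
  rw [h8]
  convert add_le_add (add_le_add (le_refl (T t a b - P.rh (b - a))) h7) h6 using 4

set_option maxHeartbeats 800000 in

/-- `cell_GB` for `BadI` (`π = C/h^300`: `S³ h^{-150} = h^60 ≤ la`) and `BadII` (`π = C/h^16`: `S h h^{-8} = la`) give majorants `g1, g2`;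
`GB.of_signed` for `g = T - rh z + … + g1 + g2 ≥ -|rh z| ≥ -6 C n` and `P(Long) ≤ C / n²` (on `{N ≤ Λ}`, `g ≥ eeSum ≥ 0`). -/
theorem acc_GB : ∃ C7 > 0, ∀ h : ℕ, P.Big h → ∀ (n : ℕ) (z : V) (E : ℝ), SS h ≤ n → nrm z ≤ 2 * n →
    mT G z - P.rh z ≤ E →
      GB G 0 z (P.C0 * n) (P.eeSum h (P.C0 * n)) (E + C7 * la h * (n / SS h : ℝ)) := by
  obtain ⟨Ca, hCa, HCa⟩ := cell_GB (G := G) (P.r1 + 1)
  obtain ⟨CI, hCI, HI⟩ := prob_BadI P
  obtain ⟨CII, hCII, HII⟩ := prob_BadII P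
  have hC := P.C_ge
  have hθ := P.θ_pos
  have hC0 : (1 : ℝ) ≤ P.C0 := by exact_mod_cast P.C0_ge
  refine ⟨20 * P.C * (P.C0 + 1) + (3 * P.C + 1) * Ca * P.C0 * (√CI + 9 / P.θ * √CII) + 6 * P.C ^ 2,
    by positivity, fun h hb n z E hn hz hE => ?_⟩
  have h1 : 1 ≤ h := AAcc_one_le P hb
  have hh : (1 : ℝ) ≤ h := by exact_mod_cast h1
  have hS : 1 ≤ SS h := SS_pos h1
  have hSR : (1 : ℝ) ≤ SS h := by exact_mod_cast hS
  have hn1 : 1 ≤ n := hS.trans hn
  have hnR : (1 : ℝ) ≤ n := by exact_mod_cast hn1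
  have hΛ : SS h ≤ P.C0 * n := hn.trans (Nat.le_mul_of_pos_left _ P.C0_ge)
  obtain ⟨g1, hg1i, hg10, hg1c, hg1⟩ := HCa (SS h) (P.BadI h) hS (locEv_BadI P hb) _ (by positivity)
    (HI h hb) 0 z (P.C0 * n) hΛ
  obtain ⟨g2, hg2i, hg20, hg2c, hg2⟩ := HCa (SS h) (P.BadII h) hS (locEv_BadII P hb) _ (by positivity)
    (HII h hb) 0 z (P.C0 * n) hΛ
  have hs1 : √(CI / (h : ℝ) ^ 300) = √CI / (h : ℝ) ^ 150 := by
    rw [Real.sqrt_div hCI.le, show (h : ℝ) ^ 300 = ((h : ℝ) ^ 150) ^ 2 by ring, Real.sqrt_sq (by positivity)]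
  have hs2 : √(CII / (h : ℝ) ^ 16) = √CII / (h : ℝ) ^ 8 := by
    rw [Real.sqrt_div hCII.le, show (h : ℝ) ^ 16 = ((h : ℝ) ^ 8) ^ 2 by ring, Real.sqrt_sq (by positivity)]
  rw [hs1] at hg1c
  rw [hs2] at hg2c
  set x : ℝ := (n / SS h : ℝ) with hx
  have hx1 : 1 ≤ x := by
    rw [hx, le_div_iff₀ (by linarith), one_mul]
    exact_mod_cast hn
  have hΛx : (((P.C0 * n : ℕ) : ℝ) / SS h) = P.C0 * x := by
    rw [hx]
    push_cast
    ring
  rw [hΛx] at hg1c hg2c
  have hSS : (SS h : ℝ) = (h : ℝ) ^ 70 := by simp [SS]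
  have hla : (la h : ℝ) = (h : ℝ) ^ 63 := by simp [la]
  have hla1 : (1 : ℝ) ≤ la h := by
    rw [hla]
    exact one_le_pow₀ hh
  set K1 : ℝ := (3 * P.C + 1) * SS h * (SS h : ℝ) ^ 2 with hK1
  set K2 : ℝ := (3 * P.C + 1) * SS h * (9 * h / P.θ) with hK2
  have hK10 : 0 ≤ K1 := by positivity
  have hK20 : 0 ≤ K2 := by positivity
  set c0 : ℝ := -P.rh z + P.lam1 h * (P.C0 * x + 1) with hc0
  have hTi := integrable_T G P.hyp 0 z
  have hi1 : Integrable (fun t => T t 0 z + c0) (iidLaw G) := hTi.add (integrable_const c0)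
  have hi2 : Integrable (fun t => K1 * g1 t) (iidLaw G) := hg1i.const_mul K1
  have hi3 : Integrable (fun t => K2 * g2 t) (iidLaw G) := hg2i.const_mul K2
  have hi4 : Integrable (fun t => T t 0 z + c0 + K1 * g1 t) (iidLaw G) := hi1.add hi2
  have hgi : Integrable (fun t => T t 0 z + c0 + K1 * g1 t + K2 * g2 t) (iidLaw G) := hi4.add hi3
  have hint : ∫ t, (T t 0 z + c0 + K1 * g1 t + K2 * g2 t) ∂iidLaw G =
      mT G z + c0 + K1 * ∫ t, g1 t ∂iidLaw G + K2 * ∫ t, g2 t ∂iidLaw G := by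
    rw [integral_add hi4 hi3, integral_add hi1 hi2,
      integral_add hTi (integrable_const c0), integral_const_mul, integral_const_mul]
    simp [mT]
  have hl0 := P.lam1_nonneg h
  have hrh : |P.rh z| ≤ 6 * P.C * n := by
    have h2 := P.abs_rh_le z
    have h3 : (nrm z : ℝ) ≤ 2 * n := by exact_mod_cast hz
    nlinarith
  have hL := P.len n 0 z hn1 (by simpa using hz)
  have hGB := GB.of_signed (F := P.eeSum h (P.C0 * n)) P.hyp hgi hint.le (A := 6 * P.C * n) (by positivity)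
    (by
      filter_upwards [ae_nonneg G P.hyp.nonneg] with t ht
      have h2 : 0 ≤ T t 0 z := T_nonneg ht
      have h3 := mul_nonneg hK10 (hg10 t)
      have h4 := mul_nonneg hK20 (hg20 t)
      have h5 : 0 ≤ P.lam1 h * (P.C0 * x + 1) := by positivity
      have h6 := le_abs_self (P.rh z)
      rw [hc0]
      linarith) hL
    (by
      filter_upwards [ae_nonneg G P.hyp.nonneg, hg1, hg2] with t ht h2 h3 p N hp hN
      have h4 := eeSum_le P ht hb hp hN
      rw [hΛx, sub_zero] at h4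
      have h5 := mul_le_mul_of_nonneg_left (h2 p N hp hN) hK10
      have h6 := mul_le_mul_of_nonneg_left (h3 p N hp hN) hK20
      have h7 : P.eeSum h (P.C0 * n) t p N ≤ T t 0 z + c0 + K1 * g1 t + K2 * g2 t := by
        refine h4.trans ?_
        have h8 : (3 * P.C + 1) * SS h * ((SS h : ℝ) ^ 2 * cellCnt (SS h) (P.C0 * n) (P.BadI h) t p +
            9 * h / P.θ * cellCnt (SS h) (P.C0 * n) (P.BadII h) t p) =
            K1 * cellCnt (SS h) (P.C0 * n) (P.BadI h) t p + K2 * cellCnt (SS h) (P.C0 * n) (P.BadII h) t p := by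
          rw [hK1, hK2]
          ring
        rw [h8, hc0]
        linarith
      refine ⟨le_trans ?_ h7, h7⟩
      exact Finset.sum_nonneg fun k _ => ee_nonneg P ht hb hp k)
  refine hGB.mono P.hyp (fun _ _ _ _ _ _ => le_refl _) ?_
  have hb1 : K1 * ∫ t, g1 t ∂iidLaw G ≤ (3 * P.C + 1) * Ca * P.C0 * √CI * la h * x := by
    refine (mul_le_mul_of_nonneg_left hg1c hK10).trans ?_
    have : K1 * (Ca * (P.C0 * x) * (√CI / (h : ℝ) ^ 150)) =
        (3 * P.C + 1) * Ca * P.C0 * √CI * (h : ℝ) ^ 60 * x := by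
      rw [hK1, hSS]
      field_simp
    rw [this, hla]
    have h2 : (h : ℝ) ^ 60 ≤ (h : ℝ) ^ 63 := pow_le_pow_right₀ hh (by norm_num)
    gcongr
  have hb2 : K2 * ∫ t, g2 t ∂iidLaw G ≤ (3 * P.C + 1) * Ca * P.C0 * (9 / P.θ * √CII) * la h * x := by
    refine (mul_le_mul_of_nonneg_left hg2c hK20).trans (le_of_eq ?_)
    rw [hK2, hSS, hla]
    field_simp
  have hb3 : 6 * P.C * n * (P.C / (n : ℝ) ^ 2) ≤ 6 * P.C ^ 2 * la h * x := by
    have : 6 * P.C * n * (P.C / (n : ℝ) ^ 2) = 6 * P.C ^ 2 * (1 / n) := by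
      field_simp
    rw [this, mul_assoc (6 * P.C ^ 2)]
    have h2 : 1 / (n : ℝ) ≤ 1 := by
      rw [div_le_one (by linarith)]
      exact hnR
    have h3 : (1 : ℝ) ≤ la h * x := one_le_mul_of_one_le_of_one_le hla1 hx1
    exact mul_le_mul_of_nonneg_left (h2.trans h3) (by positivity)
  have hb4 : P.lam1 h * (P.C0 * x + 1) ≤ 20 * P.C * (P.C0 + 1) * la h * x := by
    unfold Setup.lam1
    have h2 : (P.C0 : ℝ) * x + 1 ≤ (P.C0 + 1) * x := by linarith
    have h3 : 0 ≤ 20 * P.C * la h := by positivity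
    calc 20 * P.C * la h * (P.C0 * x + 1) ≤ 20 * P.C * la h * ((P.C0 + 1) * x) :=
          mul_le_mul_of_nonneg_left h2 h3
      _ = _ := by ring
  rw [hc0]
  have hb5 : (20 * P.C * (P.C0 + 1) + (3 * P.C + 1) * Ca * P.C0 * (√CI + 9 / P.θ * √CII) + 6 * P.C ^ 2) *
      la h * x = 20 * P.C * (P.C0 + 1) * la h * x + (3 * P.C + 1) * Ca * P.C0 * √CI * la h * x +
      (3 * P.C + 1) * Ca * P.C0 * (9 / P.θ * √CII) * la h * x + 6 * P.C ^ 2 * la h * x := by ring
  rw [hb5]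
  linarith

/-- Take `n ≥ S` so large that the point `z_n` of `P.rate0` has `mT - rh ≤ la n / S` and `C/n² ≤ 1/4`; `GB.exists` gives a geodesic with
`eeSum ≤ 2 (1 + C7) la n / S`.  Its length is `≥ n`, so the pieces `k < n / S` are full, `n / S ≥ n / (2S)`; one of them has
`ee ≤ 4 (1 + C7) la < S`, so it is good (`ee_bad`); its displacement `z` works (`exc_good`, `progress`). -/
theorem rate : ∃ C1 ≥ (0 : ℝ), ∀ᶠ h : ℕ in atTop, ∃ z : V, P.θ / P.C * SS h / 2 ≤ z.2 ∧ nrm z ≤ SS h ∧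
    mT G z - P.rh z ≤ C1 * la h := by
  obtain ⟨C7, hC7, H⟩ := acc_GB P
  have hC := P.C_ge
  have hθ := P.θ_pos
  have hc := P.c_pos
  set C1 : ℝ := 4 * (1 + C7) with hC1
  have hC10 : 0 < C1 := by positivity
  refine ⟨C1, hC10.le, ?_⟩
  filter_upwards [P.eventually_big, tendsto_natCast_atTop_atTop.eventually_gt_atTop C1,
    tendsto_natCast_atTop_atTop.eventually_ge_atTop (6 * C1 * P.C / (P.c * P.θ))] with h hb hh1 hh2
  have h1 : 1 ≤ h := AAcc_one_le P hb
  have hh : (1 : ℝ) ≤ h := by exact_mod_cast h1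
  have hS : 1 ≤ SS h := SS_pos h1
  have hSR : (1 : ℝ) ≤ SS h := by exact_mod_cast hS
  have hSS : (SS h : ℝ) = (h : ℝ) ^ 70 := by simp [SS]
  have hla : (la h : ℝ) = (h : ℝ) ^ 63 := by simp [la]
  have hla0 : (0 : ℝ) < la h := by
    rw [hla]
    positivity
  have hSl : (h : ℝ) * la h ≤ SS h := by
    rw [hSS, hla, ← pow_succ']
    exact pow_le_pow_right₀ hh (by norm_num)
  have hε : (0 : ℝ) < la h / (2 * SS h) := by positivity
  obtain ⟨C', HC'⟩ := P.rate0 _ hε
  obtain ⟨n, hn1, hn2, hn3⟩ : ∃ n : ℕ, SS h ≤ n ∧ C' / (la h / (2 * SS h)) ≤ n ∧ 4 * P.C ≤ n := by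
    obtain ⟨n, hn⟩ := ((eventually_ge_atTop (SS h)).and
      ((tendsto_natCast_atTop_atTop.eventually_ge_atTop (C' / (la h / (2 * SS h)))).and
      (tendsto_natCast_atTop_atTop.eventually_ge_atTop (4 * P.C)))).exists
    exact ⟨n, hn.1, hn.2.1, hn.2.2⟩
  have hn0 : 1 ≤ n := hS.trans hn1
  have hnR : (1 : ℝ) ≤ n := by exact_mod_cast hn0
  obtain ⟨z, hz2, hzn, hzE⟩ := HC' n
  have hzn' : nrm z ≤ 2 * n := by
    have : (1 : ℤ) ≤ n := by exact_mod_cast hn0
    omega
  set x : ℝ := (n / SS h : ℝ) with hx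
  have hx0 : 0 < x := by positivity
  have hE : mT G z - P.rh z ≤ la h * x := by
    rw [div_le_iff₀ hε] at hn2
    have : la h * x = 2 * (la h / (2 * SS h) * n) := by
      rw [hx]
      field_simp
    rw [this]
    have h2 : mT G z - P.rh z ≤ la h / (2 * SS h) * n + C' := hzE
    linarith
  have hGB := H h hb n z _ hn1 hzn' hE
  have hL := P.len n 0 z hn0 (by simpa using hzn')
  have hL' : (iidLaw G).real (Long 0 z (P.C0 * n)) ≤ 1 / 4 := by
    refine hL.trans ?_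
    rw [div_le_iff₀ (by positivity)]
    nlinarith
  obtain ⟨t, p, N, ht, hp, hN, hF⟩ := hGB.exists P.hyp (by positivity) hL'
  have ht0 : ∀ e, 0 ≤ t e := fun e => (ht.pos e).le
  have hnN : (n : ℤ) ≤ N := by
    have h2 := hp.sap.len_ge
    rw [sub_zero] at h2
    have h3 : |z.2| ≤ nrm z := le_max_right _ _
    have h4 := le_abs_self z.2
    omega
  set m : ℕ := n / SS h with hm
  have hm1 : 1 ≤ m := (Nat.le_div_iff_mul_le (by omega)).2 (by omega)
  have hmS : m * SS h ≤ n := Nat.div_mul_le_self _ _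
  have hxm : x ≤ 2 * m := by
    rw [hx, div_le_iff₀ (by linarith)]
    have h2 := Nat.lt_div_mul_add (a := n) (b := SS h) (by omega)
    rw [← hm] at h2
    have h3 : n ≤ 2 * m * SS h := by nlinarith
    exact_mod_cast h3
  have hsub : Finset.range m ⊆ Finset.range (P.C0 * n / SS h + 1) := by
    refine Finset.range_subset_range.2 ?_
    have : n / SS h ≤ P.C0 * n / SS h := Nat.div_le_div_right (Nat.le_mul_of_pos_left _ P.C0_ge)
    omega
  have hsum : ∑ k ∈ Finset.range m, P.ee h t p N k ≤ ∑ _k ∈ Finset.range m, C1 * la h := by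
    have h2 : ∑ k ∈ Finset.range m, P.ee h t p N k ≤ P.eeSum h (P.C0 * n) t p N :=
      Finset.sum_le_sum_of_subset_of_nonneg hsub fun k _ _ => ee_nonneg P ht0 hb hp k
    rw [Finset.sum_const, Finset.card_range, nsmul_eq_mul]
    refine h2.trans (hF.trans ?_)
    have h3 : 2 * (la h * x + C7 * la h * x) = 2 * (1 + C7) * la h * x := by ring
    rw [h3, hC1]
    calc 2 * (1 + C7) * la h * x ≤ 2 * (1 + C7) * la h * (2 * m) :=
          mul_le_mul_of_nonneg_left hxm (by positivity)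
      _ = _ := by ring
  obtain ⟨k, hk, hek⟩ := Finset.exists_le_of_sum_le (Finset.nonempty_range_iff.2 (by omega)) hsum
  rw [Finset.mem_range] at hk
  have hkN : ((k : ℤ) + 1) * SS h ≤ N := by
    have h2 : (k + 1) * SS h ≤ n := le_trans (Nat.mul_le_mul_right _ hk) hmS
    have h3 : ((k : ℤ) + 1) * SS h ≤ n := by exact_mod_cast h2
    omega
  have hS' : (1 : ℤ) ≤ SS h := by exact_mod_cast hS
  have hk' : (k : ℤ) * SS h < N := by nlinarith
  have hB : ¬ P.BadP h t p k := fun hB => by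
    have h2 := ee_bad P ht0 hp hk' hB
    nlinarith
  have hmin : min (((k : ℤ) + 1) * SS h) N = (k + 1) * SS h := min_eq_left hkN
  have hg := (AAcc_good P ht0 hb hp hk' hB).1
  have hnr := AAcc_nrm hp hk'
  rw [hmin] at hg hnr
  have hpr := progress P ht0 hb hp hkN
  refine ⟨p ((k + 1) * SS h) - p (k * SS h), ?_, hnr, hg.trans hek⟩
  rw [Prod.snd_sub]
  refine le_trans ?_ hpr
  have h2 : 3 / P.c * P.ee h t p N k ≤ 3 / P.c * (C1 * la h) :=
    mul_le_mul_of_nonneg_left hek (by positivity)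
  have h3 : 3 / P.c * (C1 * la h) ≤ P.θ / P.C * SS h / 2 := by
    rw [div_le_iff₀ (by positivity)] at hh2
    have h4 : 3 / P.c * (C1 * la h) = P.θ / P.C * (6 * C1 * P.C / (P.c * P.θ) * la h) / 2 := by
      field_simp
      ring
    rw [h4]
    have h5 : 6 * C1 * P.C / (P.c * P.θ) * la h ≤ SS h := by
      refine le_trans (mul_le_mul_of_nonneg_right ?_ hla0.le) hSl
      rw [div_le_iff₀ (by positivity)]
      exact hh2
    gcongr
  linarith

end Crest.Agent.R151.PA
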