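import Crest.Agent.R151.AGeo

/-! R151/A: the animal estimates of `BAnimal` in the form used along geodesics. -/

set_option autoImplicit false
open MeasureTheory ProbabilityTheory Crest.ProbabilityR.FirstPassage Filter Topology
open scoped ENNReal

namespace Crest.Agent.R151.PA

variable {G : Measure ℝ} [IsProbabilityMeasure G] [NullSingletonClass G]

theorem LocEv.mono {S r r' : ℕ} {B : V → Set Env} (h : LocEv S r B) (hr : r ≤ r') : LocEv S r' B := by
  refine ⟨h.meas, fun c => dependsOnly_mono (h.dep c) (edgesIn_mono fun v hv => ?_)⟩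
  have h1 : (r : ℤ) * S ≤ r' * S := by exact_mod_cast Nat.mul_le_mul_right S hr
  exact le_trans hv h1
theorem LocEv.union {S r : ℕ} {B B' : V → Set Env} (h : LocEv S r B) (h' : LocEv S r B') :
    LocEv S r fun c => B c ∪ B' c := by
  refine ⟨fun c => (h.meas c).union (h'.meas c), fun c t t' htt' => ?_⟩
  have h1 : (t ∈ B c) = (t' ∈ B c) := h.dep c t t' htt'
  have h2 : (t ∈ B' c) = (t' ∈ B' c) := h'.dep c t t' htt'
  simp only [Set.mem_union, h1, h2]

theorem aan_disj {x y : V} {r : ℤ} (h : 2 * r < nrm (x - y)) : Disjoint (ball x r) (ball y r) := by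
  refine Set.disjoint_left.2 fun v hx hy => ?_
  have h1 : nrm (v - x) ≤ r := hx
  have h2 : nrm (v - y) ≤ r := hy
  have h3 := nrm_add_le (x - v) (v - y)
  rw [sub_add_sub_cancel, nrm_sub_comm x v] at h3
  omega

theorem aan_nrm_mul (c c' : V) (S : ℕ) :
    nrm ((c.1 * S, c.2 * S) - (c'.1 * S, c'.2 * S)) = nrm (c - c') * S := by
  simp only [nrm, Prod.fst_sub, Prod.snd_sub, ← sub_mul, abs_mul, Nat.abs_cast]
  rw [max_mul_of_nonneg _ _ (Int.natCast_nonneg S)]

theorem aan_const (c : V) (k : ℕ) : KWalk (fun _ => c) k := fun i _ => by simp [nrm]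

/-- `animal_mean` with `ρ = 2r` for the indicator field, the king's walk `k ↦ cell S (p (kS))` (`SAP.nrm_le`, `nrm_cell_sub`),
`k = Λ / S ≥ 1`.  If `π > 1` use `π = 1`; replace `g` by `max g 0` (`g ≥ 0` anyway, test with the constant walk). -/
theorem cell_GB (r : ℕ) : ∃ C > 0, ∀ (S : ℕ) (B : V → Set Env), 1 ≤ S → LocEv S r B → ∀ π : ℝ, 0 < π →
    (∀ c, (iidLaw G).real (B c) ≤ π) → ∀ (a b : V) (Λ : ℕ), S ≤ Λ →
      GB G a b Λ (fun t p _ => cellCnt S Λ B t p) (C * (Λ / S : ℝ) * √π) := by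
  classical
  obtain ⟨C, hC, h⟩ := animal_mean G (2 * r)
  refine ⟨C, hC, fun S B hS hB π hπ hp a b Λ hΛ => ?_⟩
  have hpos : ∀ c t, 0 < (B c).indicator (fun _ => (1 : ℝ)) t ↔ t ∈ B c := by
    intro c t
    by_cases ht : t ∈ B c <;> simp [ht]
  have hF : LocalField (2 * r) fun c => (B c).indicator fun _ => (1 : ℝ) := by
    refine ⟨fun c => measurable_const.indicator (hB.meas c),
      fun c t => Set.indicator_nonneg (fun _ _ => zero_le_one) t,
      fun c => edgesIn (ball (c.1 * S, c.2 * S) (r * S)), fun c t t' htt' => ?_,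
      fun c c' hc => disjoint_edgesIn (aan_disj ?_)⟩
    · have h1 : (t ∈ B c) = (t' ∈ B c) := hB.dep c t t' htt'
      simp only [Set.indicator_apply, h1]
    · rw [aan_nrm_mul]
      have h1 : (1 : ℤ) ≤ S := by exact_mod_cast hS
      push_cast at hc
      nlinarith
  obtain ⟨g, -, hgi, hgc, hg⟩ := h _ hF (min π 1) (lt_min hπ one_pos) (min_le_right _ _)
    (fun c => by
      simp only [hpos]
      exact le_min (hp c) measureReal_le_one) (cell S a) (Λ / S) ((Nat.le_div_iff_mul_le hS).2 (by omega))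
  refine ⟨g, hgi, fun t => (Nat.cast_nonneg _).trans (hg t _ (aan_const _ _) rfl), hgc.trans ?_,
    Eventually.of_forall fun t p N hp _ => ?_⟩
  · have h1 : ((Λ / S : ℕ) : ℝ) ≤ (Λ / S : ℝ) := Nat.cast_div_le
    have h2 : √(min π 1) ≤ √π := Real.sqrt_le_sqrt (min_le_left _ _)
    gcongr
  · have hw : KWalk (fun k : ℕ => cell S (p (k * S))) (Λ / S) := by
      intro k _
      refine nrm_cell_sub hS ((hp.sap.nrm_le _ _).trans (le_of_eq ?_))
      push_cast
      rw [add_mul, one_mul, add_sub_cancel_left, Nat.abs_cast]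
    have := hg t _ hw (by simp [hp.start])
    simp only [hpos] at this
    unfold cellCnt
    convert this

/-- `S = 1`; the indices `0..N` have distinct sites -/
theorem site_GB (hG : Hyp G) (r : ℕ) : ∃ C > 0, ∀ (B : V → Set Env), LocEv 1 r B → ∀ π : ℝ, 0 < π →
    (∀ x, (iidLaw G).real (B x) ≤ π) → ∀ (a b : V) (Λ : ℕ), 1 ≤ Λ →
      GB G a b Λ (fun t p N => cnt (Finset.Icc 0 N) fun l => t ∈ B (p l)) (C * Λ * √π) := by
  classical
  obtain ⟨C, hC, h⟩ := cell_GB (G := G) r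
  refine ⟨C, hC, fun B hB π hπ hp a b Λ hΛ =>
    (h 1 B le_rfl hB π hπ hp a b Λ hΛ).mono hG (fun t p N _ hg hN => ?_) (by simp)⟩
  unfold cnt cellCnt
  refine Nat.cast_le.2 (Finset.card_le_card_of_injOn p (fun l hl => ?_) fun l hl l' hl' hll' => ?_)
  · simp only [Finset.coe_filter, Finset.mem_Icc, Set.mem_ofPred_eq] at hl
    simp only [Finset.coe_filter, Finset.mem_image, Finset.mem_range, Set.mem_ofPred_eq]
    refine ⟨⟨l.toNat, by omega, ?_⟩, hl.2⟩
    rw [cell_one, Int.toNat_of_nonneg hl.1.1, Nat.cast_one, mul_one]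
  · simp only [Finset.coe_filter, Finset.mem_Icc, Set.mem_ofPred_eq] at hl hl'
    exact hg.sap.inj hl.1 hl'.1 hll'

/-- choose `π` with `C √π ≤ η` -/
theorem site_GB_small (hG : Hyp G) (r : ℕ) {η : ℝ} (hη : 0 < η) : ∃ π > 0, ∀ (B : V → Set Env), LocEv 1 r B →
    (∀ x, (iidLaw G).real (B x) ≤ π) → ∀ (a b : V) (Λ : ℕ), 1 ≤ Λ →
      GB G a b Λ (fun t p N => cnt (Finset.Icc 0 N) fun l => t ∈ B (p l)) (η * Λ) := by
  obtain ⟨C, hC, h⟩ := site_GB hG r
  refine ⟨(η / C) ^ 2, by positivity, fun B hB hp a b Λ hΛ =>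
    (h B hB _ (by positivity) hp a b Λ hΛ).mono hG (fun _ _ _ _ _ _ => le_rfl) (le_of_eq ?_)⟩
  rw [Real.sqrt_sq (by positivity)]
  field_simp

/-- `animal_sum` with `γ = 3`, `ρ = 2r` -/
theorem site_sum_GB (hG : Hyp G) (r : ℕ) : ∃ C > 0, ∀ F : V → Env → ℝ, (∀ x, Measurable (F x)) →
    (∀ x t, 0 ≤ F x t) → (∀ x, DependsOnly (F x) (edgesIn (ball x r))) → ∀ M : ℝ, 0 < M →
    (∀ x s, 0 < s → (iidLaw G).real {t | s < F x t} ≤ (M / s) ^ 3) → ∀ (a b : V) (Λ : ℕ), 1 ≤ Λ →
      GB G a b Λ (fun t p N => ∑ l ∈ Finset.Icc 0 N, F (p l) t) (C * M * Λ) := by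
  classical
  obtain ⟨C, hC, h⟩ := animal_sum G (2 * r) (γ := 3) (by norm_num)
  refine ⟨C, hC, fun F hm h0 hd M hM ht a b Λ hΛ => ?_⟩
  have hF : LocalField (2 * r) F := ⟨hm, h0, fun c => edgesIn (ball c r), hd,
    fun c c' hc => disjoint_edgesIn (aan_disj (by push_cast at hc; exact hc))⟩
  obtain ⟨g, -, hgi, hgc, hg⟩ := h F hF M hM (fun c s hs => by
    rw [show (3 : ℝ) = ((3 : ℕ) : ℝ) by norm_num, Real.rpow_natCast]
    exact ht c s hs) a Λ hΛ
  refine ⟨fun t => max (g t) 0, hgi.pos_part, fun t => le_max_right _ _, le_trans (le_of_eq ?_) hgc,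
    hg.mono fun t hg p N hp hN => le_trans ?_ (le_max_left _ _)⟩
  · refine integral_congr_ae (hg.mono fun t hg => max_eq_left ?_)
    exact (Finset.sum_nonneg fun c _ => h0 c t).trans (hg _ (aan_const _ _) rfl)
  · have hw : KWalk (fun k : ℕ => p k) Λ := by
      intro k _
      push_cast
      exact hp.sap.step k
    refine le_trans ?_ (hg _ hw (by simp [hp.start]))
    beta_reduce
    rw [← Finset.sum_image (s := Finset.Icc 0 N) (g := p) (f := fun c => F c t)
      (fun l hl l' hl' h => hp.sap.inj (by simpa using hl) (by simpa using hl') h)]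
    refine Finset.sum_le_sum_of_subset_of_nonneg (fun c hc => ?_) fun c _ _ => h0 c t
    obtain ⟨l, hl, rfl⟩ := Finset.mem_image.1 hc
    rw [Finset.mem_Icc] at hl
    exact Finset.mem_image.2 ⟨l.toNat, Finset.mem_range.2 (by omega), by rw [Int.toNat_of_nonneg hl.1]⟩

/-- the pieces with a marked cell, when at most `m` pieces start in a marked cell -/
theorem card_pieces_le {S Λ : ℕ} {B : V → Set Env} {t : Env} {p : ℤ → V} (Q : ℕ → Prop) [DecidablePred Q] {m : ℝ}
    (hm0 : 0 ≤ m) (hQ : ∀ k ∈ Finset.range (Λ / S + 1), Q k → t ∈ B (cell S (p (k * S))))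
    (hm : ∀ c, t ∈ B c → (((Finset.range (Λ / S + 1)).filter fun k : ℕ =>
      Q k ∧ cell S (p (k * S)) = c).card : ℝ) ≤ m) :
    (((Finset.range (Λ / S + 1)).filter Q).card : ℝ) ≤ m * cellCnt S Λ B t p := by
  classical
  unfold cellCnt
  rw [Finset.card_eq_sum_card_fiberwise (f := fun k : ℕ => cell S (p (k * S)))
    (t := ((Finset.range (Λ / S + 1)).image fun k : ℕ => cell S (p (k * S))).filter fun c => t ∈ B c)
    (fun k hk => by
      have hk' := Finset.mem_filter.1 (Finset.mem_coe.1 hk)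
      exact Finset.mem_coe.2 (Finset.mem_filter.2 ⟨Finset.mem_image_of_mem _ hk'.1, hQ k hk'.1 hk'.2⟩))]
  push_cast
  refine (Finset.sum_le_card_nsmul _ _ m fun c hc => ?_).trans (le_of_eq ?_)
  · rw [Finset.filter_filter]
    exact hm c (Finset.mem_filter.1 hc).2
  · rw [nsmul_eq_mul, mul_comm]

end Crest.Agent.R151.PA
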