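import Crest.Agent.R151.AShear

/-! R151/A: repairing a broken path (surgery with bypass `#`s), many gaps at once. Deterministic. -/

set_option autoImplicit false
open MeasureTheory ProbabilityTheory Crest.ProbabilityR.FirstPassage Filter Topology
open scoped ENNReal

namespace Crest.Agent.R151.PA

variable {t : Env}

theorem asurg_rect {K : ℕ} {x : V} {N : Set V} (h : IsHash K t x N) :
    ∃ Rc : Set V, x ∈ Rc ∧ (∀ y ∈ Rc, nrm (y - x) < K) ∧
      ∀ y ∈ Rc, ∀ y', nrm (y' - y) ≤ 1 → y' ∈ Rc ∨ y' ∈ N := by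
  obtain ⟨-, -, j1, j2, j3, j4, h1, h1', h2, h2', h3, h3', h4, h4', hN⟩ := h
  refine ⟨{y | x.1 - j4 < y.1 ∧ y.1 < x.1 + j3 ∧ x.2 - j2 < y.2 ∧ y.2 < x.2 + j1}, ?_, ?_, ?_⟩
  · simp only [Set.mem_ofPred_eq]; omega
  · intro y hy
    simp only [Set.mem_ofPred_eq] at hy
    simp only [nrm, Prod.fst_sub, Prod.snd_sub, abs_eq_max_neg]
    omega
  · intro y hy y' hy'
    simp only [Set.mem_ofPred_eq] at hy
    simp only [nrm, Prod.fst_sub, Prod.snd_sub, abs_eq_max_neg] at hy'
    by_cases hc : x.1 - j4 < y'.1 ∧ y'.1 < x.1 + j3 ∧ x.2 - j2 < y'.2 ∧ y'.2 < x.2 + j1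
    · exact Or.inl hc
    · right
      have a1 := hN (y'.1 - x.1) (abs_le.2 ⟨by omega, by omega⟩)
      have a2 := hN (y'.2 - x.2) (abs_le.2 ⟨by omega, by omega⟩)
      have hc' : y'.2 = x.2 + j1 ∨ y'.2 = x.2 - j2 ∨ y'.1 = x.1 + j3 ∨ y'.1 = x.1 - j4 := by omega
      rcases hc' with hc' | hc' | hc' | hc'
      · have : y' = (x.1 + (y'.1 - x.1), x.2 + j1) := Prod.ext (by dsimp only; omega) hc'
        rw [this]; exact a1.1
      · have : y' = (x.1 + (y'.1 - x.1), x.2 - j2) := Prod.ext (by dsimp only; omega) hc'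
        rw [this]; exact a1.2.1
      · have : y' = (x.1 + j3, x.2 + (y'.2 - x.2)) := Prod.ext hc' (by dsimp only; omega)
        rw [this]; exact a2.2.2.1
      · have : y' = (x.1 - j4, x.2 + (y'.2 - x.2)) := Prod.ext hc' (by dsimp only; omega)
        rw [this]; exact a2.2.2.2

theorem asurg_hashT {K : ℕ} (ht : ∀ e, 0 ≤ t e) {x : V} {N : Set V} (h : IsHash K t x N) {a b : V}
    (ha : a ∈ N) (hb : b ∈ N) : T t a b ≤ Yv K t x :=
  (T_le_TS ht (h.2.1 a ha b hb).1).trans (h.2.1 a ha b hb).2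

theorem asurg_far {K : ℕ} (ht : ∀ e, 0 ≤ t e) {x y : V} {N : Set V} (h : IsHash K t x N)
    (hy : (K : ℤ) ≤ nrm (y - x)) {a : V} (ha : a ∈ N) : T t y a ≤ T t y x + Yv K t x := by
  refine le_of_forall_pos_le_add fun ε hε => ?_
  obtain ⟨p, n, hp, -, h0, hn, hc⟩ := exists_path_lt (S := Set.univ) (x := x) (y := y) ht
    (conn_univ x y) (lt_add_of_pos_right _ hε)
  obtain ⟨k, hk0, hkn, hk⟩ := h.meets hp h0 (by rw [hn]; exact hy)
  have h1 : T t (p k) (p n) ≤ cost t p k n := T_le_cost ht (hp.sub hk0.le hkn le_rfl)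
  have h2 : cost t p k n ≤ cost t p 0 n := cost_sub_le ht hk0.le le_rfl
  have h3 : T t y a ≤ T t y (p k) + T t (p k) a := T_triangle ht
  have h4 := asurg_hashT ht h hk ha
  have h5 : T t y (p k) = T t (p k) y := T_comm
  have h6 : T t y x = TS t Set.univ x y := T_comm
  rw [hn] at h1
  linarith

theorem asurg_split (f : ℤ → ℝ) {i j k : ℤ} (h1 : i ≤ j) (h2 : j ≤ k) :
    ∑ l ∈ Finset.Ico i k, f l = ∑ l ∈ Finset.Ico i j, f l + ∑ l ∈ Finset.Ico j k, f l := by
  rw [← Finset.sum_union (Finset.Ico_disjoint_Ico_consecutive i j k),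
    Finset.Ico_union_Ico_eq_Ico h1 h2]

/-- Induction on `m ∈ [i, j]` with `Φ m = Σ_{k ∈ Ico i m} (c k + if k ∈ B then Y (q k) else 0)` and the invariant:
(a) `T (q i) (q m) ≤ Φ m`, or (b) there are a bad `k ∈ [i, m)` and a hash `N` of `x = q k` (`IsHash`, with its `j1..j4`) such that
`q m` lies in the open rectangle `x.1 - j4 < · < x.1 + j3`, `x.2 - j2 < · < x.2 + j1` and `T (q i) a ≤ Φ m` for all `a ∈ N`.
A point within `nrm ≤ 1` of a point of the open rectangle (or of `x`) is in the open rectangle or in `N`.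
Bad step at `m`: take a hash `N'` of `q m` (`exists_hash`).  In case (a) an almost optimal path from `q m` to `q i` (`exists_path_lt`,
`T_comm`) meets `N'` (`IsHash.meets`, `K ≤ nrm (q i - q m)`) at a point `a0` with `T (q i) a0 ≤ Φ m + ε`; in case (b) `N ∩ N' ≠ ∅`
(`IsHash.inter_nonempty`).  So all points of `N'` are within `Φ m + Y (q m) ≤ Φ (m+1)`.  Normal step: triangle inequality in case (a); in case
(b) nothing to pay.  (If a step is both, treat it as given by `hstep`; `Φ` is monotone.)  At `m = j` case (b) contradicts `K ≤ nrm (q j - q k)`. -/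
theorem surgery0 {K : ℕ} (hK : 1 ≤ K) (ht : ∀ e, 0 ≤ t e) (q : ℤ → V) (c : ℤ → ℝ) (B : Finset ℤ) {i j : ℤ}
    (hij : i ≤ j) (hc : ∀ k, i ≤ k → k < j → 0 ≤ c k)
    (hstep : ∀ k, i ≤ k → k < j →
      (Adj (q k) (q (k + 1)) ∧ t (edge q k) ≤ c k) ∨ (k ∈ B ∧ nrm (q (k + 1) - q k) ≤ 1))
    (hB : ∀ k ∈ B, i ≤ k → k < j → (K : ℤ) ≤ nrm (q i - q k) ∧ (K : ℤ) ≤ nrm (q j - q k)) :
    T t (q i) (q j) ≤ ∑ k ∈ Finset.Ico i j, (c k + if k ∈ B then Yv K t (q k) else 0) := by
  set Φ : ℤ → ℝ := fun m => ∑ k ∈ Finset.Ico i m, (c k + if k ∈ B then Yv K t (q k) else 0) with hΦ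
  have hsucc : ∀ m, i ≤ m → Φ (m + 1) = Φ m + (c m + if m ∈ B then Yv K t (q m) else 0) := by
    intro m hm
    simp only [hΦ]
    rw [← Finset.insert_Ico_right_eq_Ico_add_one hm, Finset.sum_insert (by simp), add_comm]
  have key : ∀ m, i ≤ m → m ≤ j → T t (q i) (q m) ≤ Φ m ∨
      ∃ k ∈ B, i ≤ k ∧ k < m ∧ ∃ N Rc : Set V, IsHash K t (q k) N ∧ (∀ y ∈ Rc, nrm (y - q k) < K) ∧
        (∀ y ∈ Rc, ∀ y', nrm (y' - y) ≤ 1 → y' ∈ Rc ∨ y' ∈ N) ∧ q m ∈ Rc ∧
        ∀ a ∈ N, T t (q i) a ≤ Φ m := by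
    intro m hm
    induction m, hm using Int.leInduction with
    | base =>
      intro _
      left
      simp only [hΦ, Finset.Ico_self, Finset.sum_empty]
      exact (T_self ht).le
    | succ m hm ih =>
      intro hmj
      have ih := ih (by omega)
      have hs := hsucc m hm
      have hcm := hc m hm (by omega)
      have hY : 0 ≤ (if m ∈ B then Yv K t (q m) else 0) := by
        split_ifs
        · exact Yv_nonneg ht _
        · exact le_rfl
      rcases hstep m hm (by omega) with ⟨hadj, hle⟩ | ⟨hmB, hn⟩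
      · rcases ih with ih | ⟨k, hkB, hik, hkm, N, Rc, hN, hR1, hR2, hq, hT⟩
        · left
          have h1 : T t (q i) (q (m + 1)) ≤ T t (q i) (q m) + T t (q m) (q (m + 1)) := T_triangle ht
          have h2 : T t (q m) (q (m + 1)) ≤ t s(q m, q (m + 1)) :=
            TS_le_edge ht (Set.mem_univ _) (Set.mem_univ _) hadj
          have h3 : t s(q m, q (m + 1)) ≤ c m := hle
          linarith
        · rcases hR2 _ hq (q (m + 1)) (adj_nrm hadj).le with h | h
          · exact Or.inr ⟨k, hkB, hik, by omega, N, Rc, hN, hR1, hR2, h,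
              fun a ha => by have := hT a ha; linarith⟩
          · left
            have := hT _ h
            linarith
      · obtain ⟨N', hN'⟩ := exists_hash hK ht (q m)
        obtain ⟨Rc', hx', hR1', hR2'⟩ := asurg_rect hN'
        have hall : ∀ a ∈ N', T t (q i) a ≤ Φ (m + 1) := by
          intro a ha
          rw [hs, if_pos hmB]
          rcases ih with ih | ⟨k, hkB, hik, hkm, N, Rc, hN, hR1, hR2, hq, hT⟩
          · have := asurg_far ht hN' (hB m hmB hm (by omega)).1 ha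
            linarith
          · obtain ⟨a0, h0, h0'⟩ := hN.inter_nonempty hN' (hR1 _ hq).le
            have h1 : T t (q i) a ≤ T t (q i) a0 + T t a0 a := T_triangle ht
            have h2 := asurg_hashT ht hN' h0' ha
            have h3 := hT a0 h0
            linarith
        rcases hR2' _ hx' (q (m + 1)) hn with h | h
        · exact Or.inr ⟨m, hmB, hm, by omega, N', Rc', hN', hR1', hR2', h, hall⟩
        · exact Or.inl (hall _ h)
  rcases key j hij le_rfl with h | ⟨k, hkB, hik, hkj, N, Rc, -, hR1, -, hq, -⟩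
  · exact h
  · exact absurd (hR1 _ hq) (not_lt.2 (hB k hkB hik hkj).2)

/-- Induction on `I` (generalising `j`): remove the interval `a` with the largest `l a`; split `[i,j]` at `l a` and `r a`;
induction hypothesis on `[i, l a]`, `surgery0` on `[r a, j]`. -/
theorem surgery {K : ℕ} (hK : 1 ≤ K) (ht : ∀ e, 0 ≤ t e) (q : ℤ → V) (c : ℤ → ℝ) (B : Finset ℤ)
    (I : Finset ℤ) (l r : ℤ → ℤ) (d : ℤ → ℝ) {i j : ℤ} (hij : i ≤ j) (hc : ∀ k, i ≤ k → k < j → 0 ≤ c k)
    (hI : ∀ a ∈ I, i ≤ l a ∧ l a < r a ∧ r a ≤ j ∧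
      T t (q (l a)) (q (r a)) ≤ ∑ k ∈ Finset.Ico (l a) (r a), c k + d a)
    (hdisj : ∀ a ∈ I, ∀ b ∈ I, a ≠ b → r a ≤ l b ∨ r b ≤ l a)
    (hstep : ∀ k, i ≤ k → k < j → (Adj (q k) (q (k + 1)) ∧ t (edge q k) ≤ c k) ∨
      (k ∈ B ∧ nrm (q (k + 1) - q k) ≤ 1) ∨ ∃ a ∈ I, l a ≤ k ∧ k < r a)
    (hB : ∀ k ∈ B, i ≤ k → k < j → (K : ℤ) ≤ nrm (q i - q k) ∧ (K : ℤ) ≤ nrm (q j - q k) ∧
      ∀ a ∈ I, (K : ℤ) ≤ nrm (q (l a) - q k) ∧ (K : ℤ) ≤ nrm (q (r a) - q k)) :
    T t (q i) (q j) ≤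
      ∑ k ∈ Finset.Ico i j, (c k + if k ∈ B then Yv K t (q k) else 0) + ∑ a ∈ I, d a := by
  induction I using Finset.induction_on_max_value l generalizing j with
  | empty =>
    rw [Finset.sum_empty, add_zero]
    refine surgery0 hK ht q c B hij hc (fun k h1 h2 => ?_) fun k hk h1 h2 =>
      ⟨(hB k hk h1 h2).1, (hB k hk h1 h2).2.1⟩
    rcases hstep k h1 h2 with h | h | ⟨a, ha, -⟩
    · exact Or.inl h
    · exact Or.inr h
    · simp at ha
  | insert a s has hmax ih =>
    have hma := Finset.mem_insert_self a s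
    obtain ⟨ha1, ha2, ha3, ha4⟩ := hI a hma
    have hb : ∀ b ∈ s, r b ≤ l a := by
      intro b hb
      have hne : a ≠ b := fun e => has (e ▸ hb)
      have := hmax b hb
      rcases hdisj a hma b (Finset.mem_insert_of_mem hb) hne with h | h
      · omega
      · exact h
    have h1 := ih (j := l a) ha1 (fun k h1 h2 => hc k h1 (by omega))
      (fun b hb' => by
        obtain ⟨b1, b2, -, b4⟩ := hI b (Finset.mem_insert_of_mem hb')
        exact ⟨b1, b2, hb b hb', b4⟩)
      (fun b hb' b' hb'' => hdisj b (Finset.mem_insert_of_mem hb') b' (Finset.mem_insert_of_mem hb''))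
      (fun k h1 h2 => by
        rcases hstep k h1 (by omega) with h | h | ⟨b, hb', h3, h4⟩
        · exact Or.inl h
        · exact Or.inr (Or.inl h)
        · rcases Finset.mem_insert.1 hb' with rfl | hb'
          · omega
          · exact Or.inr (Or.inr ⟨b, hb', h3, h4⟩))
      (fun k hk h1 h2 => by
        obtain ⟨b1, -, b3⟩ := hB k hk h1 (by omega)
        exact ⟨b1, (b3 a hma).1, fun b hb' => b3 b (Finset.mem_insert_of_mem hb')⟩)
    have h2 := surgery0 hK ht q c B (i := r a) (j := j) ha3 (fun k h1 h2 => hc k (by omega) h2)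
      (fun k h1 h2 => by
        rcases hstep k (by omega) h2 with h | h | ⟨b, hb', h3, h4⟩
        · exact Or.inl h
        · exact Or.inr h
        · rcases Finset.mem_insert.1 hb' with rfl | hb'
          · omega
          · have := hb b hb'
            omega)
      (fun k hk h1 h2 => by
        obtain ⟨-, b2, b3⟩ := hB k hk (by omega) h2
        exact ⟨(b3 a hma).2, b2⟩)
    have h3 : ∑ k ∈ Finset.Ico (l a) (r a), c k ≤
        ∑ k ∈ Finset.Ico (l a) (r a), (c k + if k ∈ B then Yv K t (q k) else 0) := by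
      refine Finset.sum_le_sum fun k _ => le_add_of_nonneg_right ?_
      split_ifs
      · exact Yv_nonneg ht _
      · exact le_rfl
    rw [Finset.sum_insert has, asurg_split _ ha1 (by omega : l a ≤ j),
      asurg_split _ ha2.le ha3]
    have h4 : T t (q i) (q j) ≤ T t (q i) (q (l a)) + T t (q (l a)) (q j) := T_triangle ht
    have h5 : T t (q (l a)) (q j) ≤ T t (q (l a)) (q (r a)) + T t (q (r a)) (q j) := T_triangle ht
    linarith

theorem asurg_gaps_succ (σ : ℤ) (A : Finset ℤ) (y : ℤ) :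
    gaps σ A (y + 1) = gaps σ A y + if y ∈ A then σ else 0 := by
  unfold gaps
  split_ifs with h
  · have : A.filter (fun i => i < y + 1) = insert y (A.filter fun i => i < y) := by
      ext i
      simp only [Finset.mem_filter, Finset.mem_insert]
      constructor
      · rintro ⟨h1, h2⟩
        rcases eq_or_ne i y with e | e
        · exact Or.inl e
        · exact Or.inr ⟨h1, by omega⟩
      · rintro (rfl | ⟨h1, h2⟩)
        · exact ⟨h, by omega⟩
        · exact ⟨h1, by omega⟩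
    rw [this, Finset.card_insert_of_notMem (by simp)]
    push_cast
    ring
  · have : A.filter (fun i => i < y + 1) = A.filter fun i => i < y := by
      refine Finset.filter_congr fun i hi => ?_
      have : i ≠ y := fun e => h (e ▸ hi)
      omega
    rw [this, add_zero]

theorem asurg_gaps_near (σ : ℤ) {A : Finset ℤ} {L : ℤ}
    (hsep : ∀ i ∈ A, ∀ i' ∈ A, i < i' → i + L ≤ i') {i : ℤ} (hi : i ∈ A) {y : ℤ} (h1 : i - L < y)
    (h2 : y ≤ i + L) : gaps σ A y = gap σ i y + gaps σ A i := by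
  unfold gap
  split_ifs with h
  · have : gaps σ A y = gaps σ A (i + 1) := by
      unfold gaps
      congr 3
      refine Finset.filter_congr fun i' hi' => ?_
      rcases lt_trichotomy i i' with e | e | e
      · have := hsep i hi i' hi' e
        omega
      · omega
      · omega
    rw [this, asurg_gaps_succ, if_pos hi, add_comm]
  · rw [zero_add]
    unfold gaps
    congr 3
    refine Finset.filter_congr fun i' hi' => ?_
    rcases lt_trichotomy i i' with e | e | e
    · omega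
    · omega
    · have := hsep i' hi' i hi e
      omega

theorem asurg_psi {a a' : ℤ → ℤ} {d : ℤ} {x : V} (h : a x.2 = a' x.2 + d) :
    psi a x = psi a' x + (d, 0) := by
  unfold psi
  ext
  · simp only [Prod.fst_add, h]; ring
  · simp

/-- `surgery` in `t' = sh a t`, `a = gaps σ A`, for `q = psi a ∘ p`, `c k = t (edge p k)`, `I` = the rows of `A` with `GoodD` (intervals
chosen from `GoodD`; disjoint because the slabs are disjoint), `B` = the steps crossing a gap `i ∈ A \ I`.  A step crossing no gap of `A` is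
normal (`a` takes the same value at both ends: `sh_psi`, `adj_psi`).  On the rows within `L - 1` of `i ∈ A`, `a = gap σ i + a i`, so
`TS_sh_rows` and `Yv_sh` identify the local quantities; `Σ_{k ∈ B} Y = Σ_{i ∈ A \ I} Sv`.  `psi a 0 = 0`, `psi a z = z + (σ |A|, 0)`. -/
theorem multi_shear (ht : ∀ e, 0 ≤ t e) {σ : ℤ} (hσ : σ = 1 ∨ σ = -1) {p : ℤ → V} {N : ℤ} {z : V}
    (hp : PathIn Set.univ p 0 N) (h0 : p 0 = 0) (hN : p N = z) (R : ℕ) (A : Finset ℤ)
    (hA : ∀ i ∈ A, (KK : ℤ) ≤ i ∧ i + KK + 1 ≤ z.2)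
    (hsep : ∀ i ∈ A, ∀ i' ∈ A, i < i' → i + (2 * R + 3 * KK + 2) ≤ i') (d : ℤ → ℝ)
    (hd : ∀ i ∈ A, GoodD R σ i t p N (d i) ∨ Sv σ i t p N ≤ d i) :
    T (sh (gaps σ A) t) 0 (z + (σ * A.card, 0)) ≤ cost t p 0 N + ∑ i ∈ A, d i := by
  classical
  have hKK : (1000 : ℤ) = KK := by simp [KK]
  set a := gaps σ A with ha
  set I := A.filter (fun i => GoodD R σ i t p N (d i)) with hI
  have hch : ∀ i : ℤ, ∃ j k : ℤ, i ∈ I → 0 ≤ j ∧ j < k ∧ k ≤ N ∧
      (∀ l, 0 ≤ l → l < N → Cross p i l → j ≤ l ∧ l < k) ∧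
      (∀ l, j ≤ l → l ≤ k → p l ∈ rows (i - R) (i + 1 + R)) ∧
      TS (sh (gap σ i) t) (rows (i - R) (i + 1 + R)) (psi (gap σ i) (p j)) (psi (gap σ i) (p k)) ≤
        cost t p j k + d i := by
    intro i
    by_cases h : i ∈ I
    · obtain ⟨j, k, hjk⟩ := (Finset.mem_filter.1 h).2
      exact ⟨j, k, fun _ => hjk⟩
    · exact ⟨0, 0, fun h' => absurd h' h⟩
  choose l r hlr using hch
  set B := (Finset.Ico 0 N).filter (fun k => ∃ i ∈ A \ I, Cross p i k) with hBdef
  have hIA : I ⊆ A := Finset.filter_subset _ _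
  have hnear : ∀ i ∈ A, ∀ y, i - (2 * R + 3 * KK + 2) < y → y ≤ i + (2 * R + 3 * KK + 2) →
      a y = gap σ i y + a i := fun i hi y h1 h2 => asurg_gaps_near σ hsep hi h1 h2
  have ht' : ∀ e, 0 ≤ sh a t e := sh_nonneg ht
  have hR : (0 : ℤ) ≤ R := by positivity
  have main := surgery (K := KK) (by simp [KK]) ht' (fun k => psi a (p k)) (fun k => t (edge p k)) B I l r d
    hp.1 (fun k _ _ => ht _) (fun i hi => ?_) (fun i hi i' hi' hne => ?_) (fun k h1 h2 => ?_)
    (fun k hk h1 h2 => ?_)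
  · have e0 : psi a (p 0) = 0 := by
      have : A.filter (fun i => i < (0 : ℤ)) = ∅ := by
        refine Finset.filter_eq_empty_iff.2 fun i hi => ?_
        have := (hA i hi).1
        omega
      rw [h0]
      simp [psi, ha, gaps, this]
    have eN : psi a (p N) = z + (σ * A.card, 0) := by
      have : A.filter (fun i => i < z.2) = A := by
        refine Finset.filter_true_of_mem fun i hi => ?_
        have := (hA i hi).2
        omega
      rw [hN]
      ext
      · simp [psi, ha, gaps, this]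
      · simp [psi]
    simp only [e0, eN] at main
    rw [Finset.sum_add_distrib] at main
    have hs : ∑ k ∈ Finset.Ico 0 N, (if k ∈ B then Yv KK (sh a t) (psi a (p k)) else 0) ≤
        ∑ k ∈ Finset.Ico 0 N, ∑ i ∈ A \ I, if Cross p i k then Yh σ i t (p k) else 0 := by
      refine Finset.sum_le_sum fun k _ => ?_
      have hnn : ∀ i ∈ A \ I, 0 ≤ (if Cross p i k then Yh σ i t (p k) else 0) := by
        intro i _
        split_ifs
        · exact Yh_nonneg ht _
        · exact le_rfl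
      split_ifs with hk
      · obtain ⟨i, hi, hc⟩ := (Finset.mem_filter.1 hk).2
        have hiA := (Finset.mem_sdiff.1 hi).1
        refine le_trans ?_ (Finset.single_le_sum hnn hi)
        rw [if_pos hc]
        have hrow : i ≤ (p k).2 ∧ (p k).2 ≤ i + 1 := by
          rcases hc with hc | hc <;> omega
        rw [asurg_psi (a' := gap σ i) (d := a i) (hnear i hiA _ (by omega) (by omega)),
          Yv_sh (a' := gap σ i) fun y h1 h2 => ?_]
        · exact le_rfl
        · rw [psi_snd] at h1 h2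
          exact hnear i hiA y (by omega) (by omega)
      · exact Finset.sum_nonneg hnn
    rw [Finset.sum_comm] at hs
    have hs2 : ∑ i ∈ A \ I, ∑ k ∈ Finset.Ico 0 N, (if Cross p i k then Yh σ i t (p k) else 0) ≤
        ∑ i ∈ A \ I, d i := by
      refine Finset.sum_le_sum fun i hi => ?_
      obtain ⟨hiA, hiI⟩ := Finset.mem_sdiff.1 hi
      rcases hd i hiA with h | h
      · exact absurd (Finset.mem_filter.2 ⟨hiA, h⟩) hiI
      · refine le_trans (le_of_eq ?_) h
        unfold Sv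
        rw [Finset.sum_filter]
    have hs3 := Finset.sum_sdiff (f := d) hIA
    unfold cost
    linarith
  · obtain ⟨b1, b2, b3, -, b5, b6⟩ := hlr i hi
    have hiA := hIA hi
    refine ⟨b1, b2, b3, ?_⟩
    have m1 := b5 (l i) le_rfl b2.le
    have m2 := b5 (r i) b2.le le_rfl
    have c1 : psi a (p (l i)) ∈ rows (i - R) (i + 1 + R) := m1
    have c2 : psi a (p (r i)) ∈ rows (i - R) (i + 1 + R) := m2
    refine (T_le_TS ht' (conn_rows c1 c2)).trans ?_
    obtain ⟨m1, m1'⟩ := m1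
    obtain ⟨m2, m2'⟩ := m2
    rw [asurg_psi (a' := gap σ i) (d := a i) (hnear i hiA _ (by omega) (by omega)),
      asurg_psi (a' := gap σ i) (d := a i) (x := p (r i)) (hnear i hiA _ (by omega) (by omega)),
      TS_sh_rows (a' := gap σ i) fun y h1 h2 => hnear i hiA y (by omega) (by omega)]
    exact b6
  · obtain ⟨-, b2, -, -, b5, -⟩ := hlr i hi
    obtain ⟨-, c2, -, -, c5, -⟩ := hlr i' hi'
    by_contra hcon
    push Not at hcon
    obtain ⟨m1, m1'⟩ := b5 (max (l i) (l i')) (by omega) (by omega)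
    obtain ⟨m2, m2'⟩ := c5 (max (l i) (l i')) (by omega) (by omega)
    rcases lt_or_gt_of_ne hne with e | e
    · have := hsep i (hIA hi) i' (hIA hi') e
      omega
    · have := hsep i' (hIA hi') i (hIA hi) e
      omega
  · have hadj := hp.2.2 k h1 h2
    by_cases hc : ∃ i ∈ A, Cross p i k
    · obtain ⟨i, hiA, hc⟩ := hc
      by_cases hi : i ∈ I
      · exact Or.inr (Or.inr ⟨i, hi, (hlr i hi).2.2.2.1 k h1 h2 hc⟩)
      · refine Or.inr (Or.inl ⟨Finset.mem_filter.2 ⟨Finset.mem_Ico.2 ⟨h1, h2⟩, i,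
          Finset.mem_sdiff.2 ⟨hiA, hi⟩, hc⟩, ?_⟩)
        have hs : a (i + 1) = a i + σ := by
          rw [ha, asurg_gaps_succ, if_pos hiA]
        rw [adj_iff] at hadj
        simp only [nrm, psi, Prod.fst_sub, Prod.snd_sub, abs_eq_max_neg]
        rcases hc with ⟨e1, e2⟩ | ⟨e1, e2⟩ <;> rw [e1, e2] <;> omega
    · left
      have he : a (p k).2 = a (p (k + 1)).2 := by
        have hadj' := (adj_iff _ _).1 hadj
        rcases hadj' with ⟨-, e | e⟩ | ⟨e, -⟩
        · rw [e, ha, asurg_gaps_succ, if_neg fun h => hc ⟨_, h, Or.inl ⟨rfl, e⟩⟩, add_zero]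
        · rw [e, ha, asurg_gaps_succ, if_neg fun h => hc ⟨_, h, Or.inr ⟨e, rfl⟩⟩, add_zero]
        · rw [e]
      exact ⟨adj_psi he hadj, (sh_psi he).le⟩
  · obtain ⟨i, hi, hc⟩ := (Finset.mem_filter.1 hk).2
    obtain ⟨hiA, hiI⟩ := Finset.mem_sdiff.1 hi
    have hrow : i ≤ (p k).2 ∧ (p k).2 ≤ i + 1 := by
      rcases hc with hc | hc <;> omega
    have hfar : ∀ x : V, (KK : ℤ) ≤ |x.2 - (p k).2| → (KK : ℤ) ≤ nrm (psi a x - psi a (p k)) :=
      fun x hx => le_max_of_le_right hx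
    obtain ⟨a1, a2⟩ := hA i hiA
    refine ⟨hfar _ ?_, hfar _ ?_, fun i' hi' => ?_⟩
    · rw [h0, abs_eq_max_neg, Prod.snd_zero]
      omega
    · rw [hN, abs_eq_max_neg]
      omega
    · obtain ⟨-, b2, -, -, b5, -⟩ := hlr i' hi'
      obtain ⟨m1, m1'⟩ := b5 (l i') le_rfl b2.le
      obtain ⟨m2, m2'⟩ := b5 (r i') b2.le le_rfl
      have hne : i ≠ i' := fun e => hiI (e ▸ hi')
      rcases lt_or_gt_of_ne hne with e | e
      · have := hsep i hiA i' (hIA hi') e
        refine ⟨hfar _ ?_, hfar _ ?_⟩ <;> rw [abs_eq_max_neg] <;> omega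
      · have := hsep i' (hIA hi') i hiA e
        refine ⟨hfar _ ?_, hfar _ ?_⟩ <;> rw [abs_eq_max_neg] <;> omega

/-- `multi_shear` with `A = {i}` for the shear `-σ` of `sh (gap σ i) t` (`sh_gap_neg`) -/
theorem neg_Dv_le (ht : ∀ e, 0 ≤ t e) {σ : ℤ} (hσ : σ = 1 ∨ σ = -1) {i : ℤ} {z : V} {π : ℤ → V} {N' : ℤ}
    (hi : (KK : ℤ) ≤ i ∧ i + KK + 1 ≤ z.2) (hπ : IsG (sh (gap σ i) t) 0 (z + (σ, 0)) π N') :
    -Dv σ i z t ≤ Sv (-σ) i (sh (gap σ i) t) π N' := by
  have h := multi_shear (t := sh (gap σ i) t) (sh_nonneg ht) (σ := -σ) (by omega) hπ.geo.1 hπ.start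
    hπ.stop 0 {i} (by simpa using hi) (by simp) (fun _ => Sv (-σ) i (sh (gap σ i) t) π N')
    (by simp)
  have e : z + (σ, 0) + (-σ * (({i} : Finset ℤ).card : ℤ), 0) = z := by
    ext <;> simp
  rw [gaps_singleton, sh_gap_neg, e, Finset.sum_singleton, hπ.cost_eq] at h
  unfold Dv
  linarith

end Crest.Agent.R151.PA
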