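import Crest.Agent.R151.AGeo

/-! R151/A: upper tail of passage times, length of geodesics, passage times on small events. -/

set_option autoImplicit false
open MeasureTheory ProbabilityTheory Crest.ProbabilityR.FirstPassage Filter Topology
open scoped ENNReal

namespace Crest.Agent.R151.PA

variable {G : Measure ℝ} [IsProbabilityMeasure G] [NullSingletonClass G]

theorem atail_line {t : Env} (ht : ∀ e, 0 ≤ t e) {v x : V} (hv : ∀ y, Adj y (y + v)) {m L : ℕ}
    (hm : m < L) {N N' : Set V} (hN : IsHash KK t x N) (hN' : IsHash KK t (x + (m : ℤ) • v) N')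
    {p q : V} (hp : p ∈ N) (hq : q ∈ N') :
    T t p q ≤ 2 * ∑ k ∈ Finset.range L, Yv KK t (x + k • v) := by
  refine (hash_chain (S := Set.univ) (w := fun k => x + k • v) (i := 0) (j := m) (by decide) ht
    ⟨Int.natCast_nonneg m, fun _ _ _ => trivial, fun k _ _ => by
      simp only [add_smul, one_smul, ← add_assoc]; exact hv _⟩ (fun _ _ _ => Set.subset_univ _)
    (by simpa using hN) hN' hp hq).2.trans (mul_le_mul_of_nonneg_left ?_ zero_le_two)
  rw [← Finset.sum_nbij (s := Finset.range (m + 1)) (f := fun k => Yv KK t (x + k • v))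
    (fun k : ℕ => (k : ℤ)) (fun k hk => by simp only [Finset.mem_range, Finset.mem_Icc] at *; omega)
    (fun _ _ _ _ h => Nat.cast_injective h) (fun k hk => ⟨k.toNat, by
      simp only [Finset.coe_range, Finset.coe_Icc, Set.mem_Icc, Set.mem_Iio] at *; omega, by
      simp only [Finset.coe_Icc, Set.mem_Icc] at *; omega⟩) fun k _ => by rw [natCast_zsmul]]
  exact Finset.sum_le_sum_of_subset_of_nonneg (Finset.range_subset_range.2 hm)
    fun _ _ _ => Yv_nonneg ht _

/-- L-shaped guiding path: horizontal from `a` to `(b.1, a.2)`, then vertical (or `exists_staircase`), `TS_le_ZY` with `K = KK`.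
`T ≤ Z a + Z b + 2 ΣY`, the sum over the guiding path is at most two straight sums of `2n+1` sites. -/
theorem T_le_ZY_L (t : Env) (ht : ∀ e, 0 ≤ t e) (n : ℕ) (a b : V) (hab : nrm (b - a) ≤ 2 * n) :
    ∃ v w : V, nrm v = 1 ∧ nrm w = 1 ∧ (v = (1, 0) ∨ v = (-1, 0)) ∧ (w = (0, 1) ∨ w = (0, -1)) ∧
      (v = (1, 0) ↔ a.1 ≤ b.1) ∧ (w = (0, 1) ↔ a.2 ≤ b.2) ∧
      T t a b ≤ Zv KK t a + Zv KK t b + 2 * (∑ k ∈ Finset.range (2 * n + 1), Yv KK t (a + k • v) +
        ∑ k ∈ Finset.range (2 * n + 1), Yv KK t ((b.1, a.2) + k • w)) := by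
  have h1 := abs_le.1 ((le_max_left _ _).trans hab : |b.1 - a.1| ≤ 2 * n)
  have h2 := abs_le.1 ((le_max_right _ _).trans hab : |b.2 - a.2| ≤ 2 * n)
  obtain ⟨v, v1, v2, v3, v4, v5⟩ : ∃ v : V, nrm v = 1 ∧ (v = (1, 0) ∨ v = (-1, 0)) ∧
      (v = (1, 0) ↔ a.1 ≤ b.1) ∧ (∀ y, Adj y (y + v)) ∧
      a + ((b.1 - a.1).natAbs : ℤ) • v = (b.1, a.2) := by
    rcases le_or_gt a.1 b.1 with h | h
    · exact ⟨(1, 0), by decide, .inl rfl, by simp [h], fun y => by simp [adj_iff],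
        Prod.ext (by simp [abs_of_nonneg (sub_nonneg.2 h)]) (by simp)⟩
    · exact ⟨(-1, 0), by decide, .inr rfl, by simp [h], fun y => by simp [adj_iff],
        Prod.ext (by simp [abs_of_neg (sub_neg.2 h)]) (by simp)⟩
  obtain ⟨w, w1, w2, w3, w4, w5⟩ : ∃ w : V, nrm w = 1 ∧ (w = (0, 1) ∨ w = (0, -1)) ∧
      (w = (0, 1) ↔ a.2 ≤ b.2) ∧ (∀ y, Adj y (y + w)) ∧
      (b.1, a.2) + ((b.2 - a.2).natAbs : ℤ) • w = b := by
    rcases le_or_gt a.2 b.2 with h | h
    · exact ⟨(0, 1), by decide, .inl rfl, by simp [h], fun y => by simp [adj_iff],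
        Prod.ext (by simp) (by simp [abs_of_nonneg (sub_nonneg.2 h)])⟩
    · exact ⟨(0, -1), by decide, .inr rfl, by simp [h], fun y => by simp [adj_iff],
        Prod.ext (by simp) (by simp [abs_of_neg (sub_neg.2 h)])⟩
  refine ⟨v, w, v1, w1, v2, w2, v3, w3, ?_⟩
  obtain ⟨N1, n1⟩ := exists_hash (K := KK) (by decide) ht a
  obtain ⟨N2, n2⟩ := exists_hash (K := KK) (by decide) ht (b.1, a.2)
  obtain ⟨N3, n3⟩ := exists_hash (K := KK) (by decide) ht b
  obtain ⟨p1, a1, b1, c1⟩ := n1.reach ht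
  obtain ⟨p2, a2, -, -⟩ := n2.reach ht
  obtain ⟨p3, a3, b3, c3⟩ := n3.reach ht
  have hb : ∀ x : V, x ∈ ball x KK := fun x => by simp [ball, nrm]
  have d1 := (T_le_TS ht (conn_ball (hb a) b1)).trans c1
  have d3 := (T_le_TS ht (conn_ball (hb b) b3)).trans c3
  have e1 := atail_line ht v4 (L := 2 * n + 1) (by omega) n1 (v5.symm ▸ n2) a1 a2
  have e2 := atail_line ht w4 (L := 2 * n + 1) (by omega) n2 (w5.symm ▸ n3) a2 a3
  rw [T_comm] at d3
  linarith [T_triangle (x := a) (y := p1) (z := b) ht, T_triangle (x := p1) (y := p2) (z := b) ht,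
    T_triangle (x := p2) (y := p3) (z := b) ht]

/-- Chebyshev for `Zv` (`memLp_Zv`), `tail_sum_Yv` for the two sums -/
theorem T_tail (hG : Hyp G) : ∃ C > 0, ∀ (n : ℕ) (a b : V), 1 ≤ n → nrm (b - a) ≤ 2 * n →
    (iidLaw G).real {t | C * n < T t a b} ≤ C / (n : ℝ) ^ 2 := by
  obtain ⟨C1, hC1, h1⟩ := tail_sum_Yv G hG (K := KK) (by decide)
  obtain ⟨C2, hC2, h2⟩ := memLp_Zv G hG KK
  refine ⟨2 + 12 * C1 + 2 * C2, by positivity, fun n a b hn hab => ?_⟩
  have n1 : (1 : ℝ) ≤ n := by exact_mod_cast hn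
  have hZ : ∀ x, (iidLaw G).real {t | (n : ℝ) ^ 2 ≤ Zv KK t x ^ 2} ≤ C2 / (n : ℝ) ^ 2 := fun x => by
    rw [le_div_iff₀' (by positivity)]
    exact (mul_meas_ge_le_integral_of_nonneg (Eventually.of_forall fun t => sq_nonneg _)
      (h2 x).1.integrable_sq _).trans (h2 x).2
  have hY : ∀ x v, nrm v = 1 → (iidLaw G).real {t | C1 * (2 * n + 1 : ℕ) <
      ∑ k ∈ Finset.range (2 * n + 1), Yv KK t (x + k • v)} ≤ C1 / (n : ℝ) ^ 2 := fun x v hv =>
    (h1 x v _ (by omega) hv).trans (by gcongr; omega)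
  obtain ⟨v, w, v1, w1, v2, w2, v3, w3, -⟩ := T_le_ZY_L (fun _ => 0) (fun _ => le_rfl) n a b hab
  refine (bnear_mono G (B := ({t | (n : ℝ) ^ 2 ≤ Zv KK t a ^ 2} ∪ {t | (n : ℝ) ^ 2 ≤ Zv KK t b ^ 2}) ∪
    ({t | C1 * (2 * n + 1 : ℕ) < ∑ k ∈ Finset.range (2 * n + 1), Yv KK t (a + k • v)} ∪
      {t | C1 * (2 * n + 1 : ℕ) < ∑ k ∈ Finset.range (2 * n + 1), Yv KK t ((b.1, a.2) + k • w)}))
    (ae_nonneg G hG.nonneg) fun t ht h => ?_).trans ((measureReal_union_le _ _).trans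
      ((add_le_add ((measureReal_union_le _ _).trans (add_le_add (hZ a) (hZ b)))
        ((measureReal_union_le _ _).trans (add_le_add (hY _ _ v1) (hY _ _ w1)))).trans ?_))
  · obtain ⟨v', w', -, -, a2, b2, a3, b3, h3⟩ := T_le_ZY_L t ht n a b hab
    obtain rfl : v' = v := by grind
    obtain rfl : w' = w := by grind
    by_contra hc
    simp only [Set.mem_union, Set.mem_ofPred_eq, not_or, not_le, not_lt] at hc h
    obtain ⟨⟨c1, c2⟩, c3, c4⟩ := hc
    have d1 := lt_of_pow_lt_pow_left₀ 2 (by positivity) c1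
    have d2 := lt_of_pow_lt_pow_left₀ 2 (by positivity) c2
    push_cast at c3 c4
    nlinarith
  · rw [← add_div, ← add_div, ← add_div]
    exact div_le_div_of_nonneg_right (by linarith) (by positivity)

/-- a geodesic with more than `C0 n` edges costs `≥ θ C0 n ≥ C n` unless `long_path_cost_lower` fails;
`2 exp (-n) ≤ 4 / n²` -/
theorem len_tail (hG : Hyp G) : ∃ C0 : ℕ, 1 ≤ C0 ∧ ∃ C > 0, ∀ (n : ℕ) (a b : V), 1 ≤ n →
    nrm (b - a) ≤ 2 * n → (iidLaw G).real (Long a b (C0 * n)) ≤ C / (n : ℝ) ^ 2 := by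
  obtain ⟨C, hC, h1⟩ := T_tail hG
  obtain ⟨θ, hθ, h2⟩ := long_path_cost_lower G hG.nonneg
  refine ⟨⌈C / θ⌉₊ + 1, by omega, C + 4, by positivity, fun n a b hn hab => ?_⟩
  have n1 : (1 : ℝ) ≤ n := by exact_mod_cast hn
  refine le_trans (measureReal_mono ?_ (measure_ne_top _ _))
    ((measureReal_union_le _ _).trans ((add_le_add (h1 n a b hn hab) (h2 a n)).trans ?_))
  · rintro t ⟨p, N, hp, hN⟩
    by_cases h : cost t p 0 N < θ * N
    · exact .inr ⟨p, N, hp.geo.1, hp.geo.2.1, hp.start, by push_cast at hN; nlinarith, h⟩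
    · left
      have a1 : ((⌈C / θ⌉₊ + 1) * n : ℝ) < N := by exact_mod_cast hN
      have a2 := (div_le_iff₀' hθ).1 (Nat.le_ceil (C / θ))
      rw [hp.cost_eq, not_lt] at h
      change C * n < _
      nlinarith [mul_lt_mul_of_pos_left a1 hθ]
  · have := Real.quadratic_le_exp_of_nonneg (show (0 : ℝ) ≤ n by linarith)
    rw [add_div, Real.exp_neg, ← div_eq_mul_inv, add_le_add_iff_left,
      div_le_div_iff₀ (Real.exp_pos _) (by positivity)]
    linarith

omit [NullSingletonClass G] in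
theorem atail_int {X : Env → ℝ} (h0 : ∀ᵐ t ∂iidLaw G, 0 ≤ X t) {k : ℕ} {C A : ℝ}
    (h : MemLp X (k + 1 : ℕ) (iidLaw G) ∧ ∫ t, X t ^ (k + 1) ∂iidLaw G ≤ C) (hA : 0 < A)
    {φ : Env → Env} (hφ : MeasurePreserving φ (iidLaw G) (iidLaw G)) (E : Set Env) :
    IntegrableOn (fun t => X (φ t)) E (iidLaw G) ∧
      ∫ t in E, X (φ t) ∂iidLaw G ≤ A * (iidLaw G).real E + C / A ^ k := by
  have i1 : Integrable X (iidLaw G) := h.1.integrable (by exact_mod_cast Nat.le_add_left 1 k)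
  have i2 : Integrable (fun t => X t ^ (k + 1)) (iidLaw G) :=
    (h.1.integrable_norm_pow (Nat.succ_ne_zero k)).congr
      (h0.mono fun t ht => by simp only [Real.norm_of_nonneg ht])
  have i3 := hφ.integrable_comp_of_integrable i1
  have i4 := (hφ.integrable_comp_of_integrable i2).div_const (A ^ k)
  have h1 := hφ.quasiMeasurePreserving.ae h0
  have e : ∫ t, X (φ t) ^ (k + 1) ∂iidLaw G = ∫ t, X t ^ (k + 1) ∂iidLaw G := by
    conv_rhs => rw [← hφ.map_eq]
    rw [integral_map hφ.measurable.aemeasurable (hφ.map_eq.symm ▸ i2.aestronglyMeasurable)]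
  refine ⟨i3.integrableOn, (integral_mono_ae i3.integrableOn
    ((integrable_const A).add i4).integrableOn (ae_restrict_of_ae (h1.mono fun t ht => ?_))).trans ?_⟩
  · simp only [Pi.add_apply, Function.comp]
    rcases le_total (X (φ t)) A with h2 | h2
    · exact le_add_of_le_of_nonneg h2 (by positivity)
    · refine le_add_of_nonneg_of_le hA.le ?_
      rw [le_div_iff₀ (by positivity), pow_succ']
      gcongr
  · simp only [Pi.add_apply]
    rw [integral_add (integrable_const A) i4.integrableOn, setIntegral_const, smul_eq_mul, mul_comm]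
    refine add_le_add le_rfl ((setIntegral_le_integral i4 (h1.mono fun t ht => ?_)).trans ?_)
    · simp only [Pi.zero_apply, Function.comp]
      positivity
    · simp only [Function.comp]
      rw [integral_div, e]
      exact div_le_div_of_nonneg_right h.2 (by positivity)

/-- `∫_E X ≤ A P(E) + E X^m / A^(m-1)` for `X ≥ 0`.  Use it for `X = Zv ∘ φ` (`m = 2`, `A = n`) and for each of the
`2(4n+1)` variables `Yv ∘ φ` (`m = 4`, `A = √n`, `memLp_Yv`); `T_le_ZY_L` with `2n` in place of `n`. -/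
theorem T_on_small (hG : Hyp G) (C' : ℝ) {η : ℝ} (hη : 0 < η) : ∀ᶠ n : ℕ in atTop, ∀ (a b : V),
    nrm (b - a) ≤ 4 * n → ∀ φ : Env → Env, MeasurePreserving φ (iidLaw G) (iidLaw G) →
      ∀ E : Set Env, MeasurableSet E → (iidLaw G).real E ≤ C' / (n : ℝ) ^ 2 →
        ∫ t in E, T (φ t) a b ∂iidLaw G ≤ η := by
  obtain ⟨C1, hC1, h1⟩ := memLp_Yv G hG (K := KK) (m := 3 + 1) (by decide)
  obtain ⟨C2, hC2, h2⟩ := memLp_Zv G hG KK
  have hs : Tendsto (fun n : ℕ => √(n : ℝ)) atTop atTop :=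
    Real.tendsto_sqrt_atTop.comp tendsto_natCast_atTop_atTop
  filter_upwards [hs.eventually_ge_atTop 1,
    hs.eventually_ge_atTop ((2 * (|C'| + C2) + 20 * (|C'| + C1)) / η)] with n s1 s2 a b hab φ hφ E _ hE
  have s3 : √(n : ℝ) ^ 2 = n := Real.sq_sqrt (Nat.cast_nonneg n)
  generalize √(n : ℝ) = s at s1 s2 s3
  have hE' : (iidLaw G).real E ≤ |C'| / s ^ 4 := hE.trans (by
    rw [← s3, ← pow_mul]
    exact div_le_div_of_nonneg_right (le_abs_self _) (by positivity))
  have h0 := ae_nonneg G hG.nonneg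
  have hZ := fun x => atail_int (k := 1) (h0.mono fun t ht => Zv_nonneg (K := KK) ht x)
    ⟨by exact_mod_cast (h2 x).1, (h2 x).2⟩ (show 0 < s ^ 2 by positivity) hφ E
  have hY := fun x => atail_int (h0.mono fun t ht => Yv_nonneg (K := KK) ht x) (h1 x)
    (show 0 < s by positivity) hφ E
  have z1 : s ^ 2 * (iidLaw G).real E + C2 / (s ^ 2) ^ 1 ≤ (|C'| + C2) / s :=
    calc _ ≤ s ^ 2 * (|C'| / s ^ 4) + C2 / (s ^ 2) ^ 1 := by gcongr
      _ = (|C'| + C2) / s ^ 2 := by field_simp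
      _ ≤ _ := by gcongr; nlinarith
  have y1 : s * (iidLaw G).real E + C1 / s ^ 3 ≤ (|C'| + C1) / s ^ 3 :=
    calc _ ≤ s * (|C'| / s ^ 4) + C1 / s ^ 3 := by gcongr
      _ = _ := by field_simp
  have hS : ∀ x v : V, IntegrableOn (fun t => ∑ k ∈ Finset.range (2 * (2 * n) + 1),
      Yv KK (φ t) (x + k • v)) E (iidLaw G) ∧ ∫ t in E, ∑ k ∈ Finset.range (2 * (2 * n) + 1),
        Yv KK (φ t) (x + k • v) ∂iidLaw G ≤ 5 * ((|C'| + C1) / s) := fun x v => by
    refine ⟨integrable_finsetSum _ fun k _ => (hY _).1, ?_⟩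
    rw [integral_finsetSum _ fun k _ => (hY _).1]
    refine (Finset.sum_le_card_nsmul _ _ _ fun k _ => (hY _).2.trans y1).trans ?_
    rw [Finset.card_range, nsmul_eq_mul]
    calc _ ≤ 5 * s ^ 2 * ((|C'| + C1) / s ^ 3) := by
          gcongr
          push_cast
          nlinarith
      _ = _ := by field_simp
  have hab' : nrm (b - a) ≤ 2 * (2 * n : ℕ) := by push_cast; linarith
  obtain ⟨v, w, -, -, v2, w2, v3, w3, -⟩ := T_le_ZY_L (fun _ => 0) (fun _ => le_rfl) (2 * n) a b hab'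
  have i1 := (hZ a).1.add (hZ b).1
  have i2 := (hS a v).1.add (hS (b.1, a.2) w).1
  refine (integral_mono_of_nonneg (ae_restrict_of_ae ((hφ.quasiMeasurePreserving.ae h0).mono
    fun t ht => T_nonneg ht)) (i1.add (i2.const_mul 2))
    (ae_restrict_of_ae ((hφ.quasiMeasurePreserving.ae h0).mono fun t ht => ?_))).trans ?_
  · obtain ⟨v', w', -, -, a2, b2, a3, b3, h3⟩ := T_le_ZY_L (φ t) ht (2 * n) a b hab'
    obtain rfl : v' = v := by grind
    obtain rfl : w' = w := by grind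
    exact h3
  · rw [integral_add' i1 (i2.const_mul 2), integral_add' (hZ a).1 (hZ b).1, integral_const_mul,
      integral_add' (hS a v).1 (hS (b.1, a.2) w).1]
    rw [div_le_iff₀' hη, ← div_le_iff₀ (by linarith), add_div, mul_div_assoc, mul_div_assoc] at s2
    linarith [(hZ a).2, (hZ b).2, (hS a v).2, (hS (b.1, a.2) w).2]

end Crest.Agent.R151.PA
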