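import Crest.Agent.R151.ALoc
import Crest.Agent.R151.ASurg
import Crest.Agent.R151.ATail

/-! R151/A: (Bad) for most rows the optimal repair of a single shear is local; negative parts of the increments. -/

set_option autoImplicit false
open MeasureTheory ProbabilityTheory Crest.ProbabilityR.FirstPassage Filter Topology
open scoped ENNReal

namespace Crest.Agent.R151.PA

variable {G : Measure ℝ} [IsProbabilityMeasure G] [NullSingletonClass G] (P : Setup G)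

open Classical in
/-- the bad events of row `i` that concern the geodesic of the sheared environment -/
noncomputable def piBad (σ : ℤ) (J0 : ℕ) (C2 : ℝ) (i : ℤ) (t : Env) (p : ℤ → V) (N : ℤ) : ℝ :=
  if ∃ b, IsExit p N i b ∧ (¬ Win p N 1 J0 b ∨ t ∈ LTs (-σ) (J0 + 1) C2 (p b)) then 1 else 0

theorem measurable_piBad {σ : ℤ} (hσ : σ = 1 ∨ σ = -1) (J0 : ℕ) (C2 : ℝ) (i : ℤ) (p : ℤ → V) (N : ℤ) :
    Measurable fun t => piBad σ J0 C2 i t p N := by
  refine Measurable.ite ?_ measurable_const measurable_const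
  rw [Set.ofPred_exists]
  refine MeasurableSet.iUnion fun b => ?_
  have h := (locEv_LTs (σ := -σ) (by omega) (J0 + 1) C2).meas (p b)
  exact (MeasurableSet.const _).inter ((MeasurableSet.const _).union h)

omit [IsProbabilityMeasure G] [NullSingletonClass G] in
theorem GB.mono_ae {a b : V} {Λ : ℕ} {F F' : Env → (ℤ → V) → ℤ → ℝ} {c c' : ℝ} (h : GB G a b Λ F c)
    (hF : ∀ᵐ t ∂iidLaw G, ∀ p N, IsG t a b p N → N ≤ Λ → F' t p N ≤ F t p N) (hc : c ≤ c') :
    GB G a b Λ F' c' := by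
  obtain ⟨g, h1, h2, h3, h4⟩ := h
  refine ⟨g, h1, h2, h3.trans hc, ?_⟩
  filter_upwards [h4, hF] with t a1 a2 p N b1 b2 using (a2 p N b1 b2).trans (a1 p N b1 b2)

theorem piBad_nonneg (σ : ℤ) (J0 : ℕ) (C2 : ℝ) (i : ℤ) (t : Env) (p : ℤ → V) (N : ℤ) :
    0 ≤ piBad σ J0 C2 i t p N := by
  unfold piBad
  split_ifs <;> norm_num

theorem ABad_exit {p : ℤ → V} {N : ℤ} (I : Finset ℤ) (Q : ℤ → Prop) :
    cnt I (fun i => ∃ b, IsExit p N i b ∧ Q b) ≤ cnt (Finset.Icc 0 N) Q :=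
  (cnt_exit_le I Q).trans (cnt_mono Finset.Ico_subset_Icc_self fun _ _ h => h)

omit [IsProbabilityMeasure G] [NullSingletonClass G] in
theorem ABad_cap {η : ℝ} (h : ℕ) : η / P.C0 * (P.cap h : ℕ) = η * SS h := by
  have : (0 : ℝ) < P.C0 := Nat.cast_pos.2 P.C0_ge
  unfold Setup.cap
  push_cast
  field_simp

omit [IsProbabilityMeasure G] [NullSingletonClass G] in
theorem ABad_cap_pos {h : ℕ} (hh : 1 ≤ h) : 1 ≤ P.cap h := (SS_pos hh).trans (P.SS_le_cap h)

theorem ABad_reg (hG : Hyp G) (σ : ℤ) : ∀ᵐ t ∂iidLaw G, Reg t ∧ ∀ i, Reg (sh (gap σ i) t) :=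
  (ae_reg G hG.1).and (ae_all_iff.2 fun i =>
    (measurePreserving_sh G (gap σ i)).quasiMeasurePreserving.ae (ae_reg G hG.1))

/-- `win_GB`, `LTs_GB`, `cnt_exit_le` -/
theorem piBad_GB {C1 : ℝ} (hC1 : 0 ≤ C1) {η : ℝ} (hη : 0 < η) : ∃ J0 : ℕ, ∃ C2 ≥ (0 : ℝ), ∀ᶠ h : ℕ in atTop,
    ∀ z, P.Adm C1 h z → ∀ σ : ℤ, (σ = 1 ∨ σ = -1) → ∀ I : Finset ℤ,
      GB G 0 z (P.cap h) (fun t p N => ∑ i ∈ I, piBad σ J0 C2 i t p N) (η * SS h) := by
  have hC0 : (0 : ℝ) < P.C0 := Nat.cast_pos.2 P.C0_ge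
  obtain ⟨J0, hJ⟩ := win_GB P hC1 1 (half_pos hη)
  obtain ⟨C2, hC2, hL⟩ := LTs_GB P.hyp (J0 + 1) (η := η / 2 / P.C0) (by positivity)
  refine ⟨J0, C2, hC2, ?_⟩
  filter_upwards [hJ, eventually_ge_atTop 1] with h h1 hh z hz σ hσ I
  refine ((h1 z hz).add (hL (-σ) (by omega) 0 z _ (ABad_cap_pos P hh))).mono P.hyp
    (fun t p N _ _ _ => ?_) (by rw [ABad_cap]; linarith)
  have e : ∑ i ∈ I, piBad σ J0 C2 i t p N = cnt I fun i => ∃ b, IsExit p N i b ∧
      (¬ Win p N 1 J0 b ∨ t ∈ LTs (-σ) (J0 + 1) C2 (p b)) := by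
    rw [cnt_eq_sum]
    rfl
  rw [e]
  exact (cnt_exit_le I _).trans (cnt_or_le.trans (add_le_add le_rfl
    (cnt_mono Finset.Ico_subset_Icc_self fun _ _ h => h)))

/-- the sheared geodesics are short: `Σ_i P(sh t ∈ Long) ≤ 2S · C / S²` -/
theorem sum_long_le {C1 : ℝ} {h : ℕ} (hh : 1 ≤ h) {z : V} (hz : P.Adm C1 h z) (σ : ℤ) (I : Finset ℤ)
    (hI : (I.card : ℝ) ≤ 2 * SS h) :
    ∑ i ∈ I, (iidLaw G).real (sh (gap σ i) ⁻¹' Long 0 z (P.cap h)) ≤ 2 * P.C := by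
  have hS := SS_pos hh
  have hS' : (1 : ℝ) ≤ SS h := by exact_mod_cast hS
  have hC : 0 < P.C := one_pos.trans_le P.C_ge
  have h1 := P.len (SS h) 0 z hS (by rw [sub_zero]; exact hz.2.1)
  refine (Finset.sum_le_card_nsmul _ _ (P.C / (SS h : ℝ) ^ 2) fun i _ => ?_).trans ?_
  · rw [(measurePreserving_sh G (gap σ i)).measureReal_preimage
      (measurableSet_long _ _ _).nullMeasurableSet]
    exact h1
  · rw [nsmul_eq_mul]
    refine (mul_le_mul_of_nonneg_right hI (by positivity)).trans ?_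
    rw [← mul_div_assoc, div_le_iff₀ (by positivity)]
    nlinarith [mul_le_mul_of_nonneg_left hS' (by positivity : 0 ≤ 2 * P.C * SS h)]

omit [IsProbabilityMeasure G] [NullSingletonClass G] in
theorem ABad_card {C1 : ℝ} {h : ℕ} {z : V} (hz : P.Adm C1 h z) {a b : ℤ} (ha : 0 ≤ a) (hb : b ≤ z.2) :
    ((Finset.Ico a b).card : ℝ) ≤ 2 * SS h := by
  have h1 := P.adm_cap hz
  have h2 : (Finset.Ico a b).card ≤ 2 * SS h := by
    rw [Int.card_Ico]
    omega
  exact_mod_cast h2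

/-- Order of choices: `J0, C2` (`piBad_GB`), `J1` (`win_GB`, `r = J0 + 3KK + 2`), `C1'` (`LTs_GB`, radius `J1 + 1`), `M` (`loc_GB` with `C1' + C2`, `J1`), `C3` (`LT_GB`, radius
`J1 + M`), `R` (`KL_GB`, `R ≥ J1 + M + J0 + 2`).  Almost surely `t` and all `sh (gap σ i) t` are regular; for a row `i` let `π` be the geodesic of the sheared environment
(`exists_isG`), `b, b'` the exits (`exists_exit`); `local_good` says `¬ GoodD` forces one of the events.  Those about `π` are bounded by `g i t + 1{sh t ∈ Long}` with `g`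
from `GB.transfer` (endpoint `z + (σ,0)`, `φ i = sh (gap σ i)`), added with `GB.of_fun`. -/
theorem bad_GB {C1 : ℝ} (hC1 : 0 ≤ C1) {η : ℝ} (hη : 0 < η) : ∃ R : ℕ, ∀ᶠ s : ℕ in atTop, ∀ (z : V) (σ : ℤ),
    (σ = 1 ∨ σ = -1) → P.Adm C1 (2 ^ s) z → P.Adm C1 (2 ^ s) (z + (σ, 0)) → GB G 0 z (P.cap (2 ^ s))
      (fun t p N => cnt (Finset.Ico 0 z.2) fun i => ¬ GoodD R σ i t p N (Dv σ i z t)) (η * SS (2 ^ s)) := by
  classical
  have hG := P.hyp
  have hC0 : (0 : ℝ) < P.C0 := Nat.cast_pos.2 P.C0_ge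
  obtain ⟨η', hη', rfl⟩ : ∃ η' > (0 : ℝ), η = 7 * η' := ⟨η / 7, by positivity, by ring⟩
  obtain ⟨J0, C2, hC2, hpi⟩ := piBad_GB P hC1 hη'
  obtain ⟨J1, hwin⟩ := win_GB P hC1 (J0 + 3 * KK + 2) hη'
  obtain ⟨C1', hC1', hLs⟩ := LTs_GB hG (J1 + 1) (η := η' / P.C0) (by positivity)
  obtain ⟨M, hM, hloc⟩ := loc_GB P hC1 (C := C1' + C2) (by positivity) J1 hη'
  obtain ⟨C3, -, hLT⟩ := LT_GB hG (J1 + M) (η := η' / P.C0) (by positivity)
  obtain ⟨R, hKL, hR⟩ := ((KL_GB hG (J1 + M) (C3 + C1') (η := η' / P.C0) (by positivity)).and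
    (eventually_ge_atTop (J1 + M + J0 + 2))).exists
  refine ⟨R, ?_⟩
  have hbig : ∀ᶠ h : ℕ in atTop, R ≤ SS h ∧ 2 * P.C / η' ≤ SS h :=
    (tendsto_SS.eventually_ge_atTop R).and
      ((tendsto_natCast_atTop_atTop.comp tendsto_SS).eventually_ge_atTop (2 * P.C / η'))
  filter_upwards [tendsto_two_pow.eventually hpi, tendsto_two_pow.eventually hwin, hloc,
    tendsto_two_pow.eventually hbig] with s h1 h2 h3 h4 z σ hσ hz hz'
  generalize (2 ^ s : ℕ) = h at *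
  have hh : 1 ≤ h := by
    rcases Nat.eq_zero_or_pos h with rfl | h0
    · have := h4.1
      simp [SS] at this
      omega
    · exact h0
  have hcap := ABad_cap_pos P hh
  obtain ⟨g, g1, g2, g3, g4⟩ := GB.transfer hG (Finset.Ico 0 z.2) (fun i p N => measurable_piBad hσ J0 C2 i p N)
    (fun i t p N _ => piBad_nonneg σ J0 C2 i t p N) (h1 _ hz' σ hσ _) (fun i => sh (gap σ i))
    (fun i => measurePreserving_sh G _)
  have mL : ∀ i, MeasurableSet (sh (gap σ i) ⁻¹' Long 0 (z + (σ, 0)) (P.cap h)) := fun i =>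
    measurable_sh _ (measurableSet_long _ _ _)
  have iL : ∀ i, Integrable ((sh (gap σ i) ⁻¹' Long 0 (z + (σ, 0)) (P.cap h)).indicator (1 : Env → ℝ))
      (iidLaw G) := fun i => (integrable_const 1).indicator (mL i)
  have nL : ∀ i t, 0 ≤ (sh (gap σ i) ⁻¹' Long 0 (z + (σ, 0)) (P.cap h)).indicator (1 : Env → ℝ) t :=
    fun i t => Set.indicator_nonneg (fun _ _ => zero_le_one) t
  have hf := GB.of_fun (a := 0) (b := z) (Λ := P.cap h) (g := fun t => ∑ i ∈ Finset.Ico 0 z.2,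
    (g i t + (sh (gap σ i) ⁻¹' Long 0 (z + (σ, 0)) (P.cap h)).indicator 1 t))
    (integrable_finsetSum _ fun i hi => (g1 i hi).add (iL i))
    (ae_of_all _ fun t => Finset.sum_nonneg fun i _ => add_nonneg (g2 i t) (nL i t))
  rw [integral_finsetSum (f := fun i t => g i t +
      (sh (gap σ i) ⁻¹' Long 0 (z + (σ, 0)) (P.cap h)).indicator 1 t) _ fun i hi => (g1 i hi).add (iL i),
    Finset.sum_congr rfl fun i hi => integral_add (g1 i hi) (iL i), Finset.sum_add_distrib] at hf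
  simp only [integral_indicator_one (mL _)] at hf
  have hsl := sum_long_le P hh hz' σ _ (ABad_card P hz (a := 0) le_rfl le_rfl)
  have h5 := h4.2
  rw [div_le_iff₀ hη'] at h5
  refine ((((((h2 z hz).add (hLs σ hσ 0 z _ hcap)).add (hLT 0 z _ hcap)).add
    (hKL 0 z _ (h4.1.trans (P.SS_le_cap h)))).add (h3 z hz)).add hf).mono_ae ?_
    (by rw [ABad_cap]; linarith)
  filter_upwards [ABad_reg hG σ, (ae_ball_iff (Finset.Ico 0 z.2).countable_toSet).2 g4] with t ht hg p N hp hN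
  have k1 := cnt_exit_le (p := p) (N := N) (Finset.Ico 0 z.2) fun b => ¬ Win p N (J0 + 3 * KK + 2) J1 b
  have k2 := ABad_exit (p := p) (N := N) (Finset.Ico 0 z.2) fun b => t ∈ LTs σ (J1 + 1) C1' (p b)
  have k3 := ABad_exit (p := p) (N := N) (Finset.Ico 0 z.2) fun b => t ∈ LT (J1 + M) C3 (p b)
  have k4 := ABad_exit (p := p) (N := N) (Finset.Ico 0 z.2) fun b => t ∈ KL (J1 + M) (C3 + C1') R (p b)
  refine le_trans ?_ (add_le_add (add_le_add (add_le_add (add_le_add (add_le_add k1 k2) k3) k4) le_rfl) le_rfl)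
  simp only [cnt_eq_sum, ← Finset.sum_add_distrib]
  refine Finset.sum_le_sum fun i hi => ?_
  have hi' := Finset.mem_Ico.1 hi
  have n1 := g2 i t
  have n2 := nL i t
  by_cases hgood : GoodD R σ i t p N (Dv σ i z t)
  · rw [if_neg (not_not.2 hgood)]
    positivity
  rw [if_pos hgood]
  obtain ⟨b, hb⟩ := exists_exit (i := i) hp.geo.1 (by rw [hp.start]; exact hi'.1) (by rw [hp.stop]; exact hi'.2)
  obtain ⟨π, N', hπ⟩ := exists_isG (ht.2 i) 0 (z + (σ, 0))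
  obtain ⟨b', hb'⟩ := exists_exit (i := i) hπ.geo.1 (by rw [hπ.start]; exact hi'.1)
    (by rw [hπ.stop]; simpa using hi'.2)
  by_contra hcon
  rw [not_le] at hcon
  have one : ∀ (Q : Prop) [Decidable Q], (0 : ℝ) ≤ if Q then 1 else 0 := fun Q _ => by split_ifs <;> norm_num
  have lt1 : ∀ (Q : Prop) [Decidable Q], (if Q then (1 : ℝ) else 0) < 1 → ¬ Q := fun Q _ h hQ => by
    rw [if_pos hQ] at h
    exact lt_irrefl _ h
  have o1 := one (∃ b, IsExit p N i b ∧ ¬ Win p N (J0 + 3 * KK + 2) J1 b)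
  have o2 := one (∃ b, IsExit p N i b ∧ t ∈ LTs σ (J1 + 1) C1' (p b))
  have o3 := one (∃ b, IsExit p N i b ∧ t ∈ LT (J1 + M) C3 (p b))
  have o4 := one (∃ b, IsExit p N i b ∧ t ∈ KL (J1 + M) (C3 + C1') R (p b))
  have o5 := one (∃ b, IsExit p N i b ∧ Near t p N (C1' + C2) M J1 b)
  have l1 := lt1 _ (lt_of_le_of_lt (by linarith) hcon : (if ∃ b, IsExit p N i b ∧
    ¬ Win p N (J0 + 3 * KK + 2) J1 b then (1 : ℝ) else 0) < 1)
  have l2 := lt1 _ (lt_of_le_of_lt (by linarith) hcon : (if ∃ b, IsExit p N i b ∧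
    t ∈ LTs σ (J1 + 1) C1' (p b) then (1 : ℝ) else 0) < 1)
  have l3 := lt1 _ (lt_of_le_of_lt (by linarith) hcon : (if ∃ b, IsExit p N i b ∧
    t ∈ LT (J1 + M) C3 (p b) then (1 : ℝ) else 0) < 1)
  have l4 := lt1 _ (lt_of_le_of_lt (by linarith) hcon : (if ∃ b, IsExit p N i b ∧
    t ∈ KL (J1 + M) (C3 + C1') R (p b) then (1 : ℝ) else 0) < 1)
  have l5 := lt1 _ (lt_of_le_of_lt (by linarith) hcon : (if ∃ b, IsExit p N i b ∧
    Near t p N (C1' + C2) M J1 b then (1 : ℝ) else 0) < 1)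
  have hN' : N' ≤ P.cap h := by
    by_contra hl
    rw [Set.indicator_of_mem (show t ∈ sh (gap σ i) ⁻¹' Long 0 (z + (σ, 0)) (P.cap h) from
      ⟨π, N', hπ, not_le.1 hl⟩), Pi.one_apply] at hcon
    linarith
  have l6 := lt1 _ (lt_of_le_of_lt (hg i hi π N' hπ hN') (by linarith))
  push Not at l1 l2 l3 l4 l5 l6
  exact hgood (local_good ht.1.nonneg hσ hp hπ hi' hb hb' hM hR (l1 b hb) (l6 b' hb').1 (l2 b hb) (l6 b' hb').2
    (l3 b hb) (l4 b hb) (l5 b hb))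

/-- `tr M (-D_i) ≤ g i t + T t 0 z · 1{sh t ∈ Long}` almost surely (`neg_Dv_le`, `tr_mono`, `-D_i ≤ T t 0 z`), `g` from `GB.transfer` applied to `ui_GB` for the endpoint
`z + (σ,0)` and the sign `-σ`; `T_on_small` with `φ = id`. -/
theorem negD_le {C1 : ℝ} (hC1 : 0 ≤ C1) {η : ℝ} (hη : 0 < η) : ∃ M > (0 : ℝ), ∀ᶠ h : ℕ in atTop, ∀ (z : V) (σ : ℤ),
    (σ = 1 ∨ σ = -1) → P.Adm C1 h z → P.Adm C1 h (z + (σ, 0)) →
      (∀ i, Integrable (fun t => tr M (-Dv σ i z t)) (iidLaw G)) ∧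
      ∑ i ∈ Finset.Ico (KK : ℤ) (z.2 - KK), ∫ t, tr M (-Dv σ i z t) ∂iidLaw G ≤ η * SS h := by
  have hG := P.hyp
  obtain ⟨M, hM, hui⟩ := ui_GB P hC1 (half_pos hη)
  refine ⟨M, hM, ?_⟩
  filter_upwards [hui, tendsto_SS.eventually (T_on_small hG P.C (η := η / 4) (by positivity)),
    eventually_ge_atTop 1] with h h1 h2 hh z σ hσ hz hz'
  have hint : ∀ i, Integrable (fun t => tr M (-Dv σ i z t)) (iidLaw G) := fun i => by
    refine (integrable_Dv hG σ i z).abs.mono' ((measurable_tr M).comp (measurable_Dv σ i z).neg).aestronglyMeasurable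
      (ae_of_all _ fun t => ?_)
    rw [Real.norm_eq_abs]
    unfold tr
    split_ifs
    · rw [abs_neg]
    · rw [abs_zero]; exact abs_nonneg _
  refine ⟨hint, ?_⟩
  obtain ⟨g, g1, g2, g3, g4⟩ := GB.transfer hG (Finset.Ico (KK : ℤ) (z.2 - KK))
    (fun i p N => (measurable_tr M).comp (measurable_Sv (-σ) i p N))
    (fun i t p N _ => tr_nonneg hM.le) (h1 _ hz' (-σ) (by omega) _) (fun i => sh (gap σ i))
    (fun i => measurePreserving_sh G _)
  have mL : ∀ i, MeasurableSet (sh (gap σ i) ⁻¹' Long 0 (z + (σ, 0)) (P.cap h)) := fun i =>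
    measurable_sh _ (measurableSet_long _ _ _)
  have hS := SS_pos hh
  have key : ∀ i ∈ Finset.Ico (KK : ℤ) (z.2 - KK), ∫ t, tr M (-Dv σ i z t) ∂iidLaw G ≤
      ∫ t, g i t ∂iidLaw G + η / 4 := fun i hi => by
    have hi' := Finset.mem_Ico.1 hi
    have a1 := h2 0 z (by rw [sub_zero]; exact hz.2.1.trans (by omega)) id (MeasurePreserving.id _) _ (mL i) (by
      rw [(measurePreserving_sh G (gap σ i)).measureReal_preimage (measurableSet_long _ _ _).nullMeasurableSet]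
      exact P.len (SS h) 0 _ hS (by rw [sub_zero]; exact hz'.2.1))
    have iT := (integrable_T G hG 0 z).indicator (mL i)
    rw [← integral_indicator (mL i)] at a1
    refine le_trans ?_ (add_le_add le_rfl a1)
    refine (integral_mono_ae (hint i) ((g1 i hi).add iT) ?_).trans_eq (integral_add (g1 i hi) iT)
    filter_upwards [ABad_reg hG σ, g4 i hi] with t ht hg
    obtain ⟨π, N', hπ⟩ := exists_isG (ht.2 i) 0 (z + (σ, 0))
    have t0 : 0 ≤ T t 0 z := T_nonneg ht.1.nonneg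
    rw [Pi.add_apply]
    by_cases hl : N' ≤ P.cap h
    · exact ((tr_mono hM.le (neg_Dv_le ht.1.nonneg hσ ⟨hi'.1, by omega⟩ hπ)).trans (hg π N' hπ hl)).trans
        (le_add_of_nonneg_right (Set.indicator_apply_nonneg fun _ => t0))
    · rw [Set.indicator_of_mem (show t ∈ sh (gap σ i) ⁻¹' Long 0 (z + (σ, 0)) (P.cap h) from
        ⟨π, N', hπ, not_le.1 hl⟩)]
      have t1 : 0 ≤ T (sh (gap σ i) t) 0 (z + (σ, 0)) := T_nonneg (ht.2 i).nonneg
      have := g2 i t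
      unfold tr Dv
      split_ifs <;> linarith
  refine (Finset.sum_le_sum key).trans ?_
  rw [Finset.sum_add_distrib, Finset.sum_const, nsmul_eq_mul]
  have := mul_le_mul_of_nonneg_right (ABad_card P hz (a := KK) (b := z.2 - KK) (by omega) (by omega))
    (by positivity : 0 ≤ η / 4)
  linarith

end Crest.Agent.R151.PA
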