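import Crest.Agent.R151.ADefs

/-! R151/A: elementary API (counting, scales, linear functionals, normalised geodesics, exits, cells). Deterministic. -/

set_option autoImplicit false
set_option linter.unusedSimpArgs false
open MeasureTheory ProbabilityTheory Crest.ProbabilityR.FirstPassage Filter Topology
open scoped ENNReal

namespace Crest.Agent.R151.PA

/-! ### counting -/
section cnt
variable {I I' : Finset ℤ} {Q Q' : ℤ → Prop}
theorem cnt_nonneg : 0 ≤ cnt I Q := by
  exact Nat.cast_nonneg _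
theorem cnt_le_card : cnt I Q ≤ I.card := by
  classical
  exact Nat.cast_le.2 (Finset.card_filter_le _ _)
theorem cnt_mono (hI : I ⊆ I') (h : ∀ k ∈ I, Q k → Q' k) : cnt I Q ≤ cnt I' Q' := by
  classical
  exact Nat.cast_le.2 (Finset.card_le_card fun k hk => Finset.mem_filter.2
    ⟨hI (Finset.mem_filter.1 hk).1, h k (Finset.mem_filter.1 hk).1 (Finset.mem_filter.1 hk).2⟩)
theorem cnt_congr (h : ∀ k ∈ I, Q k ↔ Q' k) : cnt I Q = cnt I Q' := by
  exact le_antisymm (cnt_mono subset_rfl fun k hk => (h k hk).1) (cnt_mono subset_rfl fun k hk => (h k hk).2)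
theorem cnt_or_le : cnt I (fun k => Q k ∨ Q' k) ≤ cnt I Q + cnt I Q' := by
  classical
  unfold cnt
  rw [← Nat.cast_add]
  refine Nat.cast_le.2 ((Finset.card_le_card fun k hk => ?_).trans (Finset.card_union_le _ _))
  simp only [Finset.mem_filter, Finset.mem_union] at hk ⊢
  tauto
open Classical in
theorem cnt_eq_sum : cnt I Q = ∑ k ∈ I, if Q k then (1 : ℝ) else 0 := by
  rw [Finset.sum_boole, cnt]
theorem cnt_eq_zero (h : ∀ k ∈ I, ¬ Q k) : cnt I Q = 0 := by
  classical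
  rw [cnt, Finset.filter_false_of_mem h, Finset.card_empty, Nat.cast_zero]
theorem cnt_add_not : cnt I Q + cnt I (fun k => ¬ Q k) = I.card := by
  classical
  rw [cnt_eq_sum, cnt_eq_sum, ← Finset.sum_add_distrib, Finset.card_eq_sum_ones, Nat.cast_sum]
  refine Finset.sum_congr rfl fun k _ => ?_
  by_cases h : Q k <;> simp [h]
theorem cnt_exists_le {ι : Type} (A : Finset ι) (R : ι → ℤ → Prop) :
    cnt I (fun k => ∃ a ∈ A, R a k) ≤ ∑ a ∈ A, cnt I (R a) := by
  classical
  unfold cnt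
  rw [← Nat.cast_sum]
  refine Nat.cast_le.2 ((Finset.card_le_card fun k hk => ?_).trans Finset.card_biUnion_le)
  simp only [Finset.mem_filter, Finset.mem_biUnion] at hk ⊢
  obtain ⟨h1, a, h2, h3⟩ := hk
  exact ⟨a, h2, h1, h3⟩
/-- an injective assignment -/
theorem cnt_le_of_inj (R : ℤ → ℤ → Prop) (h : ∀ k ∈ I, Q k → ∃ l ∈ I', Q' l ∧ R k l)
    (hu : ∀ k k' l, R k l → R k' l → k = k') : cnt I Q ≤ cnt I' Q' := by
  classical
  refine Nat.cast_le.2 (Finset.card_le_card_of_forall_subsingleton R (fun k hk => ?_)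
    fun l _ k hk k' hk' => hu k k' l hk.2 hk'.2)
  obtain ⟨l, h1, h2, h3⟩ := h k (Finset.mem_filter.1 hk).1 (Finset.mem_filter.1 hk).2
  exact ⟨l, Finset.mem_filter.2 ⟨h1, h2⟩, h3⟩
/-- fibres of size at most `m` -/
theorem cnt_le_mul (f : ℤ → ℤ) (m : ℝ) (h : ∀ k ∈ I, Q k → f k ∈ I' ∧ Q' (f k))
    (hm : ∀ l ∈ I', cnt I (fun k => f k = l) ≤ m) : cnt I Q ≤ m * cnt I' Q' := by
  classical
  have h1 : cnt I Q ≤ cnt I fun k => ∃ l ∈ I'.filter Q', f k = l :=
    cnt_mono subset_rfl fun k hk hq => ⟨f k, Finset.mem_filter.2 (h k hk hq), rfl⟩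
  refine h1.trans ((cnt_exists_le _ fun l k => f k = l).trans
    ((Finset.sum_le_card_nsmul _ _ m fun l hl => hm l (Finset.mem_filter.1 hl).1).trans ?_))
  rw [nsmul_eq_mul, mul_comm, cnt]
theorem cnt_near (J : ℕ) : cnt I (fun k => ∃ l ∈ I', |l - k| ≤ J ∧ Q l) ≤ (2 * J + 1) * cnt I' Q := by
  classical
  have h1 : cnt I (fun k => ∃ l ∈ I', |l - k| ≤ J ∧ Q l) ≤
      cnt I fun k => ∃ l ∈ I'.filter Q, |l - k| ≤ J :=
    cnt_mono subset_rfl fun k _ ⟨l, a, b, c⟩ => ⟨l, Finset.mem_filter.2 ⟨a, c⟩, b⟩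
  refine h1.trans ((cnt_exists_le _ fun l k => |l - k| ≤ J).trans
    ((Finset.sum_le_card_nsmul _ _ (2 * J + 1 : ℝ) fun l _ => ?_).trans ?_))
  · have h2 : (I.filter fun k => |l - k| ≤ J).card ≤ (Finset.Icc (l - J) (l + J)).card :=
      Finset.card_le_card fun k hk => by
        have := abs_le.1 (Finset.mem_filter.1 hk).2
        exact Finset.mem_Icc.2 ⟨by omega, by omega⟩
    rw [Int.card_Icc, show l + J + 1 - (l - J) = ((2 * J + 1 : ℕ) : ℤ) by push_cast; ring,
      Int.toNat_natCast] at h2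
    unfold cnt
    have h3 : (((I.filter fun k => |l - k| ≤ J).card : ℕ) : ℝ) ≤ 2 * J + 1 := by exact_mod_cast h2
    exact le_of_eq_of_le (by congr!) h3
  · rw [nsmul_eq_mul, mul_comm, cnt]
theorem measurable_cnt (I : Finset ℤ) (R : Env → ℤ → Prop) (h : ∀ k, MeasurableSet {t | R t k}) :
    Measurable fun t => cnt I (R t) := by
  simp only [cnt_eq_sum]
  exact Finset.measurable_sum _ fun k _ => Measurable.ite (h k) measurable_const measurable_const
end cnt

theorem tr_nonneg {M x : ℝ} (hM : 0 ≤ M) : 0 ≤ tr M x := by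
  unfold tr
  split_ifs <;> linarith
theorem tr_mono {M x y : ℝ} (hM : 0 ≤ M) (h : x ≤ y) : tr M x ≤ tr M y := by
  unfold tr
  split_ifs <;> linarith
theorem tr_anti {M M' x : ℝ} (hM : 0 ≤ M) (h : M ≤ M') : tr M' x ≤ tr M x := by
  unfold tr
  split_ifs <;> linarith
theorem le_add_tr {M x : ℝ} (hM : 0 ≤ M) : x ≤ M + tr M x := by
  unfold tr
  split_ifs <;> linarith
theorem measurable_tr (M : ℝ) : Measurable (tr M) := by
  exact Measurable.ite (measurableSet_lt measurable_const measurable_id) measurable_id measurable_const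

/-! ### linear functionals and scales -/
namespace Setup
variable {G : Measure ℝ} (P : Setup G)
theorem lat_add (u v : V) : P.lat (u + v) = P.lat u + P.lat v := by
  simp only [lat, latv, Prod.fst_add, Prod.snd_add, Prod.fst_sub, Prod.snd_sub, Prod.fst_neg,
    Prod.snd_neg]
  push_cast
  ring
theorem lat_sub (u v : V) : P.lat (u - v) = P.lat u - P.lat v := by
  simp only [lat, latv, Prod.fst_add, Prod.snd_add, Prod.fst_sub, Prod.snd_sub, Prod.fst_neg,
    Prod.snd_neg]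
  push_cast
  ring
theorem lat_neg (u : V) : P.lat (-u) = -P.lat u := by
  simp only [lat, latv, Prod.fst_add, Prod.snd_add, Prod.fst_sub, Prod.snd_sub, Prod.fst_neg,
    Prod.snd_neg]
  push_cast
  ring
theorem lat_zero : P.lat 0 = 0 := by
  simp [lat, latv]
theorem lat_row (a : ℤ) : P.lat (a, 0) = a := by
  simp [lat, latv]
theorem lat_same_row {u v : V} (h : u.2 = v.2) : P.lat (u - v) = (u.1 - v.1 : ℤ) := by
  simp [lat, latv, h]
theorem abas_mul (y : ℝ) : |P.ξ * y| ≤ |y| := by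
  rw [abs_mul]
  exact mul_le_of_le_one_left (abs_nonneg _) P.ξ_le
omit P in
theorem abas_nrm (u : V) : |(u.1 : ℝ)| ≤ nrm u ∧ |(u.2 : ℝ)| ≤ nrm u :=
  ⟨by exact_mod_cast le_max_left _ _, by exact_mod_cast le_max_right _ _⟩
theorem abs_lat_le (u : V) : |P.lat u| ≤ 2 * nrm u := by
  have h1 := abs_sub (u.1 : ℝ) (P.ξ * u.2)
  have h2 := P.abas_mul u.2
  have h3 := abas_nrm u
  unfold lat latv
  linarith [h3.1, h3.2]
theorem abs_fst_le (u : V) : |(u.1 : ℝ)| ≤ |P.lat u| + |(u.2 : ℝ)| := by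
  have h1 := abs_add_le ((u.1 : ℝ) - P.ξ * u.2) (P.ξ * u.2)
  have h2 := P.abas_mul u.2
  rw [sub_add_cancel] at h1
  unfold lat latv
  linarith
theorem abs_lat_adj {u v : V} (h : Adj u v) : |P.lat (v - u)| ≤ 1 := by
  have h1 := abs_sub ((v - u).1 : ℝ) (P.ξ * (v - u).2)
  have h2 := P.abas_mul (v - u).2
  have h3 : |(v - u).1| + |(v - u).2| ≤ 1 := by
    rw [adj_iff] at h
    simp only [Prod.fst_sub, Prod.snd_sub, abs_eq_max_neg]
    omega
  have h4 : |((v - u).1 : ℝ)| + |((v - u).2 : ℝ)| ≤ 1 := by exact_mod_cast h3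
  unfold lat latv
  linarith
theorem abs_lat_path {S : Set V} {q : ℤ → V} {i j : ℤ} (h : PathIn S q i j) :
    |P.lat (q j - q i)| ≤ (j - i : ℤ) := by
  have key : ∀ l, i ≤ l → l ≤ j → |P.lat (q l - q i)| ≤ (l - i : ℤ) := by
    intro l hl
    induction l, hl using Int.leInduction with
    | base => simp [P.lat_zero]
    | succ l hl ih =>
      intro hj
      have h1 := ih (by omega)
      have h2 := P.abs_lat_adj (h.2.2 l hl (by omega))
      have h3 := abs_add_le (P.lat (q (l + 1) - q l)) (P.lat (q l - q i))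
      rw [← P.lat_add, sub_add_sub_cancel] at h3
      push_cast at h1 ⊢
      linarith
  exact key j h.1 le_rfl
theorem rh_add (u v : V) : P.rh (u + v) = P.rh u + P.rh v := by
  simp only [rh, rhv, latv, Prod.fst_add, Prod.snd_add, Prod.fst_sub, Prod.snd_sub, Prod.fst_neg,
    Prod.snd_neg]
  push_cast
  ring
theorem rh_sub (u v : V) : P.rh (u - v) = P.rh u - P.rh v := by
  simp only [rh, rhv, latv, Prod.fst_add, Prod.snd_add, Prod.fst_sub, Prod.snd_sub, Prod.fst_neg,
    Prod.snd_neg]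
  push_cast
  ring
theorem rh_neg (u : V) : P.rh (-u) = -P.rh u := by
  simp only [rh, rhv, latv, Prod.fst_add, Prod.snd_add, Prod.fst_sub, Prod.snd_sub, Prod.fst_neg,
    Prod.snd_neg]
  push_cast
  ring
theorem rh_zero : P.rh 0 = 0 := by
  simp [rh, rhv, latv]
theorem rh_eq (u : V) : P.rh u = P.μv * u.2 + P.ρ1 * P.lat u := by
  rfl
theorem abs_rh_le (u : V) : |P.rh u| ≤ 3 * P.C * nrm u := by
  have h1 := abs_add_le (P.μv * u.2) (P.ρ1 * P.lat u)
  have hC : 0 ≤ P.C := zero_le_one.trans P.C_ge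
  have h2 : |P.μv * u.2| ≤ P.C * nrm u := by
    rw [abs_mul, abs_of_pos P.μv_pos]
    exact mul_le_mul P.μv_le (abas_nrm u).2 (abs_nonneg _) hC
  have h3 : |P.ρ1 * P.lat u| ≤ P.C * (2 * nrm u) := by
    rw [abs_mul]
    exact mul_le_mul P.ρ1_le (P.abs_lat_le u) (abs_nonneg _) hC
  rw [rh_eq]
  linarith
theorem rh_lat_le (u : V) : P.rh u + P.c * |P.lat u| ≤ mT G u := by
  exact P.lat_le u
theorem rh_back_le (u : V) : P.rh u - P.c * u.2 ≤ mT G u := by
  exact P.back_le u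
theorem rh_le (u : V) : P.rh u ≤ mT G u := by
  linarith [P.rh_lat_le u, mul_nonneg P.c_pos.le (abs_nonneg (P.lat u))]
theorem exc_add (t : Env) (p : ℤ → V) {u v w : ℤ} (h1 : u ≤ v) (h2 : v ≤ w) :
    P.exc t p u w = P.exc t p u v + P.exc t p v w := by
  simp only [exc, P.rh_sub, cost_add h1 h2]
  ring
theorem exc_self (t : Env) (p : ℤ → V) (u : ℤ) : P.exc t p u u = 0 := by
  rw [exc, cost_self, sub_self, P.rh_zero, sub_self]
theorem m0_ge : 12 * P.C / P.θ ≤ P.m0 := by
  exact Nat.le_ceil _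
theorem m0_ge_twelve : 12 ≤ P.m0 := by
  have h1 : (12 : ℝ) ≤ 12 * P.C / P.θ := by
    rw [le_div_iff₀ P.θ_pos]
    linarith [P.θ_le, P.C_ge]
  exact_mod_cast h1.trans P.m0_ge
theorem r1_ge : 2 * P.C * (P.r0 + 1) ≤ P.θ * ((P.r1 : ℝ) - P.r0 - 1) ∧ P.r0 + 1 ≤ P.r1 := by
  refine ⟨?_, Nat.le_add_right _ _⟩
  have h1 := Nat.le_ceil (2 * P.C * (P.r0 + 1) / P.θ)
  rw [div_le_iff₀ P.θ_pos] at h1
  unfold r1
  push_cast
  linarith
theorem eventually_big : ∀ᶠ h : ℕ in atTop, P.Big h := by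
  filter_upwards [eventually_ge_atTop (2 ^ 20),
    (tendsto_natCast_atTop_atTop (R := ℝ)).eventually_ge_atTop (120 * P.C / P.c),
    (tendsto_natCast_atTop_atTop (R := ℝ)).eventually_ge_atTop (2 * P.C / P.θ)] with h a b c
  exact ⟨a, b, c⟩
theorem Big.mono {h h' : ℕ} (hb : P.Big h) (hh : h ≤ h') : P.Big h' := by
  exact ⟨hb.1.trans hh, hb.2.1.trans (Nat.cast_le.2 hh), hb.2.2.trans (Nat.cast_le.2 hh)⟩
theorem SS_le_cap (h : ℕ) : SS h ≤ P.cap h := by
  exact Nat.le_mul_of_pos_left _ P.C0_ge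
theorem abas_m0 : (0 : ℝ) < P.m0 := Nat.cast_pos.2 (by linarith [P.m0_ge_twelve])
theorem lam_pos {h : ℕ} (hb : P.Big h) : 0 < P.lam h := by
  have h1 : 0 < h := lt_of_lt_of_le (by norm_num) hb.1
  have h2 : (0 : ℝ) < gg h := Nat.cast_pos.2 (pow_pos h1 _)
  have := P.abas_m0
  have := P.c_pos
  unfold lam
  positivity
theorem lam1_nonneg (h : ℕ) : 0 ≤ P.lam1 h := by
  have := P.C_ge
  unfold lam1
  positivity
/-- `3 lam1 ≤ c g / 2` -/
theorem lam1_le {h : ℕ} (hb : P.Big h) : 6 * P.lam1 h ≤ P.c * gg h := by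
  have h1 := hb.2.1
  rw [div_le_iff₀ P.c_pos] at h1
  have h2 := mul_le_mul_of_nonneg_right h1 (by positivity : (0 : ℝ) ≤ (h : ℝ) ^ 63)
  unfold lam1 la gg
  push_cast
  linarith
theorem lam_mul_m0 {h : ℕ} : 4 * P.m0 * P.lam h = P.c * gg h := by
  have := P.abas_m0
  unfold lam
  field_simp
theorem lam_progress {h : ℕ} (hb : P.Big h) : 3 / P.c * P.lam h ≤ P.θ / P.C * SS h / 2 := by
  have h0 := P.abas_m0
  have hc := P.c_pos
  have hθ := P.θ_pos
  have hC : 0 < P.C := one_pos.trans_le P.C_ge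
  have h1 : 1 ≤ h := le_trans (by norm_num) hb.1
  have h2 : (gg h : ℝ) ≤ SS h := Nat.cast_le.2 (Nat.pow_le_pow_right h1 (by norm_num))
  have h3 := P.m0_ge
  rw [div_le_iff₀ hθ] at h3
  have h4 : (0 : ℝ) ≤ gg h := Nat.cast_nonneg _
  have e1 : 3 / P.c * P.lam h = 3 * gg h / (4 * P.m0) := by
    unfold lam
    field_simp
  have e2 : P.θ / P.C * SS h / 2 = P.θ * SS h / (2 * P.C) := by field_simp
  rw [e1, e2, div_le_div_iff₀ (by positivity) (by positivity)]
  nlinarith [mul_le_mul h3 h2 h4 (by positivity), mul_nonneg hC.le h4]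
theorem adm_cap {C1 : ℝ} {h : ℕ} {z : V} (hz : P.Adm C1 h z) : z.2 ≤ 2 * SS h := by
  exact ((le_abs_self _).trans (le_max_right _ _)).trans hz.2.1
end Setup

theorem SS_eq (h : ℕ) : SS h = h ^ 6 * gg h := by
  simp only [SS, gg, la, nt]
  ring
theorem gg_eq (h : ℕ) : gg h = h * la h := by
  simp only [SS, gg, la, nt]
  ring
theorem la_eq (h : ℕ) : la h = h * nt h := by
  simp only [SS, gg, la, nt]
  ring
theorem gg_two_mul (h : ℕ) : gg (2 * h) = 2 ^ 64 * gg h := by
  simp only [SS, gg, la, nt]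
  ring
theorem gg_le_SS {h : ℕ} (hh : 2 ^ 20 ≤ h) : 2 ^ 70 * gg h ≤ SS h := by
  rw [SS_eq]
  refine Nat.mul_le_mul_right _ (le_trans ?_ (Nat.pow_le_pow_left hh 6))
  norm_num
theorem KK_le_nt {h : ℕ} (hh : 2 ^ 20 ≤ h) : (6 * KK + 1) ^ 2 ≤ nt h := by
  refine le_trans (Nat.pow_le_pow_left (le_trans ?_ hh) 2)
    (Nat.pow_le_pow_right (le_trans (by norm_num) hh) (by norm_num))
  norm_num [KK]
theorem nt_le_la {h : ℕ} (hh : 1 ≤ h) : nt h ≤ la h := by
  exact Nat.pow_le_pow_right hh (by norm_num)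
theorem la_le_gg {h : ℕ} (hh : 1 ≤ h) : la h ≤ gg h := by
  exact Nat.pow_le_pow_right hh (by norm_num)
theorem SS_pos {h : ℕ} (hh : 1 ≤ h) : 1 ≤ SS h := by
  exact Nat.one_le_pow _ _ hh
theorem SS_mono {h h' : ℕ} (hh : h ≤ h') : SS h ≤ SS h' := by
  exact Nat.pow_le_pow_left hh _
/-- `la h' / SS h' = h'^{-7} ≤ h^{-7}` -/
theorem la_mul_SS_le {h h' : ℕ} (hh : h ≤ h') : la h' * SS h ≤ la h * SS h' := by
  calc la h' * SS h = h ^ 63 * h' ^ 63 * h ^ 7 := by
        simp only [SS, la]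
        ring
    _ ≤ h ^ 63 * h' ^ 63 * h' ^ 7 := Nat.mul_le_mul_left _ (Nat.pow_le_pow_left hh _)
    _ = _ := by
        simp only [SS, la]
        ring
theorem tendsto_SS : Tendsto SS atTop atTop := by
  exact tendsto_pow_atTop (by norm_num)
theorem tendsto_gg : Tendsto gg atTop atTop := by
  exact tendsto_pow_atTop (by norm_num)
theorem tendsto_two_pow : Tendsto (fun s : ℕ => 2 ^ s) atTop atTop := by
  exact tendsto_pow_atTop_atTop_of_one_lt one_lt_two

/-! ### normalised geodesics -/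
section geo
variable {t : Env} {a b : V} {p q : ℤ → V} {N n : ℤ}
theorem IsG.sap (h : IsG t a b p N) : SAP a b p N := by
  exact ⟨h.geo.1, h.geo.2.1, h.left, h.right⟩
theorem IsG.nonneg (h : IsG t a b p N) : 0 ≤ N := by
  exact h.geo.1.1
theorem IsG.start (h : IsG t a b p N) : p 0 = a := by
  exact h.left 0 le_rfl
theorem IsG.stop (h : IsG t a b p N) : p N = b := by
  exact h.right N le_rfl
theorem IsG.cost_eq (h : IsG t a b p N) : cost t p 0 N = T t a b := by
  rw [h.geo.2.2, h.start, h.stop, T]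
theorem IsG.cost_sub (ht : ∀ e, 0 ≤ t e) (h : IsG t a b p N) {u v : ℤ} (h0 : 0 ≤ u) (huv : u ≤ v)
    (hv : v ≤ N) : cost t p u v = T t (p u) (p v) := by
  exact (h.geo.sub ht h0 huv hv).2.2
/-- the potential `cost t p 0 ·` is 1-Lipschitz for `T` -/
theorem IsG.pot (ht : ∀ e, 0 ≤ t e) (h : IsG t a b p N) {u v : ℤ} (hu : 0 ≤ u ∧ u ≤ N)
    (hv : 0 ≤ v ∧ v ≤ N) : cost t p 0 v - cost t p 0 u ≤ T t (p u) (p v) := by
  rcases le_total u v with c | c
  · rw [cost_add hu.1 c, add_sub_cancel_left, h.cost_sub ht hu.1 c hv.2]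
  · linarith [cost_sub_le (p := p) ht (le_refl 0) c, T_nonneg (x := p u) (y := p v) ht]
theorem SAP.step (h : SAP a b q n) (k : ℤ) : nrm (q (k + 1) - q k) ≤ 1 := by
  rcases lt_or_ge k 0 with c | c
  · rw [h.left k c.le, h.left (k + 1) c, sub_self, nrm_eq_zero.2 rfl]
    exact zero_le_one
  rcases lt_or_ge k n with d | d
  · exact (adj_nrm (h.path.2.2 k c d)).le
  · rw [h.right k d, h.right (k + 1) (by omega), sub_self, nrm_eq_zero.2 rfl]
    exact zero_le_one
theorem SAP.nrm_le (h : SAP a b q n) (u v : ℤ) : nrm (q v - q u) ≤ |v - u| := by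
  have key : ∀ u v, u ≤ v → nrm (q v - q u) ≤ v - u := by
    intro u v hv
    induction v, hv using Int.leInduction with
    | base => rw [sub_self, sub_self, nrm_eq_zero.2 rfl]
    | succ l hl ih =>
      have h1 := nrm_add_le (q (l + 1) - q l) (q l - q u)
      rw [sub_add_sub_cancel] at h1
      linarith [h.step l]
  rcases le_total u v with c | c
  · exact (key u v c).trans (le_abs_self _)
  · rw [nrm_sub_comm, abs_sub_comm]
    exact (key v u c).trans (le_abs_self _)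
theorem SAP.len_ge (h : SAP a b q n) : nrm (b - a) ≤ n := by
  have := h.path.nrm_le
  rwa [h.left 0 le_rfl, h.right n le_rfl, sub_zero] at this
theorem SAP.rev (h : SAP a b q n) : SAP b a (fun k => q (n - k)) n := by
  refine ⟨⟨h.path.1, fun _ _ _ => trivial, fun k h1 h2 => ?_⟩, fun k hk l hl e => ?_,
    fun k hk => h.right _ (by omega), fun k hk => h.left _ (by omega)⟩
  · have := (h.path.2.2 (n - (k + 1)) (by omega) (by omega)).symm
    rwa [show n - (k + 1) + 1 = n - k by ring] at this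
  · have := h.inj (x₁ := n - k) (x₂ := n - l) ⟨by have := hk.2; omega, by have := hk.1; omega⟩
      ⟨by have := hl.2; omega, by have := hl.1; omega⟩ e
    omega
theorem abas_rev (u v : ℤ) : cost t (fun k => p (N - k)) u v = cost t p (N - v) (N - u) := by
  have h1 := cost_rev (t := t) (p := fun k => p (k + N)) (i := N - v - N) (j := N - u - N)
  rw [cost_reindex, show -(N - u - N) = u by ring, show -(N - v - N) = v by ring] at h1
  simpa only [neg_add_eq_sub] using h1
theorem IsG.rev (h : IsG t a b p N) : IsG t b a (fun k => p (N - k)) N := by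
  have h1 := h.sap.rev
  refine ⟨⟨h1.path, h1.inj, ?_⟩, h1.left, h1.right⟩
  rw [abas_rev, sub_self, sub_zero, h.geo.2.2, TS_comm]
  simp only [sub_zero, sub_self]
theorem cost_rev' (u v : ℤ) : cost t (fun k => p (N - k)) u v = cost t p (N - v) (N - u) := by
  exact abas_rev u v
/-- normalisation `k ↦ q (max 0 (min k n))` -/
theorem exists_sap (h : PathIn Set.univ q 0 n) (hi : Set.InjOn q (Set.Icc 0 n)) :
    ∃ q', SAP (q 0) (q n) q' n ∧ ∀ k, 0 ≤ k → k ≤ n → q' k = q k := by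
  have h0 := h.1
  have e : ∀ k, 0 ≤ k → k ≤ n → q (max 0 (min k n)) = q k := fun k a b => by
    rw [min_eq_left b, max_eq_right a]
  refine ⟨fun k => q (max 0 (min k n)), ⟨h.congr e, hi.congr fun k hk => (e k hk.1 hk.2).symm,
    fun k hk => ?_, fun k hk => ?_⟩, e⟩
  · rw [max_eq_left (min_le_of_left_le hk)]
  · rw [min_eq_right hk, max_eq_right h0]
theorem exists_isG (h : Reg t) (a b : V) : ∃ p N, IsG t a b p N := by
  obtain ⟨p, n, h1, rfl, rfl⟩ := exists_geo h (conn_univ a b)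
  obtain ⟨q, h2, h3⟩ := exists_sap h1.1 h1.2.1
  exact ⟨q, n, h1.congr h3, h2.left, h2.right⟩
theorem IsG.unique (h : Reg t) {p' : ℤ → V} {N' : ℤ} (h1 : IsG t a b p N) (h2 : IsG t a b p' N') :
    p = p' ∧ N = N' := by
  obtain ⟨e1, e2⟩ := geo_unique h h1.geo h2.geo (h1.start.trans h2.start.symm)
    (h1.stop.trans h2.stop.symm)
  obtain rfl : N = N' := by omega
  refine ⟨funext fun k => ?_, rfl⟩
  rcases le_total k 0 with c | c
  · rw [h1.left k c, h2.left k c]
  rcases le_total k N with d | d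
  · simpa only [zero_add] using e2 k c (by omega)
  · rw [h1.right k d, h2.right k d]
/-- a piece of a self-avoiding path, reindexed -/
theorem SAP.piece (h : SAP a b q n) {u : ℤ} {m : ℕ} (hu : 0 ≤ u) (hm : u + m ≤ n) :
    PathIn Set.univ (fun k => q (k + u)) 0 m ∧ Set.InjOn (fun k => q (k + u)) (Set.Icc 0 (m : ℤ)) ∧
      ∀ t : Env, cost t (fun k => q (k + u)) 0 m = cost t q u (u + m) := by
  refine ⟨?_, fun k hk l hl e => ?_, fun t => ?_⟩
  · simpa only [sub_self, add_sub_cancel_left] using (h.path.sub hu (by omega) hm).reindex u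
  · have := h.inj (x₁ := k + u) (x₂ := l + u) ⟨by have := hk.1; omega, by have := hk.2; omega⟩
      ⟨by have := hl.1; omega, by have := hl.2; omega⟩ e
    omega
  · simpa only [sub_self, add_sub_cancel_left] using
      cost_reindex (t := t) (p := q) (i := u) (j := u + m) u

theorem exists_exit (h : PathIn Set.univ p 0 N) {i : ℤ} (h0 : (p 0).2 ≤ i) (hN : i < (p N).2) :
    ∃ b, IsExit p N i b := by
  obtain ⟨k, h1, h2, h3, h4⟩ := h.exists_last lip1_snd h0 hN.le
  refine ⟨k, h1, lt_of_le_of_ne h2 ?_, h3, h4⟩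
  rintro rfl
  exact hN.ne' h3
theorem abas_le {i b l : ℤ} (h : IsExit p N i b) (hl : l ≤ N) (hr : (p l).2 ≤ i) : l ≤ b :=
  not_lt.1 fun c => (h.2.2.2 l c hl).not_ge hr
theorem IsExit.unique {i b b' : ℤ} (h : IsExit p N i b) (h' : IsExit p N i b') : b = b' := by
  exact le_antisymm (abas_le h' h.2.1.le h.2.2.1.le) (abas_le h h'.2.1.le h'.2.2.1.le)
theorem IsExit.le_of_row {i b l : ℤ} (h : IsExit p N i b) (hl : l ≤ N) (hr : (p l).2 ≤ i) : l ≤ b := by
  exact abas_le h hl hr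
theorem IsExit.mono {i b i' b' : ℤ} (h : IsExit p N i b) (h' : IsExit p N i' b') (hi : i ≤ i') :
    b ≤ b' := by
  exact abas_le h' h.2.1.le (h.2.2.1.le.trans hi)
theorem IsExit.next (hp : PathIn Set.univ p 0 N) {i b : ℤ} (h : IsExit p N i b) :
    p (b + 1) = p b + (0, 1) := by
  have h1 := (adj_iff _ _).1 (hp.2.2 b h.1 h.2.1)
  have h2 := h.2.2.2 (b + 1) (by omega) (by have := h.2.1; omega)
  have h3 := h.2.2.1
  refine Prod.ext ?_ ?_
  · simp only [Prod.fst_add]
    omega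
  · simp only [Prod.snd_add]
    omega
theorem cnt_exit_le (I : Finset ℤ) (Q : ℤ → Prop) :
    cnt I (fun i => ∃ b, IsExit p N i b ∧ Q b) ≤ cnt (Finset.Ico 0 N) Q := by
  exact cnt_le_of_inj (fun i b => (p b).2 = i)
    (fun i _ ⟨b, h1, h2⟩ => ⟨b, Finset.mem_Ico.2 ⟨h1.1, h1.2.1⟩, h2, h1.2.2.1⟩)
    fun k k' l e e' => e.symm.trans e'
theorem Win.mono {r r' J J' : ℕ} {x : ℤ} (h : Win p N r J x) (hr : r' ≤ r) (hJ : J ≤ J') :
    Win p N r' J' x := by
  intro l h1 h2 h3
  exact (h l h1 h2 (h3.trans (Nat.cast_le.2 hr))).trans (Nat.cast_le.2 hJ)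
end geo

/-! ### cells -/
theorem abas_div {S : ℕ} (hS : 1 ≤ S) (x : ℤ) : x / S * S ≤ x ∧ x < x / S * S + S := by
  have h : (0 : ℤ) < S := by exact_mod_cast hS
  refine ⟨Int.ediv_mul_le x h.ne', ?_⟩
  have := Int.lt_ediv_add_one_mul_self x h
  linarith
theorem nrm_sub_corner {S : ℕ} (hS : 1 ≤ S) (x : V) : nrm (x - corner S (cell S x)) ≤ S - 1 := by
  have h1 := abas_div hS x.1
  have h2 := abas_div hS x.2
  simp only [nrm, corner, cell, Prod.fst_sub, Prod.snd_sub, abs_eq_max_neg]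
  omega
theorem nrm_sub_of_cell_eq {S : ℕ} (hS : 1 ≤ S) {x y : V} (h : cell S x = cell S y) :
    nrm (y - x) ≤ S - 1 := by
  have h1 := abas_div hS x.1
  have h2 := abas_div hS x.2
  have h3 := abas_div hS y.1
  have h4 := abas_div hS y.2
  simp only [cell, Prod.mk.injEq] at h
  rw [h.1] at h1
  rw [h.2] at h2
  simp only [nrm, Prod.fst_sub, Prod.snd_sub, abs_eq_max_neg]
  omega
theorem nrm_cell_sub {S : ℕ} (hS : 1 ≤ S) {x y : V} (h : nrm (y - x) ≤ S) :
    nrm (cell S y - cell S x) ≤ 1 := by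
  have h0 : (0 : ℤ) < S := by exact_mod_cast hS
  have key : ∀ a b : ℤ, a ≤ b + S → a / S ≤ b / S + 1 := fun a b hab => by
    have := Int.ediv_le_ediv h0 hab
    rwa [Int.add_ediv_of_dvd_right dvd_rfl, Int.ediv_self h0.ne'] at this
  simp only [nrm, cell, Prod.fst_sub, Prod.snd_sub, abs_eq_max_neg] at h ⊢
  have h1 := key x.1 y.1 (by omega)
  have h2 := key y.1 x.1 (by omega)
  have h3 := key x.2 y.2 (by omega)
  have h4 := key y.2 x.2 (by omega)
  omega
theorem cell_one (x : V) : cell 1 x = x := by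
  simp [cell]
theorem ncard_cell_le {S : ℕ} (hS : 1 ≤ S) (c : V) :
    {x | cell S x = c}.Finite ∧ {x | cell S x = c}.ncard ≤ S ^ 2 := by
  have h1 : {x | cell S x = c} ⊆
      ↑(Finset.Ico (c.1 * S) (c.1 * S + S) ×ˢ Finset.Ico (c.2 * S) (c.2 * S + S)) := by
    rintro x rfl
    simp only [Finset.mem_coe, Finset.mem_product, Finset.mem_Ico]
    exact ⟨abas_div hS x.1, abas_div hS x.2⟩
  refine ⟨(Finset.finite_toSet _).subset h1, (Set.ncard_le_ncard h1 (Finset.finite_toSet _)).trans ?_⟩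
  rw [Set.ncard_coe_finset, Finset.card_product, Int.card_Ico, Int.card_Ico, add_sub_cancel_left,
    add_sub_cancel_left, Int.toNat_natCast, sq]
theorem ball_subset_ball {x y : V} {r r' : ℤ} (h : nrm (x - y) + r ≤ r') : ball x r ⊆ ball y r' := by
  intro v hv
  have h1 := nrm_add_le (v - x) (x - y)
  rw [sub_add_sub_cancel] at h1
  have h2 : nrm (v - x) ≤ r := hv
  exact h1.trans (by linarith)
theorem edgesIn_mono {S S' : Set V} (h : S ⊆ S') : edgesIn S ⊆ edgesIn S' := by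
  exact fun e he v hv => h (he v hv)
theorem dependsOnly_mono {α : Type} {f : Env → α} {U U' : Set (Sym2 V)} (h : DependsOnly f U)
    (hU : U ⊆ U') : DependsOnly f U' := by
  exact fun t t' e => h t t' fun x hx => e x (hU hx)
theorem mem_latE {S : Set V} (hS : S.Finite) {e : Sym2 V} :
    e ∈ latE S ↔ e ∈ edgesIn S ∧ e ∈ squareLattice.edgeSet := by
  rw [latE, dif_pos ((edgesIn_finite hS).inter_of_left _), Set.Finite.mem_toFinset]
  rfl
/-- every lattice edge is `s(x, x + e1)` or `s(x, x + e2)` -/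
theorem card_latE_le {S : Set V} (hS : S.Finite) : (latE S).card ≤ 2 * S.ncard := by
  classical
  have h1 : latE S ⊆ hS.toFinset.image (fun x => s(x, x + (1, 0))) ∪
      hS.toFinset.image fun x => s(x, x + (0, 1)) := by
    intro e he
    obtain ⟨a1, a2⟩ := (mem_latE hS).1 he
    induction e using Sym2.ind with
    | _ x y =>
      have hx := hS.mem_toFinset.2 (a1 x (Sym2.mem_mk_left x y))
      have hy := hS.mem_toFinset.2 (a1 y (Sym2.mem_mk_right x y))
      rw [Finset.mem_union, Finset.mem_image, Finset.mem_image]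
      rcases (adj_iff x y).1 a2 with ⟨b1, b2 | b2⟩ | ⟨b1, b2 | b2⟩
      · exact Or.inr ⟨x, hx, by rw [show y = x + (0, 1) from Prod.ext (by simp [b1]) b2]⟩
      · exact Or.inr ⟨y, hy, by
          rw [Sym2.eq_swap, show x = y + (0, 1) from Prod.ext (by simp [b1]) b2]⟩
      · exact Or.inl ⟨x, hx, by rw [show y = x + (1, 0) from Prod.ext b2 (by simp [b1])]⟩
      · exact Or.inl ⟨y, hy, by
          rw [Sym2.eq_swap, show x = y + (1, 0) from Prod.ext b2 (by simp [b1])]⟩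
  refine (Finset.card_le_card h1).trans ((Finset.card_union_le _ _).trans ?_)
  rw [Set.ncard_eq_toFinset_card S hS, two_mul]
  exact add_le_add Finset.card_image_le Finset.card_image_le

end Crest.Agent.R151.PA
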