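import Crest.Agent.R151.ASite

/-! R151/A: bad cells are local and rare. -/

set_option autoImplicit false
open MeasureTheory ProbabilityTheory Crest.ProbabilityR.FirstPassage Filter Topology
open scoped ENNReal

namespace Crest.Agent.R151.PA

variable {G : Measure ℝ} [IsProbabilityMeasure G] [NullSingletonClass G] (P : Setup G)

/-- the event "a self-avoiding path of `n` steps starting in `S` satisfies `R`" -/
theorem measurableSet_exists_sap (n : ℕ) (S : Set V) (R : Env → (ℤ → V) → Prop)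
    (hm : ∀ q, MeasurableSet {t | R t q})
    (hl : ∀ t q q', (∀ k, 0 ≤ k → k ≤ n → q' k = q k) → R t q → R t q') :
    MeasurableSet {t | ∃ q, PathIn Set.univ q 0 n ∧ Set.InjOn q (Set.Icc 0 (n : ℤ)) ∧ q 0 ∈ S ∧ R t q} := by
  refine measurableSet_exists_path 0 n _ (fun q => ?_) fun t q q' e h => ?_
  · by_cases h : PathIn Set.univ q 0 n ∧ Set.InjOn q (Set.Icc 0 (n : ℤ)) ∧ q 0 ∈ S
    · simpa only [h.1, h.2.1, h.2.2, true_and] using hm q
    · have : {t | PathIn Set.univ q 0 n ∧ Set.InjOn q (Set.Icc 0 (n : ℤ)) ∧ q 0 ∈ S ∧ R t q} = ∅ :=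
        Set.eq_empty_of_forall_notMem fun t ht => h ⟨ht.1, ht.2.1, ht.2.2.1⟩
      rw [this]
      exact MeasurableSet.empty
  · refine ⟨h.1.congr e, h.2.1.congr fun k hk => (e k hk.1 hk.2).symm, ?_,
      hl t q q' (fun k _ hk => e k (Int.natCast_nonneg k) (by exact_mod_cast hk)) h.2.2.2⟩
    rw [e 0 le_rfl (Int.natCast_nonneg n)]
    exact h.2.2.1
/-- `x^k e^{-x} ≤ k!` -/
theorem exp_neg_le_pow (k : ℕ) {x : ℝ} (hx : 0 < x) : Real.exp (-x) ≤ k.factorial / x ^ k := by
  have h := Real.pow_div_factorial_le_exp x hx.le k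
  have hk : (0 : ℝ) < k.factorial := Nat.cast_pos.2 k.factorial_pos
  rw [Real.exp_neg, ← inv_div]
  exact inv_anti₀ (by positivity) h

theorem acellp_dep {B : Set Env} {U : Set (Sym2 V)}
    (h : ∀ t t' : Env, (∀ e ∈ U, t e = t' e) → t ∈ B → t' ∈ B) : DependsOnly (fun t => t ∈ B) U :=
  fun t t' e => propext ⟨h t t' e, h t' t fun a ha => (e a ha).symm⟩

theorem acellp_meas (A : Set V) {R : V → Env → Prop} (h : ∀ x, MeasurableSet {t | R x t}) :
    MeasurableSet {t | ∃ x ∈ A, R x t} := by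
  have : {t | ∃ x ∈ A, R x t} = ⋃ x ∈ A, {t | R x t} := by
    ext t
    simp
  rw [this]
  exact MeasurableSet.biUnion A.to_countable fun x _ => h x

theorem acellp_union (μ : Measure Env) {A : Set V} (hA : A.Finite) {R : V → Env → Prop} {b m : ℝ}
    (hb : 0 ≤ b) (hm : (A.ncard : ℝ) ≤ m) (h : ∀ x ∈ A, μ.real {t | R x t} ≤ b) :
    μ.real {t | ∃ x ∈ A, R x t} ≤ m * b := by
  have : {t | ∃ x ∈ A, R x t} = ⋃ x ∈ hA.toFinset, {t | R x t} := by
    ext t
    simp
  rw [this]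
  refine (measureReal_biUnion_finset_le _ _).trans ((Finset.sum_le_card_nsmul _ _ b fun x hx =>
    h x (hA.mem_toFinset.1 hx)).trans ?_)
  rw [nsmul_eq_mul, ← Set.ncard_eq_toFinset_card A hA]
  exact mul_le_mul_of_nonneg_right hm hb

theorem acellp_KK {h : ℕ} (hh : 2 ^ 20 ≤ h) : 3 * (KK : ℤ) ≤ SS h := by
  have h1 : 1 ≤ h := le_trans (by norm_num) hh
  have a1 := KK_le_nt hh
  have a2 := nt_le_la h1
  have a3 := la_le_gg h1
  have a4 := gg_le_SS hh
  have a5 : 3 * KK ≤ SS h := by nlinarith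
  exact_mod_cast a5

theorem locEv_BadI {h : ℕ} (hb : P.Big h) : LocEv (SS h) (P.r1 + 1) (P.BadI h) := by
  refine ⟨fun c => ?_, fun c => acellp_dep fun t t' e ht => ?_⟩
  · refine MeasurableSet.union (s₁ := {t | ∃ x ∈ ball (corner (SS h) c) (P.r1 * SS h), (h : ℝ) < Yv KK t x})
      (acellp_meas _ fun x => measurableSet_lt measurable_const (measurable_Yv KK x)) ?_
    exact measurableSet_exists_sap (SS h) _ (fun t q => cost t q 0 (SS h) < P.θ * SS h)
      (fun q => measurableSet_lt (measurable_cost q _ _) measurable_const)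
      fun t q q' e h => by
        rwa [cost_congr (fun k k0 k1 => by
          lift k to ℕ using k0
          exact e k (Nat.zero_le _) (by exact_mod_cast k1))]
  · have hK := acellp_KK hb.1
    rcases ht with ⟨x, hx, h1⟩ | ⟨q, h1, h2, h3, h4⟩
    · refine Or.inl ⟨x, hx, ?_⟩
      have h2 : ball x (3 * KK) \ {x} ⊆ ball (corner (SS h) c) ((P.r1 + 1 : ℕ) * SS h) :=
        Set.sdiff_subset.trans (ball_subset_ball (by
          have : nrm (x - corner (SS h) c) ≤ P.r1 * SS h := hx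
          push_cast
          linarith))
      rwa [← show Yv KK t x = Yv KK t' x from
        dependsOnly_Yv KK x t t' fun a ha => e a (edgesIn_mono h2 ha)]
    · refine Or.inr ⟨q, h1, h2, h3, ?_⟩
      have h5 : PathIn (ball (corner (SS h) c) ((P.r1 + 1 : ℕ) * SS h)) q 0 (SS h) :=
        h1.restrict fun k k0 k1 => by
          have a1 := (h1.sub le_rfl k0 k1).nrm_le
          have a2 : nrm (q 0 - corner (SS h) c) ≤ P.r1 * SS h := h3
          have a3 := nrm_add_le (q k - q 0) (q 0 - corner (SS h) c)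
          rw [sub_add_sub_cancel] at a3
          change nrm (q k - corner (SS h) c) ≤ _
          push_cast
          linarith
      rwa [← cost_congr_env (t := t) fun k k0 k1 => e _ (h5.edge_mem k0 k1)]
theorem locEv_BadII {h : ℕ} (hb : P.Big h) : LocEv (SS h) (P.r1 + 1) (P.BadII h) := by
  refine ⟨fun c => ?_, fun c => acellp_dep fun t t' e ht => ?_⟩
  · refine MeasurableSet.union (s₁ := {t | ∃ x ∈ P.Net h c, (la h : ℝ) < Zv KK t x})
      (acellp_meas _ fun x => measurableSet_lt measurable_const (measurable_Zv KK x)) ?_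
    exact acellp_meas _ fun x => acellp_meas _ fun y =>
      measurableSet_lt (measurable_TS _ x y) measurable_const
  · have hK := acellp_KK hb.1
    have hr : ((P.r0 : ℤ) + 1) * SS h ≤ P.r1 * SS h :=
      mul_le_mul_of_nonneg_right (by exact_mod_cast P.r1_ge.2) (Int.natCast_nonneg _)
    have hS := Int.natCast_nonneg (SS h)
    have hK0 := Int.natCast_nonneg KK
    rcases ht with ⟨x, hx, h1⟩ | ⟨x, hx, y, hy, h1⟩
    · refine Or.inl ⟨x, hx, ?_⟩
      have h2 : ball x KK ⊆ ball (corner (SS h) c) ((P.r1 + 1 : ℕ) * SS h) := ball_subset_ball (by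
        have : nrm (x - corner (SS h) c) ≤ (P.r0 + 1) * SS h := hx.1
        push_cast
        linarith)
      rwa [← show Zv KK t x = Zv KK t' x from
        dependsOnly_Zv KK x t t' fun a ha => e a (edgesIn_mono h2 ha)]
    · refine Or.inr ⟨x, hx, y, hy, ?_⟩
      have h2 : ball (corner (SS h) c) (P.r1 * SS h) ⊆
          ball (corner (SS h) c) ((P.r1 + 1 : ℕ) * SS h) := ball_subset_ball (by
        rw [sub_self, nrm_eq_zero.2 rfl]
        push_cast
        linarith)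
      rwa [← show TS t _ x y = TS t' _ x y from
        dependsOnly_TS _ x y t t' fun a ha => e a (edgesIn_mono h2 ha)]
/-- union bound over `(2 r1 S + 1)² ≤ 9 r1² h^140` sites: `tail_Yv` (`h^-500`), `P.kesten` (`e^{-S} ≤ 7!/S^7`) -/
theorem prob_BadI : ∃ C > 0, ∀ h : ℕ, P.Big h → ∀ c, (iidLaw G).real (P.BadI h c) ≤ C / (h : ℝ) ^ 300 := by
  obtain ⟨CY, hCY, hY⟩ := tail_Yv G P.hyp (K := KK) (by norm_num [KK])
  refine ⟨(2 * P.r1 + 1) ^ 2 * (CY + 5040), by positivity, fun h hb c => ?_⟩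
  have h1 : (1 : ℝ) ≤ h := by exact_mod_cast le_trans (by norm_num) hb.1
  have h0 : (0 : ℝ) < h := by linarith
  have hS : ((SS h : ℕ) : ℝ) = (h : ℝ) ^ 70 := by simp [SS]
  have hcard : ((ball (corner (SS h) c) (P.r1 * SS h)).ncard : ℝ) ≤
      (2 * P.r1 + 1) ^ 2 * (h : ℝ) ^ 140 := by
    have a1 := ncard_ball_le (corner (SS h) c) (P.r1 * SS h)
    have a2 : (((ball (corner (SS h) c) (P.r1 * SS h)).ncard : ℕ) : ℝ) ≤
        (2 * (P.r1 * (h : ℝ) ^ 70) + 1) ^ 2 := by
      rw [← hS]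
      exact_mod_cast a1
    have a3 : 1 ≤ (h : ℝ) ^ 70 := one_le_pow₀ h1
    calc _ ≤ _ := a2
      _ ≤ (2 * (P.r1 * (h : ℝ) ^ 70) + (h : ℝ) ^ 70) ^ 2 := by gcongr
      _ = _ := by ring
  have e1 := acellp_union (iidLaw G) (ball_finite _ _) (R := fun x t => (h : ℝ) < Yv KK t x)
    (b := CY / (h : ℝ) ^ 440) (by positivity) hcard fun x _ => by
      refine (hY x h h0).trans ?_
      rw [show (-(KK / 2 : ℝ)) = -((500 : ℕ) : ℝ) by norm_num [KK], Real.rpow_neg h0.le,
        Real.rpow_natCast, ← div_eq_mul_inv]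
      gcongr
      norm_num
  have e2 := acellp_union (iidLaw G) (ball_finite _ _) (R := fun x t => ∃ q, PathIn Set.univ q 0 (SS h) ∧
      Set.InjOn q (Set.Icc 0 (SS h : ℤ)) ∧ q 0 = x ∧ cost t q 0 (SS h) < P.θ * SS h)
    (b := 5040 / (h : ℝ) ^ 440) (by positivity) hcard fun x _ => by
      refine (P.kesten x (SS h)).trans ((exp_neg_le_pow 7 (by rw [hS]; positivity)).trans ?_)
      rw [hS, ← pow_mul, show ((Nat.factorial 7 : ℕ) : ℝ) = 5040 by norm_num [Nat.factorial]]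
      gcongr
      norm_num
  refine (measureReal_mono (fun t ht => ?_)).trans ((measureReal_union_le _ _).trans
    ((add_le_add e1 e2).trans_eq ?_))
  · rcases ht with ht | ⟨q, a1, a2, a3, a4⟩
    · exact Or.inl ht
    · exact Or.inr ⟨q 0, a3, q, a1, a2, rfl, a4⟩
  · field_simp
/-- the net has at most `(2 (r0+1) h^8 + 1)²` points -/
theorem ncard_Net {h : ℕ} (hb : P.Big h) (c : V) :
    (P.Net h c).Finite ∧ ((P.Net h c).ncard : ℝ) ≤ 9 * (P.r0 + 1) ^ 2 * (h : ℝ) ^ 16 := by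
  have h1 : (1 : ℝ) ≤ h := by exact_mod_cast le_trans (by norm_num) hb.1
  have hn : (0 : ℤ) < nt h := by
    have : 0 < h := lt_of_lt_of_le (by norm_num) hb.1
    exact_mod_cast pow_pos this 62
  have hS : ((SS h : ℕ) : ℤ) = nt h * (h : ℤ) ^ 8 := by
    simp only [SS, nt]
    push_cast
    ring
  have hsub : P.Net h c ⊆ (fun z : V => ((nt h : ℤ) * z.1, (nt h : ℤ) * z.2)) ''
      ball (c.1 * (h : ℤ) ^ 8, c.2 * (h : ℤ) ^ 8) (((P.r0 + 1) * h ^ 8 : ℕ) : ℤ) := by
    rintro ⟨x, y⟩ ⟨a1, ⟨u, rfl⟩, ⟨v, rfl⟩⟩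
    refine ⟨(u, v), ?_, rfl⟩
    rw [bpath_mem_ball] at a1 ⊢
    simp only [corner, hS] at a1
    push_cast
    refine ⟨⟨?_, ?_⟩, ?_, ?_⟩ <;> refine le_of_mul_le_mul_left ?_ hn <;> linarith [a1.1.1, a1.1.2, a1.2.1, a1.2.2]
  refine ⟨((ball_finite _ _).image _).subset hsub, ?_⟩
  have a1 := (Set.ncard_le_ncard hsub ((ball_finite _ _).image _)).trans
    ((Set.ncard_image_le (ball_finite _ _)).trans (ncard_ball_le _ _))
  have a2 : (((P.Net h c).ncard : ℕ) : ℝ) ≤ (2 * ((P.r0 + 1) * (h : ℝ) ^ 8) + 1) ^ 2 := by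
    exact_mod_cast a1
  have a3 : 1 ≤ ((P.r0 : ℝ) + 1) * (h : ℝ) ^ 8 :=
    one_le_mul_of_one_le_of_one_le (by linarith [Nat.cast_nonneg (α := ℝ) P.r0]) (one_le_pow₀ h1)
  calc _ ≤ _ := a2
    _ ≤ (2 * ((P.r0 + 1) * (h : ℝ) ^ 8) + (P.r0 + 1) * (h : ℝ) ^ 8) ^ 2 := by gcongr
    _ = _ := by ring
/-- Chebyshev: `memLp_Zv` gives `C h^16 / h^126`; `T ≤ TS` (almost surely, `conn_ball`), `var_T` and `integral_T` give
`C h^32 (1 + 2(r0+1)S)^{11/10} / h^126 ≤ C' h^{32 + 77 - 126}` -/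
theorem prob_BadII : ∃ C > 0, ∀ h : ℕ, P.Big h → ∀ c, (iidLaw G).real (P.BadII h c) ≤ C / (h : ℝ) ^ 16 := by
  obtain ⟨CZ, hCZ, hZ⟩ := memLp_Zv G P.hyp KK
  obtain ⟨CV, hCV, hV⟩ := var_T G P.hyp
  obtain ⟨_, -, hT⟩ := memLp_T G P.hyp
  set m : ℝ := 9 * (P.r0 + 1) ^ 2 with hm
  set k : ℝ := (2 * (P.r0 : ℝ) + 3) ^ (11 / 10 : ℝ) with hk
  refine ⟨m * CZ + m * (m * (CV * k)), by positivity, fun h hb c => ?_⟩
  have h1 : (1 : ℝ) ≤ h := by exact_mod_cast le_trans (by norm_num) hb.1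
  have h0 : (0 : ℝ) < h := by linarith
  have hS : ((SS h : ℕ) : ℝ) = (h : ℝ) ^ 70 := by simp [SS]
  have hla : ((la h : ℕ) : ℝ) = (h : ℝ) ^ 63 := by simp [la]
  have hl0 : (0 : ℝ) < la h := by rw [hla]; positivity
  obtain ⟨hf, hc⟩ := ncard_Net P hb c
  rw [← hm] at hc
  have e1 := acellp_union (iidLaw G) hf (R := fun x t => (la h : ℝ) < Zv KK t x)
    (b := CZ / (h : ℝ) ^ 32) (by positivity) hc fun x _ => by
      have a1 := mul_meas_ge_le_integral_of_nonneg (Eventually.of_forall fun t => sq_nonneg (Zv KK t x))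
        (hZ x).1.integrable_sq ((la h : ℝ) ^ 2)
      have a2 : (iidLaw G).real {t | (la h : ℝ) < Zv KK t x} ≤
          (iidLaw G).real {t | (la h : ℝ) ^ 2 ≤ Zv KK t x ^ 2} :=
        measureReal_mono fun t ht => pow_le_pow_left₀ hl0.le (le_of_lt ht) 2
      have a3 : (h : ℝ) ^ 32 ≤ (la h : ℝ) ^ 2 := by
        rw [hla, ← pow_mul]
        exact pow_le_pow_right₀ h1 (by norm_num)
      rw [le_div_iff₀ (by positivity), mul_comm]
      exact (mul_le_mul a3 a2 measureReal_nonneg (by positivity)).trans (a1.trans (hZ x).2)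
  have e2 := acellp_union (iidLaw G) hf
    (R := fun x t => ∃ y ∈ P.Net h c, (la h : ℝ) ≤ |T t x y - ∫ t, T t x y ∂iidLaw G|)
    (b := m * (h : ℝ) ^ 16 * (CV * k / (h : ℝ) ^ 48)) (by positivity) hc fun x hx =>
      acellp_union (iidLaw G) hf (by positivity) hc fun y hy => by
        refine ENNReal.toReal_le_of_le_ofReal (by positivity)
          ((meas_ge_le_variance_div_sq (hT x y).1 hl0).trans (ENNReal.ofReal_le_ofReal ?_))
        have a1 : nrm (y - x) ≤ 2 * ((P.r0 + 1) * SS h) := by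
          have b1 : nrm (y - corner (SS h) c) ≤ (P.r0 + 1) * SS h := hy.1
          have b2 : nrm (x - corner (SS h) c) ≤ (P.r0 + 1) * SS h := hx.1
          have b3 := nrm_add_le (y - corner (SS h) c) (corner (SS h) c - x)
          rw [sub_add_sub_cancel, nrm_sub_comm (corner (SS h) c)] at b3
          linarith
        have a2 : (nrm (y - x) : ℝ) ≤ 2 * ((P.r0 + 1) * (h : ℝ) ^ 70) := by
          rw [← hS]
          exact_mod_cast a1
        have a3 : 1 ≤ (h : ℝ) ^ 70 := one_le_pow₀ h1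
        have a4 : (0 : ℝ) ≤ nrm (y - x) := by exact_mod_cast nrm_nonneg _
        have a5 : (1 + (nrm (y - x) : ℝ)) ^ (11 / 10 : ℝ) ≤ k * (h : ℝ) ^ 77 := by
          have b1 : ((h : ℝ) ^ 70) ^ (11 / 10 : ℝ) = (h : ℝ) ^ 77 := by
            rw [← Real.rpow_natCast, ← Real.rpow_mul h0.le, ← Real.rpow_natCast]
            norm_num
          rw [hk, ← b1, ← Real.mul_rpow (by positivity) (by positivity)]
          exact Real.rpow_le_rpow (by positivity) (by linarith) (by norm_num)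
        have a6 : (h : ℝ) ^ 125 ≤ (h : ℝ) ^ 126 := pow_le_pow_right₀ h1 (by norm_num)
        rw [hla, ← pow_mul]
        calc _ ≤ CV * (k * (h : ℝ) ^ 77) / (h : ℝ) ^ 125 := by
              gcongr
              exact (hV x y).trans (by gcongr)
          _ = _ := by field_simp
  refine (ENNReal.toReal_mono (measure_ne_top _ _) (measure_mono_ae ?_)).trans
    ((measureReal_union_le _ _).trans ((add_le_add e1 e2).trans_eq ?_))
  · filter_upwards [ae_nonneg G P.hyp.nonneg] with t ht0 ht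
    rcases ht with ht | ⟨x, hx, y, hy, a1⟩
    · exact Or.inl ht
    · refine Or.inr ⟨x, hx, y, hy, ?_⟩
      have hr : ((P.r0 : ℤ) + 1) * SS h ≤ P.r1 * SS h :=
        mul_le_mul_of_nonneg_right (by exact_mod_cast P.r1_ge.2) (Int.natCast_nonneg _)
      have a2 := T_le_TS ht0 (conn_ball (c := corner (SS h) c) (r := P.r1 * SS h)
        (le_trans hx.1 hr) (le_trans hy.1 hr))
      rw [integral_T, abs_sub_comm]
      exact le_trans (by linarith) (le_abs_self _)
  · field_simp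

end Crest.Agent.R151.PA
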