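import Crest.Agent.R151.AKern
import Crest.Agent.R151.ACellP

/-! R151/A: geometry of the blocks; the cell event `BadIII`. -/

set_option autoImplicit false
open MeasureTheory ProbabilityTheory Crest.ProbabilityR.FirstPassage Filter Topology
open scoped ENNReal

namespace Crest.Agent.R151.PA

variable {G : Measure ℝ} [IsProbabilityMeasure G] [NullSingletonClass G] (P : Setup G) (Q : QD G)
variable {h : ℕ} {m b σ : ℤ}

theorem ablock_card (a : ℤ) (r : ℕ) : ((Finset.Icc (a - r) (a + r)).card : ℝ) = 2 * r + 1 := by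
  rw [Int.card_Icc, show a + r + 1 - (a - r) = ((2 * r + 1 : ℕ) : ℤ) by push_cast; ring, Int.toNat_natCast]
  push_cast
  rfl

theorem ablock_cnt_eq (I : Finset ℤ) (R : ℤ → Prop) [DecidablePred R] : cnt I R = (I.filter R).card := by
  unfold cnt
  congr

theorem ablock_cnt {I : Finset ℤ} {R : ℤ → Prop} (a : ℤ) (r : ℕ) (H : ∀ k, R k → |k - a| ≤ r) :
    cnt I R ≤ 2 * r + 1 := by
  rw [← ablock_card a r, cnt]
  refine Nat.cast_le.2 (Finset.card_le_card fun k hk => ?_)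
  have := abs_le.1 (H k (by simpa using hk : k ∈ I ∧ R k).2)
  exact Finset.mem_Icc.2 ⟨by omega, by omega⟩

theorem ablock_near {x g : ℝ} (hg : 0 < g) {k : ℤ} {r : ℕ} (H : |(k : ℝ) * g - x| ≤ r * g) :
    |k - ⌈x / g⌉| ≤ r := by
  obtain ⟨h1, h2⟩ := abs_le.1 H
  have a1 : ⌈x / g⌉ ≤ k + r := Int.ceil_le.2 (by rw [div_le_iff₀ hg]; push_cast; linarith)
  have a2 : ((k - r : ℤ) : ℝ) ≤ ⌈x / g⌉ :=
    le_trans (by rw [le_div_iff₀ hg]; push_cast; linarith) (Int.le_ceil _)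
  have a3 : k - r ≤ ⌈x / g⌉ := by exact_mod_cast a2
  exact abs_le.2 ⟨by omega, by omega⟩

omit [IsProbabilityMeasure G] [NullSingletonClass G] in
theorem ablock_sc (hb : P.Big h) : (1 : ℝ) ≤ h ∧ (1 : ℝ) ≤ gg h ∧ 2 ^ 70 * (gg h : ℝ) ≤ SS h :=
  ⟨by exact_mod_cast le_trans (by norm_num) hb.1,
    by exact_mod_cast Nat.one_le_pow _ _ (lt_of_lt_of_le (by norm_num) hb.1),
    by exact_mod_cast gg_le_SS hb.1⟩

omit [IsProbabilityMeasure G] [NullSingletonClass G] in
theorem ablock_abs (hb : P.Big h) (hσ : σ = 1 ∨ σ = -1) {v : V} (hv : v ∈ P.blk h m b σ) :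
    3 * (gg h : ℝ) ≤ |P.lat v - b * gg h| ∧ |P.lat v - b * gg h| ≤ 2 ^ 68 * gg h := by
  obtain ⟨-, -, h1, h2⟩ := hv
  have := (ablock_sc P hb).2.1
  rcases hσ with rfl | rfl <;> push_cast at h1 h2
  · rw [abs_of_nonneg (by linarith)]
    constructor <;> linarith
  · rw [abs_of_nonpos (by linarith)]
    constructor <;> linarith

omit [IsProbabilityMeasure G] [NullSingletonClass G] in
theorem ablock_visit {z : V} {p : ℤ → V} {N : ℤ} (hp : SAP 0 z p N) (hm : 0 ≤ m ∧ m * SS h ≤ z.2) :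
    ∃ l, 0 ≤ l ∧ l ≤ N ∧ (p l).2 = m * SS h ∧
      ∀ b, P.Adjc h m b p N → |(b : ℝ) * gg h - P.lat (p l)| ≤ (2 : ℕ) * gg h := by
  obtain ⟨l, h1, h2, h3, -⟩ := hp.path.exists_first lip1_snd (c := m * SS h)
    (by rw [hp.left 0 le_rfl]; exact mul_nonneg hm.1 (Int.natCast_nonneg _))
    (by rw [hp.right N le_rfl]; exact hm.2)
  refine ⟨l, h1, h2, h3, fun b ha => ?_⟩
  rw [abs_sub_comm]
  exact ha l h1 h2 (by rw [h3]; simp) (by rw [h3, add_mul]; omega)

/-- at most `S + 2g + 1` rows, in each row an interval of length `2^68 g` -/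
theorem blk_finite (hb : P.Big h) (hσ : σ = 1 ∨ σ = -1) :
    (P.blk h m b σ).Finite ∧ ((P.blk h m b σ).ncard : ℝ) ≤ 2 ^ 70 * (h : ℝ) ^ 134 := by
  obtain ⟨a0, a1, a2⟩ := ablock_sc P hb
  have key : P.blk h m b σ ⊆ ((Finset.Icc (m * SS h - gg h) ((m + 1) * SS h + gg h) ×ˢ
      Finset.Icc (0 - (2 ^ 68 * gg h : ℕ) : ℤ) (0 + (2 ^ 68 * gg h : ℕ))).image
      fun x : ℤ × ℤ => ((⌈P.ξ * x.1 + b * gg h⌉ + x.2, x.1) : V) : Finset V) := fun v hv => by
    have h1 := ablock_near (k := v.1) (x := P.ξ * v.2 + b * gg h) (r := 2 ^ 68 * gg h) one_pos (by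
      rw [mul_one, mul_one, ← sub_sub]
      exact (ablock_abs P hb hσ hv).2.trans_eq (by push_cast; norm_num))
    rw [div_one, abs_le] at h1
    exact Finset.mem_coe.2 (Finset.mem_image.2 ⟨(v.2, v.1 - ⌈P.ξ * v.2 + b * gg h⌉), Finset.mem_product.2
      ⟨Finset.mem_Icc.2 ⟨hv.1, hv.2.1⟩, Finset.mem_Icc.2 ⟨by omega, by omega⟩⟩, by simp⟩)
  refine ⟨(Finset.finite_toSet _).subset key, ?_⟩
  have h1 := (Set.ncard_le_ncard key (Finset.finite_toSet _)).trans_eq (Set.ncard_coe_finset _)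
  refine (Nat.cast_le.2 (h1.trans Finset.card_image_le)).trans ?_
  rw [Finset.card_product, Nat.cast_mul, ablock_card, Int.card_Icc,
    show (m + 1) * SS h + gg h + 1 - (m * SS h - gg h) = ((SS h + 2 * gg h + 1 : ℕ) : ℤ) by push_cast; ring,
    Int.toNat_natCast, show (h : ℝ) ^ 134 = SS h * gg h by simp only [SS, gg]; push_cast; ring]
  push_cast
  nlinarith [mul_le_mul_of_nonneg_right a2 (zero_le_one.trans a1), mul_le_mul_of_nonneg_left a1 (zero_le_one.trans a1)]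
theorem card_latE_blk (hb : P.Big h) (hσ : σ = 1 ∨ σ = -1) :
    ((latE (P.blk h m b σ)).card : ℝ) ≤ 2 ^ 71 * (h : ℝ) ^ 134 := by
  obtain ⟨h1, h2⟩ := blk_finite P (m := m) (b := b) hb hσ
  have h3 : ((latE (P.blk h m b σ)).card : ℝ) ≤ 2 * (P.blk h m b σ).ncard := by
    exact_mod_cast card_latE_le h1
  linarith
theorem blk_subset (hb : P.Big h) (hσ : σ = 1 ∨ σ = -1) {c : V} (hc : Anch P h c m b) :
    P.blk h m b σ ⊆ ball (corner (SS h) c) (10 * SS h) := by
  intro v hv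
  obtain ⟨a0, a1, a2⟩ := ablock_sc P hb
  have a3 : (gg h : ℤ) ≤ SS h := by exact_mod_cast (by linarith : (gg h : ℝ) ≤ SS h)
  have h1 := abs_le.1 (ablock_abs P hb hσ hv).2
  have h2 := abs_le.1 hc.2
  have h3 := abs_le.1 hc.1
  have h4 : |(v - corner (SS h) c).2| ≤ 4 * SS h := by
    have b1 := hv.1
    have b2 := hv.2.1
    simp only [corner, Prod.snd_sub]
    rw [abs_le]
    constructor <;> nlinarith [Int.natCast_nonneg (SS h)]
  have h5 := P.abs_fst_le (v - corner (SS h) c)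
  have h6 : |P.lat (v - corner (SS h) c)| ≤ 6 * SS h := by
    rw [P.lat_sub, abs_le]
    constructor <;> linarith
  have h7 : |((v - corner (SS h) c).2 : ℝ)| ≤ 4 * SS h := by exact_mod_cast h4
  have h8 : |(v - corner (SS h) c).1| ≤ 10 * SS h := by
    exact_mod_cast (by linarith : |((v - corner (SS h) c).1 : ℝ)| ≤ 10 * SS h)
  exact max_le h8 (by omega)
theorem notMem_blk_of_adjc (hb : P.Big h) (hσ : σ = 1 ∨ σ = -1) {p : ℤ → V} {N l : ℤ} (ha : P.Adjc h m b p N)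
    (hl : 0 ≤ l ∧ l ≤ N) : p l ∉ P.blk h m b σ := by
  intro hv
  have h1 := ha l hl.1 hl.2 hv.1 hv.2.1
  have h2 := (ablock_abs P hb hσ hv).1
  linarith [(ablock_sc P hb).2.1]
/-- `p` visits row `m S` at some index `l0` (`PathIn.exists_first`); take `k = l0 / S` -/
theorem exists_anch (hb : P.Big h) {z : V} {p : ℤ → V} {N : ℤ} (hp : SAP 0 z p N) {Λ : ℕ} (hN : N ≤ Λ)
    (hm : 0 ≤ m ∧ m * SS h ≤ z.2) : ∃ k ∈ Finset.range (Λ / SS h + 1), ∀ b, P.Adjc h m b p N →
      Anch P h (cell (SS h) (p ((k : ℕ) * SS h))) m b := by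
  obtain ⟨l, h1, h2, h3, h4⟩ := ablock_visit P hp hm
  obtain ⟨a0, a1, a2⟩ := ablock_sc P hb
  obtain ⟨l, rfl⟩ := Int.eq_ofNat_of_zero_le h1
  have hS : 1 ≤ SS h := SS_pos (by exact_mod_cast a0)
  refine ⟨l / SS h, Finset.mem_range.2 (Nat.lt_succ_of_le (Nat.div_le_div_right (by omega))), fun b ha => ?_⟩
  set x := p ((l / SS h : ℕ) * SS h)
  have b1 : nrm (p l - x) ≤ SS h := by
    refine (hp.nrm_le _ _).trans ?_
    have c1 := Nat.div_add_mod' l (SS h)
    have c2 := Nat.mod_lt l hS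
    rw [← Nat.cast_mul, abs_le]
    omega
  have b2 := nrm_add_le (p l - x) (x - corner (SS h) (cell (SS h) x))
  rw [sub_add_sub_cancel] at b2
  have b3 : nrm (p l - corner (SS h) (cell (SS h) x)) ≤ 2 * SS h := by
    have := nrm_sub_corner hS x
    omega
  constructor
  · have b4 := (le_max_right _ _).trans b3
    simp only [corner, Prod.snd_sub, h3] at b4
    rw [← sub_mul, abs_mul, Nat.abs_cast] at b4
    exact le_of_mul_le_mul_right b4 (by exact_mod_cast hS)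
  · have b4 := P.abs_lat_le (p l - corner (SS h) (cell (SS h) x))
    have b5 : (nrm (p l - corner (SS h) (cell (SS h) x)) : ℝ) ≤ 2 * SS h := by exact_mod_cast b3
    have b6 := abs_le.1 (h4 b ha)
    rw [P.lat_sub, abs_le] at b4
    push_cast at b6
    rw [abs_le]
    constructor <;> linarith
theorem adjc_mem (hb : P.Big h) {z : V} {p : ℤ → V} {N : ℤ} (hp : SAP 0 z p N) {Λ : ℕ} (hN : N ≤ Λ)
    (hm : 0 ≤ m ∧ m * SS h ≤ z.2) (ha : P.Adjc h m b p N) :
    b ∈ Finset.Icc (-(2 * (Λ : ℤ) + 2)) (2 * Λ + 2) := by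
  obtain ⟨l, h1, h2, h3, h4⟩ := ablock_visit P hp hm
  obtain ⟨a0, a1, a2⟩ := ablock_sc P hb
  have b1 := hp.nrm_le 0 l
  rw [hp.left 0 le_rfl, sub_zero, sub_zero, abs_of_nonneg h1] at b1
  have b2 : (nrm (p l) : ℝ) ≤ Λ := by exact_mod_cast (b1.trans h2).trans hN
  have b3 := abs_le.1 (P.abs_lat_le (p l))
  have b4 := abs_le.1 (h4 b ha)
  have b5 := mul_le_mul_of_nonneg_left a1 (Nat.cast_nonneg (α := ℝ) Λ)
  have b6 := ablock_near (k := b) (x := 0) (r := 2 * Λ + 2) (zero_lt_one.trans_le a1) (by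
    push_cast at b4 ⊢
    rw [abs_le]
    constructor <;> linarith)
  rw [Finset.mem_Icc, ← abs_le]
  simpa using b6
theorem cnt_adjc_le (hb : P.Big h) {z : V} {p : ℤ → V} {N : ℤ} (hp : SAP 0 z p N)
    (hm : 0 ≤ m ∧ m * SS h ≤ z.2) (I : Finset ℤ) : cnt I (fun b => P.Adjc h m b p N) ≤ 5 := by
  obtain ⟨l, h1, h2, h3, h4⟩ := ablock_visit P hp hm
  refine (ablock_cnt _ 2 fun b ha =>
    ablock_near (zero_lt_one.trans_le (ablock_sc P hb).2.1) (h4 b ha)).trans (by norm_num)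
/-- a marked cell is attached to at most five values of `m` -/
theorem cnt_badM_le {Λ : ℕ} (B : V → Set Env) (t : Env) (p : ℤ → V) (I : Finset ℤ) :
    cnt I (fun m => ∃ k ∈ Finset.range (Λ / SS h + 1), |m - (cell (SS h) (p ((k : ℕ) * SS h))).2| ≤ 2 ∧
      t ∈ B (cell (SS h) (p ((k : ℕ) * SS h)))) ≤ 5 * cellCnt (SS h) Λ B t p := by
  classical
  refine ((cnt_mono subset_rfl fun m _ ⟨k, h1, h2, h3⟩ =>
    ⟨_, Finset.mem_filter.2 ⟨Finset.mem_image_of_mem _ h1, h3⟩, h2⟩).trans (cnt_exists_le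
    (((Finset.range (Λ / SS h + 1)).image fun k : ℕ => cell (SS h) (p (k * SS h))).filter fun c => t ∈ B c)
    fun c m => |m - c.2| ≤ (2 : ℕ))).trans ((Finset.sum_le_card_nsmul _ _ 5 fun c _ =>
      (ablock_cnt _ 2 fun _ h => h).trans (by norm_num)).trans ?_)
  rw [nsmul_eq_mul, mul_comm, cellCnt]

theorem locEv_BadIII (hb : P.Big h) : LocEv (SS h) 11 (BadIII P Q h) := by
  obtain ⟨a0, a1, a2⟩ := ablock_sc P hb
  have a3 : (gg h : ℤ) ≤ SS h := by exact_mod_cast (by linarith : (gg h : ℝ) ≤ SS h)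
  refine ⟨fun c => .union (measurableSet_exists_sap (gg h) _ _ (fun q => measurableSet_le measurable_const
    (measurable_cnt _ _ fun k => measurableSet_lt (measurable_pi_apply _) measurable_const))
    fun t q q' H h1 => h1.trans_eq (cnt_congr fun k hk => ?_)) ?_, fun c t t' H => ?_⟩
  · obtain ⟨b1, b2⟩ := Finset.mem_Ico.1 hk
    obtain ⟨k, rfl⟩ := Int.eq_ofNat_of_zero_le b1
    rw [edge, edge, ← Nat.cast_succ, H k k.zero_le (by omega), H k.succ (by omega) (by omega)]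
  · simp only [Set.ofPred_exists]
    exact .iUnion fun m => .iUnion fun b => .iUnion fun σ => (MeasurableSet.const _).inter
      ((MeasurableSet.const _).inter (measurableSet_lt measurable_const (Q.measurable_ZB _).abs))
  · refine propext (or_congr (exists_congr fun p => and_congr_right fun h1 => and_congr_right fun _ =>
      and_congr_right fun h2 => ?_) (exists₃_congr fun m b σ => and_congr_right fun hσ =>
      and_congr_right fun hc => ?_))
    · rw [cnt_congr fun k hk => ?_]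
      obtain ⟨b1, b2⟩ := Finset.mem_Ico.1 hk
      rw [H _ ((h1.restrict fun l c1 c2 => ?_).edge_mem b1 b2)]
      refine ball_subset_ball (x := p 0) (r := gg h) ?_ ((h1.sub le_rfl c1 c2).nrm_le.trans (by omega))
      have : nrm (p 0 - corner (SS h) c) ≤ 10 * SS h := h2
      simp only [corner] at this
      push_cast
      omega
    · rw [Q.dependsOnly_ZB _ t t' fun e he => H e (edgesIn_mono ((blk_subset P hb hσ hc).trans ?_)
        ((mem_latE (blk_finite P hb hσ).1).1 he).1)]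
      exact ball_subset_ball (by simp only [corner, sub_self, nrm_eq_zero.2 rfl]; push_cast; omega)
/-- `(20 S + 1)² e^{-g}` (`Q.peierls`) plus at most `5 · (10 h^6 + 1) · 2` blocks, each with `2 exp (-h² / (2^72 bnd²))` (`tail_ZB` with `τ = h^68`);
`exp_neg_le_pow` -/
theorem prob_BadIII : ∃ C > 0, ∀ h : ℕ, P.Big h → ∀ c, (iidLaw G).real (BadIII P Q h c) ≤ C / (h : ℝ) ^ 140 := by
  have hB := Q.bnd_ge
  obtain ⟨D, hD⟩ : ∃ D : ℝ, D = (Nat.factorial 73 : ℝ) * (2 ^ 72 * Q.bnd ^ 2) ^ 73 := ⟨_, rfl⟩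
  have hD0 : 0 < D := by rw [hD]; positivity
  refine ⟨441 * 120 + 220 * D, by positivity, fun h hb c => ?_⟩
  obtain ⟨a0, a1, a2⟩ := ablock_sc P hb
  have b1 : (iidLaw G).real (Q.Pei (gg h) (ball (corner (SS h) c) (10 * SS h))) ≤
      441 * 120 / (h : ℝ) ^ 140 := by
    have c1 := measureReal_biUnion_finset_le (μ := iidLaw G)
      (ball_finite (corner (SS h) c) (10 * SS h)).toFinset fun x => {t | ∃ p, PathIn Set.univ p 0 (gg h) ∧
        Set.InjOn p (Set.Icc 0 (gg h : ℤ)) ∧ p 0 = x ∧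
        (gg h : ℝ) / 2 ≤ cnt (Finset.Ico 0 (gg h)) fun k => t (edge p k) < Q.q}
    refine ((measureReal_mono ?_ (measure_ne_top _ _)).trans c1).trans
      ((Finset.sum_le_card_nsmul _ _ _ fun x _ => (Q.peierls x _).trans
        (exp_neg_le_pow 5 (zero_lt_one.trans_le a1))).trans ?_)
    · rintro t ⟨p, h1, h2, h3, h4⟩
      exact Set.mem_biUnion (by simpa using h3) ⟨p, h1, h2, rfl, h4⟩
    · have c2 : ((ball (corner (SS h) c) (10 * SS h)).ncard : ℝ) ≤ (2 * (10 * SS h) + 1) ^ 2 := by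
        exact_mod_cast ncard_ball_le (corner (SS h) c) (10 * SS h)
      have c3 : (2 * (10 * SS h : ℝ) + 1) ^ 2 ≤ (21 * SS h) ^ 2 :=
        pow_le_pow_left₀ (by positivity) (by linarith) 2
      rw [nsmul_eq_mul, ← Set.ncard_eq_toFinset_card _ (ball_finite _ _)]
      refine (mul_le_mul_of_nonneg_right (c2.trans c3) (by positivity)).trans ?_
      rw [show ((21 : ℝ) * SS h) ^ 2 * ((Nat.factorial 5 : ℕ) / (gg h : ℝ) ^ 5) = 441 * 120 / (h : ℝ) ^ 180 by
        simp only [SS, gg, Nat.factorial]; push_cast; field_simp; norm_num]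
      exact div_le_div_of_nonneg_left (by norm_num) (by positivity) (pow_le_pow_right₀ a0 (by norm_num))
  have c1 := measureReal_biUnion_finset_le (μ := iidLaw G)
    (Finset.Icc (c.2 - (2 : ℕ)) (c.2 + (2 : ℕ)) ×ˢ
      Finset.Icc (⌈P.lat (corner (SS h) c) / gg h⌉ - (5 * h ^ 6 : ℕ))
        (⌈P.lat (corner (SS h) c) / gg h⌉ + (5 * h ^ 6 : ℕ)) ×ˢ ({1, -1} : Finset ℤ))
    fun x => {t | (h : ℝ) ^ 68 < |Q.ZB (latE (P.blk h x.1 x.2.1 x.2.2)) t|}
  refine (measureReal_union_le _ _).trans ?_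
  rw [add_div]
  refine add_le_add b1 (((measureReal_mono ?_ (measure_ne_top _ _)).trans c1).trans
    ((Finset.sum_le_card_nsmul _ _ (2 * (D / (h : ℝ) ^ 146)) fun x hx => ?_).trans ?_))
  · rintro t ⟨m, b, σ, h1, ⟨h2, h3⟩, h4⟩
    have h5 := abs_le.1 (ablock_near (r := 5 * h ^ 6) (zero_lt_one.trans_le a1)
      (h3.trans_eq (by rw [SS_eq]; push_cast; ring)))
    rw [abs_le] at h2
    exact Set.mem_biUnion (x := (m, b, σ)) (Finset.mem_coe.2 (Finset.mem_product.2 ⟨Finset.mem_Icc.2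
      ⟨by omega, by omega⟩, Finset.mem_product.2 ⟨Finset.mem_Icc.2
        ⟨by dsimp only; omega, by dsimp only; omega⟩, by simpa using h1⟩⟩)) h4
  · refine (Q.tail_ZB _ (by positivity) (by positivity) (card_latE_blk P hb (by
      simpa using (Finset.mem_product.1 (Finset.mem_product.1 hx).2).2))).trans ?_
    refine mul_le_mul_of_nonneg_left ((exp_neg_le_pow 73 (by positivity)).trans_eq ?_) zero_le_two
    rw [show ((h : ℝ) ^ 68) ^ 2 / (2 * (2 ^ 71 * h ^ 134) * Q.bnd ^ 2) = h ^ 2 / (2 ^ 72 * Q.bnd ^ 2) by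
      field_simp, div_pow, div_div_eq_mul_div, ← hD, ← pow_mul]
  · rw [nsmul_eq_mul, Finset.card_product, Finset.card_product, Nat.cast_mul, Nat.cast_mul, ablock_card,
      ablock_card, Finset.card_pair (by norm_num), show 220 * D / (h : ℝ) ^ 140 =
        5 * ((11 * h ^ 6) * 2) * (2 * (D / h ^ 146)) by field_simp; norm_num]
    have := one_le_pow₀ (n := 6) a0
    push_cast
    gcongr
    · norm_num
    · linarith

open Classical in
/-- Double counting: each of the `≥ h^69/8` runs `[l, l+g]` inside the block has more than `g/2` useful steps (`SAP.piece`, `t ∉ Pei`), each step lies in at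
most `g` runs; distinct steps have distinct edges (`edge_injOn`). -/
theorem useful_of_thru (hb : P.Big h) (hσ : σ = 1 ∨ σ = -1) {t : Env} {S : Set V} (hS : P.blk h m b σ ⊆ S)
    (hP : t ∉ Q.Pei (gg h) S) {z : V} {q : ℤ → V} {n : ℤ} (hq : SAP 0 z q n) (hT : P.Thru h m b σ q n) :
    ∃ D : Finset (Sym2 V), D ⊆ latE (P.blk h m b σ) ∧ (h : ℝ) ^ 69 / 16 ≤ D.card ∧
      ∀ e ∈ D, Q.q ≤ t e ∧ ∃ k, 0 ≤ k ∧ k < n ∧ e = edge q k := by
  obtain ⟨a0, a1, a2⟩ := ablock_sc P hb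
  let U := (Finset.Ico 0 n).filter fun k => Q.q ≤ t (edge q k) ∧ q k ∈ P.blk h m b σ ∧ q (k + 1) ∈ P.blk h m b σ
  have key := Finset.card_nsmul_le_card_nsmul (R := ℝ) (fun l k : ℤ => l ≤ k ∧ k < l + gg h)
    (s := (Finset.Icc 0 (n - gg h)).filter fun l => ∀ l', l ≤ l' → l' ≤ l + gg h → q l' ∈ P.blk h m b σ)
    (t := U) (m := gg h / 2) (n := gg h) (fun l hl => ?_) fun k _ => ?_
  · refine ⟨U.image (edge q), fun e he => ?_, ?_, fun e he => ?_⟩
    · obtain ⟨k, hk, rfl⟩ := Finset.mem_image.1 he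
      obtain ⟨h1, -, h2, h3⟩ := Finset.mem_filter.1 hk
      obtain ⟨h4, h5⟩ := Finset.mem_Ico.1 h1
      refine (mem_latE (blk_finite P hb hσ).1).2 ⟨fun v hv => ?_, hq.path.2.2 k h4 h5⟩
      rcases Sym2.mem_iff.1 hv with rfl | rfl
      exacts [h2, h3]
    · rw [Finset.card_image_of_injOn ((edge_injOn hq.inj).mono fun k hk => by
        simpa using (Finset.mem_filter.1 hk).1)]
      rw [nsmul_eq_mul, nsmul_eq_mul, ← ablock_cnt_eq] at key
      have h1 := mul_le_mul_of_nonneg_right hT (by positivity : (0 : ℝ) ≤ gg h / 2)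
      exact le_of_mul_le_mul_right (le_trans (le_of_eq (by ring)) (h1.trans key)) (zero_lt_one.trans_le a1)
    · obtain ⟨k, hk, rfl⟩ := Finset.mem_image.1 he
      obtain ⟨h1, h2, -⟩ := Finset.mem_filter.1 hk
      exact ⟨h2, k, (Finset.mem_Ico.1 h1).1, (Finset.mem_Ico.1 h1).2, rfl⟩
  · obtain ⟨h1, h2⟩ := Finset.mem_filter.1 hl
    obtain ⟨h3, h4⟩ := Finset.mem_Icc.1 h1
    obtain ⟨h5, h6, -⟩ := hq.piece (m := gg h) h3 (by omega)
    have h7 := not_le.1 fun k => hP ⟨_, h5, h6, hS (h2 _ (by omega) (by omega)), k⟩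
    have h8 := cnt_add_not (I := Finset.Ico 0 (gg h : ℤ)) (Q := fun k => t (edge (fun k => q (k + l)) k) < Q.q)
    rw [Int.card_Ico, sub_zero, Int.toNat_natCast] at h8
    refine le_trans (by linarith : _ ≤ cnt (Finset.Ico 0 (gg h : ℤ))
      fun k => ¬ t (edge (fun k => q (k + l)) k) < Q.q) ((ablock_cnt_eq _ _).trans_le (Nat.cast_le.2
        (Finset.card_le_card_of_injOn (fun k => k + l) (fun k hk => ?_) fun _ _ _ _ e => add_right_cancel e)))
    obtain ⟨b1, b2⟩ := Finset.mem_filter.1 (Finset.mem_coe.1 hk)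
    obtain ⟨b3, b4⟩ := Finset.mem_Ico.1 b1
    dsimp only
    refine Finset.mem_coe.2 (Finset.mem_filter.2 ⟨Finset.mem_filter.2 ⟨Finset.mem_Ico.2 ⟨by omega, by omega⟩,
      ?_, h2 _ (by omega) (by omega), h2 _ (by omega) (by omega)⟩, by omega, by omega⟩)
    simpa only [edge, add_right_comm k 1 l, not_lt] using b2
  · refine (Nat.cast_le.2 (Finset.card_le_card (t := Finset.Ioc (k - gg h) k) fun l hl => ?_)).trans (by simp)
    have := (Finset.mem_filter.1 hl).2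
    exact Finset.mem_Ioc.2 ⟨by omega, this.1⟩

end Crest.Agent.R151.PA
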