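import Crest.Agent.R151.AAcc

/-! R151/A: clean windows; most indices are clean at every scale. -/

set_option autoImplicit false
set_option linter.unusedSectionVars false
set_option linter.unusedVariables false
open MeasureTheory ProbabilityTheory Crest.ProbabilityR.FirstPassage Filter Topology
open scoped ENNReal

namespace Crest.Agent.R151.PA

variable {G : Measure ℝ} [IsProbabilityMeasure G] [NullSingletonClass G] (P : Setup G)
variable {h : ℕ} {t : Env} {a b : V} {p : ℤ → V} {N : ℤ}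

theorem aclean_ps (ht : ∀ e, 0 ≤ t e) (hb : P.Big h) (hp : IsG t a b p N) (k : ℕ) : ∀ m : ℕ,
    ((k : ℤ) + m) * SS h ≤ N → P.θ / P.C * SS h * m - 3 / P.c * ∑ j ∈ Finset.Ico k (k + m), P.ee h t p N j ≤
      ((p ((k + m) * SS h)).2 - (p (k * SS h)).2 : ℤ) := by
  intro m
  induction m with
  | zero => intro _; simp
  | succ m ih =>
    intro hk
    have hS : (0 : ℤ) ≤ SS h := Nat.cast_nonneg _
    have h1 := ih (by push_cast at hk; nlinarith)
    have h2 := progress P ht hb hp (k := k + m) (by push_cast at hk ⊢; linarith)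
    rw [← add_assoc, Finset.sum_Ico_succ_top (Nat.le_add_right _ _)]
    push_cast at h1 h2 ⊢
    rw [← add_assoc]
    linarith

/-- summing `progress` -/
theorem progress_sum (ht : ∀ e, 0 ≤ t e) (hb : P.Big h) (hp : IsG t a b p N) {k m : ℕ}
    (hk : ((k : ℤ) + m) * SS h ≤ N) (he : ∑ j ∈ Finset.Ico k (k + m), P.ee h t p N j ≤ P.lam h * m) :
    P.θ / P.C * SS h / 2 * m ≤ ((p ((k + m) * SS h)).2 - (p (k * SS h)).2 : ℤ) := by
  have h1 := aclean_ps P ht hb hp k m hk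
  have h2 := mul_le_mul_of_nonneg_right (P.lam_progress hb) (Nat.cast_nonneg (α := ℝ) m)
  have h3 := mul_le_mul_of_nonneg_left he (div_nonneg (by norm_num : (0 : ℝ) ≤ 3) P.c_pos.le)
  linarith

theorem aclean_snd (u : V) : |u.2| ≤ nrm u := le_max_right _ _

theorem aclean_nrm3 (x y z : V) : nrm (x - z) ≤ nrm (x - y) + nrm (y - z) := by
  have := nrm_add_le (x - y) (y - z)
  rwa [sub_add_sub_cancel] at this

theorem aclean_g_pos (hb : P.Big h) : 1 ≤ gg h :=
  Nat.one_le_pow _ _ (lt_of_lt_of_le (by norm_num) hb.1)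

/-- The field `short`.  All `p l`, `l ∈ [y1,y2]`, are within `ρ := (m0+1) S` of `p x` and within `g` laterally.  If some `q u` has `|lat| ≥ 8g`, let `y = q u0`
be the first point with `|lat (y - p x)| ≥ 8g` or `|y.2 - (p x).2| ≥ ρ + 8g`; then `|lat| ≤ 8g + 1`, the row difference is `≤ ρ + 8g`, so
`nrm (y - p x) ≤ ρ + 16 g + 1 ≤ (m0+2) S` and `y` is in the controlled ball.  `cost q ≥ T (p j) y + T y (p k) ≥ mT (y - p j) + mT (p k - y) - 2 lam1`, and
`mT (y - p j) + mT (p k - y) ≥ rh (p k - p j) + 7 c g` (`rh_lat_le`, `rh_back_le`, `rh_le`), while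
`cost q ≤ rh (p k - p j) + exc + c g ≤ rh (p k - p j) + 2 c g`, `2 lam1 ≤ c g`. -/
theorem short_of (ht : ∀ e, 0 ≤ t e) (hb : P.Big h) {c : V} (hc : t ∉ P.BadC h c) {x j k i0 i1 : ℤ} {q : ℤ → V}
    (hx : nrm (p x - corner (SS h) c) ≤ 2 * SS h) (hj : nrm (p j - p x) ≤ (P.m0 + 1) * SS h)
    (hk : nrm (p k - p x) ≤ (P.m0 + 1) * SS h) (hj' : |P.lat (p j - p x)| ≤ gg h)
    (hk' : |P.lat (p k - p x)| ≤ gg h) (he : P.exc t p j k ≤ P.c * gg h) (hq : PathIn Set.univ q i0 i1)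
    (h0 : q i0 = p j) (h1 : q i1 = p k) (hcost : cost t q i0 i1 ≤ cost t p j k + P.c * gg h) :
    ∀ u, i0 ≤ u → u ≤ i1 → |P.lat (q u - p x)| < 8 * gg h := by
  intro u hu0 hu1
  by_contra hu
  rw [not_lt] at hu
  have hg : (1 : ℤ) ≤ gg h := by exact_mod_cast aclean_g_pos P hb
  have hg' : (1 : ℝ) ≤ gg h := by exact_mod_cast aclean_g_pos P hb
  have hgS : (2 : ℤ) ^ 70 * gg h ≤ SS h := by exact_mod_cast gg_le_SS hb.1
  obtain ⟨u0, ⟨hu00, hu01, hu0⟩, hmin⟩ := Int.exists_least_of_bdd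
    (P := fun u => i0 ≤ u ∧ u ≤ i1 ∧ (8 * (gg h : ℝ) ≤ |P.lat (q u - p x)| ∨
      ((P.m0 : ℤ) + 1) * SS h + 8 * gg h ≤ |(q u - p x).2|)) ⟨i0, fun z hz => hz.1⟩ ⟨u, hu0, hu1, Or.inl hu⟩
  have hj2 := (aclean_snd _).trans hj
  have hk2 := (aclean_snd _).trans hk
  have hlt : i0 < u0 := by
    refine lt_of_le_of_ne hu00 fun e => ?_
    rw [← e, h0] at hu0
    rcases hu0 with h2 | h2 <;> linarith
  have hprev : |P.lat (q (u0 - 1) - p x)| < 8 * gg h ∧
      |(q (u0 - 1) - p x).2| < ((P.m0 : ℤ) + 1) * SS h + 8 * gg h := by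
    by_contra h2
    have := hmin (u0 - 1) ⟨by omega, by omega, by
      rw [not_and_or, not_lt, not_lt] at h2
      exact h2⟩
    omega
  have hadj : Adj (q (u0 - 1)) (q u0) := by
    have := hq.2.2 (u0 - 1) (by omega) (by omega)
    rwa [sub_add_cancel] at this
  have e1 : q u0 - p x = (q u0 - q (u0 - 1)) + (q (u0 - 1) - p x) := by abel
  have hl : |P.lat (q u0 - p x)| ≤ 8 * gg h + 1 := by
    rw [e1, P.lat_add]
    have := P.abs_lat_adj hadj
    linarith [abs_add_le (P.lat (q u0 - q (u0 - 1))) (P.lat (q (u0 - 1) - p x)), hprev.1]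
  have hr : |(q u0 - p x).2| ≤ ((P.m0 : ℤ) + 1) * SS h + 8 * gg h := by
    rw [e1, Prod.snd_add]
    have h2 := aclean_snd (q u0 - q (u0 - 1))
    rw [adj_nrm hadj] at h2
    linarith [abs_add_le (q u0 - q (u0 - 1)).2 (q (u0 - 1) - p x).2, hprev.2]
  have hf : |(q u0 - p x).1| ≤ ((P.m0 : ℤ) + 1) * SS h + 16 * gg h + 1 := by
    have h2 := P.abs_fst_le (q u0 - p x)
    have h3 : |((q u0 - p x).2 : ℝ)| ≤ ((P.m0 : ℝ) + 1) * SS h + 8 * gg h := by exact_mod_cast hr
    have h4 : |((q u0 - p x).1 : ℝ)| ≤ ((P.m0 : ℝ) + 1) * SS h + 16 * gg h + 1 := by linarith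
    exact_mod_cast h4
  have hy : nrm (q u0 - p x) ≤ ((P.m0 : ℤ) + 2) * SS h := max_le (by linarith) (by linarith)
  have hball : ∀ v : V, nrm (v - p x) ≤ ((P.m0 : ℤ) + 2) * SS h →
      v ∈ ball (corner (SS h) c) (P.r0 * SS h) := fun v hv => by
    have h2 := aclean_nrm3 v (p x) (corner (SS h) c)
    show nrm _ ≤ _
    rw [Setup.r0]
    push_cast
    linarith
  have g1 := good_cell P ht hb hc (hball (p j) (by linarith)) (hball _ hy)
  have g2 := good_cell P ht hb hc (hball _ hy) (hball (p k) (by linarith))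
  have c1 := T_le_cost ht (hq.sub le_rfl hu00 hu01)
  have c2 := T_le_cost ht (hq.sub hu00 hu01 le_rfl)
  rw [h0] at c1
  rw [h1] at c2
  have c3 := cost_add (t := t) (p := q) hu00 hu01
  have e2 : P.rh (p k - p j) = P.rh (q u0 - p j) + P.rh (p k - q u0) := by
    rw [← P.rh_add]; congr 1; abel
  have hlam := P.lam1_le hb
  have hc0 := P.c_pos
  have hcg : 0 < P.c * gg h := by positivity
  unfold Setup.exc at he
  have key : P.rh (p k - p j) + 7 * (P.c * gg h) ≤ mT G (q u0 - p j) + mT G (p k - q u0) := by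
    rw [e2]
    rcases hu0 with h2 | h2
    · have h3 : q u0 - p x = (q u0 - p j) + (p j - p x) := by abel
      rw [h3, P.lat_add] at h2
      have h4 : 7 * (gg h : ℝ) ≤ |P.lat (q u0 - p j)| := by
        linarith [abs_add_le (P.lat (q u0 - p j)) (P.lat (p j - p x))]
      linarith [P.rh_lat_le (q u0 - p j), P.rh_le (p k - q u0), mul_le_mul_of_nonneg_left h4 hc0.le]
    · rw [abs_le] at hj2 hk2
      simp only [Prod.snd_sub] at h2 hj2 hk2
      rcases le_abs.1 h2 with h3 | h3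
      · have h4 : (p k - q u0).2 ≤ -(8 * gg h) := by
          rw [Prod.snd_sub]; linarith
        have h5 : (((p k - q u0).2 : ℤ) : ℝ) ≤ -(8 * gg h) := by exact_mod_cast h4
        linarith [P.rh_back_le (p k - q u0), P.rh_le (q u0 - p j), mul_le_mul_of_nonneg_left h5 hc0.le]
      · have h4 : (q u0 - p j).2 ≤ -(8 * gg h) := by
          rw [Prod.snd_sub]; linarith
        have h5 : (((q u0 - p j).2 : ℤ) : ℝ) ≤ -(8 * gg h) := by exact_mod_cast h4
        linarith [P.rh_back_le (q u0 - p j), P.rh_le (p k - q u0), mul_le_mul_of_nonneg_left h5 hc0.le]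
  linarith

theorem aclean_rows (ht : ∀ e, 0 ≤ t e) (hb : P.Big h) (hp : IsG t a b p N) {k m : ℕ} (hm : P.m0 ≤ m)
    (hk : ((k : ℤ) + m) * SS h ≤ N) (he : ∑ j ∈ Finset.Ico k (k + m), P.ee h t p N j ≤ P.lam h * m) {u v : ℤ}
    (hu : |u - k * SS h| ≤ SS h) (hv : |v - (k + m) * SS h| ≤ SS h) : 4 * (SS h : ℤ) ≤ (p v).2 - (p u).2 := by
  have h1 := progress_sum P ht hb hp hk he
  have h2 := P.m0_ge
  have hθ := P.θ_pos
  have hC : 0 < P.C := one_pos.trans_le P.C_ge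
  have hm' : (P.m0 : ℝ) ≤ m := by exact_mod_cast hm
  have h3 : 12 ≤ P.θ / P.C * m := by
    rw [div_le_iff₀ hθ] at h2
    rw [div_mul_eq_mul_div, le_div_iff₀ hC]
    nlinarith
  have h4 : 6 * (SS h : ℝ) ≤ P.θ / P.C * SS h / 2 * m := by
    nlinarith [mul_le_mul_of_nonneg_right h3 (Nat.cast_nonneg (α := ℝ) (SS h))]
  have h5 : 6 * (SS h : ℤ) ≤ (p ((k + m) * SS h)).2 - (p (k * SS h)).2 := by
    exact_mod_cast h4.trans h1
  have h6 := abs_le.1 (((aclean_snd _).trans (hp.sap.nrm_le (k * SS h) u)).trans hu)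
  have h7 := abs_le.1 (((aclean_snd _).trans (hp.sap.nrm_le ((k + m) * SS h) v)).trans hv)
  simp only [Prod.snd_sub] at h6 h7
  linarith [h6.2, h7.1]

theorem aclean_div {S : ℕ} (hS : 1 ≤ S) {l : ℤ} (hl : 0 ≤ l) :
    ∃ k : ℕ, (k : ℤ) * S ≤ l ∧ l < (k + 1) * S := by
  have h1 := abas_div hS l
  have h2 : 0 ≤ l / S := Int.ediv_nonneg hl (Nat.cast_nonneg _)
  refine ⟨(l / S).toNat, ?_, ?_⟩ <;> rw [Int.toNat_of_nonneg h2] <;> linarith [h1.1, h1.2]

/-- Window `y1 = max 0 ((k0 - m0) S)`, `y2 = min N ((k0 + m0) S)`.  `ee k0 ≤ lam < S` so the cell of piece `k0` is good.  `mem`: an index in piece `k0 + m` or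
`k0 - m - 1`, `m ≥ m0`, has row difference `> 3S` by `progress_sum` (`θ/C m0 / 2 ≥ 6`).  For `u ≤ v` in the window
`exc u v = exc y1 y2 - exc y1 u - exc v y2 ≤ 2 lam m0 + 2 lam1` (`sum_exc`, `exc_le_ee`, `exc_good`), so `exc u v + lam1 ≤ c g`. -/
theorem clean_of (ht : ∀ e, 0 ≤ t e) (hb : P.Big h) (hp : IsG t a b p N) {x : ℤ} {k0 : ℕ}
    (hx : (k0 : ℤ) * SS h ≤ x ∧ x < (k0 + 1) * SS h ∧ x < N)
    (hf : ∀ m : ℕ, ∑ j ∈ Finset.Ico k0 (k0 + m), P.ee h t p N j ≤ P.lam h * m)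
    (hr : ∀ m : ℕ, m ≤ k0 → ∑ j ∈ Finset.Ico (k0 - m) k0, P.ee h t p N j ≤ P.lam h * m) :
    P.Clean h t p N x := by
  obtain ⟨hx1, hx2, hx3⟩ := hx
  have hh1 : 1 ≤ h := le_trans (by norm_num) hb.1
  have hS1 : 1 ≤ SS h := SS_pos hh1
  have hS : (1 : ℤ) ≤ SS h := by exact_mod_cast hS1
  have hm12 : (12 : ℤ) ≤ P.m0 := by exact_mod_cast P.m0_ge_twelve
  have hlam := P.lam_pos hb
  have hc0 := P.c_pos
  have hlm : 4 * P.m0 * P.lam h = P.c * gg h := P.lam_mul_m0
  have hl1 := P.lam1_le hb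
  have hl0 := P.lam1_nonneg h
  obtain ⟨d, hd, hd0, hd1⟩ : ∃ d : ℕ, d ≤ P.m0 ∧ d ≤ k0 ∧ (d = P.m0 ∨ d = k0) :=
    ⟨min P.m0 k0, min_le_left _ _, min_le_right _ _, min_choice _ _⟩
  obtain ⟨k1, rfl⟩ : ∃ k1, k0 = k1 + d := ⟨k0 - d, by omega⟩
  have hd' : (d : ℤ) ≤ P.m0 := by exact_mod_cast hd
  have hk1 : (0 : ℤ) ≤ (k1 : ℤ) * SS h := by positivity
  have hdS : (0 : ℤ) ≤ (d : ℤ) * SS h := by positivity
  have hdS' : (d : ℤ) * SS h ≤ P.m0 * SS h := mul_le_mul_of_nonneg_right hd' (by linarith)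
  have hmS : (SS h : ℤ) ≤ P.m0 * SS h := by nlinarith
  push_cast at hx1 hx2
  -- the cell of the piece is good
  have hgood : t ∉ P.BadC h (cell (SS h) (p (((k1 + d : ℕ) : ℤ) * SS h))) := by
    intro hB
    have h1 := ee_bad P ht hp (k := k1 + d) (by push_cast; linarith) hB
    have h2 := hf 1
    rw [Nat.Ico_succ_singleton, Finset.sum_singleton, Nat.cast_one, mul_one] at h2
    have h3 : (2 : ℝ) ^ 70 * gg h ≤ SS h := by exact_mod_cast gg_le_SS hb.1
    have h4 : (12 : ℝ) ≤ P.m0 := by exact_mod_cast P.m0_ge_twelve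
    have h5 : (1 : ℝ) ≤ gg h := by exact_mod_cast aclean_g_pos P hb
    have h6 : P.c * gg h ≤ gg h := by nlinarith [P.c_le]
    nlinarith
  set c0 := cell (SS h) (p (((k1 + d : ℕ) : ℤ) * SS h)) with hc0d
  have hxc : nrm (p x - corner (SS h) c0) ≤ 2 * SS h := by
    have h1 := nrm_sub_corner hS1 (p (((k1 + d : ℕ) : ℤ) * SS h))
    have h2 := hp.sap.nrm_le (((k1 + d : ℕ) : ℤ) * SS h) x
    have h3 := aclean_nrm3 (p x) (p (((k1 + d : ℕ) : ℤ) * SS h)) (corner (SS h) c0)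
    have h4 : |x - ((k1 + d : ℕ) : ℤ) * SS h| ≤ SS h := by
      push_cast
      rw [abs_le]; constructor <;> linarith
    linarith
  set y2 : ℤ := min (((k1 + d + P.m0 : ℕ) : ℤ) * SS h) N with hy2
  have hy2N : y2 ≤ N := min_le_right _ _
  have hy2' : y2 ≤ ((k1 : ℤ) + d + P.m0) * SS h := by
    have := min_le_left (((k1 + d + P.m0 : ℕ) : ℤ) * SS h) N
    push_cast at this ⊢
    exact hy2.le.trans (by push_cast; exact this)
  have hxy2 : x ≤ y2 := le_min (by push_cast; linarith) hx3.le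
  have hnear : ∀ l, (k1 : ℤ) * SS h ≤ l → l ≤ y2 → nrm (p l - p x) ≤ (P.m0 + 1) * SS h := fun l h1 h2 => by
    refine (hp.sap.nrm_le x l).trans ?_
    rw [abs_le]; constructor <;> linarith
  have hball : ∀ l, (k1 : ℤ) * SS h ≤ l → l ≤ y2 → p l ∈ ball (corner (SS h) c0) (P.r0 * SS h) :=
    fun l h1 h2 => by
      have h3 := aclean_nrm3 (p l) (p x) (corner (SS h) c0)
      have h4 := hnear l h1 h2
      show nrm _ ≤ _
      rw [Setup.r0]
      push_cast
      linarith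
  have hlat : ∀ u v, (k1 : ℤ) * SS h ≤ u → u ≤ v → v ≤ y2 →
      P.c * |P.lat (p v - p u)| ≤ P.exc t p u v + P.lam1 h := fun u v h1 h2 h3 =>
    (exc_good P ht hb hp hgood (by linarith) h2 (by linarith) (hball u h1 (by linarith))
      (hball v (by linarith) h3)).2.1
  have htot : P.exc t p (k1 * SS h) y2 ≤ P.c * gg h / 2 := by
    have h1 := sum_exc P (t := t) (p := p) hS1 k1 (k1 + d + P.m0) (by omega) hp.nonneg
    rw [min_eq_left (by linarith : (k1 : ℤ) * SS h ≤ N)] at h1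
    rw [hy2, h1]
    have h2 : ∑ k ∈ Finset.Ico k1 (k1 + d + P.m0), (if (k : ℤ) * SS h < N then
        P.exc t p (k * SS h) (min ((k + 1) * SS h) N) else 0) ≤
        ∑ k ∈ Finset.Ico k1 (k1 + d + P.m0), P.ee h t p N k := Finset.sum_le_sum fun k _ => by
      split_ifs with h3
      · exact exc_le_ee P k h3
      · exact ee_nonneg P ht hb hp k
    refine h2.trans ?_
    rw [← Finset.sum_Ico_consecutive _ (Nat.le_add_right k1 d) (Nat.le_add_right (k1 + d) P.m0)]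
    have h3 := hf P.m0
    have h4 := hr d hd0
    rw [Nat.add_sub_cancel] at h4
    have h5 : (d : ℝ) ≤ P.m0 := by exact_mod_cast hd
    nlinarith
  have hexc : ∀ u v, (k1 : ℤ) * SS h ≤ u → u ≤ v → v ≤ y2 → P.exc t p u v + P.lam1 h ≤ P.c * gg h :=
    fun u v h1 h2 h3 => by
      have h4 := P.exc_add t p h1 (h2.trans h3)
      have h5 := P.exc_add t p h2 h3
      have h6 := hlat _ u le_rfl h1 (h2.trans h3)
      have h7 := hlat v y2 (h1.trans h2) h3 le_rfl
      have h8 : 0 ≤ P.c * |P.lat (p u - p (k1 * SS h))| := by positivity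
      have h9 : 0 ≤ P.c * |P.lat (p y2 - p v)| := by positivity
      linarith
  have hlat2 : ∀ l, (k1 : ℤ) * SS h ≤ l → l ≤ y2 → |P.lat (p l - p x)| ≤ gg h := fun l h1 h2 => by
    refine le_of_mul_le_mul_left ?_ hc0
    rcases le_total x l with h3 | h3
    · exact (hlat x l (by linarith) h3 h2).trans (hexc x l (by linarith) h3 h2)
    · rw [← neg_sub, P.lat_neg, abs_neg]
      exact (hlat l x h1 h3 hxy2).trans (hexc l x h1 h3 hxy2)
  refine ⟨k1 * SS h, y2, hk1, by linarith, hxy2, hy2N, by linarith, fun l h1 h2 h3 => ?_, hlat2,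
    fun j k q i0 i1 h1 h2 h3 h4 h5 h6 h7 => short_of P ht hb hgood hxc (hnear j h1 (h2.trans h3))
      (hnear k (h1.trans h2) h3) (hlat2 j h1 (h2.trans h3)) (hlat2 k (h1.trans h2) h3)
      (by linarith [hexc j k h1 h2 h3]) h4 h5 h6 h7⟩
  obtain ⟨k', hk1', hk2'⟩ := aclean_div hS1 h1
  rw [abs_le] at h3
  constructor
  · by_contra h4
    rw [not_le] at h4
    have h5 : k' < k1 := by
      have : (k' : ℤ) < k1 := lt_of_mul_lt_mul_right (hk1'.trans_lt h4) (by linarith)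
      exact_mod_cast this
    have h6 : d = P.m0 := by omega
    obtain ⟨m, hm⟩ : ∃ m, k1 + d = k' + m := ⟨k1 + d - k', by omega⟩
    have hm' : (k1 : ℤ) + d = k' + m := by exact_mod_cast hm
    have h7 := hr m (by omega)
    rw [hm, Nat.add_sub_cancel] at h7
    have h8 := aclean_rows P ht hb hp (k := k') (m := m) (by omega) (by rw [← hm']; linarith) h7
      (u := l) (v := x) (by rw [abs_le]; constructor <;> linarith)
      (by rw [← hm', abs_le]; constructor <;> linarith)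
    linarith [h3.1]
  · by_contra h4
    rw [not_le] at h4
    have h5 : ((k1 + d + P.m0 : ℕ) : ℤ) * SS h < l := by
      rcases min_lt_iff.1 (hy2.symm.le.trans_lt h4) with h6 | h6
      · exact h6
      · linarith
    have h6 : k1 + d + P.m0 < k' + 1 := by
      have : ((k1 + d + P.m0 : ℕ) : ℤ) < k' + 1 := lt_of_mul_lt_mul_right (h5.trans hk2') (by linarith)
      exact_mod_cast this
    obtain ⟨m, hm⟩ : ∃ m, k' = k1 + d + m := ⟨k' - (k1 + d), by omega⟩
    have hm' : (k' : ℤ) = ((k1 + d : ℕ) : ℤ) + m := by exact_mod_cast hm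
    have h8 := aclean_rows P ht hb hp (k := k1 + d) (m := m) (by omega) (by rw [← hm']; linarith) (hf m)
      (u := x) (v := l) (by push_cast; rw [abs_le]; constructor <;> linarith)
      (by rw [← hm', abs_le]; constructor <;> linarith)
    linarith [h3.2]

open Classical in
theorem aclean_fwd (e : ℕ → ℝ) (h0 : ∀ k, 0 ≤ e k) {n : ℕ} (hn : ∀ k, n ≤ k → e k = 0) {lam : ℝ} (hl : 0 ≤ lam) :
    lam * (((Finset.range n).filter fun y => ¬ ∀ m : ℕ, ∑ j ∈ Finset.Ico y (y + m), e j ≤ lam * m).card : ℝ) ≤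
      ∑ k ∈ Finset.range n, e k := by
  have h1 := maximal_1d e h0 lam n n
  have h2 : ∑ y ∈ Finset.range (n + n), e y = ∑ k ∈ Finset.range n, e k := by
    rw [Finset.sum_range_add, Finset.sum_eq_zero (s := Finset.range n) (f := fun x => e (n + x))
      fun x _ => hn _ (Nat.le_add_right _ _), add_zero]
  rw [h2] at h1
  refine le_trans (mul_le_mul_of_nonneg_left (Nat.cast_le.2 (Finset.card_le_card fun y hy => ?_)) hl) h1
  simp only [Finset.mem_filter] at hy ⊢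
  refine ⟨hy.1, ?_⟩
  obtain ⟨m, hm⟩ := not_forall.1 hy.2
  rw [not_le, Finset.sum_Ico_eq_sum_range, Nat.add_sub_cancel_left] at hm
  have hn0 := Finset.mem_range.1 hy.1
  rcases Nat.eq_zero_or_pos m with rfl | hm0
  · simp at hm
  rcases le_total m n with h3 | h3
  · exact ⟨m, Finset.mem_Icc.2 ⟨hm0, h3⟩, hm⟩
  · refine ⟨n, Finset.mem_Icc.2 ⟨by omega, le_rfl⟩, ?_⟩
    obtain ⟨r, rfl⟩ : ∃ r, m = n + r := ⟨m - n, by omega⟩
    rw [Finset.sum_range_add, Finset.sum_eq_zero (s := Finset.range r) (f := fun x => e (y + (n + x)))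
      fun x _ => hn _ (by omega), add_zero] at hm
    refine lt_of_le_of_lt (mul_le_mul_of_nonneg_left ?_ hl) hm
    exact_mod_cast h3

open Classical in
theorem aclean_bwd (e : ℕ → ℝ) (h0 : ∀ k, 0 ≤ e k) (n : ℕ) {lam : ℝ} (hl : 0 ≤ lam) :
    lam * (((Finset.range n).filter fun y =>
      ¬ ∀ m : ℕ, m ≤ y → ∑ j ∈ Finset.Ico (y - m) y, e j ≤ lam * m).card : ℝ) ≤ ∑ k ∈ Finset.range n, e k := by
  have h1 := aclean_fwd (fun y => if y < n then e (n - 1 - y) else 0)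
    (fun k => by split_ifs; exacts [h0 _, le_rfl]) (n := n) (fun k hk => if_neg (by omega)) hl
  have h2 : ∑ k ∈ Finset.range n, (if k < n then e (n - 1 - k) else 0) = ∑ k ∈ Finset.range n, e k := by
    rw [← Finset.sum_range_reflect e n]
    exact Finset.sum_congr rfl fun k hk => if_pos (Finset.mem_range.1 hk)
  rw [h2] at h1
  refine le_trans (mul_le_mul_of_nonneg_left (Nat.cast_le.2
    (Finset.card_le_card_of_injOn (fun y => n - y) (fun y hy => ?_) fun y hy y' hy' hyy => ?_)) hl) h1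
  · rw [Finset.mem_coe, Finset.mem_filter] at hy ⊢
    beta_reduce
    obtain ⟨m, hm⟩ := not_forall.1 hy.2
    obtain ⟨hm1, hm⟩ := Classical.not_imp.1 hm
    have hn0 := Finset.mem_range.1 hy.1
    rcases Nat.eq_zero_or_pos m with rfl | hm0
    · simp at hm
    refine ⟨Finset.mem_range.2 (by omega), fun h => hm (le_of_eq_of_le ?_ (h m))⟩
    rw [Finset.sum_Ico_eq_sum_range, Finset.sum_Ico_eq_sum_range, Nat.add_sub_cancel_left,
      show y - (y - m) = m by omega, ← Finset.sum_range_reflect]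
    refine Finset.sum_congr rfl fun k hk => ?_
    have := Finset.mem_range.1 hk
    rw [if_pos (by omega)]
    congr 1
    omega
  · have h3 := Finset.mem_range.1 (Finset.mem_filter.1 (Finset.mem_coe.1 hy)).1
    have h4 := Finset.mem_range.1 (Finset.mem_filter.1 (Finset.mem_coe.1 hy')).1
    simp only at hyy
    omega

theorem aclean_piece (I : Finset ℤ) (S k : ℕ) : cnt I (fun x => (k : ℤ) * S ≤ x ∧ x < (k + 1) * S) ≤ S := by
  classical
  unfold cnt
  refine Nat.cast_le.2 ((Finset.card_le_card (t := Finset.Ico ((k : ℤ) * S) ((k + 1) * S)) fun x hx => by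
    simp only [Finset.mem_filter] at hx
    exact Finset.mem_Ico.2 hx.2).trans (le_of_eq ?_))
  rw [Int.card_Ico, add_mul, one_mul, add_sub_cancel_left, Int.toNat_natCast]

/-- `maximal_1d` forwards for `ee` (which vanishes beyond `n = Λ/S + 1`; for `m > n` the forward condition follows from the one for `m = n`) and backwards for
`y ↦ if y < n then ee (n - 1 - y) else 0`; every piece has at most `S` indices. -/
theorem unclean_le (ht : ∀ e, 0 ≤ t e) (hb : P.Big h) (hp : IsG t a b p N) {Λ : ℕ} (hN : N ≤ Λ) :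
    cnt (Finset.Ico 0 N) (fun x => ¬ P.Clean h t p N x) ≤ 2 * SS h / P.lam h * P.eeSum h Λ t p N := by
  classical
  have hh1 : 1 ≤ h := le_trans (by norm_num) hb.1
  have hS1 : 1 ≤ SS h := SS_pos hh1
  have hS : (1 : ℤ) ≤ SS h := by exact_mod_cast hS1
  have hlam := P.lam_pos hb
  set n := Λ / SS h + 1 with hn
  have hnS : N < (n : ℤ) * SS h := by
    have h1 : Λ < n * SS h := by
      rw [hn, mul_comm]; exact Nat.lt_mul_div_succ Λ hS1
    have h2 : (Λ : ℤ) < n * SS h := by exact_mod_cast h1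
    linarith
  have h1 := aclean_fwd (P.ee h t p N) (ee_nonneg P ht hb hp) (n := n) (fun k hk => by
    have : (n : ℤ) ≤ k := by exact_mod_cast hk
    unfold Setup.ee
    rw [if_neg]
    nlinarith) hlam.le
  have h2 := aclean_bwd (P.ee h t p N) (ee_nonneg P ht hb hp) n hlam.le
  set B1 := (Finset.range n).filter fun y =>
    ¬ ∀ m : ℕ, ∑ j ∈ Finset.Ico y (y + m), P.ee h t p N j ≤ P.lam h * m with hB1
  set B2 := (Finset.range n).filter fun y =>
    ¬ ∀ m : ℕ, m ≤ y → ∑ j ∈ Finset.Ico (y - m) y, P.ee h t p N j ≤ P.lam h * m with hB2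
  have h3 : cnt (Finset.Ico 0 N) (fun x => ¬ P.Clean h t p N x) ≤
      cnt (Finset.Ico 0 N) fun x => ∃ k ∈ B1 ∪ B2, (k : ℤ) * SS h ≤ x ∧ x < (k + 1) * SS h := by
    refine cnt_mono subset_rfl fun x hx hc => ?_
    obtain ⟨hx0, hxN⟩ := Finset.mem_Ico.1 hx
    obtain ⟨k, hk1, hk2⟩ := aclean_div hS1 hx0
    refine ⟨k, ?_, hk1, hk2⟩
    have hkn : k ∈ Finset.range n := by
      have : (k : ℤ) < n := lt_of_mul_lt_mul_right (hk1.trans_lt (hxN.trans hnS)) (by linarith)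
      exact Finset.mem_range.2 (by exact_mod_cast this)
    by_contra h4
    rw [Finset.mem_union, not_or, hB1, hB2, Finset.mem_filter, Finset.mem_filter] at h4
    exact hc (clean_of P ht hb hp ⟨hk1, hk2, hxN⟩ (not_not.1 fun h5 => h4.1 ⟨hkn, h5⟩)
      (not_not.1 fun h5 => h4.2 ⟨hkn, h5⟩))
  have h4 := cnt_exists_le (I := Finset.Ico 0 N) (B1 ∪ B2)
    fun (k : ℕ) x => (k : ℤ) * SS h ≤ x ∧ x < (k + 1) * SS h
  have h5 := Finset.sum_le_card_nsmul (B1 ∪ B2) _ (SS h : ℝ) fun k _ => aclean_piece (Finset.Ico 0 N) (SS h) k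
  have h6 : ((B1 ∪ B2).card : ℝ) ≤ B1.card + B2.card := by exact_mod_cast Finset.card_union_le B1 B2
  rw [nsmul_eq_mul] at h5
  refine (h3.trans (h4.trans h5)).trans ?_
  rw [div_mul_eq_mul_div, le_div_iff₀ hlam]
  have h7 : P.lam h * ((B1 ∪ B2).card : ℝ) ≤ 2 * P.eeSum h Λ t p N := by
    unfold Setup.eeSum
    nlinarith
  nlinarith [mul_le_mul_of_nonneg_left h7 (Nat.cast_nonneg (α := ℝ) (SS h))]

/-- `acc_GB` with `n = SS hT`, `E = C1 la hT ≤ C1 la h n / SS h` (`la_mul_SS_le`); `S la / (lam S) = 4 m0 / (c h)` -/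
theorem clean_GB {C1 : ℝ} (hC1 : 0 ≤ C1) : ∃ C8 > 0, ∀ h hT : ℕ, P.Big h → h ≤ hT → ∀ z, P.Adm C1 hT z →
    GB G 0 z (P.cap hT) (fun t p N => cnt (Finset.Ico 0 N) fun x => ¬ P.Clean h t p N x) (C8 * SS hT / h) := by
  obtain ⟨C7, hC7, H⟩ := acc_GB P
  have hm := P.abas_m0
  have hc := P.c_pos
  refine ⟨8 * P.m0 * (C1 + C7) / P.c, by positivity, fun h hT hb hh z hz => ?_⟩
  have hh1 : 1 ≤ h := le_trans (by norm_num) hb.1
  have hS : (0 : ℝ) < SS h := by exact_mod_cast SS_pos hh1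
  have hlam := P.lam_pos hb
  have h1 := (H h hb (SS hT) z _ (SS_mono hh) hz.2.1 hz.2.2).smul (k := 2 * SS h / P.lam h) (by positivity)
  refine h1.mono P.hyp (fun t p N ht hp hN => unclean_le P ht.nonneg hb hp hN) ?_
  have h2 : (la hT : ℝ) * SS h ≤ la h * SS hT := by exact_mod_cast la_mul_SS_le hh
  have h3 : (la hT : ℝ) ≤ la h * (SS hT / SS h) := by
    rw [← mul_div_assoc, le_div_iff₀ hS]; exact h2
  have h4 : C1 * la hT + C7 * la h * (SS hT / SS h : ℝ) ≤ (C1 + C7) * (la h * (SS hT / SS h)) := by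
    nlinarith [mul_le_mul_of_nonneg_left h3 hC1]
  refine (mul_le_mul_of_nonneg_left h4 (by positivity)).trans (le_of_eq ?_)
  have hh0 : (0 : ℝ) < h := by exact_mod_cast hh1
  have hla : (0 : ℝ) < la h := by unfold la; positivity
  have h5 : (gg h : ℝ) = h * la h := by exact_mod_cast gg_eq h
  unfold Setup.lam
  rw [h5]
  field_simp
  ring

theorem win_of_clean {x : ℤ} (hc : P.Clean h t p N x) {r : ℕ} (hr : r ≤ 3 * SS h) :
    Win p N r (2 * P.m0 * SS h) x := by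
  obtain ⟨y1, y2, H⟩ := hc
  intro l h1 h2 h3
  have h4 : (r : ℤ) ≤ 3 * SS h := by exact_mod_cast hr
  have h5 := H.mem l h1 h2 (h3.trans h4)
  have h6 := H.len
  push_cast
  rw [abs_le]
  constructor <;> linarith [H.h1, H.h2, h5.1, h5.2]

theorem win_GB {C1 : ℝ} (hC1 : 0 ≤ C1) (r : ℕ) {η : ℝ} (hη : 0 < η) : ∃ J : ℕ, ∀ᶠ hT : ℕ in atTop, ∀ z,
    P.Adm C1 hT z →
      GB G 0 z (P.cap hT) (fun _ p N => cnt (Finset.Ico 0 N) fun x => ¬ Win p N r J x) (η * SS hT) := by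
  obtain ⟨C8, hC8, H⟩ := clean_GB P hC1
  obtain ⟨h, hb, hr, hη'⟩ := (P.eventually_big.and ((tendsto_SS.eventually_ge_atTop r).and
    (tendsto_natCast_atTop_atTop.eventually_ge_atTop (C8 / η)))).exists
  refine ⟨2 * P.m0 * SS h, ?_⟩
  filter_upwards [eventually_ge_atTop h] with hT hh z hz
  refine (H h hT hb hh z hz).mono P.hyp (fun t p N _ _ _ => cnt_mono subset_rfl fun x _ hx hc =>
    hx (win_of_clean P hc (by omega))) ?_
  have hh0 : (0 : ℝ) < h := by exact_mod_cast lt_of_lt_of_le (by norm_num) hb.1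
  rw [div_le_iff₀ hη] at hη'
  rw [div_le_iff₀ hh0]
  nlinarith [mul_le_mul_of_nonneg_right hη' (Nat.cast_nonneg (α := ℝ) (SS hT))]

end Crest.Agent.R151.PA
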