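import Crest.Agent.R151.ASlide
import Crest.Agent.R151.AAnimal

/-! R151/A: CLOSE. Few indices of a geodesic are ends of long cheap detours. -/

set_option autoImplicit false
open MeasureTheory ProbabilityTheory Crest.ProbabilityR.FirstPassage Filter Topology
open scoped ENNReal

namespace Crest.Agent.R151.PA

variable {G : Measure ℝ} [IsProbabilityMeasure G] [NullSingletonClass G]

omit [NullSingletonClass G] in
/-- resampling the weight of an adaptively chosen pair -/
theorem AClose_adapt (E : Env → Sym2 V) (hE : ∀ e, MeasurableSet {t | E t = e}) {B : Set ℝ}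
    (hB : MeasurableSet B) {f g : Env → ℝ≥0∞} (hf : Measurable f) (hg : Measurable g)
    (h : ∀ t, ∀ v ∈ B, f t ≠ 0 →
      E (Function.update t (E t) v) = E t ∧ f t ≤ g (Function.update t (E t) v)) :
    G B * ∫⁻ t, f t ∂iidLaw G ≤ ∫⁻ t, g t ∂iidLaw G := by
  have hU : (⋃ e, {t | E t = e}) = Set.univ := Set.eq_univ_of_forall fun t => Set.mem_iUnion.2 ⟨_, rfl⟩
  have hd : Pairwise (Function.onFun Disjoint fun e => {t | E t = e}) := fun e e' hne =>
    Set.disjoint_left.2 fun t h1 h2 => hne (Eq.trans (Eq.symm h1) h2)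
  have key : ∀ u : Env → ℝ≥0∞, ∫⁻ t, u t ∂iidLaw G =
      ∑' e, ∫⁻ t, {t | E t = e}.indicator u t ∂iidLaw G := fun u => by
    rw [← setLIntegral_univ, ← hU, lintegral_iUnion hE hd]
    exact tsum_congr fun e => (lintegral_indicator (hE e) u).symm
  rw [key f, key g, ← ENNReal.tsum_mul_left]
  refine ENNReal.tsum_le_tsum fun e => ?_
  refine (lower_one_lintegral G e hB (hf.indicator (hE e)).aemeasurable
    (hg.indicator (hE e)).aemeasurable fun t v hv => ?_).trans (setLIntegral_le_lintegral _ _)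
  by_cases ht : E t = e
  · subst ht
    by_cases h0 : f t = 0
    · rw [Set.indicator_of_mem (by exact rfl), h0]
      exact zero_le
    · rw [Set.indicator_of_mem (by exact rfl), Set.indicator_of_mem (by exact (h t v hv h0).1)]
      exact (h t v hv h0).2
  · rw [Set.indicator_of_notMem (by exact ht)]
    exact zero_le

theorem AClose_nonneg {a b : V} {Λ : ℕ} {F : Env → (ℤ → V) → ℤ → ℝ} (h : ∀ t p N, 0 ≤ F t p N)
    (t : Env) : 0 ≤ onGeo a b Λ F t := by
  unfold onGeo
  split_ifs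
  · exact h _ _ _
  · exact le_rfl

open Classical in
/-- Split according to `e = edge (geo t).1 x` (countably many values; `lintegral_tsum`, or the finitely many edges in `ball a Λ`).  For each `e` apply
`lower_one_lintegral` with `B = Ico 0 (q - δ)` to `f_e = 1{UG, t ≥ 0, N ≤ Λ, x < N, edge p x = e, q ≤ t e} f` and
`g_e = 1{UG, N ≤ Λ, x < N, edge p x = e} g` (`UG.lower`, `UG.geo_eq`, `measurable_geo_comp`); almost surely `UG` and `t ≥ 0`. -/
theorem lower_on_geo (hG : Hyp G) {q δ : ℝ} (hδ : 0 < δ) (a b : V) (Λ : ℕ) {x : ℤ} (hx : 0 ≤ x)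
    (f g : Env → (ℤ → V) → ℤ → ℝ) (hf : ∀ p N, Measurable fun t => f t p N)
    (hg : ∀ p N, Measurable fun t => g t p N) {B : ℝ} (hf0 : ∀ t p N, 0 ≤ f t p N ∧ f t p N ≤ B)
    (hg0 : ∀ t p N, 0 ≤ g t p N ∧ g t p N ≤ B)
    (h : ∀ t p N v, (∀ e, 0 ≤ t e) → IsG t a b p N → x < N → q ≤ t (edge p x) → 0 ≤ v → v < q - δ →
      f t p N ≤ g (Function.update t (edge p x) v) p N) :
    G.real (Set.Ico 0 (q - δ)) *
        ∫ t, onGeo a b Λ (fun t p N => if x < N ∧ q ≤ t (edge p x) then f t p N else 0) t ∂iidLaw G ≤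
      ∫ t, onGeo a b Λ (fun t p N => if x < N then g t p N else 0) t ∂iidLaw G := by
  have hB0 : 0 ≤ B := (hf0 0 0 0).1.trans (hf0 0 0 0).2
  have mF : ∀ p N, Measurable fun t : Env => if x < N ∧ q ≤ t (edge p x) then f t p N else 0 :=
    fun p N => Measurable.ite ((MeasurableSet.const (x < N)).inter
      (measurableSet_le measurable_const (measurable_pi_apply (edge p x)))) (hf p N) measurable_const
  have mG : ∀ p N, Measurable fun t : Env => if x < N then g t p N else 0 := fun p N => by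
    split_ifs
    · exact hg p N
    · exact measurable_const
  have nF : ∀ (t : Env) p N, 0 ≤ if x < N ∧ q ≤ t (edge p x) then f t p N else 0 := fun t p N => by
    split_ifs
    · exact (hf0 t p N).1
    · exact le_rfl
  have nG : ∀ (t : Env) p N, 0 ≤ if x < N then g t p N else 0 := fun t p N => by
    split_ifs
    · exact (hg0 t p N).1
    · exact le_rfl
  have iG : Integrable (onGeo a b Λ fun t p N => if x < N then g t p N else 0) (iidLaw G) :=
    integrable_onGeo mG (B := B) fun t p N _ _ => by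
      rw [abs_of_nonneg (nG t p N)]
      split_ifs
      · exact (hg0 t p N).2
      · exact hB0
  have mgood : MeasurableSet {t : Env | UG t a b ∧ ∀ e, 0 ≤ t e} :=
    (measurableSet_UG a b).inter (by
      show MeasurableSet {t : Env | ∀ e, 0 ≤ t e}
      rw [Set.ofPred_forall]
      exact MeasurableSet.iInter fun e => measurableSet_le measurable_const (measurable_pi_apply e))
  have key := AClose_adapt (G := G) (fun t => edge (geo a b t).1 x)
    (fun e => measurableSet_setOfPred.2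
      (measurable_geo_comp a b (fun _ p _ => edge p x = e) fun _ _ => measurable_const))
    (measurableSet_Ico (a := 0) (b := q - δ))
    (f := {t : Env | UG t a b ∧ ∀ e, 0 ≤ t e}.indicator fun t => ENNReal.ofReal
      (onGeo a b Λ (fun t p N => if x < N ∧ q ≤ t (edge p x) then f t p N else 0) t))
    (g := fun t => ENNReal.ofReal (onGeo a b Λ (fun t p N => if x < N then g t p N else 0) t))
    ((measurable_onGeo a b Λ mF).ennreal_ofReal.indicator mgood)
    (measurable_onGeo a b Λ mG).ennreal_ofReal (by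
      intro t v hv h0
      have ht : t ∈ {t : Env | UG t a b ∧ ∀ e, 0 ≤ t e} := Set.mem_of_indicator_ne_zero h0
      rw [Set.indicator_of_mem ht] at h0 ⊢
      have hsp := ht.1.spec
      unfold onGeo at h0 ⊢
      have h1 : (geo a b t).2 ≤ Λ := by
        by_contra hn
        rw [if_neg hn] at h0
        exact h0 ENNReal.ofReal_zero
      rw [if_pos h1] at h0 ⊢
      dsimp only at h0
      have h2 : x < (geo a b t).2 ∧ q ≤ t (edge (geo a b t).1 x) := by
        by_contra hn
        rw [if_neg hn] at h0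
        exact h0 ENNReal.ofReal_zero
      obtain ⟨h3, h4⟩ := UG.lower ht.2 ht.1 hsp hx h2.1 hv.1 (by linarith [hv.2, h2.2])
      rw [h3.geo_eq h4]
      refine ⟨rfl, ?_⟩
      dsimp only
      rw [if_pos h2, if_pos h1, if_pos h2.1]
      exact ENNReal.ofReal_le_ofReal (h _ _ _ _ ht.2 hsp h2.1 h2.2 hv.1 hv.2))
  have e1 : ∫⁻ t, {t : Env | UG t a b ∧ ∀ e, 0 ≤ t e}.indicator (fun t => ENNReal.ofReal
      (onGeo a b Λ (fun t p N => if x < N ∧ q ≤ t (edge p x) then f t p N else 0) t)) t ∂iidLaw G =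
      ∫⁻ t, ENNReal.ofReal (onGeo a b Λ
        (fun t p N => if x < N ∧ q ≤ t (edge p x) then f t p N else 0) t) ∂iidLaw G := by
    refine lintegral_congr_ae ?_
    filter_upwards [ae_reg G hG.nonneg] with t ht
    exact Set.indicator_of_mem (by exact ⟨ug_of_reg ht a b, ht.nonneg⟩) _
  rw [e1] at key
  rw [integral_eq_lintegral_of_nonneg_ae (Eventually.of_forall (AClose_nonneg nF))
      (measurable_onGeo a b Λ mF).aestronglyMeasurable,
    integral_eq_lintegral_of_nonneg_ae (Eventually.of_forall (AClose_nonneg nG))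
      (measurable_onGeo a b Λ mG).aestronglyMeasurable, measureReal_def, ← ENNReal.toReal_mul]
  exact ENNReal.toReal_mono iG.lintegral_lt_top.ne key

open Classical in
/-- `lower_on_geo` with `f = min 1 (max ((1 - e^{-δ}) R - |J|) 0)`, `g = min 1 |J|` (`Rv_le`; on geodesics `R, |J| ≤ 1`), summed over `x ∈ Ico 0 Λ` and `s < S`,
then `sum_abs_Jv`, `GB.of_integral` -/
theorem useful_Rv_GB (hG : Hyp G) {q δ : ℝ} (hδ : 0 < δ) (hp : 0 < G.real (Set.Ico 0 (q - δ))) (a b : V)
    (Λ L S : ℕ) (hL : 1 ≤ L) {ε : ℝ} (hε : 0 < ε) :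
    GB G a b Λ (fun t p N => ∑ s ∈ Finset.range S, ∑ x ∈ Finset.Ico 0 N,
        if q ≤ t (edge p x) then Rv L s x t p N else 0)
      ((1 + 1 / G.real (Set.Ico 0 (q - δ))) / (1 - Real.exp (-δ)) * ((S * ε / 2 + 2 / ε) * (Λ + L))) := by
  have hc0 : 0 < 1 - Real.exp (-δ) := sub_pos.2 (Real.exp_lt_one_iff.2 (by linarith))
  have hc1 : 1 - Real.exp (-δ) ≤ 1 := sub_le_self _ (Real.exp_pos _).le
  obtain ⟨A, hA⟩ : ∃ A : ℝ, A = (S * ε / 2 + 2 / ε) * (Λ + L) := ⟨_, rfl⟩
  have hA0 : 0 ≤ A := by rw [hA]; positivity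
  have hAJ : ∀ t p N, Reg t → IsG t a b p N → N ≤ Λ →
      ∑ s ∈ Finset.range S, ∑ x ∈ Finset.Ico 0 N, |Jv L s x t p N| ≤ A := fun t p N ht hp hN => by
    refine (sum_abs_Jv ht.nonneg hp hL S hε).trans ?_
    have : (N : ℝ) ≤ Λ := by exact_mod_cast hN
    rw [hA]
    gcongr
  rw [← hA]
  let f : ℕ × ℤ → Env → (ℤ → V) → ℤ → ℝ := fun i t p N =>
    min 1 (max ((1 - Real.exp (-δ)) * Rv L i.1 i.2 t p N - |Jv L i.1 i.2 t p N|) 0)
  let g : ℕ × ℤ → Env → (ℤ → V) → ℤ → ℝ := fun i t p N => min 1 |Jv L i.1 i.2 t p N|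
  have mf : ∀ i p N, Measurable fun t => f i t p N := fun i p N =>
    measurable_const.min ((((measurable_Rv L i.1 i.2 p N).const_mul _).sub
      (measurable_Jv L i.1 i.2 p N).abs).max measurable_const)
  have mg : ∀ i p N, Measurable fun t => g i t p N := fun i p N =>
    measurable_const.min (measurable_Jv L i.1 i.2 p N).abs
  have bf : ∀ i t p N, 0 ≤ f i t p N ∧ f i t p N ≤ 1 := fun i t p N =>
    ⟨le_min zero_le_one (le_max_right _ _), min_le_left _ _⟩
  have bg : ∀ i t p N, 0 ≤ g i t p N ∧ g i t p N ≤ 1 := fun i t p N =>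
    ⟨le_min zero_le_one (abs_nonneg _), min_le_left _ _⟩
  have ig : ∀ i : ℕ × ℤ, Integrable (onGeo a b Λ fun t p N => if i.2 < N then g i t p N else 0)
      (iidLaw G) := fun i => integrable_onGeo (B := 1) (fun p N => by
        split_ifs
        · exact mg i p N
        · exact measurable_const) fun t p N _ _ => by
      split_ifs
      · rw [abs_of_nonneg (bg i t p N).1]
        exact (bg i t p N).2
      · simp
  have h1 : ∀ i ∈ Finset.range S ×ˢ Finset.Ico (0 : ℤ) Λ,
      GB G a b Λ (fun t p N => if i.2 < N ∧ q ≤ t (edge p i.2) then f i t p N else 0)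
        (1 / G.real (Set.Ico 0 (q - δ)) *
          ∫ t, onGeo a b Λ (fun t p N => if i.2 < N then g i t p N else 0) t ∂iidLaw G) := by
    intro i hi
    have hi0 : 0 ≤ i.2 := (Finset.mem_Ico.1 (Finset.mem_product.1 hi).2).1
    have h2 := lower_on_geo hG (q := q) hδ a b Λ hi0 (f i) (g i) (mf i) (mg i) (bf i) (bg i)
      fun t p N v _ hp hx hq _ hv => min_le_min_left _ (max_le (by
        have := Rv_le (s := i.1) hp.sap hL ⟨hi0, hx⟩ (v := v) (δ := δ) (t := t) (by linarith)
        linarith) (abs_nonneg _))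
    refine (GB.of_integral hG (integrable_onGeo (B := 1) (fun p N => Measurable.ite
      ((MeasurableSet.const (i.2 < N)).inter
        (measurableSet_le measurable_const (measurable_pi_apply (edge p i.2)))) (mf i p N)
      measurable_const) fun t p N _ _ => ?_) fun t p N _ _ => ?_).mono hG (fun _ _ _ _ _ _ => le_rfl) ?_
    · split_ifs
      · rw [abs_of_nonneg (bf i t p N).1]
        exact (bf i t p N).2
      · simp
    · split_ifs
      · exact (bf i t p N).1
      · exact le_rfl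
    · rw [one_div, le_inv_mul_iff₀ hp]
      exact h2
  have h2 : ∑ i ∈ Finset.range S ×ˢ Finset.Ico (0 : ℤ) Λ,
      ∫ t, onGeo a b Λ (fun t p N => if i.2 < N then g i t p N else 0) t ∂iidLaw G ≤ A := by
    rw [← integral_finsetSum _ fun i _ => ig i]
    refine le_trans (integral_mono_ae (integrable_finsetSum _ fun i _ => ig i) (integrable_const A) ?_)
      (by simp)
    filter_upwards [ae_reg G hG.nonneg] with t ht
    have hsp := (ug_of_reg ht a b).spec
    by_cases hN : (geo a b t).2 ≤ Λ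
    · refine le_trans ?_ (hAJ t _ _ ht hsp hN)
      rw [Finset.sum_product]
      refine Finset.sum_le_sum fun s _ => ?_
      simp only [ageo_eq ht hsp hN]
      rw [← Finset.sum_filter]
      refine le_trans (Finset.sum_le_sum fun x _ => min_le_right _ _)
        (Finset.sum_le_sum_of_subset_of_nonneg (fun x hx => ?_) fun _ _ _ => abs_nonneg _)
      simp only [Finset.mem_filter, Finset.mem_Ico] at hx ⊢
      exact ⟨hx.1.1, hx.2⟩
    · simp only [onGeo, if_neg hN, Finset.sum_const_zero]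
      exact hA0
  refine (((GB.sum _ h1).add (GB.const hA0)).smul (one_div_pos.2 hc0).le).mono hG
    (fun t p N ht hp hN => ?_) ?_
  · rw [one_div, le_inv_mul_iff₀ hc0]
    refine le_trans ?_ (add_le_add le_rfl (hAJ t p N ht hp hN))
    rw [Finset.sum_product, ← Finset.sum_add_distrib, Finset.mul_sum]
    refine Finset.sum_le_sum fun s _ => ?_
    refine le_trans ?_ (add_le_add (Finset.sum_le_sum_of_subset_of_nonneg
      (Finset.Ico_subset_Ico le_rfl hN) fun x _ _ => ?_) le_rfl)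
    · rw [← Finset.sum_add_distrib, Finset.mul_sum]
      refine Finset.sum_le_sum fun x hx => ?_
      have hxN := (Finset.mem_Ico.1 hx).2
      by_cases hq : q ≤ t (edge p x)
      · rw [if_pos hq, if_pos ⟨hxN, hq⟩]
        have hR : Rv L s x t p N ≤ 1 := mv_le_one (uu_le_one ht.nonneg hp _) _ _
        have hR0 : 0 ≤ Rv L s x t p N := mv_nonneg (uu_nonneg _) _ _
        have h3 : (1 - Real.exp (-δ)) * Rv L s x t p N ≤ 1 := mul_le_one₀ hc1 hR0 hR
        have h4 : (1 - Real.exp (-δ)) * Rv L s x t p N - |Jv L s x t p N| ≤ f (s, x) t p N :=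
          le_min (by linarith [abs_nonneg (Jv L s x t p N)]) (le_max_left _ _)
        linarith
      · rw [if_neg hq, if_neg fun h => hq h.2, mul_zero, zero_add]
        exact abs_nonneg _
    · dsimp only
      split_ifs
      · exact (bf _ t p N).1
      · exact le_rfl
  · rw [← Finset.mul_sum]
    calc 1 / (1 - Real.exp (-δ)) * (1 / G.real (Set.Ico 0 (q - δ)) * _ + A)
        ≤ 1 / (1 - Real.exp (-δ)) * (1 / G.real (Set.Ico 0 (q - δ)) * A + A) := by gcongr
      _ = _ := by ring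

/-- `site_GB_small` with `r = 1`, `B x = {some lattice edge at x has t e < q}` of probability `≤ 4 G(Iio q)`; `exists_quantile` -/
theorem useless_GB (hG : Hyp G) {η : ℝ} (hη : 0 < η) : ∃ q δ : ℝ, 0 < δ ∧ 0 < G.real (Set.Ico 0 (q - δ)) ∧
    ∀ (a b : V) (Λ : ℕ), 1 ≤ Λ →
      GB G a b Λ (fun t p N => cnt (Finset.Ico 0 N) fun x => t (edge p x) < q) (η * Λ) := by
  obtain ⟨π, hπ, H⟩ := site_GB_small hG 1 hη
  obtain ⟨q, δ, hδ, -, hq, hp⟩ := exists_quantile G hG.nonneg (η := π / 4) (by linarith)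
  refine ⟨q, δ, hδ, hp, fun a b Λ hΛ => ?_⟩
  have hm : ∀ e : Sym2 V, MeasurableSet {t : Env | t e < q} := fun e =>
    measurableSet_lt (measurable_pi_apply e) measurable_const
  have hpr : ∀ e : Sym2 V, (iidLaw G).real {t : Env | t e < q} ≤ π / 4 := fun e =>
    le_of_eq_of_le ((measurePreserving_eval G e).measureReal_preimage
      (measurableSet_Iio (a := q)).nullMeasurableSet) hq
  refine (H (fun x => ({t | t s(x, (x.1 + 1, x.2)) < q} ∪ {t | t s(x, (x.1 - 1, x.2)) < q}) ∪
    ({t | t s(x, (x.1, x.2 + 1)) < q} ∪ {t | t s(x, (x.1, x.2 - 1)) < q}))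
    ⟨fun c => ((hm _).union (hm _)).union ((hm _).union (hm _)), fun c t t' h => ?_⟩ (fun x => ?_)
    a b Λ hΛ).mono hG (fun t p N _ hp _ => cnt_mono Finset.Ico_subset_Icc_self fun k hk hq => ?_) le_rfl
  · have key : ∀ y : V, c.1 - 1 ≤ y.1 → y.1 ≤ c.1 + 1 → c.2 - 1 ≤ y.2 → y.2 ≤ c.2 + 1 →
        t s(c, y) = t' s(c, y) := fun y _ _ _ _ => h _ fun v hv => by
      rcases Sym2.mem_iff.1 hv with rfl | rfl <;> rw [bpath_mem_ball] <;> dsimp only <;> omega
    simp only [Set.mem_union, Set.mem_ofPred_eq]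
    rw [key (c.1 + 1, c.2), key (c.1 - 1, c.2), key (c.1, c.2 + 1), key (c.1, c.2 - 1)] <;>
      dsimp only <;> omega
  · refine (measureReal_union_le _ _).trans ((add_le_add (measureReal_union_le _ _)
      (measureReal_union_le _ _)).trans ?_)
    linarith [hpr s(x, (x.1 + 1, x.2)), hpr s(x, (x.1 - 1, x.2)), hpr s(x, (x.1, x.2 + 1)),
      hpr s(x, (x.1, x.2 - 1))]
  · rw [Finset.mem_Ico] at hk
    have hadj := (adj_iff _ _).1 (hp.geo.1.2.2 k hk.1 hk.2)
    unfold edge at hq
    simp only [Set.mem_union, Set.mem_ofPred_eq]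
    rcases hadj with ⟨h1, h2 | h2⟩ | ⟨h1, h2 | h2⟩
    · rw [show p (k + 1) = ((p k).1, (p k).2 + 1) from Prod.ext h1.symm h2] at hq
      exact Or.inr (Or.inl hq)
    · rw [show p (k + 1) = ((p k).1, (p k).2 - 1) from Prod.ext h1.symm (by dsimp only; omega)] at hq
      exact Or.inr (Or.inr hq)
    · rw [show p (k + 1) = ((p k).1 + 1, (p k).2) from Prod.ext h2 h1.symm] at hq
      exact Or.inl (Or.inl hq)
    · rw [show p (k + 1) = ((p k).1 - 1, (p k).2) from Prod.ext (by dsimp only; omega) h1.symm] at hq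
      exact Or.inl (Or.inr hq)

/-- Average `cnt_end_le` over `s < S`.  With `η' = η e^{-C}`: `useless_GB` with `η'/4`; `κ` the constant of `useful_Rv_GB`; `ε` with `κ ε ≤ η'/8`, `S` with
`κ 4/(ε S) ≤ η'/8` (for `Λ ≥ L`), `L` with `2^S · 2 / L ≤ η'/4`, `M = L + 1`. -/
theorem close_end (hG : Hyp G) (C : ℝ) {η : ℝ} (hη : 0 < η) : ∃ M : ℕ, 2 ≤ M ∧ ∀ (a b : V) (Λ : ℕ), M ≤ Λ →
    GB G a b Λ (fun t p N => cnt (Finset.Icc 0 N) (EndAt t p N C M)) (η * Λ) := by
  classical
  obtain ⟨η', hη'⟩ : ∃ η', η' = η * Real.exp (-C) / 4 := ⟨_, rfl⟩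
  have hη0 : 0 < η' := by rw [hη']; positivity
  obtain ⟨q, δ, hδ, hp, H⟩ := useless_GB hG hη0
  obtain ⟨κ, hκ⟩ : ∃ κ, κ = (1 + 1 / G.real (Set.Ico 0 (q - δ))) / (1 - Real.exp (-δ)) := ⟨_, rfl⟩
  have hκ0 : 0 < κ := by
    have : 0 < 1 - Real.exp (-δ) := sub_pos.2 (Real.exp_lt_one_iff.2 (by linarith))
    rw [hκ]
    positivity
  obtain ⟨S, hS⟩ := exists_nat_gt (4 * κ ^ 2 / η' ^ 2)
  have hS0 : (0 : ℝ) < S := lt_of_le_of_lt (by positivity) hS
  obtain ⟨L, hL⟩ := exists_nat_gt (2 ^ S * 2 / η')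
  have hL0 : (0 : ℝ) < L := lt_of_le_of_lt (by positivity) hL
  have hL1 : 1 ≤ L := Nat.cast_pos.1 hL0
  refine ⟨L + 1, by omega, fun a b Λ hΛ => ?_⟩
  have hLΛ : (L : ℝ) ≤ Λ := by exact_mod_cast (by omega : L ≤ Λ)
  have hΛ0 : (0 : ℝ) ≤ Λ := Nat.cast_nonneg _
  have hU := useful_Rv_GB hG hδ hp a b Λ L S hL1 (div_pos hη0 hκ0)
  rw [← hκ] at hU
  refine ((((hU.smul (one_div_pos.2 hS0).le).add (H a b Λ (by omega))).add
    (GB.const (c := η' * Λ) (by positivity))).smul (Real.exp_pos C).le).mono hG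
    (fun t p N ht hp hN => ?_) ?_
  · have hD : ∀ s ∈ Finset.range S, (2 : ℝ) ^ s * (N / L + 1) ≤ η' * Λ := fun s hs => by
      have h1 : (2 : ℝ) ^ s ≤ 2 ^ S := pow_le_pow_right₀ one_le_two (Finset.mem_range.1 hs).le
      have h2 : (N : ℝ) ≤ Λ := by exact_mod_cast hN
      have h3 : (N : ℝ) / L + 1 ≤ 2 * Λ / L := by
        rw [div_add_one hL0.ne']
        gcongr
        linarith
      have h4 : 2 ^ S * 2 ≤ L * η' := ((div_lt_iff₀ hη0).1 hL).le
      have h5 : (0 : ℝ) ≤ N := by exact_mod_cast hp.nonneg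
      calc (2 : ℝ) ^ s * (N / L + 1) ≤ 2 ^ S * (2 * Λ / L) := by gcongr
        _ = 2 ^ S * 2 * (Λ / L) := by ring
        _ ≤ L * η' * (Λ / L) := by gcongr
        _ = η' * Λ := by field_simp
    have h1 := Finset.sum_le_sum fun s (hs : s ∈ Finset.range S) =>
      (cnt_end_le (s := s) ht.nonneg hp hL1 C q).trans (add_le_add le_rfl (hD s hs))
    simp only [Finset.sum_add_distrib, Finset.sum_const, Finset.card_range, nsmul_eq_mul] at h1
    have h2 : Real.exp C * Real.exp (-C) = 1 := by rw [← Real.exp_add, add_neg_cancel, Real.exp_zero]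
    calc cnt (Finset.Icc 0 N) (EndAt t p N C (L + 1))
        = Real.exp C * (1 / S * (S * (Real.exp (-C) * cnt (Finset.Icc 0 N) (EndAt t p N C (L + 1))))) := by
          rw [← mul_assoc (1 / S : ℝ), one_div_mul_cancel hS0.ne', one_mul, ← mul_assoc, h2, one_mul]
      _ ≤ Real.exp C * (1 / S * _) := mul_le_mul_of_nonneg_left
          (mul_le_mul_of_nonneg_left h1 (one_div_pos.2 hS0).le) (Real.exp_pos C).le
      _ = _ := by
          congr 1
          field_simp
  · have h1 : 4 * κ ^ 2 ≤ S * η' ^ 2 := ((div_lt_iff₀ (by positivity)).1 hS).le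
    have h2 : 1 / S * (κ * ((S * (η' / κ) / 2 + 2 / (η' / κ)) * (Λ + L))) ≤ 2 * η' * Λ := by
      calc 1 / S * (κ * ((S * (η' / κ) / 2 + 2 / (η' / κ)) * (Λ + L)))
          = (η' / 2 + 4 * κ ^ 2 / (2 * S * η')) * (Λ + L) := by
            field_simp
            ring
        _ ≤ (η' / 2 + S * η' ^ 2 / (2 * S * η')) * (Λ + Λ) := by gcongr
        _ = 2 * η' * Λ := by
            field_simp
            ring
    calc _ ≤ Real.exp C * (2 * η' * Λ + η' * Λ + η' * Λ) := by gcongr
      _ = η * Λ * (Real.exp C * Real.exp (-C)) := by rw [hη']; ring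
      _ = η * Λ := by rw [← Real.exp_add, add_neg_cancel, Real.exp_zero, mul_one]

/-- `close_end` for both orientations (`GB.rev`, `cnt_start_le`), `cnt_ends_le` -/
theorem ends_GB (hG : Hyp G) (C : ℝ) (J : ℕ) {η : ℝ} (hη : 0 < η) : ∃ M : ℕ, 2 ≤ M ∧
    ∀ (a b : V) (Λ : ℕ), M ≤ Λ →
      GB G a b Λ (fun t p N => cnt (Finset.Ico 0 N) (Ends t p N C M J)) (η * Λ) := by
  obtain ⟨M, hM, H⟩ := close_end hG C (η := η / (2 * (2 * J + 1))) (by positivity)
  refine ⟨M, hM, fun a b Λ hΛ => ?_⟩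
  refine (((H a b Λ hΛ).add (H b a Λ hΛ).rev).smul (k := 2 * J + 1) (by positivity)).mono hG
    (fun t p N _ _ _ => (cnt_ends_le _ M J).trans ?_) (le_of_eq ?_)
  · have := cnt_start_le (t := t) (p := p) (N := N) (C := C) M
    gcongr
  · field_simp
    ring

end Crest.Agent.R151.PA
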