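import Crest.Agent.R151.ATail

/-! R151/A: from non-differentiability to a `Setup`. -/

set_option autoImplicit false
open MeasureTheory ProbabilityTheory Crest.ProbabilityR.FirstPassage Filter Topology
open scoped ENNReal

namespace Crest.Agent.R151.PA

theorem aco_pos {μ : ℝ × ℝ → ℝ} (h : SymNorm μ) (x : ℝ) {y : ℝ} (hy : 0 < y) :
    μ (x, y) = y * μ (x / y, 1) := by
  have h1 := h.smul y (x / y, 1)
  rw [abs_of_pos hy] at h1
  rw [← h1]
  congr 1
  ext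
  · simp only [Prod.smul_fst, smul_eq_mul]
    field_simp
  · simp

theorem aco_diff {μ : ℝ × ℝ → ℝ} (h : SymNorm μ)
    (H : ∀ ξ : ℝ, |ξ| ≤ 1 → DifferentiableAt ℝ (fun s : ℝ => μ (s, 1)) ξ) {v : ℝ × ℝ} (hy : 0 < v.2)
    (hx : |v.1| ≤ v.2) : DifferentiableAt ℝ μ v := by
  have h1 : DifferentiableAt ℝ (fun u : ℝ × ℝ => u.1 / u.2) v := by
    simp only [div_eq_mul_inv]
    exact differentiableAt_fst.mul (differentiableAt_snd.inv hy.ne')
  have h0 : |v.1 / v.2| ≤ 1 := by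
    rw [abs_div, abs_of_pos hy]
    exact (div_le_one hy).2 hx
  have h2 : DifferentiableAt ℝ (fun u : ℝ × ℝ => u.2 * μ (u.1 / u.2, 1)) v :=
    differentiableAt_snd.mul (DifferentiableAt.comp (g := fun s : ℝ => μ (s, 1))
      (f := fun u : ℝ × ℝ => u.1 / u.2) v (H _ h0) h1)
  refine h2.congr_of_eventuallyEq ?_
  filter_upwards [(isOpen_lt continuous_const continuous_snd).mem_nhds hy] with u hu
  exact aco_pos h u.1 hu

theorem aco_diff' {μ : ℝ × ℝ → ℝ} (h : SymNorm μ)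
    (H : ∀ ξ : ℝ, |ξ| ≤ 1 → DifferentiableAt ℝ (fun s : ℝ => μ (s, 1)) ξ) {v : ℝ × ℝ} (hy : v.2 ≠ 0)
    (hx : |v.1| ≤ |v.2|) : DifferentiableAt ℝ μ v := by
  rcases hy.lt_or_gt with hy | hy
  · have h1 : DifferentiableAt ℝ μ (-v) := by
      refine aco_diff h H (by simpa using hy) ?_
      simpa [abs_of_neg hy] using hx
    have h2 : DifferentiableAt ℝ (fun u : ℝ × ℝ => μ (-u)) v :=
      h1.comp v differentiableAt_id.neg
    simpa only [h.neg] using h2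
  · exact aco_diff h H hy (by rwa [abs_of_pos hy] at hx)

/-- Convex analysis.  `f s = μ (s,1)` is convex.  If `f` is differentiable at `ξ` then `μ` is differentiable at every
`(ξ y, y)`, `y > 0`, because `μ (x, y) = y f (x / y)` near this point (chain rule, `DifferentiableAt.mul/comp`).  By `swap`,
`neg` and scaling every `v ≠ 0` is the image of some `y (ξ,1)`, `|ξ| ≤ 1`, `y > 0` under a linear symmetry of `μ`. -/
theorem exists_corner {μ : ℝ × ℝ → ℝ} (h : SymNorm μ) {v : ℝ × ℝ} (hv : v ≠ 0)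
    (hd : ¬ DifferentiableAt ℝ μ v) :
    ∃ ξ : ℝ, |ξ| ≤ 1 ∧ ¬ DifferentiableAt ℝ (fun s : ℝ => μ (s, 1)) ξ := by
  by_contra H
  push Not at H
  refine hd ?_
  rcases le_total |v.1| |v.2| with hx | hx
  · refine aco_diff' h H (fun h0 => hv ?_) hx
    rw [h0, abs_zero, abs_nonpos_iff] at hx
    exact Prod.ext hx h0
  · have h1 : DifferentiableAt ℝ μ (v.2, v.1) := by
      refine aco_diff' h H (fun h0 => hv ?_) hx
      have h0' : v.1 = 0 := h0
      rw [h0', abs_zero, abs_nonpos_iff] at hx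
      exact Prod.ext h0' hx
    have h2 : DifferentiableAt ℝ (fun u : ℝ × ℝ => μ (u.2, u.1)) v :=
      h1.comp v (differentiableAt_snd.prodMk differentiableAt_fst)
    simpa only [h.swap] using h2

/-- A convex function on `ℝ` has one-sided derivatives `d₋ ≤ d₊` (`ConvexOn.hasDerivWithinAt_rightDeriv/leftDeriv…`,
`ConvexOn.leftDeriv_le_rightDeriv`); if they agree it is differentiable.  Take `ρ1 = (d₋ + d₊)/2`, `c = (d₊ - d₋)/2`
(slopes from `ξ` are `≥ d₊` to the right and `≤ d₋` to the left). -/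
theorem corner_1d {f : ℝ → ℝ} (hf : ConvexOn ℝ Set.univ f) {ξ : ℝ} (hd : ¬ DifferentiableAt ℝ f ξ) :
    ∃ ρ1 c : ℝ, 0 < c ∧ ∀ s, f ξ + ρ1 * (s - ξ) + c * |s - ξ| ≤ f s := by
  have hx : ξ ∈ interior (Set.univ : Set ℝ) := by simp
  have hl := hf.hasDerivWithinAt_leftDeriv_of_mem_interior hx
  have hr := hf.hasDerivWithinAt_rightDeriv_of_mem_interior hx
  have hle := hf.leftDeriv_le_rightDeriv_of_mem_interior hx
  have h1 : ∀ s, ξ < s → derivWithin f (Set.Ioi ξ) ξ ≤ slope f ξ s := fun s hs =>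
    hf.rightDeriv_le_slope_of_mem_interior hx (Set.mem_univ s) hs
  have h2 : ∀ s, s < ξ → slope f s ξ ≤ derivWithin f (Set.Iio ξ) ξ := fun s hs =>
    hf.slope_le_leftDeriv_of_mem_interior (Set.mem_univ s) hx hs
  generalize derivWithin f (Set.Ioi ξ) ξ = dp at *
  generalize derivWithin f (Set.Iio ξ) ξ = dm at *
  have hlt : dm < dp := by
    refine lt_of_le_of_ne hle fun he => hd ?_
    subst he
    have := hl.Iic_of_Iio.union hr.Ici_of_Ioi
    rw [Set.Iic_union_Ici, hasDerivWithinAt_univ] at this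
    exact this.differentiableAt
  refine ⟨(dm + dp) / 2, (dp - dm) / 2, by linarith, fun s => ?_⟩
  rcases lt_trichotomy s ξ with hs | hs | hs
  · have := h2 s hs
    rw [slope_def_field, div_le_iff₀ (by linarith)] at this
    rw [abs_of_neg (by linarith)]
    linarith
  · simp [hs]
  · have := h1 s hs
    rw [slope_def_field, le_div_iff₀ (by linarith)] at this
    rw [abs_of_pos (by linarith)]
    linarith

/-- Homogenise.  The linear functionals `L± u = μv u.2 + (ρ1 ± c)(u.1 - ξ u.2)` satisfy `L± ≤ μ` on `{u.2 > 0}` by scaling.  For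
arbitrary `u` take `s` large: `L± u + s μv = L± (u + s v) ≤ μ (u + s v) ≤ μ u + s μv` with `v = (ξ,1)`.  This is the lateral bound.
`|ρ1| ≤ C` from `u = (±1, 0)`.  Backward bound: `κ u = μ u - ρ u`; `|u.2| μv = μ (u.2 v) ≤ μ u + C |ℓ|`, so for `u.2 < 0`
`κ u ≥ 2 |u.2| μv - 2C |ℓ| ≥ 2 |u.2| μv - (2C/c) κ u`; decrease `c` (also to have `c ≤ 1`). -/
theorem corner_2d {μ : ℝ × ℝ → ℝ} (h : SymNorm μ) {ξ : ℝ} (hξ : |ξ| ≤ 1)
    (hd : ¬ DifferentiableAt ℝ (fun s : ℝ => μ (s, 1)) ξ) :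
    ∃ ρ1 c C : ℝ, 0 < c ∧ c ≤ 1 ∧ 0 < μ (ξ, 1) ∧ μ (ξ, 1) ≤ C ∧ |ρ1| ≤ C ∧ ∀ u : ℝ × ℝ,
      μ (ξ, 1) * u.2 + ρ1 * (u.1 - ξ * u.2) + c * |u.1 - ξ * u.2| ≤ μ u ∧
      μ (ξ, 1) * u.2 + ρ1 * (u.1 - ξ * u.2) - c * u.2 ≤ μ u := by
  have hf : ConvexOn ℝ Set.univ fun s : ℝ => μ (s, 1) := by
    refine ⟨convex_univ, fun x _ y _ a b ha hb hab => ?_⟩
    have := h.convexOn.2 (Set.mem_univ (x, (1 : ℝ))) (Set.mem_univ (y, (1 : ℝ))) ha hb hab
    simpa [hab] using this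
  obtain ⟨ρ1, c0, hc0, h1⟩ := corner_1d hf hd
  obtain ⟨cl, hcl, hlow⟩ := h.lower
  obtain ⟨C, hC, hup⟩ := h.upper
  have hn : ‖((ξ, 1) : ℝ × ℝ)‖ = 1 := by
    rw [Prod.norm_mk, Real.norm_eq_abs, norm_one, max_eq_right hξ]
  have hm : 0 < μ (ξ, 1) := by
    have := hlow (ξ, 1)
    rw [hn] at this
    linarith
  have hmC : μ (ξ, 1) ≤ C := by
    have := hup (ξ, 1)
    rw [hn] at this
    linarith
  have hrow : ∀ x : ℝ, μ (x, 0) ≤ C * |x| := fun x => by simpa using hup (x, 0)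
  have hA : ∀ τ : ℝ, |τ| ≤ c0 → ∀ x y : ℝ, 0 < y →
      μ (ξ, 1) * y + (ρ1 + τ) * (x - ξ * y) ≤ μ (x, y) := by
    intro τ hτ x y hy
    rw [aco_pos h x hy]
    have h2 := h1 (x / y)
    have h3 : τ * (x / y - ξ) ≤ c0 * |x / y - ξ| :=
      (le_abs_self _).trans (by rw [abs_mul]; gcongr)
    have h4 : x - ξ * y = y * (x / y - ξ) := by field_simp
    rw [h4]
    nlinarith
  have hB : ∀ τ : ℝ, |τ| ≤ c0 → ∀ u : ℝ × ℝ,
      μ (ξ, 1) * u.2 + (ρ1 + τ) * (u.1 - ξ * u.2) ≤ μ u := by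
    intro τ hτ u
    have hs : 0 < |u.2| + 1 := by positivity
    have h2 := hA τ hτ (u.1 + (|u.2| + 1) * ξ) (u.2 + (|u.2| + 1))
      (by linarith [neg_abs_le u.2])
    have h3 := h.add_le u ((|u.2| + 1) • (ξ, 1))
    rw [h.smul, abs_of_pos hs] at h3
    have h4 : u + (|u.2| + 1) • ((ξ, 1) : ℝ × ℝ) = (u.1 + (|u.2| + 1) * ξ, u.2 + (|u.2| + 1)) := by
      ext <;> simp
    rw [h4] at h3
    nlinarith
  have hL : ∀ u : ℝ × ℝ,
      μ (ξ, 1) * u.2 + ρ1 * (u.1 - ξ * u.2) + c0 * |u.1 - ξ * u.2| ≤ μ u := by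
    intro u
    rcases abs_choice (u.1 - ξ * u.2) with h2 | h2 <;> rw [h2]
    · linarith [hB c0 (abs_of_pos hc0).le u]
    · linarith [hB (-c0) (by rw [abs_neg, abs_of_pos hc0]) u]
  have hρ : |ρ1| ≤ C := by
    have h2 := hL (1, 0)
    have h3 := hL (-1, 0)
    have h4 := hrow 1
    have h5 := hrow (-1)
    simp only [mul_zero, sub_zero, mul_one, zero_add, abs_one, abs_neg, mul_neg] at h2 h3 h4 h5
    exact abs_le.2 ⟨by linarith, by linarith⟩
  have hden : 0 < c0 + 2 * C := by linarith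
  refine ⟨ρ1, min (min c0 1) (2 * μ (ξ, 1) * c0 / (c0 + 2 * C)), C,
    lt_min (lt_min hc0 one_pos) (by positivity), (min_le_left _ _).trans (min_le_right _ _), hm, hmC, hρ,
    fun u => ?_⟩
  have hc1 : min (min c0 1) (2 * μ (ξ, 1) * c0 / (c0 + 2 * C)) ≤ c0 :=
    (min_le_left _ _).trans (min_le_left _ _)
  have hc2 : min (min c0 1) (2 * μ (ξ, 1) * c0 / (c0 + 2 * C)) * (c0 + 2 * C) ≤ 2 * μ (ξ, 1) * c0 :=
    (le_div_iff₀ hden).1 (min_le_right _ _)
  have hc3 : 0 < min (min c0 1) (2 * μ (ξ, 1) * c0 / (c0 + 2 * C)) :=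
    lt_min (lt_min hc0 one_pos) (by positivity)
  generalize min (min c0 1) (2 * μ (ξ, 1) * c0 / (c0 + 2 * C)) = c at *
  have h2 := hL u
  have h3 := abs_nonneg (u.1 - ξ * u.2)
  refine ⟨by nlinarith, ?_⟩
  rcases le_or_gt 0 u.2 with hy | hy
  · nlinarith
  · have h4 := h.add_le u (-(u.1 - ξ * u.2), 0)
    have h5 : u + (-(u.1 - ξ * u.2), 0) = u.2 • ((ξ, 1) : ℝ × ℝ) := by
      ext
      · simp [mul_comm]
      · simp
    rw [h5, h.smul, abs_of_neg hy] at h4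
    have h6 := hrow (-(u.1 - ξ * u.2))
    rw [abs_neg] at h6
    have h7 : ρ1 * (u.1 - ξ * u.2) ≤ C * |u.1 - ξ * u.2| :=
      (le_abs_self _).trans (by rw [abs_mul]; gcongr)
    generalize ρ1 * (u.1 - ξ * u.2) = w at *
    generalize |u.1 - ξ * u.2| = l at *
    generalize μ (ξ, 1) = m at *
    have h8 : 2 * m * (-u.2) - 2 * C * l ≤ μ u - (m * u.2 + w) := by linarith
    have h9 : c0 * l ≤ μ u - (m * u.2 + w) := by linarith
    generalize hκ : μ u - (m * u.2 + w) = κ at *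
    have h10 : (c0 + 2 * C) * (c * (-u.2)) ≤ (c0 + 2 * C) * κ := by
      have h11 := mul_le_mul_of_nonneg_right hc2 (neg_pos.2 hy).le
      have h12 := mul_le_mul_of_nonneg_left h8 hc0.le
      have h13 := mul_le_mul_of_nonneg_left h9 hC.le
      nlinarith
    have := le_of_mul_le_mul_left h10 hden
    linarith

variable {G : Measure ℝ} [IsProbabilityMeasure G] [NullSingletonClass G]

/-- `symNorm_mu`, `mu_le_mT`, `mT_le`, `mT_lip`, `path_cost_lower` (decrease `θ` to `min θ 1`), `len_tail`;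
`rate0`: `z = (⌊ξ N⌋, N)`, `mT_le_mu`, `SymNorm.lip`, `μ (N • (ξ,1)) = N μv`. -/
theorem exists_setup (hG : Hyp G) {v : ℝ × ℝ} (hv : v ≠ 0) (hd : ¬ DifferentiableAt ℝ (mu G) v) :
    Nonempty (Setup G) := by
  have hs := symNorm_mu G hG
  obtain ⟨ξ, hξ, hd'⟩ := exists_corner hs hv hd
  obtain ⟨ρ1, c, C1, hc, hc1, hm, hmC, hρ, hu⟩ := corner_2d hs hξ hd'
  obtain ⟨C2, hC2, h2⟩ := mT_le G hG
  obtain ⟨C3, hC3, h3⟩ := mT_lip G hG
  obtain ⟨θ, hθ, h4⟩ := path_cost_lower G hG.nonneg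
  obtain ⟨C0, hC0, C4, hC4, h5⟩ := len_tail hG
  obtain ⟨L, hL, h6⟩ := hs.lip
  have hC1 : 0 < C1 := hm.trans_le hmC
  have hn : ∀ u : V, (0 : ℝ) ≤ nrm u := fun u => by exact_mod_cast nrm_nonneg u
  refine ⟨{
    ξ := ξ, μv := mu G (ξ, 1), ρ1 := ρ1, c := c, C := 1 + C1 + C2 + C3 + C4, θ := min θ 1, C0 := C0
    hyp := hG, ξ_le := hξ, c_pos := hc, c_le := hc1, C_ge := by linarith
    θ_pos := lt_min hθ one_pos, θ_le := min_le_right _ _, C0_ge := hC0, μv_pos := hm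
    μv_le := by linarith
    ρ1_le := by linarith
    lat_le := fun u => (hu (toR u)).1.trans (mu_le_mT G hG u)
    back_le := fun u => (hu (toR u)).2.trans (mu_le_mT G hG u)
    mT_le := fun u => (h2 u).trans (mul_le_mul_of_nonneg_right (by linarith) (hn u))
    mT_lip := fun u w => (h3 u w).trans (mul_le_mul_of_nonneg_right (by linarith) (hn _))
    rate0 := fun ε hε => ?_
    kesten := fun x n => le_trans (measureReal_mono ?_) (h4 x n)
    len := fun n a b hn hab => (h5 n a b hn hab).trans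
      (div_le_div_of_nonneg_right (by linarith) (by positivity)) }⟩
  · obtain ⟨C5, h7⟩ := mT_le_mu G hG hε
    refine ⟨L + C5 + |ρ1|, fun N => ?_⟩
    have hN : (0 : ℝ) ≤ N := Nat.cast_nonneg N
    have hξ' := abs_le.1 hξ
    have ha : ⌊ξ * N⌋ ≤ N := by
      have : (⌊ξ * N⌋ : ℝ) ≤ ((N : ℤ) : ℝ) := (Int.floor_le _).trans (by push_cast; nlinarith)
      exact_mod_cast this
    have hb : -(N : ℤ) ≤ ⌊ξ * N⌋ := Int.le_floor.2 (by push_cast; nlinarith)
    have hz : nrm (⌊ξ * N⌋, N) ≤ N := max_le (abs_le.2 ⟨hb, ha⟩) (by simp)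
    have hz' : (nrm (⌊ξ * N⌋, N) : ℝ) ≤ N := by exact_mod_cast hz
    have hfl : |(⌊ξ * N⌋ : ℝ) - ξ * N| ≤ 1 :=
      abs_le.2 ⟨by linarith [Int.lt_floor_add_one (ξ * N)], by linarith [Int.floor_le (ξ * N)]⟩
    refine ⟨(⌊ξ * N⌋, N), rfl, by omega, ?_⟩
    have h8 := h7 (⌊ξ * N⌋, N)
    have h9 := h6 (toR (⌊ξ * N⌋, N)) ((N : ℝ) • (ξ, 1))
    rw [hs.smul, abs_of_nonneg hN] at h9
    have h10 : ‖toR (⌊ξ * N⌋, N) - (N : ℝ) • ((ξ, 1) : ℝ × ℝ)‖ ≤ 1 := by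
      have e : toR (⌊ξ * N⌋, N) - (N : ℝ) • ((ξ, 1) : ℝ × ℝ) = ((⌊ξ * N⌋ : ℝ) - ξ * N, 0) := by
        ext
        · simp [toR, mul_comm]
        · simp [toR]
      rw [e, Prod.norm_mk, Real.norm_eq_abs, norm_zero]
      exact max_le hfl zero_le_one
    have h11 := (le_abs_self _).trans (h9.trans (mul_le_mul_of_nonneg_left h10 hL.le))
    have h12 : -(ρ1 * ((⌊ξ * N⌋ : ℝ) - ξ * N)) ≤ |ρ1| := by
      refine (neg_le_abs _).trans ?_
      rw [abs_mul]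
      exact mul_le_of_le_one_right (abs_nonneg _) hfl
    have h13 := mul_le_mul_of_nonneg_left hz' hε.le
    simp only [rhv, latv, Int.cast_natCast]
    linarith
  · rintro t ⟨p, hp1, hp2, hp3, hp4⟩
    exact ⟨p, hp1, hp2, hp3,
      hp4.trans_le (mul_le_mul_of_nonneg_right (min_le_left _ _) (Nat.cast_nonneg n))⟩

end Crest.Agent.R151.PA
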