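import Crest.Agent.R151.Base

/-!
# R151 part A (differentiability of `mu`): definitions (sub-lead helper15)

Overview.  If `mu` has a corner in direction `(ξ,1)` we get a `Setup` (linear functionals `lat`, `rh` with
`rh u + c |lat u| ≤ mT u`).  Shearing the environment along a set `A` of row gaps spaced `L` apart (`sh`, `gaps`)
gives `mT (z ± |A| e1) ≤ mT z + Σ_{i ∈ A} (single shear increments) + errors`; the second difference of `mT` is
`O(1/K0)` at a suitable `z`, the corner makes the left side grow: contradiction once the errors are `o(n)`.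
The errors are controlled by `ui_GB` (uniform integrability of the crude repairs) and `bad_GB` (the optimal repair is
local for most rows), which rests on `loc_GB`: few rows are covered by long cheap detours of the geodesic
(`close_end`/`close_start`: few ends of such detours, `far_GB`: detours far from the geodesic).
All probabilistic statements use `GB` (an integrable majorant on `{length ≤ Λ}`), so that almost no measurability is needed.
-/

set_option autoImplicit false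
open MeasureTheory ProbabilityTheory Crest.ProbabilityR.FirstPassage Filter Topology
open scoped ENNReal

namespace Crest.Agent.R151.PA

/-! ### scales -/

/-- size of the bypass `#` -/
def KK : ℕ := 1000
/-- length of a piece, side of a cell -/
def SS (h : ℕ) : ℕ := h ^ 70
/-- lateral unit -/
def gg (h : ℕ) : ℕ := h ^ 64
/-- allowed lower deviation -/
def la (h : ℕ) : ℕ := h ^ 63
/-- spacing of the net -/
def nt (h : ℕ) : ℕ := h ^ 62

/-! ### geodesics, counting, majorants -/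

/-- `p` on `0..N` is a geodesic from `a` to `b`, normalised to be constant outside `0..N` -/
structure IsG (t : Env) (a b : V) (p : ℤ → V) (N : ℤ) : Prop where
  geo : IsGeo t Set.univ p 0 N
  left : ∀ k, k ≤ 0 → p k = a
  right : ∀ k, N ≤ k → p k = b

/-- a normalised self-avoiding path from `a` to `b` -/
structure SAP (a b : V) (q : ℤ → V) (n : ℤ) : Prop where
  path : PathIn Set.univ q 0 n
  inj : Set.InjOn q (Set.Icc 0 n)
  left : ∀ k, k ≤ 0 → q k = a
  right : ∀ k, n ≤ k → q k = b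

/-- the normalised geodesic is unique -/
def UG (t : Env) (a b : V) : Prop := ∃! x : (ℤ → V) × ℤ, IsG t a b x.1 x.2

open Classical in
/-- the canonical geodesic -/
noncomputable def geo (a b : V) (t : Env) : (ℤ → V) × ℤ :=
  if h : UG t a b then h.exists.choose else (fun _ => a, 0)

/-- some geodesic has more than `Λ` edges -/
def Long (a b : V) (Λ : ℕ) : Set Env := {t | ∃ p N, IsG t a b p N ∧ (Λ : ℤ) < N}

open Classical in
/-- number of `k ∈ I` with `Q k`, as a real number -/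
noncomputable def cnt (I : Finset ℤ) (Q : ℤ → Prop) : ℝ := ((I.filter Q).card : ℝ)

/-- `F (t, geodesic)` has an integrable majorant of mean `≤ c` on `{length ≤ Λ}` -/
def GB (G : Measure ℝ) (a b : V) (Λ : ℕ) (F : Env → (ℤ → V) → ℤ → ℝ) (c : ℝ) : Prop :=
  ∃ g : Env → ℝ, Integrable g (iidLaw G) ∧ (∀ t, 0 ≤ g t) ∧ ∫ t, g t ∂iidLaw G ≤ c ∧
    ∀ᵐ t ∂iidLaw G, ∀ p N, IsG t a b p N → N ≤ Λ → F t p N ≤ g t

/-- `F` on the canonical geodesic, `0` if it is longer than `Λ` -/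
noncomputable def onGeo (a b : V) (Λ : ℕ) (F : Env → (ℤ → V) → ℤ → ℝ) (t : Env) : ℝ :=
  if (geo a b t).2 ≤ Λ then F t (geo a b t).1 (geo a b t).2 else 0

/-- `b` is the last visit of `p` to row `i`, afterwards `p` stays above -/
def IsExit (p : ℤ → V) (N i b : ℤ) : Prop :=
  0 ≤ b ∧ b < N ∧ (p b).2 = i ∧ ∀ l, b < l → l ≤ N → i < (p l).2

/-- all visits to rows within `r` of the row of `p x` have indices within `J` of `x` -/
def Win (p : ℤ → V) (N : ℤ) (r J : ℕ) (x : ℤ) : Prop :=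
  ∀ l, 0 ≤ l → l ≤ N → |(p l).2 - (p x).2| ≤ r → |l - x| ≤ J

/-! ### the corner -/

/-- lateral coordinate with respect to the direction `(ξ,1)` -/
noncomputable def latv (ξ : ℝ) (u : V) : ℝ := (u.1 : ℝ) - ξ * u.2
/-- the supporting functional -/
noncomputable def rhv (ξ μv ρ1 : ℝ) (u : V) : ℝ := μv * u.2 + ρ1 * latv ξ u

/-- everything that is used about a corner of `mu` and about the law -/
structure Setup (G : Measure ℝ) where
  ξ : ℝ
  μv : ℝ
  ρ1 : ℝ
  c : ℝ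
  C : ℝ
  θ : ℝ
  C0 : ℕ
  hyp : Hyp G
  ξ_le : |ξ| ≤ 1
  c_pos : 0 < c
  c_le : c ≤ 1
  C_ge : 1 ≤ C
  θ_pos : 0 < θ
  θ_le : θ ≤ 1
  C0_ge : 1 ≤ C0
  μv_pos : 0 < μv
  μv_le : μv ≤ C
  ρ1_le : |ρ1| ≤ C
  lat_le : ∀ u : V, rhv ξ μv ρ1 u + c * |latv ξ u| ≤ mT G u
  back_le : ∀ u : V, rhv ξ μv ρ1 u - c * u.2 ≤ mT G u
  mT_le : ∀ u : V, mT G u ≤ C * nrm u
  mT_lip : ∀ u w : V, |mT G u - mT G w| ≤ C * nrm (u - w)
  rate0 : ∀ ε > (0 : ℝ), ∃ C' : ℝ, ∀ N : ℕ, ∃ z : V, z.2 = N ∧ nrm z ≤ N + 1 ∧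
    mT G z - rhv ξ μv ρ1 z ≤ ε * N + C'
  kesten : ∀ (x : V) (n : ℕ), (iidLaw G).real {t | ∃ p, PathIn Set.univ p 0 n ∧
    Set.InjOn p (Set.Icc 0 n) ∧ p 0 = x ∧ cost t p 0 n < θ * n} ≤ Real.exp (-n)
  len : ∀ (n : ℕ) (a b : V), 1 ≤ n → nrm (b - a) ≤ 2 * n →
    (iidLaw G).real (Long a b (C0 * n)) ≤ C / (n : ℝ) ^ 2

namespace Setup
variable {G : Measure ℝ} (P : Setup G)

noncomputable def lat (u : V) : ℝ := latv P.ξ u
noncomputable def rh (u : V) : ℝ := rhv P.ξ P.μv P.ρ1 u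
/-- half-width (in pieces) of a clean window -/
noncomputable def m0 : ℕ := ⌈12 * P.C / P.θ⌉₊
/-- radius (in units `SS h`) of the ball on which a good cell controls passage times -/
noncomputable def r0 : ℕ := P.m0 + 4
/-- radius (in units `SS h`) of the localisation ball -/
noncomputable def r1 : ℕ := P.r0 + 1 + ⌈2 * P.C * (P.r0 + 1) / P.θ⌉₊
/-- lower deviation allowed in a good cell -/
noncomputable def lam1 (h : ℕ) : ℝ := 20 * P.C * la h
/-- threshold of the maximal inequality -/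
noncomputable def lam (h : ℕ) : ℝ := P.c * gg h / (4 * P.m0)
/-- length cap at top scale `h` -/
def cap (h : ℕ) : ℕ := P.C0 * SS h
/-- the scale is large -/
def Big (h : ℕ) : Prop := 2 ^ 20 ≤ h ∧ 120 * P.C / P.c ≤ h ∧ 2 * P.C / P.θ ≤ h
/-- admissible endpoint at top scale `h` -/
def Adm (C1 : ℝ) (h : ℕ) (z : V) : Prop :=
  0 ≤ z.2 ∧ nrm z ≤ 2 * SS h ∧ mT G z - P.rh z ≤ C1 * la h
/-- excess of a segment over the supporting functional -/
noncomputable def exc (t : Env) (p : ℤ → V) (u v : ℤ) : ℝ := cost t p u v - P.rh (p v - p u)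

end Setup

/-! ### detours -/

/-- vertices off `p`, and the two vertices `p j`, `p k` -/
def Free (p : ℤ → V) (N j k : ℤ) : Set V := {v | ∀ l, 0 ≤ l → l ≤ N → p l = v → l = j ∨ l = k}

/-- there is a detour from `p j` to `p k` of excess `≤ C` -/
def Cheap (t : Env) (p : ℤ → V) (N : ℤ) (C : ℝ) (j k : ℤ) : Prop :=
  0 ≤ j ∧ j + 2 ≤ k ∧ k ≤ N ∧ Conn (Free p N j k) (p j) (p k) ∧
    TS t (Free p N j k) (p j) (p k) ≤ cost t p j k + C

/-- `q` on `0..n` is a self-avoiding detour from `p j` to `p k` of excess `≤ C` -/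
def Det (t : Env) (p : ℤ → V) (N : ℤ) (C : ℝ) (j k : ℤ) (q : ℤ → V) (n : ℤ) : Prop :=
  0 ≤ j ∧ j + 2 ≤ k ∧ k ≤ N ∧ PathIn (Free p N j k) q 0 n ∧ Set.InjOn q (Set.Icc 0 n) ∧
    q 0 = p j ∧ q n = p k ∧ cost t q 0 n ≤ cost t p j k + C

def EndAt (t : Env) (p : ℤ → V) (N : ℤ) (C : ℝ) (M : ℕ) (k : ℤ) : Prop :=
  ∃ j, j + M ≤ k ∧ Cheap t p N C j k
def StartAt (t : Env) (p : ℤ → V) (N : ℤ) (C : ℝ) (M : ℕ) (j : ℤ) : Prop :=
  ∃ k, j + M ≤ k ∧ Cheap t p N C j k
/-- a long cheap detour within `J` of the index `b` -/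
def Near (t : Env) (p : ℤ → V) (N : ℤ) (C : ℝ) (M J : ℕ) (b : ℤ) : Prop :=
  ∃ j k, Cheap t p N C j k ∧ j + M ≤ k ∧ j - J ≤ b ∧ b ≤ k + J
/-- an end or a start of a long cheap detour within `J` of the index `b` -/
def Ends (t : Env) (p : ℤ → V) (N : ℤ) (C : ℝ) (M J : ℕ) (b : ℤ) : Prop :=
  ∃ l, |l - b| ≤ J ∧ (EndAt t p N C M l ∨ StartAt t p N C M l)
/-- the index `b` is covered by a long cheap detour -/
def Cov (t : Env) (p : ℤ → V) (N : ℤ) (C : ℝ) (M : ℕ) (b : ℤ) : Prop :=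
  ∃ j k, Cheap t p N C j k ∧ j + M ≤ k ∧ j ≤ b ∧ b < k

/-! ### shear -/

def minrow (e : Sym2 V) : ℤ := Sym2.lift ⟨fun x y : V => min x.2 y.2, fun _ _ => min_comm _ _⟩ e
/-- the sheared environment: row `y` and the vertical edges above it are moved by `a y` -/
def sh (a : ℤ → ℤ) (t : Env) : Env := fun e => t (e.map fun x => (x.1 - a (minrow e), x.2))
def psi (a : ℤ → ℤ) (x : V) : V := (x.1 + a x.2, x.2)
/-- a single gap between the rows `i` and `i+1` -/
def gap (σ i : ℤ) : ℤ → ℤ := fun y => if i < y then σ else 0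
def gaps (σ : ℤ) (A : Finset ℤ) : ℤ → ℤ := fun y => σ * ((A.filter fun i => i < y).card : ℤ)
/-- step `k` of `p` crosses the gap above row `i` -/
def Cross (p : ℤ → V) (i k : ℤ) : Prop :=
  ((p k).2 = i ∧ (p (k + 1)).2 = i + 1) ∨ ((p k).2 = i + 1 ∧ (p (k + 1)).2 = i)
/-- bypass variable at the image of `x` in the sheared environment -/
noncomputable def Yh (σ i : ℤ) (t : Env) (x : V) : ℝ := Yv KK (sh (gap σ i) t) (psi (gap σ i) x)
open Classical in
/-- crude repair of the crossings of gap `i` -/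
noncomputable def Sv (σ i : ℤ) (t : Env) (p : ℤ → V) (N : ℤ) : ℝ :=
  ∑ k ∈ (Finset.Ico 0 N).filter (Cross p i), Yh σ i t (p k)
/-- increment of the passage time under a single shear -/
noncomputable def Dv (σ i : ℤ) (z : V) (t : Env) : ℝ := T (sh (gap σ i) t) 0 (z + (σ, 0)) - T t 0 z
/-- `p` can be repaired in the slab of half-height `R` at extra cost `d` -/
def GoodD (R : ℕ) (σ i : ℤ) (t : Env) (p : ℤ → V) (N : ℤ) (d : ℝ) : Prop :=
  ∃ j k, 0 ≤ j ∧ j < k ∧ k ≤ N ∧ (∀ l, 0 ≤ l → l < N → Cross p i l → j ≤ l ∧ l < k) ∧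
    (∀ l, j ≤ l → l ≤ k → p l ∈ rows (i - R) (i + 1 + R)) ∧
    TS (sh (gap σ i) t) (rows (i - R) (i + 1 + R)) (psi (gap σ i) (p j)) (psi (gap σ i) (p k)) ≤
      cost t p j k + d
/-- truncation from below -/
noncomputable def tr (M x : ℝ) : ℝ := if M < x then x else 0

/-! ### local events at a site -/

/-- two points near `x` are far apart -/
def LT (r : ℕ) (C : ℝ) (x : V) : Set Env :=
  {t | ∃ u ∈ ball x r, ∃ v ∈ ball x r, C < TS t (ball x (r + 3 * KK)) u v}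
/-- the same after a shear in the gap above the row of `x` -/
def LTs (σ : ℤ) (r : ℕ) (C : ℝ) (x : V) : Set Env := {t | sh (gap σ x.2) t ∈ LT r C x}
/-- a cheap path from near `x` to distance `R` -/
def KL (r : ℕ) (C : ℝ) (R : ℕ) (x : V) : Set Env :=
  {t | ∃ u ∈ ball x r, ∃ v, nrm (v - x) = R ∧ TS t (ball x R) u v ≤ C}

/-- events attached to the cells of side `S`, read inside the ball of radius `r S` around the corner -/
structure LocEv (S r : ℕ) (B : V → Set Env) : Prop where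
  meas : ∀ c, MeasurableSet (B c)
  dep : ∀ c, DependsOnly (fun t => t ∈ B c) (edgesIn (ball (c.1 * S, c.2 * S) (r * S)))

/-! ### cells, pieces, clean indices -/

def cell (S : ℕ) (x : V) : V := (x.1 / S, x.2 / S)
def corner (S : ℕ) (c : V) : V := (c.1 * S, c.2 * S)

open Classical in
/-- number of marked cells among those of `p 0, p S, p (2S), …` -/
noncomputable def cellCnt (S Λ : ℕ) (B : V → Set Env) (t : Env) (p : ℤ → V) : ℝ :=
  ((((Finset.range (Λ / S + 1)).image fun k : ℕ => cell S (p (k * S))).filter fun c => t ∈ B c).card : ℝ)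

namespace Setup
variable {G : Measure ℝ} (P : Setup G)

def BadI (h : ℕ) (c : V) : Set Env :=
  {t | (∃ x ∈ ball (corner (SS h) c) (P.r1 * SS h), (h : ℝ) < Yv KK t x) ∨
    ∃ q, PathIn Set.univ q 0 (SS h) ∧ Set.InjOn q (Set.Icc 0 (SS h : ℤ)) ∧
      q 0 ∈ ball (corner (SS h) c) (P.r1 * SS h) ∧ cost t q 0 (SS h) < P.θ * SS h}

/-- net points -/
def Net (h : ℕ) (c : V) : Set V :=
  {x | x ∈ ball (corner (SS h) c) ((P.r0 + 1) * SS h) ∧ (nt h : ℤ) ∣ x.1 ∧ (nt h : ℤ) ∣ x.2}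

def BadII (h : ℕ) (c : V) : Set Env :=
  {t | (∃ x ∈ P.Net h c, (la h : ℝ) < Zv KK t x) ∨ ∃ x ∈ P.Net h c, ∃ y ∈ P.Net h c,
    TS t (ball (corner (SS h) c) (P.r1 * SS h)) x y < mT G (y - x) - la h}

def BadC (h : ℕ) (c : V) : Set Env := P.BadI h c ∪ P.BadII h c

/-- the cell of the start of piece `k` is bad -/
def BadP (h : ℕ) (t : Env) (p : ℤ → V) (k : ℕ) : Prop := t ∈ P.BadC h (cell (SS h) (p (k * SS h)))

open Classical in
/-- penalised excess of piece `k` -/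
noncomputable def ee (h : ℕ) (t : Env) (p : ℤ → V) (N : ℤ) (k : ℕ) : ℝ :=
  if (k : ℤ) * SS h < N then
    P.exc t p (k * SS h) (min ((k + 1) * SS h) N) +
      (if P.BadP h t p k then (3 * P.C + 1) * SS h else P.lam1 h)
  else 0

/-- total penalised excess -/
noncomputable def eeSum (h Λ : ℕ) (t : Env) (p : ℤ → V) (N : ℤ) : ℝ :=
  ∑ k ∈ Finset.range (Λ / SS h + 1), P.ee h t p N k

/-- `y1..y2` is a clean window for the index `x` at scale `h` -/
structure CleanW (h : ℕ) (t : Env) (p : ℤ → V) (N x y1 y2 : ℤ) : Prop where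
  h0 : 0 ≤ y1
  h1 : y1 ≤ x
  h2 : x ≤ y2
  hN : y2 ≤ N
  len : y2 - y1 ≤ 2 * P.m0 * SS h
  mem : ∀ l, 0 ≤ l → l ≤ N → |(p l).2 - (p x).2| ≤ 3 * SS h → y1 ≤ l ∧ l ≤ y2
  lat : ∀ l, y1 ≤ l → l ≤ y2 → |P.lat (p l - p x)| ≤ gg h
  short : ∀ j k q i0 i1, y1 ≤ j → j ≤ k → k ≤ y2 → PathIn Set.univ q i0 i1 → q i0 = p j → q i1 = p k →
    cost t q i0 i1 ≤ cost t p j k + P.c * gg h → ∀ u, i0 ≤ u → u ≤ i1 → |P.lat (q u - p x)| < 8 * gg h

def Clean (h : ℕ) (t : Env) (p : ℤ → V) (N x : ℤ) : Prop := ∃ y1 y2, P.CleanW h t p N x y1 y2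

/-! ### blocks -/

/-- the block of rows `mS - g .. (m+1)S + g` on the side `σ` of the lateral position `b g` -/
def blk (h : ℕ) (m b σ : ℤ) : Set V :=
  {v | m * SS h - gg h ≤ v.2 ∧ v.2 ≤ (m + 1) * SS h + gg h ∧
    3 * (gg h : ℝ) ≤ σ * (P.lat v - b * gg h) ∧ σ * (P.lat v - b * gg h) ≤ 2 ^ 68 * gg h}

/-- `p` passes the rows of the block at lateral position `b g` -/
def Adjc (h : ℕ) (m b : ℤ) (p : ℤ → V) (N : ℤ) : Prop :=
  ∀ l, 0 ≤ l → l ≤ N → m * SS h - gg h ≤ (p l).2 → (p l).2 ≤ (m + 1) * SS h + gg h →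
    |P.lat (p l) - b * gg h| ≤ 2 * gg h

/-- `q` has many runs of `g` steps inside the block -/
def Thru (h : ℕ) (m b σ : ℤ) (q : ℤ → V) (n : ℤ) : Prop :=
  (h : ℝ) ^ 69 / 8 ≤ cnt (Finset.Icc 0 (n - gg h))
    fun l => ∀ l', l ≤ l' → l' ≤ l + gg h → q l' ∈ P.blk h m b σ

/-- a nearly optimal path runs through a block next to the geodesic `p` -/
def FarEv (h : ℕ) (C : ℝ) (z : V) (t : Env) (p : ℤ → V) (N m : ℤ) : Prop :=
  ∃ b σ : ℤ, (σ = 1 ∨ σ = -1) ∧ P.Adjc h m b p N ∧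
    ∃ q n, SAP 0 z q n ∧ P.Thru h m b σ q n ∧ cost t q 0 n ≤ T t 0 z + C

/-- a short geodesic passes next to the block -/
def Hev (h Λ : ℕ) (z : V) (m b : ℤ) : Set Env :=
  {t | ∃ p N, IsG t 0 z p N ∧ N ≤ Λ ∧ P.Adjc h m b p N}

/-- clamped excess of the best path through the block -/
noncomputable def Xc (h : ℕ) (C : ℝ) (z : V) (m b σ : ℤ) (t : Env) : ℝ :=
  ⨅ x : {x : (ℤ → V) × ℤ // SAP 0 z x.1 x.2 ∧ P.Thru h m b σ x.1 x.2},
    min (max (cost t x.1.1 0 x.1.2 - T t 0 z) 0) (C + 1)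

open Classical in
noncomputable def Phi (h Λ : ℕ) (C : ℝ) (z : V) (m b σ : ℤ) (t : Env) : ℝ :=
  if t ∈ P.Hev h Λ z m b then 1 + P.Xc h C z m b σ t else 0

end Setup

open Classical in
/-- the lattice edges inside a finite set -/
noncomputable def latE (S : Set V) : Finset (Sym2 V) :=
  if h : (edgesIn S ∩ squareLattice.edgeSet).Finite then h.toFinset else ∅

/-- thresholds for lowering a weight -/
structure QD (G : Measure ℝ) where
  q : ℝ
  δ : ℝ
  δ_pos : 0 < δ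
  δ_lt : δ < q
  p_pos : 0 < G.real (Set.Ico 0 (q - δ))
  peierls : ∀ (x : V) (n : ℕ), (iidLaw G).real {t | ∃ p, PathIn Set.univ p 0 n ∧
    Set.InjOn p (Set.Icc 0 n) ∧ p 0 = x ∧
      (n : ℝ) / 2 ≤ cnt (Finset.Ico 0 n) fun k => t (edge p k) < q} ≤ Real.exp (-n)

namespace QD
variable {G : Measure ℝ} (Q : QD G)

/-- the centred score of the lowering operator -/
noncomputable def Zs (s : ℝ) : ℝ :=
  (if Q.q ≤ s then 1 else 0) -
    G.real (Set.Ici Q.q) / G.real (Set.Ico 0 (Q.q - Q.δ)) * (if 0 ≤ s ∧ s < Q.q - Q.δ then 1 else 0)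
noncomputable def ZB (B : Finset (Sym2 V)) (t : Env) : ℝ := ∑ e ∈ B, Q.Zs (t e)
/-- a bound for `|Zs|` -/
noncomputable def bnd : ℝ := 1 / G.real (Set.Ico 0 (Q.q - Q.δ))
/-- a self-avoiding path of `g` steps starting in `S` has at least `g/2` useless edges -/
def Pei (g : ℕ) (S : Set V) : Set Env :=
  {t | ∃ p, PathIn Set.univ p 0 g ∧ Set.InjOn p (Set.Icc 0 (g : ℤ)) ∧ p 0 ∈ S ∧
    (g : ℝ) / 2 ≤ cnt (Finset.Ico 0 g) fun k => t (edge p k) < Q.q}

end QD

/-- the block `(m, b)` is attached to the cell `c` -/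
def Anch {G : Measure ℝ} (P : Setup G) (h : ℕ) (c : V) (m b : ℤ) : Prop :=
  |m - c.2| ≤ 2 ∧ |(b : ℝ) * gg h - P.lat (corner (SS h) c)| ≤ 5 * SS h

def BadIII {G : Measure ℝ} (P : Setup G) (Q : QD G) (h : ℕ) (c : V) : Set Env :=
  Q.Pei (gg h) (ball (corner (SS h) c) (10 * SS h)) ∪
    {t | ∃ m b σ : ℤ, (σ = 1 ∨ σ = -1) ∧ Anch P h c m b ∧
      (h : ℝ) ^ 68 < |Q.ZB (latE (P.blk h m b σ)) t|}

/-- a family of long cheap detours with overlap at most two -/
structure Fam (t : Env) (p : ℤ → V) (N : ℤ) (C : ℝ) (M : ℕ) where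
  I : Finset (ℤ × ℤ)
  q : ℤ × ℤ → ℤ → V
  n : ℤ × ℤ → ℤ
  det : ∀ a ∈ I, Det t p N C a.1 a.2 (q a) (n a) ∧ a.1 + M ≤ a.2
  two : ∀ x, (I.filter fun a => a.1 ≤ x ∧ x < a.2).card ≤ 2

/-- a detour of the family covering the exit index of row `i` has a point on row `i` at distance in `[d, d')` -/
def Fam.Hit {t : Env} {p : ℤ → V} {N : ℤ} {C : ℝ} {M : ℕ} (F : Fam t p N C M) (i b d d' : ℤ) : Prop :=
  ∃ a ∈ F.I, a.1 ≤ b ∧ b < a.2 ∧ ∃ u, 0 ≤ u ∧ u ≤ F.n a ∧ (F.q a u).2 = i ∧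
    d ≤ |(F.q a u).1 - (p b).1| ∧ |(F.q a u).1 - (p b).1| < d'

/-! ### sliding averages (CLOSE) -/

/-- average of `u` over `[x, x + 2^s)` -/
noncomputable def mv (u : ℤ → ℝ) (s : ℕ) (x : ℤ) : ℝ := (∑ k ∈ Finset.Ico x (x + 2 ^ s), u k) / 2 ^ s

/-- `exp (-excess)` of the best detour ending at `k` and starting before the block `[k0, k0 + L)` -/
noncomputable def uu (t : Env) (p : ℤ → V) (N : ℤ) (L : ℕ) (k0 k : ℤ) : ℝ :=
  if k0 ≤ k ∧ k < k0 + L ∧ k ≤ N then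
    ⨆ j : {j : ℤ // 0 ≤ j ∧ j + 2 ≤ k0 ∧ Conn (Free p N j k) (p j) (p k)},
      Real.exp (cost t p j k - TS t (Free p N j k) (p j) (p k))
  else 0

/-- average to the right of the edge `x` -/
noncomputable def Rv (L s : ℕ) (x : ℤ) (t : Env) (p : ℤ → V) (N : ℤ) : ℝ :=
  mv (uu t p N L (x / L * L)) s (x + 1)
/-- right average minus left average -/
noncomputable def Jv (L s : ℕ) (x : ℤ) (t : Env) (p : ℤ → V) (N : ℤ) : ℝ :=
  Rv L s x t p N - mv (uu t p N L (x / L * L)) s (x + 1 - 2 ^ s)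

end Crest.Agent.R151.PA
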