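import Crest.Agent.R151.ALocal
import Crest.Agent.R151.AClean

/-! R151/A: FAR, deterministic part: rows covered by long cheap detours. -/

set_option autoImplicit false
open MeasureTheory ProbabilityTheory Crest.ProbabilityR.FirstPassage Filter Topology
open scoped ENNReal

namespace Crest.Agent.R151.PA

variable {G : Measure ℝ} [IsProbabilityMeasure G] [NullSingletonClass G] (P : Setup G)
variable {h : ℕ} {t : Env} {z : V} {p : ℤ → V} {N : ℤ} {C : ℝ} {M : ℕ}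

/-- a detour with a far point on the row of `p b` cannot have both ends in the clean window (`CleanW.short`, `lat_same_row`) -/
theorem long_of_clean (hC : C ≤ P.c * gg h) {j k n b u y1 y2 : ℤ} {q : ℤ → V} (hq : Det t p N C j k q n)
    (hw : P.CleanW h t p N b y1 y2) (hu : 0 ≤ u ∧ u ≤ n) (hrow : (q u).2 = (p b).2)
    (hd : 8 * (gg h : ℤ) ≤ |(q u).1 - (p b).1|) : j < y1 ∨ y2 < k := by
  by_contra hn
  push Not at hn
  obtain ⟨h0, h1, h2, h3, -, h5, h6, h7⟩ := hq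
  have := hw.short j k q 0 n hn.1 (by omega) hn.2 (h3.mono (Set.subset_univ _)) h5 h6 (by linarith)
    u hu.1 hu.2
  rw [P.lat_same_row hrow] at this
  have h8 : ((8 * (gg h : ℤ) : ℤ) : ℝ) ≤ ((|(q u).1 - (p b).1| : ℤ) : ℝ) := Int.cast_le.2 hd
  push_cast at h8 this
  linarith
/-- at the top scale the window is everything: rows `0` and `z.2` are within `3S` -/
theorem not_far_top (hp : IsG t 0 z p N) (hz : z.2 ≤ 2 * SS h) (hC : C ≤ P.c * gg h) {j k n b u : ℤ}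
    {q : ℤ → V} (hq : Det t p N C j k q n) (hc : P.Clean h t p N b) (hb : 0 ≤ (p b).2 ∧ (p b).2 ≤ z.2)
    (hu : 0 ≤ u ∧ u ≤ n) (hrow : (q u).2 = (p b).2) : |(q u).1 - (p b).1| < 8 * gg h := by
  by_contra hn
  obtain ⟨y1, y2, hw⟩ := hc
  have hN := hp.nonneg
  have a1 := hw.mem 0 le_rfl hN (by rw [hp.start, abs_le]; simp only [Prod.snd_zero]; omega)
  have a2 := hw.mem N hN le_rfl (by rw [hp.stop, abs_le]; omega)
  have := long_of_clean P hC hq hw hu hrow (not_lt.1 hn)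
  have h0 := hq.1
  have h2 := hq.2.2.1
  omega

theorem AFarD_exit (p : ℤ → V) (N i : ℤ) : ∃ x, ∀ b, IsExit p N i b → b = x := by
  by_cases h : ∃ b, IsExit p N i b
  · obtain ⟨x, hx⟩ := h
    exact ⟨x, fun b hb => hb.unique hx⟩
  · exact ⟨0, fun b hb => absurd ⟨b, hb⟩ h⟩

/-- In the rows `[mS, (m+1)S)` at most four detours of the family are long: `I4` = those covering the exit index of row `mS` or of row `(m+1)S`
(if `(m+1) S < z.2`; otherwise `N` is in every clean window and `y2 < k` is impossible). -/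
theorem exists_four (hp : IsG t 0 z p N) (hC : C ≤ P.c * gg h) (F : Fam t p N C M) {m : ℤ} (hm : 0 ≤ m) :
    ∃ I4 ⊆ F.I, I4.card ≤ 4 ∧ ∀ i b a u, m * SS h ≤ i → i < (m + 1) * SS h → i < z.2 → IsExit p N i b →
      P.Clean h t p N b → a ∈ F.I → a.1 ≤ b → b < a.2 → 0 ≤ u → u ≤ F.n a → (F.q a u).2 = i →
      8 * (gg h : ℤ) ≤ |(F.q a u).1 - (p b).1| → a ∈ I4 := by
  obtain ⟨x1, h1⟩ := AFarD_exit p N (m * SS h)
  obtain ⟨x2, h2⟩ := AFarD_exit p N ((m + 1) * SS h)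
  refine ⟨(F.I.filter fun a => a.1 ≤ x1 ∧ x1 < a.2) ∪ (F.I.filter fun a => a.1 ≤ x2 ∧ x2 < a.2),
    Finset.union_subset (Finset.filter_subset _ _) (Finset.filter_subset _ _),
    (Finset.card_union_le _ _).trans (by linarith [F.two x1, F.two x2]), ?_⟩
  intro i b a u i1 i2 i3 hb ⟨y1, y2, hw⟩ ha a1 a2 u1 u2 hrow hd
  have hS : (0 : ℤ) ≤ SS h := Int.natCast_nonneg _
  have hmS : 0 ≤ m * SS h := mul_nonneg hm hS
  rw [add_mul, one_mul] at i2 h2
  have hdet := (F.det a ha).1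
  rcases long_of_clean P hC hdet hw ⟨u1, u2⟩ (hrow.trans hb.2.2.1.symm) hd with c | c
  · obtain ⟨x, hx⟩ := exists_exit hp.geo.1 (i := m * SS h) (by rw [hp.start]; exact hmS)
      (by rw [hp.stop]; omega)
    have e1 := hw.mem x hx.1 hx.2.1.le (by rw [hx.2.2.1, hb.2.2.1, abs_le]; omega)
    have e2 := hx.mono hb i1
    rw [← h1 x hx]
    exact Finset.mem_union_left _ (Finset.mem_filter.2 ⟨ha, by omega, by omega⟩)
  · by_cases hz : m * SS h + SS h < z.2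
    · obtain ⟨x, hx⟩ := exists_exit hp.geo.1 (i := m * SS h + SS h) (by rw [hp.start]; simp; omega)
        (by rw [hp.stop]; exact hz)
      have e1 := hw.mem x hx.1 hx.2.1.le (by rw [hx.2.2.1, hb.2.2.1, abs_le]; omega)
      have e2 := hb.mono hx i2.le
      rw [← h2 x hx]
      exact Finset.mem_union_right _ (Finset.mem_filter.2 ⟨ha, by omega, by omega⟩)
    · have e1 := hw.mem N hp.nonneg le_rfl (by rw [hp.stop, hb.2.2.1, abs_le]; omega)
      have e2 := hdet.2.2.1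
      omega

theorem AFarD_row (u : V) : |u.2| ≤ nrm u := le_max_right _ _

theorem AFarD_sg {σ : ℤ} (hσ : σ = 1 ∨ σ = -1) {x B : ℝ} (h : |x| ≤ B) : |(σ : ℝ) * x| ≤ B := by
  rcases hσ with rfl | rfl <;> simpa using h

/-- One detour, one side.  Fix a row `i* ∈ A` with clean exit index `x*`, `b = ⌊lat (p x*) / g⌋`.  All indices with rows within `3S` of `i*` have
`|lat (p l) - b g| ≤ 2g` (`CleanW.mem`, `CleanW.lat`): `Adjc`.  For `i ∈ A` the point `q u_i` has `6g ≤ σ (lat - b g) ≤ (2^67 + 2) g`.  `w` = `Det.glue`.  The end `p k` is at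
`nrm` distance `≥ g` from `q u_i` (its row is more than `3S` from `i*`, or laterally `≥ 4g`), so `u_i + g ≤ n`, and `w (j + u_i + s)`, `s ≤ g`, is in the block
(`abs_lat_path`, `PathIn.nrm_le`).  `i ↦ j + u_i` is injective (rows). -/
theorem farEv_of_rows (ht : ∀ e, 0 ≤ t e) (hb : P.Big h) (hp : IsG t 0 z p N) {j k n m σ : ℤ} {q : ℤ → V}
    (hq : Det t p N C j k q n) (hσ : σ = 1 ∨ σ = -1) (A : Finset ℤ) (hA : (h : ℝ) ^ 69 / 8 ≤ A.card)
    (hrow : ∀ i ∈ A, m * SS h ≤ i ∧ i < (m + 1) * SS h ∧ ∃ b u, IsExit p N i b ∧ P.Clean h t p N b ∧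
      0 ≤ u ∧ u ≤ n ∧ (q u).2 = i ∧ 8 * (gg h : ℤ) ≤ σ * ((q u).1 - (p b).1) ∧
        σ * ((q u).1 - (p b).1) < 2 ^ 67 * gg h) : P.FarEv h C z t p N m := by
  have hh : (0 : ℝ) < h := by exact_mod_cast lt_of_lt_of_le (by norm_num) hb.1
  have hg : (0 : ℝ) < gg h := by unfold gg; push_cast; positivity
  have hgS : (gg h : ℤ) ≤ SS h := by have := gg_le_SS hb.1; omega
  obtain ⟨i0, hi0⟩ : A.Nonempty := Finset.card_pos.1 (by
    have : (0 : ℝ) < A.card := lt_of_lt_of_le (by positivity) hA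
    exact_mod_cast this)
  obtain ⟨r1, r2, x0, -, hx0, ⟨y1, y2, hw⟩, -⟩ := hrow i0 hi0
  rw [add_mul, one_mul] at r2
  set β := ⌊P.lat (p x0) / gg h⌋ with hβ
  have b1 : (β : ℝ) * gg h ≤ P.lat (p x0) := (le_div_iff₀ hg).1 (Int.floor_le _)
  have b2 : P.lat (p x0) < (β + 1) * gg h := (div_lt_iff₀ hg).1 (Int.lt_floor_add_one _)
  have hadj : ∀ l, 0 ≤ l → l ≤ N → |(p l).2 - i0| ≤ 3 * SS h → |P.lat (p l) - β * gg h| ≤ 2 * gg h := by
    intro l l0 l1 hl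
    obtain ⟨e1, e2⟩ := hw.mem l l0 l1 (by rwa [hx0.2.2.1])
    have := hw.lat l e1 e2
    rw [P.lat_sub, abs_le] at this
    rw [abs_le]
    constructor <;> linarith [this.1, this.2]
  obtain ⟨w, hw1, hw2, hw3⟩ := hq.glue ht hp
  obtain ⟨q0, q1, q2, q3, -, q5, q6, -⟩ := hq
  refine ⟨β, σ, hσ, fun l l0 l1 l2 l3 => hadj l l0 l1 ?_, w, _, hw1, ?_, hw2⟩
  · rw [add_mul, one_mul] at l3
    rw [abs_le]
    omega
  refine hA.trans (le_trans (le_of_eq ?_) (cnt_le_of_inj (I := A) (Q := fun _ => True)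
    (fun i l => (w l).2 = i) (fun i hi _ => ?_) fun _ _ _ a b => a.symm.trans b))
  · simp [cnt]
  obtain ⟨s1, s2, b, u, hb', -, u0, u1, u2, u3, u4⟩ := hrow i hi
  rw [add_mul, one_mul] at s2
  have c1 := AFarD_sg hσ (hadj b hb'.1 hb'.2.1.le (by rw [hb'.2.2.1, abs_le]; omega))
  have c2 := P.lat_same_row (u2.trans hb'.2.2.1.symm)
  rw [P.lat_sub] at c2
  have u3' : 8 * (gg h : ℝ) ≤ σ * (P.lat (q u) - P.lat (p b)) := by rw [c2]; exact_mod_cast u3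
  have u4' : σ * (P.lat (q u) - P.lat (p b)) < 2 ^ 67 * (gg h : ℝ) := by rw [c2]; exact_mod_cast u4
  rw [abs_le] at c1
  have c3 : 6 * (gg h : ℝ) ≤ σ * (P.lat (q u) - β * gg h) := by linarith [c1.1]
  have c4 : σ * (P.lat (q u) - β * gg h) ≤ (2 ^ 67 + 2) * (gg h : ℝ) := by linarith [c1.2]
  have hun : u + gg h ≤ n := by
    have sub := q3.sub u0 u1 le_rfl
    by_cases hk : |(p k).2 - i0| ≤ 3 * SS h
    · have d1 := AFarD_sg hσ (hadj k (by omega) q2 hk)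
      have d2 := AFarD_sg hσ (P.abs_lat_path sub)
      rw [P.lat_sub, q6] at d2
      rw [abs_le] at d1 d2
      have : ((u + gg h : ℤ) : ℝ) ≤ n := by push_cast at d2 ⊢; linarith [d1.2, d2.1]
      exact_mod_cast this
    · have d1 := (AFarD_row _).trans sub.nrm_le
      rw [q6, Prod.snd_sub, u2, abs_le] at d1
      rw [abs_le] at hk
      omega
  refine ⟨j + u, Finset.mem_Icc.2 ⟨by omega, by omega⟩, fun l' l1 l2 => ?_, by rw [hw3 u u0 u1, u2]⟩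
  have sub := hw1.path.sub (show 0 ≤ j + u by omega) l1 (by omega)
  have d1 := (AFarD_row _).trans sub.nrm_le
  have d2 := AFarD_sg hσ (P.abs_lat_path sub)
  rw [hw3 u u0 u1] at d1 d2
  rw [Prod.snd_sub, u2, abs_le] at d1
  rw [P.lat_sub, abs_le] at d2
  have d3 : ((l' - (j + u) : ℤ) : ℝ) ≤ gg h := by exact_mod_cast (by omega : l' - (j + u) ≤ gg h)
  refine ⟨by omega, by rw [add_mul, one_mul]; omega, ?_, ?_⟩
  · linarith [d2.1]
  · linarith [d2.2]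

/-- pigeonhole over `≤ 4` detours and `2` sides -/
theorem far_range (ht : ∀ e, 0 ≤ t e) (hb : P.Big h) (hp : IsG t 0 z p N) (hC : C ≤ P.c * gg h)
    (F : Fam t p N C M) {m : ℤ} (hm : 0 ≤ m) (hn : ¬ P.FarEv h C z t p N m) :
    cnt (Finset.Ico (m * SS h) ((m + 1) * SS h)) (fun i => i < z.2 ∧ ∃ b, IsExit p N i b ∧
      P.Clean h t p N b ∧ F.Hit i b (8 * gg h) (2 ^ 67 * gg h)) ≤ (h : ℝ) ^ 69 := by
  classical
  obtain ⟨I4, h1, h2, h3⟩ := exists_four P hp hC F hm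
  let R : (ℤ × ℤ) × ℤ → ℤ → Prop := fun x i => ∃ b u, IsExit p N i b ∧ P.Clean h t p N b ∧
    0 ≤ u ∧ u ≤ F.n x.1 ∧ (F.q x.1 u).2 = i ∧ 8 * (gg h : ℤ) ≤ x.2 * ((F.q x.1 u).1 - (p b).1) ∧
      x.2 * ((F.q x.1 u).1 - (p b).1) < 2 ^ 67 * gg h
  refine (cnt_mono (Q' := fun i => ∃ x ∈ I4 ×ˢ ({1, -1} : Finset ℤ), R x i) (Finset.Subset.refl _)
    ?_).trans ((cnt_exists_le _ R).trans ?_)
  · rintro i hi ⟨i3, b, hb', hc, a, ha, a1, a2, u, u0, u1, u2, u3, u4⟩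
    obtain ⟨i1, i2⟩ := Finset.mem_Ico.1 hi
    have hI := h3 i b a u i1 i2 i3 hb' hc ha a1 a2 u0 u1 u2 u3
    rcases abs_cases ((F.q a u).1 - (p b).1) with e | e
    · exact ⟨(a, 1), Finset.mem_product.2 ⟨hI, by simp⟩, b, u, hb', hc, u0, u1, u2,
        by simp only; omega, by simp only; omega⟩
    · exact ⟨(a, -1), Finset.mem_product.2 ⟨hI, by simp⟩, b, u, hb', hc, u0, u1, u2,
        by simp only; omega, by simp only; omega⟩
  · refine (Finset.sum_le_card_nsmul _ _ ((h : ℝ) ^ 69 / 8) fun x hx => ?_).trans ?_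
    · by_contra hlt
      obtain ⟨x1, x2⟩ := Finset.mem_product.1 hx
      refine hn (farEv_of_rows P ht hb hp (F.det x.1 (h1 x1)).1 (σ := x.2) (by simpa using x2) _
        (not_le.1 hlt).le fun i hi => ?_)
      obtain ⟨i1, i2⟩ := Finset.mem_filter.1 hi
      exact ⟨(Finset.mem_Ico.1 i1).1, (Finset.mem_Ico.1 i1).2, i2⟩
    · rw [nsmul_eq_mul, Finset.card_product, Finset.card_pair (by norm_num)]
      have : ((I4.card * 2 : ℕ) : ℝ) ≤ 8 := by exact_mod_cast (by omega : I4.card * 2 ≤ 8)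
      have h0 : (0 : ℝ) ≤ (h : ℝ) ^ 69 := by positivity
      nlinarith

/-- sum over the ranges `m ∈ [0, z.2 / S]` -/
theorem far_scale (ht : ∀ e, 0 ≤ t e) (hb : P.Big h) (hp : IsG t 0 z p N) (hz : 0 ≤ z.2) (hC : C ≤ P.c * gg h)
    (F : Fam t p N C M) :
    cnt (Finset.Ico 0 z.2) (fun i => ∃ b, IsExit p N i b ∧ F.Hit i b (8 * gg h) (2 ^ 67 * gg h)) ≤
      cnt (Finset.Ico 0 N) (fun x => ¬ P.Clean h t p N x) + (h : ℝ) ^ 69 * (z.2 / SS h + 1 : ℝ) +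
        SS h * cnt (Finset.Icc 0 (z.2 / SS h)) (P.FarEv h C z t p N) := by
  classical
  have hS : (0 : ℤ) < SS h := by exact_mod_cast SS_pos (le_trans (by norm_num) hb.1)
  have hS' : (0 : ℝ) < SS h := by exact_mod_cast hS
  let Q : ℤ → Prop := fun i => i < z.2 ∧ ∃ b, IsExit p N i b ∧
      P.Clean h t p N b ∧ F.Hit i b (8 * gg h) (2 ^ 67 * gg h)
  refine (cnt_mono (Q' := fun i => (∃ b, IsExit p N i b ∧ ¬ P.Clean h t p N b) ∨
    ∃ m ∈ Finset.Icc 0 (z.2 / SS h), (m * SS h ≤ i ∧ i < (m + 1) * SS h) ∧ Q i) (Finset.Subset.refl _)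
    ?_).trans (cnt_or_le.trans ?_)
  · rintro i hi ⟨b, hb', hH⟩
    obtain ⟨i1, i2⟩ := Finset.mem_Ico.1 hi
    by_cases hc : P.Clean h t p N b
    · exact Or.inr ⟨i / SS h, Finset.mem_Icc.2 ⟨Int.ediv_nonneg i1 hS.le, Int.ediv_le_ediv hS i2.le⟩,
        ⟨Int.ediv_mul_le _ hS.ne', Int.lt_ediv_add_one_mul_self _ hS⟩, i2, b, hb', hc, hH⟩
    · exact Or.inl ⟨b, hb', hc⟩
  rw [add_assoc]
  refine add_le_add (cnt_exit_le _ _) ((cnt_exists_le _ _).trans ?_)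
  calc _ ≤ ∑ m ∈ Finset.Icc 0 (z.2 / SS h),
        ((h : ℝ) ^ 69 + SS h * if P.FarEv h C z t p N m then 1 else 0) := by
        refine Finset.sum_le_sum fun m hm => ?_
        refine (cnt_le_of_inj (I' := Finset.Ico (m * SS h) ((m + 1) * SS h)) (Q' := Q) (fun i l => i = l)
          (fun i _ a => ⟨i, Finset.mem_Ico.2 a.1, a.2, rfl⟩) fun _ _ _ a b => a.trans b.symm).trans ?_
        split_ifs with e
        · refine cnt_le_card.trans ?_
          rw [Int.card_Ico, show (m + 1) * SS h - m * SS h = (SS h : ℤ) by ring, Int.toNat_natCast, mul_one]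
          exact le_add_of_nonneg_left (by positivity)
        · rw [mul_zero, add_zero]
          exact far_range P ht hb hp hC F (Finset.mem_Icc.1 hm).1 e
    _ ≤ _ := by
        rw [Finset.sum_add_distrib, ← Finset.mul_sum, ← cnt_eq_sum, Finset.sum_const, nsmul_eq_mul,
          mul_comm]
        gcongr
        have e1 : ((Finset.Icc 0 (z.2 / SS h)).card : ℤ) = z.2 / SS h + 1 := by
          rw [Int.card_Icc, sub_zero, Int.toNat_of_nonneg (by have := Int.ediv_nonneg hz hS.le; omega)]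
        have e2 : ((Finset.Icc 0 (z.2 / SS h)).card : ℝ) = ((z.2 / SS h : ℤ) : ℝ) + 1 := by
          exact_mod_cast e1
        rw [e2]
        refine add_le_add ((le_div_iff₀ hS').2 ?_) le_rfl
        exact_mod_cast Int.ediv_mul_le _ hS.ne'

theorem AFarD_scale (f : ℕ → ℤ) (d : ℤ) {a b : ℕ} (hab : a ≤ b) (h1 : f a ≤ d) (h2 : d < f b) :
    ∃ s ∈ Finset.Ico a b, f s ≤ d ∧ d < f (s + 1) := by
  induction b, hab using Nat.le_induction with
  | base => omega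
  | succ b hab ih =>
    by_cases e : d < f b
    · obtain ⟨s, hs, h3⟩ := ih e
      rw [Finset.mem_Ico] at hs
      exact ⟨s, Finset.mem_Ico.2 ⟨hs.1, by omega⟩, h3⟩
    · exact ⟨b, Finset.mem_Ico.2 ⟨hab, by omega⟩, not_lt.1 e, h2⟩

/-- A covered exit index `b` of row `i`, `a = (j,k) ∈ F.I`, `j ≤ b < k`.  If `(p j).2 > i` then some index `≤ j` is on row `i`, so `|j - b| ≤ J` and `j` is a start.
Otherwise the detour goes from a row `≤ i` to a row `> i` and has a point `q u` on row `i`; if `d = |(q u).1 - (p b).1| < 8 gg (2^s0)`, `ends_of_close`; otherwise take the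
largest `s ≤ sT` with `8 gg (2^s) ≤ d`: for `s < sT`, `d < 8 gg (2^(s+1)) = 2^67 gg (2^s)`; for `s = sT` use `not_far_top`. -/
theorem cov_cases (ht : ∀ e, 0 ≤ t e) (hp : IsG t 0 z p N) {s0 sT J M' : ℕ} (hs : s0 ≤ sT) {C' : ℝ}
    (hC' : 0 ≤ C') (hz : z.2 ≤ 2 * SS (2 ^ sT)) (hC : C ≤ P.c * gg (2 ^ sT)) (hM' : 2 ≤ M')
    (F : Fam t p N C (2 * (M' + J))) {i b : ℤ} (hi : 0 ≤ i ∧ i < z.2) (hb : IsExit p N i b)
    (hcov : ∃ a ∈ F.I, a.1 ≤ b ∧ b < a.2) :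
    ¬ Win p N (8 * gg (2 ^ s0) + 3 * KK) J b ∨ t ∈ LT (8 * gg (2 ^ s0)) C' (p b) ∨
      Ends t p N (C + 2 * C') M' J b ∨ ¬ P.Clean (2 ^ sT) t p N b ∨
      ∃ s ∈ Finset.Ico s0 sT, F.Hit i b (8 * gg (2 ^ s)) (2 ^ 67 * gg (2 ^ s)) := by
  by_contra hn
  simp only [not_or, not_not] at hn
  obtain ⟨hw, hL, hE, hcl, hH⟩ := hn
  obtain ⟨a, ha, a1, a2⟩ := hcov
  obtain ⟨hq, hM⟩ := F.det a ha
  push_cast at hM
  have h0 := hq.1
  have h2 := hq.2.2.1
  by_cases hj : (p a.1).2 ≤ i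
  · obtain ⟨u, u0, u1, u2, -⟩ := hq.2.2.2.1.exists_first lip1_snd (c := i)
      (by rw [hq.2.2.2.2.2.1]; exact hj) (by rw [hq.2.2.2.2.2.2.1]; exact (hb.2.2.2 _ a2 h2).le)
    have hrow : (F.q a u).2 = (p b).2 := u2.trans hb.2.2.1.symm
    by_cases hd : |(F.q a u).1 - (p b).1| ≤ 8 * gg (2 ^ s0)
    · refine hE (ends_of_close ht hp hq ⟨a1, a2.le⟩ ⟨u0, u1⟩ hM' hM (r := 8 * gg (2 ^ s0)) ?_ hw hL)
      refine max_le hd ?_
      rw [Prod.snd_sub, hrow, sub_self, abs_zero]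
      positivity
    · obtain ⟨s, hs', c1, c2⟩ := AFarD_scale (fun s => 8 * gg (2 ^ s)) _ hs (not_le.1 hd).le
        (not_far_top P hp hz hC hq hcl (by rw [hb.2.2.1]; exact ⟨hi.1, hi.2.le⟩) ⟨u0, u1⟩ hrow)
      refine hH ⟨s, hs', a, ha, a1, a2, u, u0, u1, u2, c1, c2.trans_eq ?_⟩
      rw [pow_succ', gg_two_mul]
      push_cast
      ring
  · obtain ⟨l, l0, l1, l2, -⟩ := (hp.geo.1.sub le_rfl h0 (by omega)).exists_first lip1_snd (c := i)
      (by rw [hp.start]; exact hi.1) (not_le.1 hj).le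
    have e := hw l l0 (by omega) (by rw [l2, hb.2.2.1, sub_self, abs_zero]; positivity)
    rw [abs_le] at e
    exact hE ⟨a.1, by rw [abs_le]; omega, Or.inr ⟨a.2, by omega, (hq.cheap ht).mono (by linarith)⟩⟩

/-- `exists_fam`, `cov_cases`, `cnt_exit_le`, `far_scale` -/
theorem cnt_cov_le (ht : ∀ e, 0 ≤ t e) (hp : IsG t 0 z p N) {s0 sT J M' : ℕ} (hs : s0 ≤ sT)
    (hb : P.Big (2 ^ s0)) {C' : ℝ} (hC' : 0 ≤ C') (hz : 0 ≤ z.2 ∧ z.2 ≤ 2 * SS (2 ^ sT))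
    (hC : C + 1 ≤ P.c * gg (2 ^ s0)) (hM' : 2 ≤ M') :
    cnt (Finset.Ico 0 z.2) (fun i => ∃ b, IsExit p N i b ∧ Cov t p N C (2 * (M' + J)) b) ≤
      cnt (Finset.Ico 0 N) (fun x => ¬ Win p N (8 * gg (2 ^ s0) + 3 * KK) J x) +
      cnt (Finset.Icc 0 N) (fun x => t ∈ LT (8 * gg (2 ^ s0)) C' (p x)) +
      cnt (Finset.Ico 0 N) (Ends t p N (C + 1 + 2 * C') M' J) +
      cnt (Finset.Ico 0 N) (fun x => ¬ P.Clean (2 ^ sT) t p N x) +
      ∑ s ∈ Finset.Ico s0 sT, (cnt (Finset.Ico 0 N) (fun x => ¬ P.Clean (2 ^ s) t p N x) +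
        ((2 ^ s : ℕ) : ℝ) ^ 69 * (z.2 / SS (2 ^ s) + 1 : ℝ) +
        SS (2 ^ s) * cnt (Finset.Icc 0 (z.2 / SS (2 ^ s))) (P.FarEv (2 ^ s) (C + 1) z t p N)) := by
  obtain ⟨F, hF⟩ := exists_fam ht p N C (2 * (M' + J))
  have hCs : ∀ s, s0 ≤ s → C + 1 ≤ P.c * gg (2 ^ s) := fun s h1 => hC.trans
    (mul_le_mul_of_nonneg_left (Nat.cast_le.2
      (Nat.pow_le_pow_left (Nat.pow_le_pow_right (by norm_num) h1) _)) P.c_pos.le)
  refine (cnt_mono (Q' := fun i =>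
    ((((∃ b, IsExit p N i b ∧ ¬ Win p N (8 * gg (2 ^ s0) + 3 * KK) J b) ∨
      ∃ b, IsExit p N i b ∧ t ∈ LT (8 * gg (2 ^ s0)) C' (p b)) ∨
      ∃ b, IsExit p N i b ∧ Ends t p N (C + 1 + 2 * C') M' J b) ∨
      ∃ b, IsExit p N i b ∧ ¬ P.Clean (2 ^ sT) t p N b) ∨
      ∃ s ∈ Finset.Ico s0 sT, ∃ b, IsExit p N i b ∧ F.Hit i b (8 * gg (2 ^ s)) (2 ^ 67 * gg (2 ^ s)))
    (Finset.Subset.refl _) ?_).trans ?_
  · rintro i hi ⟨b, hb', hc⟩
    rcases cov_cases P ht hp hs hC' hz.2 (hCs sT hs) hM' F (Finset.mem_Ico.1 hi) hb' (hF b hc) with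
      e | e | e | e | ⟨s, hs', e⟩
    · exact Or.inl (Or.inl (Or.inl (Or.inl ⟨b, hb', e⟩)))
    · exact Or.inl (Or.inl (Or.inl (Or.inr ⟨b, hb', e⟩)))
    · exact Or.inl (Or.inl (Or.inr ⟨b, hb', e⟩))
    · exact Or.inl (Or.inr ⟨b, hb', e⟩)
    · exact Or.inr ⟨s, hs', b, hb', e⟩
  refine cnt_or_le.trans (add_le_add (cnt_or_le.trans (add_le_add (cnt_or_le.trans (add_le_add
    (cnt_or_le.trans (add_le_add (cnt_exit_le _ _) ((cnt_exit_le _ _).trans ?_))) (cnt_exit_le _ _)))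
    (cnt_exit_le _ _))) ((cnt_exists_le _ _).trans (Finset.sum_le_sum fun s hs' => ?_)))
  · exact cnt_mono Finset.Ico_subset_Icc_self fun _ _ a => a
  · have h1 := (Finset.mem_Ico.1 hs').1
    exact far_scale P ht (Setup.Big.mono P hb (Nat.pow_le_pow_right (by norm_num) h1)) hp hz.1 (hCs s h1) F

end Crest.Agent.R151.PA
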