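import Crest.Agent.R151.APhi

/-! R151/A: FAR, probabilistic part: nearly optimal paths rarely run through a block next to the geodesic. -/

set_option autoImplicit false
open MeasureTheory ProbabilityTheory Crest.ProbabilityR.FirstPassage Filter Topology
open scoped ENNReal

namespace Crest.Agent.R151.PA

variable {G : Measure ℝ} [IsProbabilityMeasure G] [NullSingletonClass G] (P : Setup G) (Q : QD G)
variable {h Λ : ℕ} {z : V}

omit [NullSingletonClass G] in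
theorem afp_sum {ι : Type} (J : Finset ι) {E : ι → Set Env} (hE : ∀ i ∈ J, MeasurableSet (E i))
    {g : Env → ℝ} (hg : Integrable g (iidLaw G))
    (h : ∀ᵐ t ∂iidLaw G, ∑ i ∈ J, (E i).indicator (fun _ => (1 : ℝ)) t ≤ g t) :
    ∑ i ∈ J, (iidLaw G).real (E i) ≤ ∫ t, g t ∂iidLaw G := by
  have hi : ∀ i ∈ J, Integrable ((E i).indicator fun _ => (1 : ℝ)) (iidLaw G) :=
    fun i hi => (integrable_const 1).indicator (hE i hi)
  refine le_trans (le_of_eq ?_) (integral_mono_ae (integrable_finsetSum J hi) hg h)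
  rw [integral_finsetSum J hi]
  exact Finset.sum_congr rfl fun i hi => by rw [integral_indicator_const _ (hE i hi), smul_eq_mul, mul_one]

omit [IsProbabilityMeasure G] [NullSingletonClass G] in
theorem afp_adj {t : Env} {p : ℤ → V} {N m b : ℤ} (ht : Reg t) (hp : IsG t 0 z p N)
    (hH : t ∈ P.Hev h Λ z m b) : P.Adjc h m b p N := by
  obtain ⟨p', N', hp', -, hA⟩ := hH
  rwa [(hp.unique ht hp').1, (hp.unique ht hp').2]

theorem afp_five (hb : P.Big h) {t : Env} {p : ℤ → V} {N m : ℤ} (ht : Reg t) (hp : IsG t 0 z p N)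
    (hm : 0 ≤ m ∧ m * SS h ≤ z.2) (I : Finset ℤ) {E : ℤ → Set Env}
    (hE : ∀ b, t ∈ E b → t ∈ P.Hev h Λ z m b) :
    ∑ b ∈ I, (E b).indicator (fun _ => (1 : ℝ)) t ≤ 5 := by
  refine le_trans ?_ (cnt_adjc_le P hb hp.sap hm I)
  rw [cnt_eq_sum]
  refine Finset.sum_le_sum fun b _ => ?_
  by_cases hH : t ∈ E b
  · rw [Set.indicator_of_mem hH, if_pos (afp_adj P ht hp (hE b hH))]
  · rw [Set.indicator_of_notMem hH]
    split_ifs <;> norm_num

omit [IsProbabilityMeasure G] [NullSingletonClass G] in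
theorem afp_mem (hb : P.Big h) {m : ℤ} (hm : m ∈ Finset.Icc 0 (z.2 / SS h)) :
    0 ≤ m ∧ m * SS h ≤ z.2 := by
  have hS : (0 : ℤ) < SS h := by exact_mod_cast SS_pos (le_trans (by norm_num) hb.1)
  exact ⟨(Finset.mem_Icc.1 hm).1, (Int.le_ediv_iff_mul_le hS).1 (Finset.mem_Icc.1 hm).2⟩

theorem afp_cell : ∃ C > 0, ∀ h : ℕ, P.Big h → ∀ (Λ : ℕ) (z : V), SS h ≤ Λ →
    GB G 0 z Λ (fun t p _ => cellCnt (SS h) Λ (BadIII P Q h) t p) (C * (Λ / SS h : ℝ) / (h : ℝ) ^ 70) := by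
  obtain ⟨C1, hC1, h1⟩ := cell_GB (G := G) 11
  obtain ⟨C2, hC2, h2⟩ := prob_BadIII P Q
  refine ⟨C1 * √C2, by positivity, fun h hb Λ z hΛ => ?_⟩
  have hh : (0 : ℝ) < h := by exact_mod_cast lt_of_lt_of_le (by norm_num) hb.1
  have := h1 (SS h) _ (SS_pos (le_trans (by norm_num) hb.1)) (locEv_BadIII P Q hb) _
    (by positivity) (h2 h hb) 0 z Λ hΛ
  rw [Real.sqrt_div hC2.le, show (h : ℝ) ^ 140 = (h ^ 70) ^ 2 by ring,
    Real.sqrt_sq (by positivity)] at this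
  convert this using 1
  ring

/-- almost surely the geodesic is unique, so `Σ_b 1_{Hev} ≤ 5` (`cnt_adjc_le`, `IsG.unique`) -/
theorem sum_Hev_le (hb : P.Big h) {m : ℤ} (hm : 0 ≤ m ∧ m * SS h ≤ z.2) (I : Finset ℤ) :
    ∑ b ∈ I, (iidLaw G).real (P.Hev h Λ z m b) ≤ 5 := by
  refine (afp_sum I (fun b _ => measurableSet_Hev P h Λ z m b) (integrable_const 5) ?_).trans_eq (by simp)
  filter_upwards [ae_reg G P.hyp.nonneg] with t ht
  obtain ⟨p, N, hp⟩ := exists_isG ht 0 z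
  exact afp_five P hb ht hp hm I fun _ hb => hb
/-- Pointwise, on regular `t` with geodesic `p`, `N ≤ Λ`: `Σ_{m,b} 1 ≤ 5 · #{m : the cell of exists_anch is in BadIII} ≤ 25 cellCnt` (`cnt_badM_le`), and the sum
vanishes if `N > Λ`; integrate against the majorant of `cell_GB 11`. -/
theorem sum_Hev_tail : ∃ C > 0, ∀ h : ℕ, P.Big h → ∀ (Λ : ℕ) (z : V) (σ : ℤ) (I : Finset ℤ), SS h ≤ Λ →
    (σ = 1 ∨ σ = -1) → ∑ m ∈ Finset.Icc 0 (z.2 / SS h), ∑ b ∈ I, (iidLaw G).real (P.Hev h Λ z m b ∩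
      {t | (h : ℝ) ^ 68 < |Q.ZB (latE (P.blk h m b σ)) t|}) ≤ C * (Λ / SS h : ℝ) / (h : ℝ) ^ 70 := by
  obtain ⟨C1, hC1, h1⟩ := afp_cell P Q
  refine ⟨25 * C1, by positivity, fun h hb Λ z σ I hΛ hσ => ?_⟩
  obtain ⟨g, g1, g2, g3, g4⟩ := h1 h hb Λ z hΛ
  rw [← Finset.sum_product']
  refine (afp_sum _ (fun x _ => (measurableSet_Hev P h Λ z x.1 x.2).inter
    (measurableSet_lt measurable_const (Q.measurable_ZB _).abs)) (g1.const_mul 25) ?_).trans ?_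
  · filter_upwards [ae_reg G P.hyp.nonneg, g4] with t ht k4
    obtain ⟨p, N, hp⟩ := exists_isG ht 0 z
    rw [Finset.sum_product]
    rcases le_or_gt N Λ with hN | hN
    · have k1 := cnt_badM_le (h := h) (Λ := Λ) (BadIII P Q h) t p (Finset.Icc 0 (z.2 / SS h))
      have k2 := k4 p N hp hN
      refine le_trans ?_ ((mul_le_mul_of_nonneg_left k1 (by norm_num : (0 : ℝ) ≤ 5)).trans (by linarith))
      rw [cnt_eq_sum, Finset.mul_sum]
      refine Finset.sum_le_sum fun m hm => ?_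
      have hm' := afp_mem P hb hm
      split_ifs with hc
      · rw [mul_one]
        exact afp_five P hb ht hp hm' I fun _ hb => hb.1
      · rw [mul_zero]
        refine (Finset.sum_eq_zero fun b _ => Set.indicator_of_notMem (fun k => hc ?_) _).le
        obtain ⟨k0, hk0, hA⟩ := exists_anch P hb hp.sap hN hm'
        have hA' := hA b (afp_adj P ht hp k.1)
        exact ⟨k0, hk0, hA'.1, Or.inr ⟨m, b, σ, hσ, hA', k.2⟩⟩
    · refine (Finset.sum_eq_zero fun m _ => Finset.sum_eq_zero fun b _ =>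
        Set.indicator_of_notMem (fun k => ?_) _).trans_le (mul_nonneg (by norm_num) (g2 t))
      obtain ⟨p', N', hp', hN', -⟩ := k.1
      rw [← (hp.unique ht hp').2] at hN'
      exact absurd hN' (not_le.2 hN)
  · rw [integral_const_mul, mul_assoc, mul_div_assoc]
    exact mul_le_mul_of_nonneg_left g3 (by norm_num)
theorem afp_side {C : ℝ} (hC : 0 ≤ C) : ∃ C2 > 0, ∀ h : ℕ, P.Big h → ∀ (Λ : ℕ) (z : V) (σ : ℤ),
    SS h ≤ Λ → 0 ≤ z.2 → z.2 ≤ 2 * Λ → (σ = 1 ∨ σ = -1) → ∃ g : ℤ → Env → ℝ,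
      (∀ m, Integrable (g m) (iidLaw G)) ∧ (∀ m t, 0 ≤ g m t) ∧
      ∑ m ∈ Finset.Icc 0 (z.2 / SS h), ∫ t, g m t ∂iidLaw G ≤ C2 * (Λ / SS h : ℝ) / h ∧
      ∀ m, ∀ b ∈ Finset.Icc (-(2 * (Λ : ℤ) + 2)) (2 * Λ + 2), ∀ t, (∀ e, 0 ≤ t e) →
        t ∈ P.Hev h Λ z m b → ∀ S : Set V, P.blk h m b σ ⊆ S → t ∉ Q.Pei (gg h) S →
        ∀ q n, SAP 0 z q n → P.Thru h m b σ q n → cost t q 0 n ≤ T t 0 z + C → 1 ≤ g m t := by
  obtain ⟨C3, hC3, h3⟩ := sum_Hev_tail P Q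
  have hδ : 0 < min Q.δ 1 := lt_min Q.δ_pos one_pos
  have hB : 0 < Q.bnd := one_pos.trans_le Q.bnd_ge
  set K := 32 * (C + 2) / min Q.δ 1 with hK
  have hK0 : 0 < K := by positivity
  refine ⟨K * (15 + 2 ^ 71 * Q.bnd * C3), by positivity, fun h hb Λ z σ hΛ hz0 hz hσ => ?_⟩
  choose g g1 g2 g3 g4 using fun m b => block_bound P Q hb hσ hC Λ z m b
  set I := Finset.Icc (-(2 * (Λ : ℤ) + 2)) (2 * Λ + 2) with hI
  refine ⟨fun m t => ∑ b ∈ I, g m b t, fun m => integrable_finsetSum _ fun b _ => g1 m b,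
    fun m t => Finset.sum_nonneg fun b _ => g2 m b t, ?_,
    fun m b hb' t k1 k2 S k3 k4 q n k5 k6 k7 => (g4 m b t k1 k2 S k3 k4 q n k5 k6 k7).trans
      (Finset.single_le_sum (f := fun b => g m b t) (fun b _ => g2 m b t) hb')⟩
  have hh : (1 : ℝ) ≤ h := by exact_mod_cast le_trans (by norm_num) hb.1
  have hS : (0 : ℝ) < SS h := by exact_mod_cast SS_pos (le_trans (by norm_num) hb.1)
  have hS' : (0 : ℤ) < SS h := by exact_mod_cast hS
  have k1 : ∑ m ∈ Finset.Icc 0 (z.2 / SS h), ∑ b ∈ I, (iidLaw G).real (P.Hev h Λ z m b) ≤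
      15 * (Λ / SS h : ℝ) := by
    refine (Finset.sum_le_sum fun m hm => sum_Hev_le P hb (afp_mem P hb hm) I).trans ?_
    rw [Finset.sum_const, nsmul_eq_mul, Int.card_Icc, sub_zero]
    have l0 := Int.ediv_nonneg hz0 hS'.le
    have l1 : (((z.2 / SS h + 1).toNat : ℕ) : ℝ) = ((z.2 / SS h : ℤ) : ℝ) + 1 := by
      exact_mod_cast Int.toNat_of_nonneg (by omega)
    have l2 : ((z.2 / SS h : ℤ) : ℝ) * SS h ≤ 2 * Λ := by
      exact_mod_cast (Int.ediv_mul_le z.2 hS'.ne').trans hz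
    have l3 : (1 : ℝ) ≤ Λ / SS h := (one_le_div hS).2 (by exact_mod_cast hΛ)
    rw [← le_div_iff₀ hS, mul_div_assoc] at l2
    rw [l1]
    linarith
  have k2 := h3 h hb Λ z σ I hΛ hσ
  have k3 : (h : ℝ) ^ 65 / h ^ 70 ≤ 1 / h := by
    rw [div_le_div_iff₀ (by positivity) (by positivity), one_mul, ← pow_succ]
    exact pow_le_pow_right₀ hh (by norm_num)
  simp only [integral_finsetSum _ fun b _ => g1 _ b]
  refine (Finset.sum_le_sum fun m _ => Finset.sum_le_sum fun b _ => g3 m b).trans ?_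
  simp only [← Finset.mul_sum, Finset.sum_add_distrib, ← Finset.sum_div]
  calc _ ≤ K * (15 * (Λ / SS h : ℝ) / h +
        2 ^ 71 * Q.bnd * (h : ℝ) ^ 65 * (C3 * (Λ / SS h : ℝ) / (h : ℝ) ^ 70)) := by gcongr
    _ = K * (15 * (Λ / SS h : ℝ) / h +
        2 ^ 71 * Q.bnd * (C3 * (Λ / SS h : ℝ)) * ((h : ℝ) ^ 65 / (h : ℝ) ^ 70)) := by ring
    _ ≤ K * (15 * (Λ / SS h : ℝ) / h + 2 ^ 71 * Q.bnd * (C3 * (Λ / SS h : ℝ)) * (1 / h)) := by gcongr
    _ = _ := by ring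

/-- `1{FarEv m} ≤ 1{cell of exists_anch in BadIII} + Σ_{b ∈ Icc (-(2Λ+2)) (2Λ+2)} Σ_σ g_{m,b,σ}` (`block_bound` with `S = ball (corner c) (10 S)`, `blk_subset`,
`adjc_mem`); `z.2 / S + 1 ≤ 3 Λ / S` -/
theorem far_GB {C : ℝ} (hC : 0 ≤ C) : ∃ C9 > 0, ∀ h : ℕ, P.Big h → ∀ (Λ : ℕ) (z : V), SS h ≤ Λ → 0 ≤ z.2 →
    z.2 ≤ 2 * Λ → GB G 0 z Λ
      (fun t p N => SS h * cnt (Finset.Icc 0 (z.2 / SS h)) (P.FarEv h C z t p N)) (C9 * Λ / h) := by
  obtain ⟨Q⟩ := exists_QD P.hyp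
  obtain ⟨C1, hC1, h1⟩ := afp_cell P Q
  obtain ⟨C2, hC2, h2⟩ := afp_side P Q hC
  refine ⟨5 * C1 + 2 * C2, by positivity, fun h hb Λ z hΛ hz0 hz => ?_⟩
  have hh : (1 : ℝ) ≤ h := by exact_mod_cast le_trans (by norm_num) hb.1
  have hS : (0 : ℝ) < SS h := by exact_mod_cast SS_pos (le_trans (by norm_num) hb.1)
  obtain ⟨g, g1, g2, g3, g4⟩ := h2 h hb Λ z 1 hΛ hz0 hz (Or.inl rfl)
  obtain ⟨g', g1', g2', g3', g4'⟩ := h2 h hb Λ z (-1) hΛ hz0 hz (Or.inr rfl)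
  have k1 := GB.of_fun (a := 0) (b := z) (Λ := Λ) (integrable_finsetSum (Finset.Icc 0 (z.2 / SS h))
    fun m _ => g1 m) (ae_of_all _ fun t => Finset.sum_nonneg fun m _ => g2 m t)
  have k2 := GB.of_fun (a := 0) (b := z) (Λ := Λ) (integrable_finsetSum (Finset.Icc 0 (z.2 / SS h))
    fun m _ => g1' m) (ae_of_all _ fun t => Finset.sum_nonneg fun m _ => g2' m t)
  rw [integral_finsetSum _ fun m _ => g1 m] at k1
  rw [integral_finsetSum _ fun m _ => g1' m] at k2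
  refine ((((h1 h hb Λ z hΛ).smul (k := 5) (by norm_num)).add (k1.add k2)).smul hS.le).mono P.hyp
    (fun t p N ht hp hN => mul_le_mul_of_nonneg_left ?_ hS.le) ?_
  · refine le_trans ?_ (add_le_add_left
      (cnt_badM_le (h := h) (Λ := Λ) (BadIII P Q h) t p (Finset.Icc 0 (z.2 / SS h))) _)
    rw [cnt_eq_sum, cnt_eq_sum, ← Finset.sum_add_distrib, ← Finset.sum_add_distrib]
    refine Finset.sum_le_sum fun m hm => ?_
    have hm' := afp_mem P hb hm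
    have l1 := g2 m t
    have l2 := g2' m t
    split_ifs with hF hc hc
    · linarith
    · obtain ⟨b, σ, hσ, hA, q, n, hq, hT, hcost⟩ := hF
      obtain ⟨k0, hk0, hA'⟩ := exists_anch P hb hp.sap hN hm'
      replace hA' := hA' b hA
      have hP : t ∉ Q.Pei (gg h) (ball (corner (SS h) (cell (SS h) (p ((k0 : ℕ) * SS h)))) (10 * SS h)) :=
        fun k => hc ⟨k0, hk0, hA'.1, Or.inl k⟩
      have hb' := adjc_mem P hb hp.sap hN hm' hA
      rcases hσ with rfl | rfl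
      · have := g4 m b hb' t ht.nonneg ⟨p, N, hp, hN, hA⟩ _ (blk_subset P hb (Or.inl rfl) hA') hP
          q n hq hT hcost
        linarith
      · have := g4' m b hb' t ht.nonneg ⟨p, N, hp, hN, hA⟩ _ (blk_subset P hb (Or.inr rfl) hA') hP
          q n hq hT hcost
        linarith
    · linarith
    · linarith
  · have l1 : C1 * (Λ / SS h : ℝ) / (h : ℝ) ^ 70 ≤ C1 * (Λ / SS h : ℝ) / h :=
      div_le_div_of_nonneg_left (by positivity) (by positivity) (le_self_pow₀ hh (by norm_num))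
    calc _ ≤ SS h * (5 * (C1 * (Λ / SS h : ℝ) / h) +
          (C2 * (Λ / SS h : ℝ) / h + C2 * (Λ / SS h : ℝ) / h)) := by gcongr
      _ = _ := by field_simp; ring

end Crest.Agent.R151.PA
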