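import Crest.Agent.R151.ABad
import Crest.Agent.R151.ACorner

/-! R151/A: the final contradiction. -/

set_option autoImplicit false
open MeasureTheory ProbabilityTheory Crest.ProbabilityR.FirstPassage Filter Topology
open scoped ENNReal

namespace Crest.Agent.R151.PA

variable {G : Measure ℝ} [IsProbabilityMeasure G] [NullSingletonClass G] (P : Setup G)

/-- rows of `[KK, z.2 - KK)` in the residue class `o` mod `L` -/
noncomputable def cls (L : ℕ) (z : V) (o : ℕ) : Finset ℤ := (Finset.Ico (KK : ℤ) (z.2 - KK)).filter fun i => i % L = o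

theorem sum_cls {L : ℕ} (hL : 1 ≤ L) (z : V) (f : ℤ → ℝ) :
    ∑ o ∈ Finset.range L, ∑ i ∈ cls L z o, f i = ∑ i ∈ Finset.Ico (KK : ℤ) (z.2 - KK), f i := by
  rw [← Finset.sum_fiberwise_of_maps_to (s := Finset.Ico (KK : ℤ) (z.2 - KK)) (t := Finset.range L)
    (g := fun i : ℤ => (i % L).toNat)]
  · refine Finset.sum_congr rfl fun o _ => Finset.sum_congr ?_ fun _ _ => rfl
    unfold cls
    refine Finset.filter_congr fun i _ => ?_
    have : 0 ≤ i % (L : ℤ) := Int.emod_nonneg _ (by omega)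
    omega
  · intro i _
    have h1 : 0 ≤ i % (L : ℤ) := Int.emod_nonneg _ (by omega)
    have h2 : i % (L : ℤ) < L := Int.emod_lt_of_pos _ (by omega)
    simp only [Finset.mem_range]
    omega

/-- `multi_shear` for each class with `d i = if GoodD … (D i) then D i else Sv`; `d i ≤ D i + 2M 1{¬GoodD} + tr M Sv + tr M (-D i)` (`le_add_tr`) -/
theorem sum_shear_le {t : Env} (ht : ∀ e, 0 ≤ t e) {σ : ℤ} (hσ : σ = 1 ∨ σ = -1) {z : V} {p : ℤ → V} {N : ℤ}
    (hp : IsG t 0 z p N) (R : ℕ) {M : ℝ} (hM : 0 ≤ M) :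
    ∑ o ∈ Finset.range (2 * R + 3 * KK + 2), (T (sh (gaps σ (cls (2 * R + 3 * KK + 2) z o)) t) 0
        (z + (σ * (cls (2 * R + 3 * KK + 2) z o).card, 0)) - T t 0 z) ≤
      ∑ i ∈ Finset.Ico (KK : ℤ) (z.2 - KK), Dv σ i z t +
      (2 * M * cnt (Finset.Ico 0 z.2) (fun i => ¬ GoodD R σ i t p N (Dv σ i z t)) +
        ∑ i ∈ Finset.Ico (KK : ℤ) (z.2 - KK), tr M (Sv σ i t p N)) +
      ∑ i ∈ Finset.Ico (KK : ℤ) (z.2 - KK), tr M (-Dv σ i z t) := by
  classical
  set L : ℕ := 2 * R + 3 * KK + 2 with hLdef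
  set d : ℤ → ℝ := fun i => if GoodD R σ i t p N (Dv σ i z t) then Dv σ i z t else Sv σ i t p N with hd
  have h1 : ∀ o ∈ Finset.range L, T (sh (gaps σ (cls L z o)) t) 0 (z + (σ * (cls L z o).card, 0)) - T t 0 z ≤
      ∑ i ∈ cls L z o, d i := by
    intro o _
    have := multi_shear ht hσ hp.geo.1 hp.start hp.stop R (cls L z o) ?_ ?_ d ?_
    · rw [hp.cost_eq] at this; linarith
    · intro i hi
      simp only [cls, Finset.mem_filter, Finset.mem_Ico] at hi
      omega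
    · intro i hi i' hi' hlt
      simp only [cls, Finset.mem_filter, Finset.mem_Ico] at hi hi'
      have hdv : (L : ℤ) ∣ i' - i := by
        apply Int.ModEq.dvd
        unfold Int.ModEq
        rw [hi.2, hi'.2]
      have := Int.le_of_dvd (by omega) hdv
      push_cast [hLdef] at this
      omega
    · intro i _
      by_cases hg : GoodD R σ i t p N (Dv σ i z t)
      · left; simp [hd, hg]
      · right; simp [hd, hg]
  refine (Finset.sum_le_sum h1).trans ?_
  rw [sum_cls (by omega)]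
  have h2 : cnt (Finset.Ico (KK : ℤ) (z.2 - KK)) (fun i => ¬ GoodD R σ i t p N (Dv σ i z t)) ≤
      cnt (Finset.Ico 0 z.2) (fun i => ¬ GoodD R σ i t p N (Dv σ i z t)) :=
    cnt_mono (Finset.Ico_subset_Ico (by omega) (by omega)) fun _ _ h => h
  have h3 : ∑ i ∈ Finset.Ico (KK : ℤ) (z.2 - KK), d i ≤ ∑ i ∈ Finset.Ico (KK : ℤ) (z.2 - KK),
      (Dv σ i z t + 2 * M * (if ¬ GoodD R σ i t p N (Dv σ i z t) then (1 : ℝ) else 0) +
        tr M (Sv σ i t p N) + tr M (-Dv σ i z t)) := by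
    refine Finset.sum_le_sum fun i _ => ?_
    have a1 := tr_nonneg (x := Sv σ i t p N) hM
    have a2 := tr_nonneg (x := -Dv σ i z t) hM
    have a3 := le_add_tr (x := Sv σ i t p N) hM
    have a4 := le_add_tr (x := -Dv σ i z t) hM
    by_cases hg : GoodD R σ i t p N (Dv σ i z t)
    · simp only [hd, hg, if_true, not_true_eq_false, if_false]; linarith
    · simp only [hd, hg, if_false, not_false_eq_true, if_true]; linarith
  rw [Finset.sum_add_distrib, Finset.sum_add_distrib, Finset.sum_add_distrib, ← Finset.mul_sum] at h3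
  have h4 : (∑ i ∈ Finset.Ico (KK : ℤ) (z.2 - KK),
      if ¬ GoodD R σ i t p N (Dv σ i z t) then (1 : ℝ) else 0) =
      cnt (Finset.Ico (KK : ℤ) (z.2 - KK)) (fun i => ¬ GoodD R σ i t p N (Dv σ i z t)) := by
    rw [cnt_eq_sum]
    refine Finset.sum_congr rfl fun i _ => ?_
    congr 1
  rw [h4] at h3
  have h5 := mul_le_mul_of_nonneg_left h2 (by positivity : (0 : ℝ) ≤ 2 * M)
  refine h3.trans ?_
  gcongr ?_ + _
  rw [add_assoc]
  gcongr

theorem afin_card_le {C1 : ℝ} {h : ℕ} {z : V} (hz : P.Adm C1 h z) :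
    ((Finset.Ico (KK : ℤ) (z.2 - KK)).card : ℤ) ≤ 2 * SS h := by
  have h1 := P.adm_cap hz
  have h0 := hz.1
  rw [Int.card_Ico]
  have : (0 : ℤ) ≤ SS h := by positivity
  omega

theorem afin_core {σ : ℤ} (hσ : σ = 1 ∨ σ = -1) {z : V} {Λ R : ℕ} {M c1 c2 c3 : ℝ} (hM : 0 ≤ M)
    (hGB : GB G 0 z Λ (fun t p N => 2 * M * cnt (Finset.Ico 0 z.2) (fun i => ¬ GoodD R σ i t p N (Dv σ i z t)) +
        ∑ i ∈ Finset.Ico (KK : ℤ) (z.2 - KK), tr M (Sv σ i t p N)) c1)
    (hI : ∀ i, Integrable (fun t => tr M (-Dv σ i z t)) (iidLaw G))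
    (h2 : ∑ i ∈ Finset.Ico (KK : ℤ) (z.2 - KK), ∫ t, tr M (-Dv σ i z t) ∂iidLaw G ≤ c2)
    (h3 : ∀ o, ∫ t in Long 0 z Λ, T (sh (gaps σ (cls (2 * R + 3 * KK + 2) z o)) t) 0
        (z + (σ * (cls (2 * R + 3 * KK + 2) z o).card, 0)) ∂iidLaw G ≤ c3)
    (h4 : ∫ t in Long 0 z Λ, T t 0 z ∂iidLaw G ≤ c3) (P : Setup G) :
    ∑ o ∈ Finset.range (2 * R + 3 * KK + 2),
        (mT G (z + (σ * (cls (2 * R + 3 * KK + 2) z o).card, 0)) - mT G z) ≤
      (Finset.Ico (KK : ℤ) (z.2 - KK)).card * (mT G (z + (σ, 0)) - mT G z) + c1 + c2 +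
        (((2 * R + 3 * KK + 2 : ℕ) : ℝ) + (Finset.Ico (KK : ℤ) (z.2 - KK)).card) * c3 := by
  classical
  have hG := P.hyp
  set L : ℕ := 2 * R + 3 * KK + 2 with hLdef
  set I := Finset.Ico (KK : ℤ) (z.2 - KK) with hIdef
  set F : ℕ → Env → ℝ := fun o t => T (sh (gaps σ (cls L z o)) t) 0 (z + (σ * (cls L z o).card, 0)) with hF
  obtain ⟨g, gi, g0, gc, hg⟩ := hGB
  have hFi : ∀ o, Integrable (F o) (iidLaw G) := fun o => integrable_T_sh hG _ _ _
  have hTi : Integrable (fun t => T t 0 z) (iidLaw G) := integrable_T G hG 0 z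
  have hDi : ∀ i, Integrable (Dv σ i z) (iidLaw G) := fun i => integrable_Dv hG σ i z
  have hLm := measurableSet_long 0 z Λ
  set W : Env → ℝ := fun t => ∑ o ∈ Finset.range L, F o t + ∑ _i ∈ I, T t 0 z with hW
  have hWi : Integrable W (iidLaw G) :=
    (integrable_finsetSum _ fun o _ => hFi o).add (integrable_finsetSum _ fun _ _ => hTi)
  have key : ∀ᵐ t ∂iidLaw G, ∑ o ∈ Finset.range L, (F o t - T t 0 z) ≤
      ∑ i ∈ I, Dv σ i z t + g t + ∑ i ∈ I, tr M (-Dv σ i z t) + (Long 0 z Λ).indicator W t := by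
    filter_upwards [hg, ae_reg G hG.nonneg] with t h1 hr
    have ht := hr.nonneg
    have hF0 : ∀ o, 0 ≤ F o t := fun o => T_nonneg (sh_nonneg ht)
    have hT0 : 0 ≤ T t 0 z := T_nonneg ht
    have hW0 : 0 ≤ W t :=
      add_nonneg (Finset.sum_nonneg fun o _ => hF0 o) (Finset.sum_nonneg fun _ _ => hT0)
    obtain ⟨p, N, hp⟩ := exists_isG hr 0 z
    by_cases hN : N ≤ Λ
    · have a1 := sum_shear_le ht hσ hp R hM
      have a2 := h1 p N hp hN
      have a3 : 0 ≤ (Long 0 z Λ).indicator W t := by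
        by_cases hL : t ∈ Long 0 z Λ
        · rw [Set.indicator_of_mem hL]; exact hW0
        · rw [Set.indicator_of_notMem hL]
      have a2' : 2 * M * cnt (Finset.Ico 0 z.2) (fun i => ¬ GoodD R σ i t p N (Dv σ i z t)) +
        ∑ i ∈ I, tr M (Sv σ i t p N) ≤ g t := a2
      have a1' : ∑ o ∈ Finset.range L, (F o t - T t 0 z) ≤ ∑ i ∈ I, Dv σ i z t +
          (2 * M * cnt (Finset.Ico 0 z.2) (fun i => ¬ GoodD R σ i t p N (Dv σ i z t)) +
            ∑ i ∈ I, tr M (Sv σ i t p N)) + ∑ i ∈ I, tr M (-Dv σ i z t) := a1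
      linarith
    · have hL : t ∈ Long 0 z Λ := ⟨p, N, hp, by omega⟩
      rw [Set.indicator_of_mem hL]
      have a1 : ∑ o ∈ Finset.range L, (F o t - T t 0 z) ≤ ∑ o ∈ Finset.range L, F o t :=
        Finset.sum_le_sum fun o _ => by linarith
      have a2 : 0 ≤ ∑ i ∈ I, Dv σ i z t + ∑ _i ∈ I, T t 0 z := by
        rw [← Finset.sum_add_distrib]
        refine Finset.sum_nonneg fun i _ => ?_
        have : 0 ≤ T (sh (gap σ i) t) 0 (z + (σ, 0)) := T_nonneg (sh_nonneg ht)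
        unfold Dv; linarith
      have a3 : 0 ≤ ∑ i ∈ I, tr M (-Dv σ i z t) := Finset.sum_nonneg fun i _ => tr_nonneg hM
      have a4 := g0 t
      simp only [hW]
      linarith
  have i1 : Integrable (fun t => ∑ o ∈ Finset.range L, (F o t - T t 0 z)) (iidLaw G) :=
    integrable_finsetSum _ fun o _ => (hFi o).sub hTi
  have i2 : Integrable (fun t => ∑ i ∈ I, Dv σ i z t) (iidLaw G) := integrable_finsetSum _ fun i _ => hDi i
  have i3 : Integrable (fun t => ∑ i ∈ I, tr M (-Dv σ i z t)) (iidLaw G) :=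
    integrable_finsetSum _ fun i _ => hI i
  have i4 : Integrable ((Long 0 z Λ).indicator W) (iidLaw G) := hWi.indicator hLm
  have hint := integral_mono_ae i1 (((i2.add gi).add i3).add i4) key
  have e1 : ∫ t, ∑ o ∈ Finset.range L, (F o t - T t 0 z) ∂iidLaw G =
      ∑ o ∈ Finset.range L, (mT G (z + (σ * (cls L z o).card, 0)) - mT G z) := by
    rw [integral_finsetSum (f := fun o t => F o t - T t 0 z) _ fun o _ => (hFi o).sub hTi]
    refine Finset.sum_congr rfl fun o _ => ?_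
    rw [integral_sub (hFi o) hTi]
    simp only [hF]
    rw [integral_T_sh]
    rfl
  have e2 : ∫ t, ∑ i ∈ I, Dv σ i z t ∂iidLaw G = I.card * (mT G (z + (σ, 0)) - mT G z) := by
    rw [integral_finsetSum _ fun i _ => hDi i]
    simp only [integral_Dv hG, Finset.sum_const, nsmul_eq_mul]
  have e3 : ∫ t, ∑ i ∈ I, tr M (-Dv σ i z t) ∂iidLaw G ≤ c2 := by
    rw [integral_finsetSum _ fun i _ => hI i]; exact h2
  have e4 : ∫ t, (Long 0 z Λ).indicator W t ∂iidLaw G ≤ ((L : ℝ) + I.card) * c3 := by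
    rw [integral_indicator hLm]
    simp only [hW]
    rw [integral_add (integrable_finsetSum _ fun o _ => (hFi o).integrableOn)
      (integrable_finsetSum _ fun _ _ => hTi.integrableOn),
      integral_finsetSum _ fun o _ => (hFi o).integrableOn,
      integral_finsetSum _ fun _ _ => hTi.integrableOn]
    have b1 : ∑ o ∈ Finset.range L, ∫ t in Long 0 z Λ, F o t ∂iidLaw G ≤ ∑ _o ∈ Finset.range L, c3 :=
      Finset.sum_le_sum fun o _ => h3 o
    have b2 : ∑ _i ∈ I, ∫ t in Long 0 z Λ, T t 0 z ∂iidLaw G ≤ ∑ _i ∈ I, c3 :=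
      Finset.sum_le_sum fun _ _ => h4
    simp only [Finset.sum_const, Finset.card_range, nsmul_eq_mul] at b1 b2 ⊢
    linarith
  have e5 : ∫ t, (∑ i ∈ I, Dv σ i z t + g t + ∑ i ∈ I, tr M (-Dv σ i z t) + (Long 0 z Λ).indicator W t)
      ∂iidLaw G = ∫ t, ∑ i ∈ I, Dv σ i z t ∂iidLaw G + ∫ t, g t ∂iidLaw G +
        ∫ t, ∑ i ∈ I, tr M (-Dv σ i z t) ∂iidLaw G + ∫ t, (Long 0 z Λ).indicator W t ∂iidLaw G := by
    have j1 : Integrable (fun t => ∑ i ∈ I, Dv σ i z t + g t) (iidLaw G) := i2.add gi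
    have j2 : Integrable (fun t => ∑ i ∈ I, Dv σ i z t + g t + ∑ i ∈ I, tr M (-Dv σ i z t)) (iidLaw G) :=
      j1.add i3
    rw [integral_add j2 i4, integral_add j1 i3, integral_add i2 gi]
  have hint' : ∫ t, ∑ o ∈ Finset.range L, (F o t - T t 0 z) ∂iidLaw G ≤
      ∫ t, (∑ i ∈ I, Dv σ i z t + g t + ∑ i ∈ I, tr M (-Dv σ i z t) + (Long 0 z Λ).indicator W t)
      ∂iidLaw G := hint
  rw [e1, e5, e2] at hint'
  linarith

/-- `M` = max of the constants of `ui_GB`, `negD_le` (`tr_anti`), `R` from `bad_GB` with `η / (8M)`.  Off `Long` use `sum_shear_le`; on `Long` the difference of the two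
sides is at most `Σ_o T (sh … t) + Σ_i T t 0 z`, whose integral over `Long` is `≤ (L + 2S) η'` (`T_on_small`, `P.len`).  Integrate (`integral_T_sh`, `integral_Dv`). -/
theorem one_sign {C1 : ℝ} (hC1 : 0 ≤ C1) {η : ℝ} (hη : 0 < η) : ∃ L : ℕ, 1 ≤ L ∧ ∀ᶠ s : ℕ in atTop, ∀ (z : V) (σ : ℤ),
    (σ = 1 ∨ σ = -1) → P.Adm C1 (2 ^ s) z → P.Adm C1 (2 ^ s) (z + (σ, 0)) →
      ∑ o ∈ Finset.range L, (mT G (z + (σ * (cls L z o).card, 0)) - mT G z) ≤
        (Finset.Ico (KK : ℤ) (z.2 - KK)).card * (mT G (z + (σ, 0)) - mT G z) + η * SS (2 ^ s) := by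
  have hG := P.hyp
  obtain ⟨M1, hM1, hU⟩ := ui_GB P hC1 (η := η / 4) (by positivity)
  obtain ⟨M2, hM2, hN⟩ := negD_le P hC1 (η := η / 4) (by positivity)
  set M := max M1 M2 with hMdef
  have hM : 0 < M := lt_max_of_lt_left hM1
  obtain ⟨R, hB⟩ := bad_GB P hC1 (η := η / (8 * M)) (by positivity)
  have hT := T_on_small hG P.C (η := η / 12) (by positivity)
  refine ⟨2 * R + 3 * KK + 2, by omega, ?_⟩
  have hSS : Tendsto (fun s : ℕ => SS (2 ^ s)) atTop atTop := tendsto_SS.comp tendsto_two_pow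
  filter_upwards [hB, tendsto_two_pow.eventually hU, tendsto_two_pow.eventually hN, hSS.eventually hT,
    hSS.eventually_ge_atTop (2 * R + 3 * KK + 2)] with s b1 b2 b3 b4 b5
  intro z σ hσ hz hz'
  set n := SS (2 ^ s) with hn
  have hn1 : 1 ≤ n := by omega
  have hcard := afin_card_le P hz
  have hlong : (iidLaw G).real (Long 0 z (P.cap (2 ^ s))) ≤ P.C / (n : ℝ) ^ 2 :=
    P.len n 0 z hn1 (by simpa using hz.2.1)
  have g1 := ((b1 z σ hσ hz hz').smul (k := 2 * M) (by positivity)).add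
    ((b2 z hz σ hσ (Finset.Ico (KK : ℤ) (z.2 - KK))).mono hG (F' := fun t p N =>
      ∑ i ∈ Finset.Ico (KK : ℤ) (z.2 - KK), tr M (Sv σ i t p N))
      (fun t p N _ _ _ => Finset.sum_le_sum fun i _ => tr_anti hM1.le (le_max_left _ _)) le_rfl)
  obtain ⟨c1, c2⟩ := b3 z σ hσ hz hz'
  have hI : ∀ i, Integrable (fun t => tr M (-Dv σ i z t)) (iidLaw G) := fun i =>
    (c1 i).mono' ((measurable_tr M).comp (measurable_Dv σ i z).neg).aestronglyMeasurable
      (Eventually.of_forall fun t => by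
        rw [Real.norm_of_nonneg (tr_nonneg hM.le)]
        exact tr_anti hM2.le (le_max_right _ _))
  have h2 : ∑ i ∈ Finset.Ico (KK : ℤ) (z.2 - KK), ∫ t, tr M (-Dv σ i z t) ∂iidLaw G ≤ η / 4 * n :=
    le_trans (Finset.sum_le_sum fun i _ => integral_mono (hI i) (c1 i) fun t =>
      tr_anti hM2.le (le_max_right _ _)) c2
  have hcore := afin_core hσ hM.le g1 hI h2 (c3 := η / 12) (fun o => ?_) ?_ P
  · have e1 : 2 * M * (η / (8 * M) * n) = η / 4 * n := by field_simp; ring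
    rw [e1] at hcore
    have e2 : (((2 * R + 3 * KK + 2 : ℕ) : ℝ) + (Finset.Ico (KK : ℤ) (z.2 - KK)).card) ≤ 3 * n := by
      have a1 : ((2 * R + 3 * KK + 2 : ℕ) : ℝ) ≤ n := by exact_mod_cast b5
      have a2 : ((Finset.Ico (KK : ℤ) (z.2 - KK)).card : ℝ) ≤ 2 * n := by exact_mod_cast hcard
      linarith
    have e3 := mul_le_mul_of_nonneg_right e2 (by positivity : (0 : ℝ) ≤ η / 12)
    linarith
  · refine b4 0 _ ?_ _ (measurePreserving_sh G _) _ (measurableSet_long _ _ _) hlong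
    have a1 : ((cls (2 * R + 3 * KK + 2) z o).card : ℤ) ≤ 2 * n := by
      refine le_trans ?_ hcard
      exact_mod_cast Finset.card_filter_le _ _
    have a2 := nrm_add_le z (σ * (cls (2 * R + 3 * KK + 2) z o).card, 0)
    have a3 : nrm (σ * ((cls (2 * R + 3 * KK + 2) z o).card : ℤ), (0 : ℤ)) =
        (cls (2 * R + 3 * KK + 2) z o).card := by
      rcases hσ with rfl | rfl <;> simp [nrm]
    have a4 := hz.2.1
    rw [sub_zero]
    omega
  · refine b4 0 z ?_ id (MeasurePreserving.id _) _ (measurableSet_long _ _ _) hlong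
    have a4 := hz.2.1
    rw [sub_zero]
    omega

/-- telescoping: the second differences at `j = 1..K0` add up to at most `2C` -/
theorem exists_second_diff (z : V) {K0 : ℕ} (hK : 1 ≤ K0) : ∃ j : ℤ, 1 ≤ j ∧ j ≤ K0 ∧
    mT G (z + (j, 0) + (1, 0)) + mT G (z + (j, 0) + (-1, 0)) - 2 * mT G (z + (j, 0)) ≤ 2 * P.C / K0 := by
  by_contra hcon
  push Not at hcon
  set f : ℤ → ℝ := fun j => mT G (z + (j + 1, 0)) - mT G (z + (j, 0)) with hf
  have hb : ∀ j, |f j| ≤ P.C := by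
    intro j
    have := P.mT_lip (z + (j + 1, 0)) (z + (j, 0))
    have e : nrm (z + (j + 1, 0) - (z + (j, 0))) = 1 := by simp [nrm]
    rw [e] at this
    simpa using this
  have hstep : ∀ j : ℤ, 1 ≤ j → j ≤ K0 → f (j - 1) + 2 * P.C / K0 < f j := by
    intro j h1 h2
    have := hcon j h1 h2
    have e1 : z + (j, 0) + (1, 0) = z + (j + 1, 0) := by ext <;> simp [add_assoc]
    have e2 : z + (j, 0) + (-1, 0) = z + (j - 1, 0) := by ext <;> simp [add_assoc, sub_eq_add_neg]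
    rw [e1, e2] at this
    simp only [hf, sub_add_cancel]
    linarith
  have hK' : (0 : ℝ) < K0 := by exact_mod_cast hK
  have hind : ∀ k : ℕ, 1 ≤ k → k ≤ K0 → f 0 + k * (2 * P.C / K0) < f k := by
    intro k hk
    induction k, hk using Nat.le_induction with
    | base => intro h; simpa using hstep 1 le_rfl (by exact_mod_cast h)
    | succ k hk ih =>
      intro h
      have a1 := ih (by omega)
      have a2 := hstep (k + 1) (by omega) (by exact_mod_cast h)
      simp only [add_sub_cancel_right] at a2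
      push_cast
      linarith
  have a1 := hind K0 hK le_rfl
  have a2 : (K0 : ℝ) * (2 * P.C / K0) = 2 * P.C := by field_simp
  have a3 := abs_le.1 (hb 0)
  have a4 := abs_le.1 (hb K0)
  linarith [a3.1, a4.2]
/-- `rh_lat_le` at `z ± (a,0)`, `|x + a| + |x - a| ≥ 2a` -/
theorem corner_ineq (z : V) (a : ℕ) :
    2 * P.c * a - 2 * (mT G z - P.rh z) ≤ mT G (z + (1 * (a : ℤ), 0)) + mT G (z + (-1 * (a : ℤ), 0)) - 2 * mT G z := by
  have h1 := P.rh_lat_le (z + (1 * (a : ℤ), 0))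
  have h2 := P.rh_lat_le (z + (-1 * (a : ℤ), 0))
  rw [P.rh_add, P.lat_add, P.lat_row] at h1 h2
  have h3 : P.rh (1 * (a : ℤ), 0) + P.rh (-1 * (a : ℤ), 0) = 0 := by
    rw [← P.rh_add]
    have : ((1 * (a : ℤ), (0 : ℤ)) : V) + (-1 * (a : ℤ), 0) = 0 := by ext <;> simp
    rw [this, P.rh_zero]
  push_cast at h1 h2
  have h4 : 2 * (a : ℝ) ≤ |P.lat z + 1 * a| + |P.lat z + -1 * a| := by
    have := le_abs_self (P.lat z + 1 * a)
    have := neg_abs_le (P.lat z + -1 * a)
    linarith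
  have := mul_le_mul_of_nonneg_left h4 P.c_pos.le
  linarith
theorem adm_shift {C1 : ℝ} (K : ℕ) : ∀ᶠ h : ℕ in atTop, ∀ z : V, 0 ≤ z.2 → nrm z ≤ SS h →
    mT G z - P.rh z ≤ C1 * la h → ∀ j : ℤ, |j| ≤ K → P.Adm (C1 + 1) h (z + (j, 0)) := by
  have hla : Tendsto (fun h : ℕ => (la h : ℝ)) atTop atTop := by
    refine tendsto_natCast_atTop_atTop.comp ?_
    exact tendsto_pow_atTop (by norm_num)
  filter_upwards [tendsto_SS.eventually_ge_atTop K, hla.eventually_ge_atTop (4 * P.C * K)] with h h1 h2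
  intro z hz0 hz1 hz2 j hj
  have e : nrm ((j, 0) : V) = |j| := by simp [nrm]
  refine ⟨by simpa using hz0, ?_, ?_⟩
  · have := nrm_add_le z (j, 0)
    have : (K : ℤ) ≤ SS h := by exact_mod_cast h1
    omega
  · have a1 := P.mT_lip (z + (j, 0)) z
    rw [add_sub_cancel_left, e] at a1
    have a2 := P.abs_rh_le (j, 0)
    rw [e] at a2
    rw [P.rh_add]
    have a3 : ((|j| : ℤ) : ℝ) ≤ K := by exact_mod_cast hj
    have hC : 0 ≤ P.C := by linarith [P.C_ge]
    have a4 := mul_le_mul_of_nonneg_left a3 hC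
    have a5 := (abs_le.1 a1).2
    have a6 := (abs_le.1 a2).1
    nlinarith

/-- `rate` gives `C1` and `z0` with `z0.2 ≥ c3 S / 2`, `c3 = θ/C`.  `K0` with `2C/K0 ≤ c`, `η = c c3 / 16`, `z = z0 + (j,0)`.  With `n = z.2 - 2KK ≥ c3 S / 4` rows, adding `one_sign` for
`σ = ±1` gives `2 c n - 2 L (C1+1) la ≤ c n + 2 η S`, false for large `h = 2^s`. -/
theorem setup_false (P : Setup G) : False := by
  obtain ⟨C1, hC1, hrate⟩ := rate P
  have hc := P.c_pos
  have hC : 0 < P.C := by linarith [P.C_ge]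
  have hθ := P.θ_pos
  set c3 := P.θ / P.C with hc3
  have hc30 : 0 < c3 := by positivity
  obtain ⟨K0, hK0⟩ := exists_nat_ge (2 * P.C / P.c)
  have hK0pos : (0 : ℝ) < K0 := lt_of_lt_of_le (by positivity) hK0
  have hK01 : 1 ≤ K0 := by exact_mod_cast hK0pos
  have hKc : 2 * P.C / K0 ≤ P.c := by
    rw [div_le_iff₀ hK0pos]
    rw [div_le_iff₀ hc] at hK0
    linarith
  obtain ⟨L, hL, hone⟩ := one_sign P (C1 := C1 + 1) (by positivity) (η := P.c * c3 / 16) (by positivity)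
  have hadm := adm_shift P (C1 := C1) (K0 + 1)
  have hnat : Tendsto (fun s : ℕ => ((2 ^ s : ℕ) : ℝ)) atTop atTop :=
    tendsto_natCast_atTop_atTop.comp tendsto_two_pow
  have hSS : Tendsto (fun s : ℕ => (SS (2 ^ s) : ℝ)) atTop atTop :=
    tendsto_natCast_atTop_atTop.comp (tendsto_SS.comp tendsto_two_pow)
  obtain ⟨s, b1, b2, b3, b4, b5⟩ := (hone.and ((tendsto_two_pow.eventually hadm).and
    ((tendsto_two_pow.eventually hrate).and ((hSS.eventually_ge_atTop (8 * KK / c3)).and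
      (hnat.eventually_gt_atTop (16 * L * (C1 + 1) / (P.c * c3))))))).exists
  obtain ⟨z0, z1, z2, z3⟩ := b3
  set h := 2 ^ s with hh
  have hS0 : (0 : ℝ) ≤ SS h := by positivity
  have hz0 : 0 ≤ z0.2 := by
    have : (0 : ℝ) ≤ z0.2 := le_trans (by positivity) z1
    exact_mod_cast this
  obtain ⟨j, j1, j2, hj⟩ := exists_second_diff P z0 hK01
  set z := z0 + (j, 0) with hz
  have hA : P.Adm (C1 + 1) h z := b2 z0 hz0 z2 z3 j (by push_cast; rw [abs_le]; omega)
  have hA1 : P.Adm (C1 + 1) h (z + (1, 0)) := by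
    have := b2 z0 hz0 z2 z3 (j + 1) (by push_cast; rw [abs_le]; omega)
    convert this using 1
    ext <;> simp [hz, add_assoc]
  have hA2 : P.Adm (C1 + 1) h (z + (-1, 0)) := by
    have := b2 z0 hz0 z2 z3 (j + -1) (by push_cast; rw [abs_le]; omega)
    convert this using 1
    ext <;> simp [hz, add_assoc]
  have o1 := b1 z 1 (Or.inl rfl) hA hA1
  have o2 := b1 z (-1) (Or.inr rfl) hA hA2
  set n : ℝ := ((Finset.Ico (KK : ℤ) (z.2 - KK)).card : ℝ) with hn
  have hsum : ∑ o ∈ Finset.range L, ((cls L z o).card : ℝ) = n := by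
    have := sum_cls hL z fun _ => (1 : ℝ)
    simp only [Finset.sum_const, nsmul_eq_mul, mul_one] at this
    exact this
  have hcor : ∑ o ∈ Finset.range L, (2 * P.c * ((cls L z o).card : ℝ) - 2 * (mT G z - P.rh z)) ≤
      ∑ o ∈ Finset.range L, ((mT G (z + (1 * ((cls L z o).card : ℤ), 0)) - mT G z) +
        (mT G (z + (-1 * ((cls L z o).card : ℤ), 0)) - mT G z)) :=
    Finset.sum_le_sum fun o _ => by linarith [corner_ineq P z (cls L z o).card]
  rw [Finset.sum_add_distrib, Finset.sum_sub_distrib, ← Finset.mul_sum, hsum] at hcor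
  simp only [Finset.sum_const, Finset.card_range, nsmul_eq_mul] at hcor
  have hz2 : z.2 = z0.2 := by simp [hz]
  have hnge : c3 * SS h / 4 ≤ n := by
    have a1 : (z.2 - KK - KK : ℤ) ≤ ((Finset.Ico (KK : ℤ) (z.2 - KK)).card : ℤ) := by
      rw [Int.card_Ico]; omega
    have a2 : (z.2 : ℝ) - KK - KK ≤ n := by rw [hn]; exact_mod_cast a1
    rw [hz2] at a2
    rw [div_le_iff₀ hc30] at b4
    linarith
  have hn0 : 0 ≤ n := by positivity
  have hA3 := hA.2.2
  have hL0 : (0 : ℝ) ≤ L := by positivity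
  have t1 : (L : ℝ) * (2 * (mT G z - P.rh z)) ≤ L * (2 * ((C1 + 1) * la h)) :=
    mul_le_mul_of_nonneg_left (by linarith) hL0
  have t2 : n * (mT G (z + (1, 0)) - mT G z) + n * (mT G (z + (-1, 0)) - mT G z) ≤ n * P.c := by
    rw [← mul_add]
    exact mul_le_mul_of_nonneg_left (by linarith) hn0
  have h1 : 1 ≤ h := Nat.one_le_two_pow
  have hla0 : (0 : ℝ) < la h := by
    have : 0 < la h := by unfold la; positivity
    exact_mod_cast this
  have t3 : (h : ℝ) * la h ≤ SS h := by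
    have a1 : h * la h ≤ SS h := by
      rw [← gg_eq, SS_eq]
      exact Nat.le_mul_of_pos_left _ (by positivity)
    exact_mod_cast a1
  rw [div_lt_iff₀ (by positivity)] at b5
  have t4 : 16 * L * (C1 + 1) * la h < h * (P.c * c3) * la h := mul_lt_mul_of_pos_right b5 hla0
  have t5 : (h : ℝ) * la h * (P.c * c3) ≤ SS h * (P.c * c3) :=
    mul_le_mul_of_nonneg_right t3 (by positivity)
  have t6 := mul_le_mul_of_nonneg_left hnge hc.le
  linarith

end Crest.Agent.R151.PA
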