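import Crest.Agent.R151.ABas

/-! R151/A: the canonical geodesic and the majorant calculus `GB`. -/

set_option autoImplicit false
open MeasureTheory ProbabilityTheory Crest.ProbabilityR.FirstPassage Filter Topology
open scoped ENNReal

namespace Crest.Agent.R151.PA

variable {t : Env} {a b : V} {p : ℤ → V} {N : ℤ} {Λ : ℕ}

/-- a normalised path is determined by `n` and the list of its values on `0..n` -/
theorem countable_sap (a b : V) : {x : (ℤ → V) × ℤ | SAP a b x.1 x.2}.Countable := by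
  refine (Set.countable_range fun c : (ℤ →₀ V) × ℤ =>
    ((fun k => if k ≤ 0 then a else if c.2 ≤ k then b else c.1 k : ℤ → V), c.2)).mono ?_
  rintro ⟨p, n⟩ h
  obtain ⟨q, hq⟩ := bmeas_fs p 0 n
  refine ⟨(q, n), Prod.ext (funext fun k => ?_) rfl⟩
  dsimp only
  split_ifs with h1 h2
  · exact (h.left k h1).symm
  · exact (h.right k h2).symm
  · exact hq k (by omega) (by omega)
theorem measurableSet_isG (a b : V) (p : ℤ → V) (N : ℤ) : MeasurableSet {t | IsG t a b p N} := by
  have e : {t | IsG t a b p N} = {_t | SAP a b p N} ∩ {t | cost t p 0 N = TS t Set.univ (p 0) (p N)} :=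
    Set.ext fun t => ⟨fun h => ⟨h.sap, h.geo.2.2⟩,
      fun h => ⟨⟨h.1.path, h.1.inj, h.2⟩, h.1.left, h.1.right⟩⟩
  rw [e]
  exact (MeasurableSet.const _).inter (measurableSet_eq_fun (measurable_cost _ _ _) (measurable_TS _ _ _))
/-- countable union over `countable_sap` -/
theorem measurableSet_exists_isG (a b : V) (R : Env → (ℤ → V) → ℤ → Prop)
    (hR : ∀ p N, MeasurableSet {t | R t p N}) : MeasurableSet {t | ∃ p N, IsG t a b p N ∧ R t p N} := by
  have e : {t | ∃ p N, IsG t a b p N ∧ R t p N} =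
      ⋃ x ∈ {x : (ℤ → V) × ℤ | SAP a b x.1 x.2}, {t | IsG t a b x.1 x.2} ∩ {t | R t x.1 x.2} := by
    ext t
    simp only [Set.mem_iUnion]
    exact ⟨fun ⟨p, N, h1, h2⟩ => ⟨(p, N), h1.sap, h1, h2⟩, fun ⟨x, _, h1, h2⟩ => ⟨x.1, x.2, h1, h2⟩⟩
  rw [e]
  exact MeasurableSet.biUnion (countable_sap a b) fun x _ => (measurableSet_isG a b _ _).inter (hR _ _)
theorem measurableSet_long (a b : V) (Λ : ℕ) : MeasurableSet (Long a b Λ) := by
  exact measurableSet_exists_isG a b (fun _ _ N => (Λ : ℤ) < N) fun _ _ => MeasurableSet.const _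
theorem measurableSet_UG (a b : V) : MeasurableSet {t | UG t a b} := by
  have e : {t | UG t a b} = {t | ∃ p N, IsG t a b p N ∧
      t ∈ {t | ∃ p' N', IsG t a b p' N' ∧ (p', N') ≠ (p, N)}ᶜ} := by
    ext t
    constructor
    · rintro ⟨x, h1, h2⟩
      exact ⟨x.1, x.2, h1, fun ⟨p', N', k1, k2⟩ => k2 (h2 (p', N') k1)⟩
    · rintro ⟨p, N, h1, h2⟩
      exact ⟨(p, N), h1, fun y hy => by_contra fun k => h2 ⟨y.1, y.2, hy, k⟩⟩
  rw [e]
  exact measurableSet_exists_isG a b _ fun p N =>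
    (measurableSet_exists_isG a b (fun _ p' N' => (p', N') ≠ (p, N))
      fun _ _ => MeasurableSet.const _).compl
theorem ug_of_reg (h : Reg t) (a b : V) : UG t a b := by
  obtain ⟨p, N, hp⟩ := exists_isG h a b
  exact ⟨(p, N), hp, fun y hy => Prod.ext (hy.unique h hp).1 (hy.unique h hp).2⟩
theorem UG.spec (h : UG t a b) : IsG t a b (geo a b t).1 (geo a b t).2 := by
  rw [geo, dif_pos h]
  exact h.exists.choose_spec
theorem UG.geo_eq (h : UG t a b) (hp : IsG t a b p N) : geo a b t = (p, N) := by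
  exact ExistsUnique.unique h h.spec hp
theorem geo_sap (a b : V) (t : Env) : 0 ≤ (geo a b t).2 := by
  by_cases h : UG t a b
  · exact h.spec.nonneg
  · rw [geo, dif_neg h]
theorem ageo_cost {q : ℤ → V} {i j : ℤ} (h : Set.InjOn q (Set.Icc i j)) (e : Sym2 V) (s : ℝ) :
    cost t q i j - cost (Function.update t e s) q i j =
      if e ∈ (Finset.Ico i j).image (edge q) then t e - s else 0 := by
  rw [cost_eq_sum_image h, cost_eq_sum_image h, ← Finset.sum_sub_distrib,
    ← Finset.sum_ite_eq' _ e fun _ => t e - s]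
  refine Finset.sum_congr rfl fun f _ => ?_
  split_ifs with hf
  · rw [hf, Function.update_self]
  · rw [Function.update_of_ne hf, sub_self]
/-- Lowering an edge of the unique geodesic keeps it and keeps it unique: `IsGeo.lower`; if `q` is another normalised
geodesic of `t'` then `cost t q ≤ cost t' q + d = cost t' p + d = cost t p` (a self-avoiding path uses the edge at most once,
`cost_eq_sum_image`), so `q` is a geodesic of `t`. -/
theorem UG.lower (ht : ∀ e, 0 ≤ t e) (h : UG t a b) (hp : IsG t a b p N) {x : ℤ} (h0 : 0 ≤ x) (hx : x < N)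
    {s : ℝ} (hs0 : 0 ≤ s) (hs : s ≤ t (edge p x)) :
    UG (Function.update t (edge p x) s) a b ∧ IsG (Function.update t (edge p x) s) a b p N := by
  set e := edge p x with he
  have ht' : ∀ f, 0 ≤ Function.update t e s f := fun f => by
    rcases eq_or_ne f e with rfl | hf
    · rwa [Function.update_self]
    · rw [Function.update_of_ne hf]
      exact ht f
  have hle : ∀ f, Function.update t e s f ≤ t f := fun f => by
    rcases eq_or_ne f e with rfl | hf
    · rwa [Function.update_self]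
    · rw [Function.update_of_ne hf]
  have hp' : IsG (Function.update t e s) a b p N := ⟨hp.geo.lower ht' hle fun f hf =>
    ⟨x, h0, hx, by_contra fun k => hf (Function.update_of_ne k _ _)⟩, hp.left, hp.right⟩
  refine ⟨⟨(p, N), hp', fun y hy => ?_⟩, hp'⟩
  refine ExistsUnique.unique h ⟨⟨hy.geo.1, hy.geo.2.1, le_antisymm ?_ (TS_le_cost ht hy.geo.1)⟩,
    hy.left, hy.right⟩ hp
  have h1 := ageo_cost (t := t) hy.geo.2.1 e s
  have h2 := ageo_cost (t := t) hp.geo.2.1 e s
  rw [if_pos (Finset.mem_image_of_mem _ (Finset.mem_Ico.2 ⟨h0, hx⟩)), hp.cost_eq, hp'.cost_eq] at h2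
  rw [hy.cost_eq] at h1
  rw [hy.start, hy.stop]
  change _ ≤ T t a b
  split_ifs at h1 <;> linarith
/-- `geo a b` takes countably many values, each on a measurable set -/
theorem measurable_geo_comp {β : Type} [MeasurableSpace β] (a b : V) (F : Env → (ℤ → V) → ℤ → β)
    (hF : ∀ p N, Measurable fun t => F t p N) :
    Measurable fun t => F t (geo a b t).1 (geo a b t).2 := by
  intro s hs
  have hm : ∀ x : (ℤ → V) × ℤ, MeasurableSet {t | geo a b t = x} := fun x => by
    have e : {t | geo a b t = x} = ({t | UG t a b} ∩ {t | IsG t a b x.1 x.2}) ∪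
        ({t | UG t a b}ᶜ ∩ {_t | ((fun _ => a, 0) : (ℤ → V) × ℤ) = x}) := by
      ext t
      by_cases h : UG t a b
      · refine ⟨fun k => Or.inl ⟨h, ?_⟩, fun k => k.elim (fun k => h.geo_eq k.2) fun k => (k.1 h).elim⟩
        have k' : geo a b t = x := k
        rw [← k']
        exact h.spec
      · have e : geo a b t = (fun _ => a, 0) := by rw [geo, dif_neg h]
        exact ⟨fun k => Or.inr ⟨h, e.symm.trans k⟩,
          fun k => k.elim (fun k => (h k.1).elim) fun k => e.trans k.2⟩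
    rw [e]
    exact ((measurableSet_UG a b).inter (measurableSet_isG a b _ _)).union
      ((measurableSet_UG a b).compl.inter (MeasurableSet.const _))
  have e : (fun t => F t (geo a b t).1 (geo a b t).2) ⁻¹' s =
      ⋃ x ∈ insert ((fun _ => a, 0) : (ℤ → V) × ℤ) {x : (ℤ → V) × ℤ | SAP a b x.1 x.2},
        {t | geo a b t = x} ∩ (fun t => F t x.1 x.2) ⁻¹' s := by
    ext t
    simp only [Set.mem_iUnion]
    constructor
    · refine fun h => ⟨geo a b t, ?_, rfl, h⟩
      by_cases k : UG t a b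
      · exact Or.inr k.spec.sap
      · exact Or.inl (by rw [geo, dif_neg k])
    · rintro ⟨x, -, h1, h2⟩
      have h1' : geo a b t = x := h1
      rw [← h1'] at h2
      exact h2
  rw [e]
  exact MeasurableSet.biUnion ((countable_sap a b).insert _) fun x _ => (hm x).inter (hF _ _ hs)
theorem measurable_onGeo (a b : V) (Λ : ℕ) {F : Env → (ℤ → V) → ℤ → ℝ}
    (hF : ∀ p N, Measurable fun t => F t p N) : Measurable (onGeo a b Λ F) := by
  exact measurable_geo_comp a b (fun t p N => if N ≤ Λ then F t p N else 0) fun p N => by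
    split_ifs
    · exact hF p N
    · exact measurable_const

variable {G : Measure ℝ} [IsProbabilityMeasure G] [NullSingletonClass G]
variable {F F' : Env → (ℤ → V) → ℤ → ℝ} {c c' : ℝ}

theorem integrable_onGeo (hF : ∀ p N, Measurable fun t => F t p N) {B : ℝ}
    (hB : ∀ t p N, 0 ≤ N → N ≤ Λ → |F t p N| ≤ B) : Integrable (onGeo a b Λ F) (iidLaw G) := by
  refine Integrable.of_bound (measurable_onGeo a b Λ hF).aestronglyMeasurable |B|
    (ae_of_all _ fun t => ?_)
  unfold onGeo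
  split_ifs with h
  · obtain ⟨n, hn⟩ := Int.eq_ofNat_of_zero_le (geo_sap a b t)
    rw [hn] at h ⊢
    exact (hB t _ n n.zero_le (by exact_mod_cast h)).trans (le_abs_self B)
  · simp
theorem GB.mono (hG : Hyp G) (h : GB G a b Λ F c)
    (hF : ∀ t p N, Reg t → IsG t a b p N → N ≤ Λ → F' t p N ≤ F t p N) (hc : c ≤ c') :
    GB G a b Λ F' c' := by
  obtain ⟨g, h1, h2, h3, h4⟩ := h
  refine ⟨g, h1, h2, h3.trans hc, ?_⟩
  filter_upwards [h4, ae_reg G hG.nonneg] with t k1 k2 p N hp hN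
  exact (hF t p N k2 hp hN).trans (k1 p N hp hN)
theorem GB.nonneg (h : GB G a b Λ F c) : 0 ≤ c := by
  obtain ⟨g, -, h2, h3, -⟩ := h
  exact (integral_nonneg h2).trans h3
theorem GB.add (h : GB G a b Λ F c) (h' : GB G a b Λ F' c') :
    GB G a b Λ (fun t p N => F t p N + F' t p N) (c + c') := by
  obtain ⟨g, h1, h2, h3, h4⟩ := h
  obtain ⟨g', k1, k2, k3, k4⟩ := h'
  refine ⟨fun t => g t + g' t, h1.add k1, fun t => add_nonneg (h2 t) (k2 t), ?_, ?_⟩
  · rw [integral_add h1 k1]
    exact add_le_add h3 k3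
  · filter_upwards [h4, k4] with t l1 l2 p N hp hN
    exact add_le_add (l1 p N hp hN) (l2 p N hp hN)
theorem GB.smul (h : GB G a b Λ F c) {k : ℝ} (hk : 0 ≤ k) :
    GB G a b Λ (fun t p N => k * F t p N) (k * c) := by
  obtain ⟨g, h1, h2, h3, h4⟩ := h
  refine ⟨fun t => k * g t, h1.const_mul k, fun t => mul_nonneg hk (h2 t), ?_, ?_⟩
  · rw [integral_const_mul]
    exact mul_le_mul_of_nonneg_left h3 hk
  · filter_upwards [h4] with t l1 p N hp hN
    exact mul_le_mul_of_nonneg_left (l1 p N hp hN) hk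
theorem GB.const (hc : 0 ≤ c) : GB G a b Λ (fun _ _ _ => c) c := by
  exact ⟨fun _ => c, integrable_const c, fun _ => hc, by simp, ae_of_all _ fun _ _ _ _ _ => le_rfl⟩
theorem GB.sum {ι : Type} (I : Finset ι) {F : ι → Env → (ℤ → V) → ℤ → ℝ} {c : ι → ℝ}
    (h : ∀ i ∈ I, GB G a b Λ (F i) (c i)) :
    GB G a b Λ (fun t p N => ∑ i ∈ I, F i t p N) (∑ i ∈ I, c i) := by
  classical
  induction I using Finset.induction_on with
  | empty => simpa only [Finset.sum_empty] using GB.const le_rfl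
  | insert i I hi ih =>
    simp only [Finset.sum_insert hi]
    exact (h i (Finset.mem_insert_self i I)).add (ih fun j hj => h j (Finset.mem_insert_of_mem hj))
theorem GB.of_fun {g : Env → ℝ} (hg : Integrable g (iidLaw G)) (h0 : ∀ᵐ t ∂iidLaw G, 0 ≤ g t) :
    GB G a b Λ (fun t _ _ => g t) (∫ t, g t ∂iidLaw G) := by
  refine ⟨fun t => max (g t) 0, hg.pos_part, fun t => le_max_right _ _, le_of_eq ?_,
    ae_of_all _ fun t _ _ _ _ => le_max_left _ _⟩
  exact integral_congr_ae (h0.mono fun t ht => max_eq_left ht)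
/-- a majorant that may be negative off `{length ≤ Λ}`: use `max g 0 ≤ g + A 1_{Long}` almost surely -/
theorem GB.of_signed (hG : Hyp G) {g : Env → ℝ} (hg : Integrable g (iidLaw G))
    (hc : ∫ t, g t ∂iidLaw G ≤ c) {A ε : ℝ} (hA : 0 ≤ A) (hlow : ∀ᵐ t ∂iidLaw G, -A ≤ g t)
    (hε : (iidLaw G).real (Long a b Λ) ≤ ε)
    (h : ∀ᵐ t ∂iidLaw G, ∀ p N, IsG t a b p N → N ≤ Λ → 0 ≤ g t ∧ F t p N ≤ g t) :
    GB G a b Λ F (c + A * ε) := by
  refine ⟨fun t => max (g t) 0, hg.pos_part, fun t => le_max_right _ _, ?_,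
    h.mono fun t ht p N hp hN => (ht p N hp hN).2.trans (le_max_left _ _)⟩
  have hi : Integrable ((Long a b Λ).indicator fun _ => A) (iidLaw G) :=
    (integrable_const A).indicator (measurableSet_long a b Λ)
  have h1 : ∫ t, max (g t) 0 ∂iidLaw G ≤ ∫ t, g t + (Long a b Λ).indicator (fun _ => A) t ∂iidLaw G := by
    refine integral_mono_ae hg.pos_part (hg.add hi) ?_
    filter_upwards [h, hlow, ae_reg G hG.nonneg] with t k1 k2 k3
    by_cases hL : t ∈ Long a b Λ
    · rw [Set.indicator_of_mem hL]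
      exact max_le (by linarith) (by linarith)
    · obtain ⟨p, N, hp⟩ := exists_isG k3 a b
      rw [Set.indicator_of_notMem hL, add_zero,
        max_eq_left (k1 p N hp (not_lt.1 fun k => hL ⟨p, N, hp, k⟩)).1]
  rw [integral_add hg hi, integral_indicator_const _ (measurableSet_long a b Λ), smul_eq_mul,
    mul_comm] at h1
  exact h1.trans (add_le_add hc (mul_le_mul_of_nonneg_left hε hA))
/-- Markov: `P(g > 2c) ≤ 1/2` -/
theorem GB.exists (hG : Hyp G) (h : GB G a b Λ F c) (hc : 0 < c)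
    (hL : (iidLaw G).real (Long a b Λ) ≤ 1 / 4) :
    ∃ t p N, Reg t ∧ IsG t a b p N ∧ N ≤ Λ ∧ F t p N ≤ 2 * c := by
  obtain ⟨g, h1, h2, h3, h4⟩ := h
  by_contra hn
  push Not at hn
  have k1 := mul_meas_ge_le_integral_of_nonneg (ae_of_all _ h2) h1 (2 * c)
  have k2 : (iidLaw G).real {t | 2 * c ≤ g t} ≤ 1 / 2 := by
    by_contra k
    nlinarith [not_le.1 k]
  have k3 : (Long a b Λ ∪ {t | 2 * c ≤ g t} : Set Env) =ᵐ[iidLaw G] Set.univ := by
    filter_upwards [h4, ae_reg G hG.nonneg] with t l1 l2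
    refine propext ⟨fun _ => trivial, fun _ => ?_⟩
    obtain ⟨p, N, hp⟩ := exists_isG l2 a b
    rcases le_or_gt N Λ with hN | hN
    · exact Or.inr ((hn t p N l2 hp hN).le.trans (l1 p N hp hN))
    · exact Or.inl ⟨p, N, hp, hN⟩
  have k4 := measureReal_union_le (μ := iidLaw G) (Long a b Λ) {t | 2 * c ≤ g t}
  rw [measureReal_congr k3, probReal_univ] at k4
  linarith
theorem GB.rev (h : GB G b a Λ F c) :
    GB G a b Λ (fun t p N => F t (fun k => p (N - k)) N) c := by
  obtain ⟨g, h1, h2, h3, h4⟩ := h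
  exact ⟨g, h1, h2, h3, h4.mono fun t ht p N hp hN => ht _ N hp.rev hN⟩
theorem GB.integral (hG : Hyp G) (h : GB G a b Λ F c) (hF : ∀ p N, Measurable fun t => F t p N)
    (h0 : ∀ t p N, Reg t → IsG t a b p N → 0 ≤ F t p N) :
    Integrable (onGeo a b Λ F) (iidLaw G) ∧ ∫ t, onGeo a b Λ F t ∂iidLaw G ≤ c := by
  obtain ⟨g, h1, h2, h3, h4⟩ := h
  have k : ∀ᵐ t ∂iidLaw G, 0 ≤ onGeo a b Λ F t ∧ onGeo a b Λ F t ≤ g t := by
    filter_upwards [h4, ae_reg G hG.nonneg] with t l1 l2
    have hp := (ug_of_reg l2 a b).spec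
    unfold onGeo
    split_ifs with hN
    · exact ⟨h0 t _ _ l2 hp, l1 _ _ hp hN⟩
    · exact ⟨le_rfl, h2 t⟩
  have hi : Integrable (onGeo a b Λ F) (iidLaw G) :=
    h1.mono' (measurable_onGeo a b Λ hF).aestronglyMeasurable
      (k.mono fun t ht => by rw [Real.norm_of_nonneg ht.1]; exact ht.2)
  exact ⟨hi, (integral_mono_ae hi h1 (k.mono fun t ht => ht.2)).trans h3⟩
theorem ageo_eq (ht : Reg t) (hp : IsG t a b p N) (hN : N ≤ Λ) : onGeo a b Λ F t = F t p N := by
  rw [onGeo, (ug_of_reg ht a b).geo_eq hp, if_pos hN]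
theorem ageo_nonneg (hG : Hyp G) (h0 : ∀ t p N, Reg t → IsG t a b p N → 0 ≤ F t p N) :
    ∀ᵐ t ∂iidLaw G, 0 ≤ onGeo a b Λ F t := by
  filter_upwards [ae_reg G hG.nonneg] with t ht
  unfold onGeo
  split_ifs
  · exact h0 t _ _ ht (ug_of_reg ht a b).spec
  · exact le_rfl
theorem GB.of_integral (hG : Hyp G) (hI : Integrable (onGeo a b Λ F) (iidLaw G))
    (h0 : ∀ t p N, Reg t → IsG t a b p N → 0 ≤ F t p N) :
    GB G a b Λ F (∫ t, onGeo a b Λ F t ∂iidLaw G) := by
  exact (GB.of_fun hI (ageo_nonneg hG h0)).mono hG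
    (fun t p N ht hp hN => (ageo_eq ht hp hN).ge) le_rfl
/-- Each summand may be read in its own environment `φ i t`: `g i = max (onGeo (F i)) 0 ∘ φ i`; every `onGeo (F i)` is
integrable by `GB.integral` applied to `F i ≤ Σ F`. -/
theorem GB.transfer (hG : Hyp G) (I : Finset ℤ) {F : ℤ → Env → (ℤ → V) → ℤ → ℝ}
    (hF : ∀ i p N, Measurable fun t => F i t p N) (h0 : ∀ i t p N, Reg t → 0 ≤ F i t p N)
    (h : GB G a b Λ (fun t p N => ∑ i ∈ I, F i t p N) c) (φ : ℤ → Env → Env)
    (hφ : ∀ i, MeasurePreserving (φ i) (iidLaw G) (iidLaw G)) :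
    ∃ g : ℤ → Env → ℝ, (∀ i ∈ I, Integrable (g i) (iidLaw G)) ∧ (∀ i t, 0 ≤ g i t) ∧
      ∑ i ∈ I, ∫ t, g i t ∂iidLaw G ≤ c ∧
      ∀ i ∈ I, ∀ᵐ t ∂iidLaw G, ∀ p N, IsG (φ i t) a b p N → N ≤ Λ → F i (φ i t) p N ≤ g i t := by
  have hI : ∀ i ∈ I, Integrable (onGeo a b Λ (F i)) (iidLaw G) := fun i hi =>
    (GB.integral hG (h.mono hG (fun t p N ht _ _ => Finset.single_le_sum
      (f := fun i => F i t p N) (fun j _ => h0 j t p N ht) hi) le_rfl) (hF i)
      fun t p N ht _ => h0 i t p N ht).1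
  have h1 := (GB.integral hG h (fun p N => Finset.measurable_sum _ fun i _ => hF i p N)
    fun t p N ht _ => Finset.sum_nonneg fun i _ => h0 i t p N ht).2
  refine ⟨fun i t => max (onGeo a b Λ (F i) (φ i t)) 0, fun i hi =>
    (hφ i).integrable_comp_of_integrable (hI i hi).pos_part, fun i t => le_max_right _ _, ?_,
    fun i _ => ?_⟩
  · refine le_trans (le_of_eq ?_) h1
    have e : onGeo a b Λ (fun t p N => ∑ i ∈ I, F i t p N) =
        fun t => ∑ i ∈ I, onGeo a b Λ (F i) t := by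
      funext t
      unfold onGeo
      split_ifs <;> simp
    rw [e, integral_finsetSum _ hI]
    refine Finset.sum_congr rfl fun i hi => ?_
    have k := integral_map (μ := iidLaw G) (hφ i).measurable.aemeasurable
      (f := fun t => max (onGeo a b Λ (F i) t) 0)
      (by rw [(hφ i).map_eq]; exact (hI i hi).pos_part.aestronglyMeasurable)
    rw [← k, (hφ i).map_eq]
    exact integral_congr_ae ((ageo_nonneg hG fun t p N ht _ => h0 i t p N ht).mono
      fun t ht => max_eq_left ht)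
  · filter_upwards [(hφ i).quasiMeasurePreserving.ae (ae_reg G hG.nonneg)] with t ht p N hp hN
    exact (ageo_eq ht hp hN).ge.trans (le_max_left _ _)

end Crest.Agent.R151.PA
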