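import Crest.Agent.R151.AGeo

/-! R151/A: detours of a geodesic: first and last hits, reversal, families with small overlap. Deterministic. -/

set_option autoImplicit false
open MeasureTheory ProbabilityTheory Crest.ProbabilityR.FirstPassage Filter Topology
open scoped ENNReal

namespace Crest.Agent.R151.PA

variable {t : Env} {a b : V} {p q : ℤ → V} {N j k : ℤ} {C C' : ℝ}

theorem Cheap.mono (h : Cheap t p N C j k) (hC : C ≤ C') : Cheap t p N C' j k :=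
  ⟨h.1, h.2.1, h.2.2.1, h.2.2.2.1, h.2.2.2.2.trans (by linarith)⟩
theorem cheap_of_path (ht : ∀ e, 0 ≤ t e) (h0 : 0 ≤ j) (hjk : j + 2 ≤ k) (hk : k ≤ N) {i0 i1 : ℤ}
    (hq : PathIn (Free p N j k) q i0 i1) (hj : q i0 = p j) (hk' : q i1 = p k)
    (hc : cost t q i0 i1 ≤ cost t p j k + C) : Cheap t p N C j k := by
  have h := TS_le_cost ht hq
  rw [hj, hk'] at h
  exact ⟨h0, hjk, hk, ⟨q, i0, i1, hq, hj, hk'⟩, h.trans hc⟩
/-- `exists_path_lt` -/
theorem Cheap.det (ht : ∀ e, 0 ≤ t e) (h : Cheap t p N C j k) : ∃ q n, Det t p N (C + 1) j k q n := by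
  obtain ⟨q, n, h1, h2, h3, h4, h5⟩ := exists_path_lt ht h.2.2.2.1 (c := cost t p j k + (C + 1))
    (h.2.2.2.2.trans_lt (by linarith))
  exact ⟨q, n, h.1, h.2.1, h.2.2.1, h1, h2, h3, h4, h5.le⟩
theorem Det.cheap (ht : ∀ e, 0 ≤ t e) {n : ℤ} (h : Det t p N C j k q n) : Cheap t p N C j k := by
  obtain ⟨h0, h1, h2, h3, -, h4, h5, h6⟩ := h
  exact cheap_of_path ht h0 h1 h2 h3 h4 h5 h6
theorem measurableSet_cheap (p : ℤ → V) (N : ℤ) (C : ℝ) (j k : ℤ) :
    MeasurableSet {t | Cheap t p N C j k} :=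
  (MeasurableSet.const _).inter ((MeasurableSet.const _).inter ((MeasurableSet.const _).inter
    ((MeasurableSet.const _).inter
      (measurableSet_le (measurable_TS _ _ _) ((measurable_cost p j k).add_const C)))))
theorem free_rev : Free (fun l => p (N - l)) N (N - k) (N - j) = Free p N j k := by
  ext v
  constructor
  · intro h l h0 hN hv
    have := h (N - l) (by omega) (by omega) (by simpa using hv)
    omega
  · intro h l h0 hN hv
    have := h (N - l) (by omega) (by omega) hv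
    omega
theorem Cheap.rev (h : Cheap t p N C j k) : Cheap t (fun l => p (N - l)) N C (N - k) (N - j) := by
  obtain ⟨h0, h1, h2, h3, h4⟩ := h
  refine ⟨by omega, by omega, by omega, ?_, ?_⟩
  · simp only [free_rev, sub_sub_cancel]
    exact h3.symm
  · simp only [free_rev, cost_rev', sub_sub_cancel]
    rwa [TS_comm]
theorem cnt_start_le (M : ℕ) : cnt (Finset.Icc 0 N) (StartAt t p N C M) ≤
    cnt (Finset.Icc 0 N) (EndAt t (fun l => p (N - l)) N C M) := by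
  refine cnt_le_of_inj (fun k l => l = N - k) ?_ fun k k' l h h' => by omega
  rintro j hj ⟨k, h1, h2⟩
  rw [Finset.mem_Icc] at hj
  exact ⟨N - j, Finset.mem_Icc.2 (by omega), ⟨N - k, by omega, h2.rev⟩, rfl⟩
theorem cnt_ends_le (I : Finset ℤ) (M J : ℕ) : cnt I (Ends t p N C M J) ≤
    (2 * J + 1) * (cnt (Finset.Icc 0 N) (EndAt t p N C M) + cnt (Finset.Icc 0 N) (StartAt t p N C M)) := by
  refine (cnt_mono (Finset.Subset.refl I) ?_).trans ((cnt_near (I := I) (I' := Finset.Icc 0 N)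
    (Q := fun l => EndAt t p N C M l ∨ StartAt t p N C M l) J).trans
      (mul_le_mul_of_nonneg_left cnt_or_le (by positivity)))
  rintro x - ⟨l, h1, h2⟩
  refine ⟨l, Finset.mem_Icc.2 ?_, h1, h2⟩
  rcases h2 with ⟨j, -, h3, h4, h5, -⟩ | ⟨j, -, h3, h4, h5, -⟩ <;> omega
theorem Ends.mono {M M' J J' : ℕ} {x : ℤ} (h : Ends t p N C M J x) (hC : C ≤ C') (hM : M' ≤ M) (hJ : J ≤ J') :
    Ends t p N C' M' J' x := by
  obtain ⟨l, h1, h2⟩ := h
  refine ⟨l, h1.trans (by exact_mod_cast hJ), h2.imp ?_ ?_⟩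
  · rintro ⟨j, h3, h4⟩
    exact ⟨j, by omega, h4.mono hC⟩
  · rintro ⟨j, h3, h4⟩
    exact ⟨j, by omega, h4.mono hC⟩
theorem Near.cov_or_ends {M J : ℕ} {x : ℤ} (h : Near t p N C M J x) :
    Cov t p N C M x ∨ Ends t p N C M J x := by
  obtain ⟨j, k, h1, h2, h3, h4⟩ := h
  by_cases hj : x < j
  · exact Or.inr ⟨j, abs_le.2 (by omega), Or.inr ⟨k, h2, h1⟩⟩
  by_cases hk : k ≤ x
  · exact Or.inr ⟨k, abs_le.2 (by omega), Or.inl ⟨j, h2, h1⟩⟩
  exact Or.inl ⟨j, k, h1, h2, by omega, by omega⟩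

/-- Let `u` be the first index with `q u = p l` for some `l ∈ [0,N]`, `l ≠ j`.  Then `q` on `i0..u` lies in `Free p N j l`, and with
`φ = cost t p 0` the rest of `q` costs at least `T (p l) (p k) ≥ φ k - φ l` (`IsG.pot`). -/
theorem first_hit (ht : ∀ e, 0 ≤ t e) (hp : IsG t a b p N) (hj : 0 ≤ j ∧ j ≤ N) (hk : 0 ≤ k ∧ k ≤ N)
    (hjk : j ≠ k) {i0 i1 : ℤ} (hq : PathIn Set.univ q i0 i1) (h0 : q i0 = p j) (h1 : q i1 = p k)
    (hc : cost t q i0 i1 ≤ cost t p 0 k - cost t p 0 j + C) :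
    ∃ l u, 0 ≤ l ∧ l ≤ N ∧ l ≠ j ∧ i0 ≤ u ∧ u ≤ i1 ∧ q u = p l ∧ (j + 2 ≤ l → Cheap t p N C j l) := by
  obtain ⟨u, ⟨hu0, hu1, l, hl0, hlN, hlj, hl⟩, hmin⟩ := Int.exists_least_of_bdd
    (P := fun u => i0 ≤ u ∧ u ≤ i1 ∧ ∃ l, 0 ≤ l ∧ l ≤ N ∧ l ≠ j ∧ q u = p l) ⟨i0, fun z hz => hz.1⟩
    ⟨i1, hq.1, le_rfl, k, hk.1, hk.2, hjk.symm, h1⟩
  refine ⟨l, u, hl0, hlN, hlj, hu0, hu1, hl, fun hjl => cheap_of_path ht hj.1 hjl hlN
    ((hq.sub le_rfl hu0 hu1).restrict fun v hv0 hv1 l' h0' hN' hv => ?_) h0 hl ?_⟩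
  · refine or_iff_not_imp_left.2 fun hne => ?_
    have h2 := hmin v ⟨hv0, hv1.trans hu1, l', h0', hN', hne, hv.symm⟩
    rw [le_antisymm hv1 h2, hl] at hv
    exact hp.geo.2.1 ⟨h0', hN'⟩ ⟨hl0, hlN⟩ hv
  · have h2 := TS_le_cost ht (hq.sub hu0 hu1 le_rfl)
    rw [hl, h1] at h2
    have h3 : _ ≤ TS t Set.univ _ _ := hp.pot ht ⟨hl0, hlN⟩ hk
    have h4 := cost_add (t := t) (p := q) hu0 hu1
    have h5 := cost_add (t := t) (p := p) hj.1 (show j ≤ l by omega)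
    linarith
/-- symmetric -/
theorem last_hit (ht : ∀ e, 0 ≤ t e) (hp : IsG t a b p N) (hj : 0 ≤ j ∧ j ≤ N) (hk : 0 ≤ k ∧ k ≤ N)
    (hjk : j ≠ k) {i0 i1 : ℤ} (hq : PathIn Set.univ q i0 i1) (h0 : q i0 = p j) (h1 : q i1 = p k)
    (hc : cost t q i0 i1 ≤ cost t p 0 k - cost t p 0 j + C) :
    ∃ l u, 0 ≤ l ∧ l ≤ N ∧ l ≠ k ∧ i0 ≤ u ∧ u ≤ i1 ∧ q u = p l ∧ (l + 2 ≤ k → Cheap t p N C l k) := by
  obtain ⟨u, ⟨hu0, hu1, l, hl0, hlN, hlk, hl⟩, hmax⟩ := Int.exists_greatest_of_bdd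
    (P := fun u => i0 ≤ u ∧ u ≤ i1 ∧ ∃ l, 0 ≤ l ∧ l ≤ N ∧ l ≠ k ∧ q u = p l) ⟨i1, fun z hz => hz.2.1⟩
    ⟨i0, le_rfl, hq.1, j, hj.1, hj.2, hjk, h0⟩
  refine ⟨l, u, hl0, hlN, hlk, hu0, hu1, hl, fun hjl => cheap_of_path ht hl0 hjl hk.2
    ((hq.sub hu0 hu1 le_rfl).restrict fun v hv0 hv1 l' h0' hN' hv => ?_) hl h1 ?_⟩
  · refine or_iff_not_imp_right.2 fun hne => ?_
    have h2 := hmax v ⟨hu0.trans hv0, hv1, l', h0', hN', hne, hv.symm⟩
    rw [le_antisymm h2 hv0, hl] at hv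
    exact hp.geo.2.1 ⟨h0', hN'⟩ ⟨hl0, hlN⟩ hv
  · have h2 := TS_le_cost ht (hq.sub le_rfl hu0 hu1)
    rw [hl, h0] at h2
    have h3 : _ ≤ TS t Set.univ _ _ := hp.pot ht hj ⟨hl0, hlN⟩
    have h4 := cost_add (t := t) (p := q) hu0 hu1
    have h5 := cost_add (t := t) (p := p) hl0 (show l ≤ k by omega)
    linarith

/-- A nearly optimal path from `p j` to `p k` all of whose hits with `p` other than `p j`, `p k` are within `J` of `x ∈ [j-J, k+J]`:
either both ends are close to `x` or there is a long cheap detour near `x`. -/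
theorem near_of_path (ht : ∀ e, 0 ≤ t e) (hp : IsG t a b p N) (hj : 0 ≤ j) (hjk : j < k) (hk : k ≤ N)
    {i0 i1 : ℤ} (hq : PathIn Set.univ q i0 i1) (h0 : q i0 = p j) (h1 : q i1 = p k)
    (hc : cost t q i0 i1 ≤ cost t p j k + C) {M J : ℕ} (hM : 2 ≤ M) {x : ℤ} (hx : j ≤ x ∧ x ≤ k)
    (hhit : ∀ l u, 0 ≤ l → l ≤ N → i0 ≤ u → u ≤ i1 → q u = p l → l = j ∨ l = k ∨ |l - x| ≤ J) :
    Near t p N C M J x ∨ (x - J - M ≤ j ∧ k ≤ x + J + M) := by
  have hc' : cost t q i0 i1 ≤ cost t p 0 k - cost t p 0 j + C := by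
    have h5 := cost_add (t := t) (p := p) hj hjk.le
    linarith
  obtain ⟨l, u, a0, a1, a2, a3, a4, a5, a6⟩ :=
    first_hit ht hp ⟨hj, by omega⟩ ⟨by omega, hk⟩ hjk.ne hq h0 h1 hc'
  obtain ⟨l', u', b0, b1, b2, b3, b4, b5, b6⟩ :=
    last_hit ht hp ⟨hj, by omega⟩ ⟨by omega, hk⟩ hjk.ne hq h0 h1 hc'
  have ha := hhit l u a0 a1 a3 a4 a5
  have hb := hhit l' u' b0 b1 b3 b4 b5
  rw [abs_le] at ha hb
  by_cases h2 : j + M ≤ l
  · exact Or.inl ⟨j, l, a6 (by omega), h2, by omega, by omega⟩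
  by_cases h3 : l' + M ≤ k
  · exact Or.inl ⟨l', k, b6 (by omega), h3, by omega, by omega⟩
  exact Or.inr (by omega)

/-- replacing `p` on `j..k` by a detour gives a self-avoiding path (`glue` twice, `exists_sap`) -/
theorem Det.glue (ht : ∀ e, 0 ≤ t e) (hp : IsG t a b p N) {n : ℤ} (h : Det t p N C j k q n) :
    ∃ w, SAP a b w (j + n + (N - k)) ∧ cost t w 0 (j + n + (N - k)) ≤ T t a b + C ∧
      ∀ u, 0 ≤ u → u ≤ n → w (j + u) = q u := by
  obtain ⟨h0, hjk, hk, hq, hi, hq0, hqn, hc⟩ := h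
  have hn := hq.1
  have e1 : j + (n - 0) = j + n := by rw [sub_zero]
  have hp1 := (hp.geo.1.sub le_rfl h0 (by omega)).glue (hq.mono (Set.subset_univ _)) hq0.symm
  have hc1 := cost_glue (t := t) h0 hn hq0.symm
  rw [e1] at hp1 hc1
  have hB1 : ∀ v, j ≤ v → R151.glue p j q 0 v = q (v - j) := fun v hv => by
    rw [glue_of_ge hq0.symm hv, add_zero]
  have hm : R151.glue p j q 0 (j + n) = p k := by rw [hB1 _ (by omega), add_sub_cancel_left, hqn]
  have hp2 := hp1.glue (hp.geo.1.sub (by omega) hk le_rfl) hm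
  have hc2 := cost_glue (t := t) (i := 0) (by omega) hk hm
  have hA : ∀ v, v ≤ j → R151.glue (R151.glue p j q 0) (j + n) p k v = p v := fun v hv => by
    rw [glue_of_le (by omega), glue_of_le hv]
  have hB : ∀ v, j ≤ v → v ≤ j + n → R151.glue (R151.glue p j q 0) (j + n) p k v = q (v - j) :=
    fun v hv hv' => by rw [glue_of_le hv', hB1 v hv]
  have hC : ∀ v, j + n ≤ v → R151.glue (R151.glue p j q 0) (j + n) p k v = p (v - (j + n) + k) :=
    fun v hv => glue_of_ge hm hv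
  generalize R151.glue (R151.glue p j q 0) (j + n) p k = w at hp2 hc2 hA hB hC
  have hpi : ∀ l l', 0 ≤ l → l ≤ N → 0 ≤ l' → l' ≤ N → p l = p l' → l = l' :=
    fun l l' a b c d e => hp.geo.2.1 ⟨a, b⟩ ⟨c, d⟩ e
  have hqi : ∀ l l', 0 ≤ l → l ≤ n → 0 ≤ l' → l' ≤ n → q l = q l' → l = l' :=
    fun l l' a b c d e => hi ⟨a, b⟩ ⟨c, d⟩ e
  have key : ∀ u l, 0 < u → u < n → 0 ≤ l → l ≤ N → p l ≠ q u := by
    intro u l hu0 hun hl0 hlN e
    rcases hq.2.1 u hu0.le hun.le l hl0 hlN e with rfl | rfl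
    · have := hqi 0 u le_rfl hn hu0.le hun.le (hq0.trans e)
      omega
    · have := hqi n u hn le_rfl hu0.le hun.le (hqn.trans e)
      omega
  have hinj : ∀ v v', 0 ≤ v → v < v' → v' ≤ j + n + (N - k) → w v ≠ w v' := by
    intro v v' hv hvv hv' e
    by_cases a1 : v ≤ j
    · rw [hA v a1] at e
      by_cases a2 : v' ≤ j
      · rw [hA v' a2] at e
        have := hpi _ _ hv (by omega) (by omega) (by omega) e
        omega
      by_cases a3 : j + n ≤ v'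
      · rw [hC v' a3] at e
        have := hpi _ _ hv (by omega) (by omega) (by omega) e
        omega
      · rw [hB v' (by omega) (by omega)] at e
        exact key _ _ (by omega) (by omega) hv (by omega) e
    by_cases a2 : j + n ≤ v
    · rw [hC v a2, hC v' (by omega)] at e
      have := hpi _ _ (by omega) (by omega) (by omega) (by omega) e
      omega
    rw [hB v (by omega) (by omega)] at e
    by_cases a3 : j + n ≤ v'
    · rw [hC v' a3] at e
      exact key _ _ (by omega) (by omega) (by omega) (by omega) e.symm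
    · rw [hB v' (by omega) (by omega)] at e
      have := hqi _ _ (by omega) (by omega) (by omega) (by omega) e
      omega
  obtain ⟨w', hw, hw'⟩ := exists_sap hp2 fun v hv v' hv' e => by
    rcases lt_trichotomy v v' with h | h | h
    · exact absurd e (hinj v v' hv.1 h hv'.2)
    · exact h
    · exact absurd e.symm (hinj v' v hv'.1 h hv.2)
  rw [hA 0 h0, hC _ (by omega), show j + n + (N - k) - (j + n) + k = N by ring, hp.start, hp.stop] at hw
  refine ⟨w', hw, ?_, fun u hu hu' => ?_⟩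
  · have h1 := cost_add (t := t) (p := p) h0 (show j ≤ k by omega)
    have h2 := cost_add (t := t) (p := p) (show 0 ≤ k by omega) hk
    rw [cost_congr hw', hc2, hc1, ← hp.cost_eq]
    linarith
  · rw [hw' _ (by omega) (by omega), hB _ (by omega) (by omega), add_sub_cancel_left]

/-- `cover2` for the intervals `[j, k-1]` of all long cheap pairs, `Cheap.det` and choice -/
theorem exists_fam (ht : ∀ e, 0 ≤ t e) (p : ℤ → V) (N : ℤ) (C : ℝ) (M : ℕ) :
    ∃ F : Fam t p N (C + 1) M, ∀ x, Cov t p N C M x → ∃ a ∈ F.I, a.1 ≤ x ∧ x < a.2 := by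
  classical
  have h : ∀ a : ℤ × ℤ, ∃ q n, Cheap t p N C a.1 a.2 → Det t p N (C + 1) a.1 a.2 q n := fun a => by
    by_cases h : Cheap t p N C a.1 a.2
    · obtain ⟨q, n, h'⟩ := h.det ht
      exact ⟨q, n, fun _ => h'⟩
    · exact ⟨p, 0, fun h' => absurd h' h⟩
  choose q n hq using h
  obtain ⟨J, hJ, h1, h2⟩ := cover2 ((Finset.Icc 0 N ×ˢ Finset.Icc 0 N).filter
    fun a : ℤ × ℤ => Cheap t p N C a.1 a.2 ∧ a.1 + M ≤ a.2) (fun a => a.1) fun a => a.2 - 1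
  refine ⟨⟨J, q, n, fun a ha => ?_, fun x => ?_⟩, ?_⟩
  · have h3 := (Finset.mem_filter.1 (hJ ha)).2
    exact ⟨hq a h3.1, h3.2⟩
  · refine le_trans (le_of_eq ?_) (h2 x)
    congr 1
    exact Finset.filter_congr fun a _ => by omega
  · rintro x ⟨j, k, h3, h4, h5, h6⟩
    obtain ⟨b, hb, h7, h8⟩ := h1 (j, k) (Finset.mem_filter.2 ⟨by
      obtain ⟨a0, a1, a2, -⟩ := h3
      simp only [Finset.mem_product, Finset.mem_Icc]
      omega, h3, h4⟩) x h5 (by dsimp only; omega)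
    exact ⟨b, hb, h7, by omega⟩

end Crest.Agent.R151.PA
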