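import Crest.Agent.R151.AGeo

/-! R151/A: the one-edge lowering identity summed over a block; concentration of the score. -/

set_option autoImplicit false
open MeasureTheory ProbabilityTheory Crest.ProbabilityR.FirstPassage Filter Topology
open scoped ENNReal

namespace Crest.Agent.R151.PA

variable {G : Measure ℝ} [IsProbabilityMeasure G] [NullSingletonClass G]

/-- `peierls_marked` with `η = 1/2`, `B = Iio q`; `exists_quantile` -/
theorem exists_QD (hG : Hyp G) : Nonempty (QD G) := by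
  obtain ⟨p0, h0, h1⟩ := peierls_marked G (η := 1 / 2) (by norm_num)
  obtain ⟨q, δ, a1, a2, a3, a4⟩ := exists_quantile G hG.nonneg h0
  refine ⟨⟨q, δ, a1, a2, a4, fun x n => le_of_eq_of_le ?_ (h1 _ measurableSet_Iio a3 x n)⟩⟩
  simp only [cnt, Set.mem_Iio, one_div_mul_eq_div]

variable (Q : QD G)

theorem QD.bnd_ge : 1 ≤ Q.bnd := by
  exact (one_le_div Q.p_pos).2 measureReal_le_one
theorem QD.Zs_mem (s : ℝ) : -Q.bnd ≤ Q.Zs s ∧ Q.Zs s ≤ 1 := by
  have h1 := Q.bnd_ge
  have h2 : G.real (Set.Ici Q.q) / G.real (Set.Ico 0 (Q.q - Q.δ)) ≤ Q.bnd :=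
    div_le_div_of_nonneg_right measureReal_le_one Q.p_pos.le
  have h3 : 0 ≤ G.real (Set.Ici Q.q) / G.real (Set.Ico 0 (Q.q - Q.δ)) := by positivity
  unfold QD.Zs
  split_ifs <;> constructor <;> linarith
theorem QD.measurable_Zs : Measurable Q.Zs := by
  exact (Measurable.ite measurableSet_Ici measurable_const measurable_const).sub
    ((Measurable.ite measurableSet_Ico measurable_const measurable_const).const_mul _)
theorem akern_int {α : Type} [MeasurableSpace α] {μ : Measure α} [IsFiniteMeasure μ] {F : α → ℝ} (hm : Measurable F)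
    {C : ℝ} (hb : ∀ t, |F t| ≤ C) : Integrable F μ :=
  Integrable.of_bound hm.aestronglyMeasurable C (Eventually.of_forall hb)

theorem QD.akern_Zs {φ : ℝ → ℝ} (hφ : Integrable φ G) : ∫ s, φ s * Q.Zs s ∂G =
    ∫ s in Set.Ici Q.q, φ s ∂G - G.real (Set.Ici Q.q) * (Q.bnd * ∫ s in Set.Ico 0 (Q.q - Q.δ), φ s ∂G) := by
  rw [← integral_indicator measurableSet_Ici, ← integral_indicator measurableSet_Ico, ← mul_assoc,
    ← integral_const_mul, ← integral_sub (hφ.indicator measurableSet_Ici)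
      ((hφ.indicator measurableSet_Ico).const_mul _)]
  refine integral_congr_ae (Eventually.of_forall fun s => ?_)
  simp only [QD.Zs, QD.bnd, Set.indicator_apply, Set.mem_Ici, Set.mem_Ico]
  split_ifs <;> ring

theorem QD.akern_abs (s : ℝ) : |Q.Zs s| ≤ Q.bnd := abs_le.2 ⟨(Q.Zs_mem s).1, (Q.Zs_mem s).2.trans Q.bnd_ge⟩

theorem QD.integral_Zs : ∫ s, Q.Zs s ∂G = 0 := by
  have h := Q.akern_Zs (integrable_const (1 : ℝ))
  have h0 := Q.p_pos.ne'
  simp only [one_mul, setIntegral_const, smul_eq_mul, mul_one, QD.bnd] at h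
  rw [h]
  field_simp
  ring
theorem QD.measurable_ZB (B : Finset (Sym2 V)) : Measurable (Q.ZB B) := by
  exact Finset.measurable_sum _ fun e _ => Q.measurable_Zs.comp (measurable_pi_apply e)
theorem QD.dependsOnly_ZB (B : Finset (Sym2 V)) : DependsOnly (Q.ZB B) B := by
  exact fun t t' h => Finset.sum_congr rfl fun e he => by rw [h e he]
theorem QD.abs_ZB_le (B : Finset (Sym2 V)) (t : Env) : |Q.ZB B t| ≤ B.card * Q.bnd := by
  refine (Finset.abs_sum_le_sum_abs _ _).trans ((Finset.sum_le_card_nsmul _ _ _ fun e _ => Q.akern_abs _).trans ?_)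
  rw [nsmul_eq_mul]
/-- Hoeffding: `hasSubgaussianMGF_of_mem_Icc_of_integral_eq_zero` on `[-bnd, bnd]`, `measure_sum_ge_le_of_iIndepFun`
(`iIndepFun_eval`), for `Zs` and `-Zs`.  (If `B = ∅` the set is empty.) -/
theorem QD.tail_ZB (B : Finset (Sym2 V)) {τ n : ℝ} (hτ : 0 < τ) (hn : 0 < n) (hB : (B.card : ℝ) ≤ n) :
    (iidLaw G).real {t | τ < |Q.ZB B t|} ≤ 2 * Real.exp (-(τ ^ 2 / (2 * n * Q.bnd ^ 2))) := by
  have hb : 0 < Q.bnd := one_pos.trans_le Q.bnd_ge
  have h1 : ∀ e ∈ B, HasSubgaussianMGF (fun t : Env => Q.Zs (t e)) ((‖Q.bnd - -Q.bnd‖₊ / 2) ^ 2) (iidLaw G) :=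
    fun e _ => hasSubgaussianMGF_of_mem_Icc_of_integral_eq_zero
      (Q.measurable_Zs.comp (measurable_pi_apply e)).aemeasurable
      (Eventually.of_forall fun t => abs_le.1 (Q.akern_abs _)) (by
        have := integral_map (μ := iidLaw G) (measurable_pi_apply e).aemeasurable (f := Q.Zs)
          Q.measurable_Zs.aestronglyMeasurable
        rw [(measurePreserving_eval G e).map_eq] at this
        exact this.symm.trans Q.integral_Zs)
  have h2 := HasSubgaussianMGF.sum_of_iIndepFun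
    ((iIndepFun_eval G).comp (fun _ => Q.Zs) fun _ => Q.measurable_Zs) h1
  have h3 : HasSubgaussianMGF (Q.ZB B) (NNReal.mk (n * Q.bnd ^ 2) (by positivity)) (iidLaw G) :=
    ⟨h2.integrable_exp_mul, fun s => (h2.mgf_le s).trans (by
      have e : ((∑ _e ∈ B, (‖Q.bnd - -Q.bnd‖₊ / 2) ^ 2 : NNReal) : ℝ) = B.card * Q.bnd ^ 2 := by
        rw [Finset.sum_const, nsmul_eq_mul]
        push_cast
        rw [Real.norm_of_nonneg (by linarith)]
        ring
      rw [e, NNReal.coe_mk]
      gcongr)⟩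
  have h4 := h3.measure_ge_le hτ.le
  have h5 := h3.neg.measure_ge_le hτ.le
  rw [NNReal.coe_mk, neg_div, ← mul_assoc] at h4 h5
  refine (measureReal_mono (s₂ := {t | τ ≤ Q.ZB B t} ∪ {t | τ ≤ (-Q.ZB B) t}) fun t ht => ?_).trans
    ((measureReal_union_le _ _).trans (by linarith))
  rcases lt_abs.1 (show τ < |Q.ZB B t| from ht) with h | h
  exacts [Or.inl h.le, Or.inr h.le]

/-- average of `Φ` after resampling `e` below `q - δ` -/
noncomputable def QD.low (e : Sym2 V) (Φ : Env → ℝ) (t : Env) : ℝ :=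
  Q.bnd * ∫ s in Set.Ico 0 (Q.q - Q.δ), Φ (Function.update t e s) ∂G

theorem akern_upd (e : Sym2 V) {F : Env → ℝ} (hm : Measurable F) {C : ℝ} (hb : ∀ t, |F t| ≤ C) :
    ∫ t, F t ∂iidLaw G = ∫ t, ∫ s, F (Function.update t e s) ∂G ∂iidLaw G := by
  have h := measurePreserving_update G e
  have h1 := integral_map (μ := (iidLaw G).prod G) h.aemeasurable (f := F) hm.aestronglyMeasurable
  rw [h.map_eq] at h1
  exact h1.trans (integral_prod _ (akern_int (hm.comp h.measurable) fun x => hb _))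

theorem QD.akern_low_le (e : Sym2 V) {Φ : Env → ℝ} (hm : Measurable Φ) {C : ℝ} (hb : ∀ t, |Φ t| ≤ C) {t : Env}
    {K : ℝ} (h : ∀ s, 0 ≤ s → s < Q.q - Q.δ → Φ (Function.update t e s) ≤ K) : Q.low e Φ t ≤ K := by
  have h1 := setIntegral_mono_on (μ := G) (akern_int (hm.comp (measurable_update t)) fun s => hb _).integrableOn
    (integrable_const K).integrableOn measurableSet_Ico fun s (hs : s ∈ Set.Ico 0 (Q.q - Q.δ)) => h s hs.1 hs.2
  rw [setIntegral_const, smul_eq_mul] at h1
  rw [QD.low, QD.bnd, one_div, inv_mul_le_iff₀ Q.p_pos]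
  exact h1

/-- `A t = low e Φ t` does not depend on `t e`.  By `measurePreserving_update` and Fubini, `E[1{q ≤ t e} A] = G(Ici q) E[A]` and
`E[A] = bnd · E[1{t e ∈ Ico 0 (q-δ)} Φ]`. -/
theorem QD.integral_low (e : Sym2 V) {Φ : Env → ℝ} (hm : Measurable Φ) {C : ℝ} (hb : ∀ t, |Φ t| ≤ C) :
    Measurable (Q.low e Φ) ∧ (∀ t, |Q.low e Φ t| ≤ C) ∧
      ∫ t, (if Q.q ≤ t e then Φ t - Q.low e Φ t else 0) ∂iidLaw G = ∫ t, Φ t * Q.Zs (t e) ∂iidLaw G := by
  have hC : 0 ≤ C := (abs_nonneg _).trans (hb 0)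
  have h1 : Measurable (Q.low e Φ) :=
    (StronglyMeasurable.integral_prod_right' (ν := G.restrict (Set.Ico 0 (Q.q - Q.δ)))
      (hm.comp (measurePreserving_update G e).measurable).stronglyMeasurable).measurable.const_mul _
  have h2 : ∀ t, |Q.low e Φ t| ≤ C := fun t => by
    have := norm_setIntegral_le_of_norm_le_const (μ := G) (s := Set.Ico 0 (Q.q - Q.δ)) (measure_lt_top _ _)
      (f := fun s => Φ (Function.update t e s)) fun s _ => hb _
    rw [QD.low, QD.bnd, one_div, abs_mul, abs_of_pos (inv_pos.2 Q.p_pos), inv_mul_le_iff₀ Q.p_pos, mul_comm]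
    exact this
  refine ⟨h1, h2, ?_⟩
  rw [akern_upd e (F := fun t => if Q.q ≤ t e then Φ t - Q.low e Φ t else 0) (Measurable.ite (measurableSet_le measurable_const (measurable_pi_apply e)) (hm.sub h1)
    measurable_const) (C := C + C) fun t => ?_,
    akern_upd e (F := fun t => Φ t * Q.Zs (t e)) (hm.mul (Q.measurable_Zs.comp (measurable_pi_apply e))) (C := C * Q.bnd) fun t => ?_]
  · refine integral_congr_ae (Eventually.of_forall fun t => ?_)
    have hφ : Integrable (fun s => Φ (Function.update t e s)) G :=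
      akern_int (hm.comp (measurable_update t)) fun s => hb _
    have e1 : ∀ s, Q.low e Φ (Function.update t e s) = Q.low e Φ t := fun s => by
      simp only [QD.low, Function.update_idem]
    simp only [Function.update_self, Function.comp_apply, e1]
    rw [Q.akern_Zs hφ, ← QD.low, ← smul_eq_mul, ← setIntegral_const, ← integral_sub hφ.integrableOn
      (integrable_const _).integrableOn, ← integral_indicator measurableSet_Ici]
    rfl
  · rw [abs_mul]
    exact mul_le_mul (hb t) (Q.akern_abs _) (abs_nonneg _) hC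
  · split_ifs
    · exact (abs_sub _ _).trans (add_le_add (hb t) (h2 t))
    · rw [abs_zero]
      linarith

/-- `g = max (Σ_{e ∈ B} if q ≤ t e then Φ t - low e Φ t else 0) 0`; every term is `≥ 0` for `t ≥ 0` (almost surely) and `≥ d` for `e ∈ D` -/
theorem QD.kernel (hG : Hyp G) (B : Finset (Sym2 V)) {Φ : Env → ℝ} (hm : Measurable Φ) {C : ℝ}
    (hb : ∀ t, |Φ t| ≤ C)
    (hmono : ∀ t, (∀ e, 0 ≤ t e) → ∀ e ∈ B, Q.q ≤ t e → ∀ s, 0 ≤ s → s < Q.q - Q.δ →
      Φ (Function.update t e s) ≤ Φ t) :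
    ∃ g : Env → ℝ, Integrable g (iidLaw G) ∧ (∀ t, 0 ≤ g t) ∧
      ∫ t, g t ∂iidLaw G = ∫ t, Φ t * Q.ZB B t ∂iidLaw G ∧
      ∀ t, (∀ e, 0 ≤ t e) → ∀ (D : Finset (Sym2 V)) (d : ℝ), D ⊆ B →
        (∀ e ∈ D, Q.q ≤ t e ∧ ∀ s, 0 ≤ s → s < Q.q - Q.δ → Φ (Function.update t e s) ≤ Φ t - d) →
          d * D.card ≤ g t := by
  have hC : 0 ≤ C := (abs_nonneg _).trans (hb 0)
  have hi : ∀ e, Integrable (fun t : Env => if Q.q ≤ t e then Φ t - Q.low e Φ t else 0) (iidLaw G) := fun e =>
    akern_int (Measurable.ite (measurableSet_le measurable_const (measurable_pi_apply e))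
      (hm.sub (Q.integral_low e hm hb).1) measurable_const) (C := C + C) fun t => by
        split_ifs
        · exact (abs_sub _ _).trans (add_le_add (hb t) ((Q.integral_low e hm hb).2.1 t))
        · rw [abs_zero]
          linarith
  have hi' : ∀ e, Integrable (fun t : Env => Φ t * Q.Zs (t e)) (iidLaw G) := fun e =>
    akern_int (hm.mul (Q.measurable_Zs.comp (measurable_pi_apply e))) (C := C * Q.bnd) fun t => by
      rw [abs_mul]
      exact mul_le_mul (hb t) (Q.akern_abs _) (abs_nonneg _) hC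
  have h0 : ∀ t : Env, (∀ e, 0 ≤ t e) → ∀ e ∈ B, 0 ≤ if Q.q ≤ t e then Φ t - Q.low e Φ t else 0 := fun t ht e he => by
    split_ifs with h
    · exact sub_nonneg.2 (Q.akern_low_le e hm hb (hmono t ht e he h))
    · exact le_rfl
  refine ⟨fun t => max (∑ e ∈ B, if Q.q ≤ t e then Φ t - Q.low e Φ t else 0) 0,
    (integrable_finsetSum B fun e _ => hi e).pos_part, fun t => le_max_right _ _, ?_, fun t ht D d hD h => ?_⟩
  · rw [integral_congr_ae ((ae_nonneg G hG.nonneg).mono fun t ht => max_eq_left (Finset.sum_nonneg (h0 t ht))),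
      integral_finsetSum B fun e _ => hi e]
    simp only [QD.ZB, Finset.mul_sum]
    rw [integral_finsetSum B fun e _ => hi' e]
    exact Finset.sum_congr rfl fun e _ => (Q.integral_low e hm hb).2.2
  · refine le_trans ?_ ((Finset.sum_le_sum_of_subset_of_nonneg hD fun e he _ => h0 t ht e he).trans (le_max_left _ _))
    rw [mul_comm, ← nsmul_eq_mul]
    refine Finset.card_nsmul_le_sum _ _ _ fun e he => ?_
    rw [if_pos (h e he).1]
    linarith [Q.akern_low_le e hm hb (h e he).2]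

/-- split according to `|ZB| ≤ τ` -/
theorem QD.integral_mul_ZB_le (B : Finset (Sym2 V)) {Φ : Env → ℝ} (hm : Measurable Φ) {C τ : ℝ} (hC : 0 ≤ C)
    (hτ : 0 ≤ τ) {H : Set Env} (hH : MeasurableSet H) (h0 : ∀ t, 0 ≤ Φ t ∧ Φ t ≤ C) (hs : ∀ t, t ∉ H → Φ t = 0) :
    ∫ t, Φ t * Q.ZB B t ∂iidLaw G ≤ C * (τ * (iidLaw G).real H +
      B.card * Q.bnd * (iidLaw G).real (H ∩ {t | τ < |Q.ZB B t|})) := by
  have hH' : MeasurableSet (H ∩ {t | τ < |Q.ZB B t|}) :=
    hH.inter (measurableSet_lt measurable_const (Q.measurable_ZB B).abs)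
  have i1 : Integrable (H.indicator (1 : Env → ℝ)) (iidLaw G) := (integrable_const 1).indicator hH
  have i2 : Integrable ((H ∩ {t | τ < |Q.ZB B t|}).indicator (1 : Env → ℝ)) (iidLaw G) :=
    (integrable_const 1).indicator hH'
  rw [← integral_indicator_one hH, ← integral_indicator_one hH', ← integral_const_mul, ← integral_const_mul,
    ← integral_add (i1.const_mul _) (i2.const_mul _), ← integral_const_mul]
  refine integral_mono (akern_int (hm.mul (Q.measurable_ZB B)) (C := C * (B.card * Q.bnd)) fun t => ?_)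
    (((i1.const_mul _).add (i2.const_mul _)).const_mul _) fun t => ?_
  · rw [abs_mul, abs_of_nonneg (h0 t).1]
    exact mul_le_mul (h0 t).2 (Q.abs_ZB_le B t) (abs_nonneg _) hC
  · have a1 : Φ t * Q.ZB B t ≤ C * |Q.ZB B t| :=
      (mul_le_mul_of_nonneg_left (le_abs_self _) (h0 t).1).trans (mul_le_mul_of_nonneg_right (h0 t).2 (abs_nonneg _))
    have a2 := Q.abs_ZB_le B t
    by_cases h1 : t ∈ H
    · refine a1.trans (mul_le_mul_of_nonneg_left ?_ hC)
      by_cases h2 : τ < |Q.ZB B t|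
      · simp only [Set.indicator_of_mem h1, Set.indicator_of_mem (show t ∈ H ∩ {t | τ < |Q.ZB B t|} from ⟨h1, h2⟩),
          Pi.one_apply]
        linarith
      · simp only [Set.indicator_of_mem h1,
          Set.indicator_of_notMem (show t ∉ H ∩ {t | τ < |Q.ZB B t|} from fun h => h2 h.2), Pi.one_apply]
        linarith
    · simp [h1, hs t h1]

end Crest.Agent.R151.PA
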