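import Crest.Agent.R151.AFarD
import Crest.Agent.R151.AFarP
import Crest.Agent.R151.AClose

/-! R151/A: (Loc) few rows have a long cheap detour near their exit index; (UI) uniform integrability of the crude repairs. -/

set_option autoImplicit false
open MeasureTheory ProbabilityTheory Crest.ProbabilityR.FirstPassage Filter Topology
open scoped ENNReal

namespace Crest.Agent.R151.PA

variable {G : Measure ℝ} [IsProbabilityMeasure G] [NullSingletonClass G] (P : Setup G)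

theorem sum_inv_two_pow_le (s0 sT : ℕ) : ∑ s ∈ Finset.Ico s0 sT, 1 / ((2 ^ s : ℕ) : ℝ) ≤ 2 / 2 ^ s0 := by
  rcases le_total sT s0 with h | h
  · rw [Finset.Ico_eq_empty_of_le h, Finset.sum_empty]
    positivity
  · have key : ∑ s ∈ Finset.Ico s0 sT, 1 / ((2 ^ s : ℕ) : ℝ) = 2 / 2 ^ s0 - 2 / 2 ^ sT := by
      induction sT, h using Nat.le_induction with
      | base => simp
      | succ n hn ih =>
        rw [Finset.sum_Ico_succ_top hn, ih, pow_succ]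
        push_cast
        field_simp
        ring
    rw [key]
    exact sub_le_self _ (by positivity)

omit [IsProbabilityMeasure G] [NullSingletonClass G] in
theorem aloc_cap (h : ℕ) : (P.cap h : ℝ) = P.C0 * SS h := by
  rw [Setup.cap, Nat.cast_mul]

omit [IsProbabilityMeasure G] [NullSingletonClass G] in
theorem aloc_C0 : (0 : ℝ) < P.C0 := Nat.cast_pos.2 P.C0_ge

omit [IsProbabilityMeasure G] [NullSingletonClass G] in
theorem aloc_z {C1 : ℝ} {h : ℕ} {z : V} (hz : P.Adm C1 h z) : z.2 ≤ 2 * (P.cap h : ℤ) := by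
  have h1 := Setup.adm_cap P hz
  have h2 : (SS h : ℤ) ≤ P.cap h := Nat.cast_le.2 (P.SS_le_cap h)
  omega

omit [IsProbabilityMeasure G] [NullSingletonClass G] in
theorem aloc_ev (M : ℕ) : ∀ᶠ h : ℕ in atTop, M ≤ P.cap h :=
  (tendsto_SS.eventually_ge_atTop M).mono fun h hh => hh.trans (P.SS_le_cap h)

theorem aloc_mid {h hT : ℕ} (h1 : 1 ≤ h) (hh : h ≤ hT) {y : ℤ} (hy : y ≤ 2 * SS hT) :
    (h : ℝ) ^ 69 * (y / SS h + 1 : ℝ) ≤ 3 * SS hT / h := by
  have a1 : (0 : ℝ) < h := Nat.cast_pos.2 h1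
  have a2 : (SS h : ℝ) ≤ SS hT := Nat.cast_le.2 (SS_mono hh)
  have a3 : (y : ℝ) ≤ 2 * SS hT := by exact_mod_cast hy
  have a4 : (SS h : ℝ) = (h : ℝ) ^ 69 * h := by rw [SS, Nat.cast_pow, ← pow_succ]
  have a5 : (0 : ℝ) < (h : ℝ) ^ 69 := by positivity
  rw [a4] at a2 ⊢
  generalize (h : ℝ) ^ 69 = w at *
  rw [le_div_iff₀ a1]
  calc w * (y / (w * h) + 1) * h = y + w * h := by field_simp
    _ ≤ _ := by linarith

/-- `n = SS (2^sT)`, `Λ = cap`.  Choose `s0` with `Big (2^s0)`, `C + 1 ≤ c gg (2^s0)` and `(C8 + 3 + C9 C0) 2 / 2^s0 ≤ η/4` (`clean_GB`, `far_GB` for `C + 1`,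
`h^69 (z.2/S + 1) ≤ 3 n / h`); then `J` from `win_GB`, `C'` from `LT_GB`, `M'` from `ends_GB`; `cnt_cov_le`. -/
theorem cov_GB {C1 : ℝ} (hC1 : 0 ≤ C1) {C : ℝ} (hC : 0 ≤ C) {η : ℝ} (hη : 0 < η) : ∃ M : ℕ,
    ∀ᶠ s : ℕ in atTop, ∀ z, P.Adm C1 (2 ^ s) z → GB G 0 z (P.cap (2 ^ s))
      (fun t p N => cnt (Finset.Ico 0 z.2) fun i => ∃ b, IsExit p N i b ∧ Cov t p N C M b)
      (η * SS (2 ^ s)) := by
  obtain ⟨C8, hC8, h8⟩ := clean_GB P hC1
  obtain ⟨C9, hC9, h9⟩ := far_GB P (C := C + 1) (by linarith)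
  have hC0 := aloc_C0 P
  have hη' : 0 < η / 5 / P.C0 := by positivity
  have t2 : Tendsto (fun s : ℕ => ((2 ^ s : ℕ) : ℝ)) atTop atTop :=
    tendsto_natCast_atTop_atTop.comp tendsto_two_pow
  have t3 : Tendsto (fun s : ℕ => (gg (2 ^ s) : ℝ)) atTop atTop :=
    tendsto_natCast_atTop_atTop.comp (tendsto_gg.comp tendsto_two_pow)
  obtain ⟨s0, hb, s1, s2⟩ := ((tendsto_two_pow.eventually P.eventually_big).and
    ((t3.eventually_ge_atTop ((C + 1) / P.c)).and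
      (t2.eventually_ge_atTop ((C8 + 3 + C9 * P.C0) * 2 / (η / 5))))).exists
  rw [div_le_iff₀' P.c_pos] at s1
  have s3 : (C8 + 3 + C9 * P.C0) * (2 / 2 ^ s0) ≤ η / 5 := by
    rw [div_le_iff₀' (by positivity)] at s2
    rw [← mul_div_assoc, div_le_iff₀ (by positivity)]
    exact_mod_cast s2
  obtain ⟨J, hJ⟩ := win_GB P hC1 (8 * gg (2 ^ s0) + 3 * KK) (η := η / 5) (by positivity)
  obtain ⟨C', hC', hL⟩ := LT_GB P.hyp (8 * gg (2 ^ s0)) hη'
  obtain ⟨M', hM', hE⟩ := ends_GB P.hyp (C + 1 + 2 * C') J hη'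
  refine ⟨2 * (M' + J), ?_⟩
  filter_upwards [eventually_ge_atTop s0, tendsto_two_pow.eventually hJ,
    tendsto_two_pow.eventually (aloc_ev P M')] with s hs hW hΛ z hz
  have hn : (0 : ℝ) ≤ SS (2 ^ s) := Nat.cast_nonneg _
  have hpow : ∀ {a b : ℕ}, a ≤ b → 2 ^ a ≤ 2 ^ b := fun h => Nat.pow_le_pow_right two_pos h
  have hsum := GB.sum (G := G) (a := 0) (b := z) (Λ := P.cap (2 ^ s)) (Finset.Ico s0 s)
    (c := fun s' => (C8 + 3 + C9 * P.C0) * SS (2 ^ s) * (1 / ((2 ^ s' : ℕ) : ℝ)))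
    (F := fun s' t p N => cnt (Finset.Ico 0 N) (fun x => ¬ P.Clean (2 ^ s') t p N x) +
        ((2 ^ s' : ℕ) : ℝ) ^ 69 * (z.2 / SS (2 ^ s') + 1 : ℝ) +
        SS (2 ^ s') * cnt (Finset.Icc 0 (z.2 / SS (2 ^ s'))) (P.FarEv (2 ^ s') (C + 1) z t p N))
    fun s' hs' => by
      obtain ⟨a1, a2⟩ := Finset.mem_Ico.1 hs'
      have b1 := Setup.Big.mono P hb (hpow a1)
      have b2 := hpow a2.le
      refine (((h8 _ _ b1 b2 z hz).add (GB.const (c := 3 * SS (2 ^ s) / (2 ^ s' : ℕ)) (by positivity))).add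
        (h9 _ b1 _ z ((SS_mono b2).trans (P.SS_le_cap _)) hz.1 (aloc_z P hz))).mono P.hyp
        (fun t p N _ _ _ => ?_) (le_of_eq ?_)
      · have := aloc_mid Nat.one_le_two_pow b2 (Setup.adm_cap P hz)
        linarith
      · rw [aloc_cap]
        ring
  refine (((((hW z hz).add (hL 0 z _ (by omega))).add (hE 0 z _ hΛ)).add
    (h8 _ _ (Setup.Big.mono P hb (hpow hs)) le_rfl z hz)).add hsum).mono P.hyp
    (fun t p N ht hp _ => cnt_cov_le P (fun e => (ht.pos e).le) hp hs hb hC' ⟨hz.1, Setup.adm_cap P hz⟩ s1 hM') ?_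
  have e1 : η / 5 / P.C0 * P.cap (2 ^ s) = η / 5 * SS (2 ^ s) := by
    rw [aloc_cap]
    field_simp
  have e2 : C8 * SS (2 ^ s) / (2 ^ s : ℕ) ≤ η / 5 * SS (2 ^ s) := by
    rw [mul_div_right_comm]
    refine mul_le_mul_of_nonneg_right (le_trans ?_ s3) hn
    rw [div_eq_mul_one_div]
    have : (2 : ℝ) ^ s0 ≤ (2 ^ s : ℕ) := by exact_mod_cast hpow hs
    have := mul_pos hC9 hC0
    gcongr
    · linarith
    · norm_num
  have e3 : ∑ s' ∈ Finset.Ico s0 s, (C8 + 3 + C9 * P.C0) * SS (2 ^ s) * (1 / ((2 ^ s' : ℕ) : ℝ)) ≤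
      η / 5 * SS (2 ^ s) := by
    rw [← Finset.mul_sum]
    calc _ ≤ (C8 + 3 + C9 * P.C0) * SS (2 ^ s) * (2 / 2 ^ s0) :=
          mul_le_mul_of_nonneg_left (sum_inv_two_pow_le s0 s) (by positivity)
      _ = (C8 + 3 + C9 * P.C0) * (2 / 2 ^ s0) * SS (2 ^ s) := by ring
      _ ≤ _ := mul_le_mul_of_nonneg_right s3 hn
  linarith

theorem Cov.mono {t : Env} {p : ℤ → V} {N b : ℤ} {C : ℝ} {M M' : ℕ} (h : Cov t p N C M b) (hM : M' ≤ M) :
    Cov t p N C M' b := by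
  obtain ⟨j, k, h1, h2, h3⟩ := h
  exact ⟨j, k, h1, by omega, h3⟩

/-- `Near.cov_or_ends`, `cov_GB`, `ends_GB`, `M` the maximum -/
theorem loc_GB {C1 : ℝ} (hC1 : 0 ≤ C1) {C : ℝ} (hC : 0 ≤ C) (J : ℕ) {η : ℝ} (hη : 0 < η) : ∃ M : ℕ, 2 ≤ M ∧
    ∀ᶠ s : ℕ in atTop, ∀ z, P.Adm C1 (2 ^ s) z → GB G 0 z (P.cap (2 ^ s))
      (fun t p N => cnt (Finset.Ico 0 z.2) fun i => ∃ b, IsExit p N i b ∧ Near t p N C M J b)
      (η * SS (2 ^ s)) := by
  have hC0 := aloc_C0 P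
  obtain ⟨M1, h1⟩ := cov_GB P hC1 hC (half_pos hη)
  obtain ⟨M2, hM2, h2⟩ := ends_GB P.hyp C J (η := η / 2 / P.C0) (by positivity)
  refine ⟨max M1 M2, hM2.trans (le_max_right _ _), ?_⟩
  filter_upwards [h1, tendsto_two_pow.eventually (aloc_ev P M2)] with s hs hΛ z hz
  refine ((hs z hz).add (h2 0 z _ hΛ)).mono P.hyp (fun t p N _ _ _ => ?_) (le_of_eq ?_)
  · refine le_trans (cnt_mono (Q' := fun i => (∃ b, IsExit p N i b ∧ Cov t p N C M1 b) ∨
      ∃ b, IsExit p N i b ∧ Ends t p N C M2 J b) le_rfl ?_)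
      (cnt_or_le.trans (add_le_add le_rfl (cnt_exit_le _ _)))
    rintro i - ⟨b, hb, hn⟩
    exact hn.cov_or_ends.imp (fun h => ⟨b, hb, h.mono (le_max_left _ _)⟩)
      fun h => ⟨b, hb, h.mono le_rfl (le_max_right _ _) le_rfl⟩
  · rw [aloc_cap]
    field_simp
    ring

/-- the field of large bypass variables at `x` (gap above or below the row of `x`) -/
noncomputable def Ytr (σ : ℤ) (M1 : ℝ) (x : V) (t : Env) : ℝ :=
  tr M1 (Yh σ x.2 t x) + tr M1 (Yh σ (x.2 - 1) t x)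

omit [NullSingletonClass G] in
theorem aloc_tail (hG : Hyp G) : ∃ C > 0, ∀ M1 : ℝ, 1 ≤ M1 → ∀ (σ i : ℤ) (x : V) (s : ℝ), 0 < s →
    (iidLaw G).real {t | s < tr M1 (Yh σ i t x)} ≤ C / M1 / s ^ 3 := by
  obtain ⟨C, hC, h⟩ := tail_Yh hG
  refine ⟨C, hC, fun M1 hM σ i x s hs => ?_⟩
  have hm : 0 < max s M1 := lt_max_of_lt_left hs
  refine (measureReal_mono (fun t ht => ?_) (measure_ne_top _ _)).trans ((h σ i x _ hm).trans ?_)
  · simp only [Set.mem_ofPred_eq, tr] at ht ⊢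
    split_ifs at ht with h1
    · exact max_lt ht h1
    · exact absurd ht hs.le.not_gt
  · rw [div_div]
    refine div_le_div_of_nonneg_left hC.le (by positivity) ?_
    rw [show 500 = 497 + 3 from rfl, pow_add]
    exact mul_le_mul ((le_max_right s M1).trans
      (le_self_pow₀ (hM.trans (le_max_right _ _)) (by norm_num)))
      (pow_le_pow_left₀ hs.le (le_max_left _ _) 3) (by positivity) (by positivity)

theorem aloc_Ytr_nonneg (σ : ℤ) {M1 : ℝ} (h : 0 ≤ M1) (x : V) (t : Env) : 0 ≤ Ytr σ M1 x t :=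
  add_nonneg (tr_nonneg h) (tr_nonneg h)

/-- `site_sum_GB` with `r = 3 KK + 2`.  `P(Ytr > s) ≤ 2 C / (max (s/2) M1)^500 ≤ (M'/s)^3` with `M'^3 = 16 C / M1^497` (`M1 ≥ 1`). -/
theorem Ytr_GB (hG : Hyp G) {η : ℝ} (hη : 0 < η) : ∃ M1 > (0 : ℝ), ∀ σ : ℤ, (σ = 1 ∨ σ = -1) →
    ∀ (a b : V) (Λ : ℕ), 1 ≤ Λ →
      GB G a b Λ (fun t p N => ∑ l ∈ Finset.Icc 0 N, Ytr σ M1 (p l) t) (η * Λ) := by
  obtain ⟨C, hC, h1⟩ := aloc_tail hG
  obtain ⟨C', hC', h2⟩ := site_sum_GB hG (3 * KK + 2)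
  have hM : 0 < η / C' := by positivity
  have hM1 : 1 ≤ max 1 (16 * C / (η / C') ^ 3) := le_max_left _ _
  have hM2 : 16 * C / (η / C') ^ 3 ≤ max 1 (16 * C / (η / C') ^ 3) := le_max_right _ _
  generalize max 1 (16 * C / (η / C') ^ 3) = M1 at hM1 hM2
  have hM0 : 0 < M1 := one_pos.trans_le hM1
  refine ⟨M1, hM0, fun σ hσ a b Λ hΛ => ?_⟩
  have hσ' : |σ| ≤ 1 := by rcases hσ with rfl | rfl <;> simp
  refine (h2 (Ytr σ M1) (fun x => ((measurable_tr M1).comp (measurable_Yh σ _ x)).add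
    ((measurable_tr M1).comp (measurable_Yh σ _ x))) (aloc_Ytr_nonneg σ hM0.le) (fun x t t' h => ?_) _ hM
    (fun x s hs => ?_) a b Λ hΛ).mono hG (fun _ _ _ _ _ _ => le_rfl) (le_of_eq ?_)
  · have e := fun i => dependsOnly_Yh hσ' i x t t' (by exact_mod_cast h)
    simp only [Ytr, e]
  · refine (measureReal_mono (s₂ := {t | s / 2 < tr M1 (Yh σ x.2 t x)} ∪ {t | s / 2 < tr M1 (Yh σ (x.2 - 1) t x)})
      (fun t ht => ?_) (measure_ne_top _ _)).trans ((measureReal_union_le _ _).trans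
        ((add_le_add (h1 M1 hM1 _ _ _ _ (half_pos hs)) (h1 M1 hM1 _ _ _ _ (half_pos hs))).trans ?_))
    · by_contra hc
      simp only [Set.mem_union, Set.mem_ofPred_eq, not_or, not_lt, Ytr] at hc ht
      linarith [hc.1, hc.2]
    · rw [div_le_iff₀' (by positivity), ← div_le_iff₀ hM0] at hM2
      calc _ = 16 * C / M1 / s ^ 3 := by field_simp; norm_num
        _ ≤ (η / C') ^ 3 / s ^ 3 := by gcongr
        _ = _ := by rw [← div_pow]
  · field_simp

open Classical in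
theorem aloc_row {t : Env} {p : ℤ → V} {N σ : ℤ} {J : ℕ} {M1 M : ℝ} (hM1 : 0 < M1)
    (hM : 2 * M1 * (2 * J + 1) ≤ M) (i : ℤ) :
    tr M (Sv σ i t p N) ≤ ∑ k ∈ (Finset.Ico 0 N).filter (Cross p i),
      (2 * tr M1 (Yh σ i t (p k)) + M1 * if ¬ Win p N 1 J k then 1 else 0) := by
  have h0 : ∀ k, 0 ≤ tr M1 (Yh σ i t (p k)) := fun k => tr_nonneg hM1.le
  have h1 : ∀ k, (0 : ℝ) ≤ M1 * if ¬ Win p N 1 J k then 1 else 0 := fun k => by split_ifs <;> positivity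
  have h2 : ∀ k, Yh σ i t (p k) ≤ M1 + tr M1 (Yh σ i t (p k)) := fun k => le_add_tr hM1.le
  unfold tr
  split_ifs with hS
  swap
  · exact Finset.sum_nonneg fun k _ => add_nonneg (mul_nonneg zero_le_two (h0 k)) (h1 k)
  by_cases hw : ∃ k0 ∈ (Finset.Ico 0 N).filter (Cross p i), Win p N 1 J k0
  · obtain ⟨k0, hk0, hw⟩ := hw
    have hc : (((Finset.Ico 0 N).filter (Cross p i)).card : ℝ) ≤ 2 * J + 1 := by
      rw [← ablock_card k0 J]
      refine Nat.cast_le.2 (Finset.card_le_card fun k hk => ?_)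
      simp only [Finset.mem_filter, Finset.mem_Ico, Cross] at hk hk0
      have := abs_le.1 (hw k hk.1.1 hk.1.2.le (abs_le.2 ⟨by omega, by omega⟩))
      exact Finset.mem_Icc.2 ⟨by omega, by omega⟩
    have h3 : Sv σ i t p N ≤ _ := Finset.sum_le_sum fun k _ => h2 k
    rw [Finset.sum_add_distrib, Finset.sum_const, nsmul_eq_mul] at h3
    rw [Finset.sum_add_distrib, ← Finset.mul_sum]
    have h4 := Finset.sum_nonneg (s := (Finset.Ico 0 N).filter (Cross p i)) fun k _ => h1 k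
    have h5 := mul_le_mul_of_nonneg_right hc hM1.le
    unfold tr at h3
    linarith
  · refine Finset.sum_le_sum fun k hk => ?_
    rw [if_pos fun h => hw ⟨k, hk, h⟩]
    have := h0 k
    have := h2 k
    unfold tr at *
    linarith

/-- Row `i`, `X` its crossing steps, `U = Σ_X tr M1 Yh`, `Sv ≤ M1 |X| + U`.  If `|X| ≤ 2J+1` and `Sv > M ≥ 2 M1 (2J+1)` then `Sv ≤ 2U`.  If `|X| > 2J + 1` no crossing step
satisfies `Win p N 1 J` (crossing steps have rows in `{i, i+1}`).  Every step crosses at most one gap. -/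
theorem sum_tr_Sv_le {t : Env} (ht : ∀ e, 0 ≤ t e) {p : ℤ → V} {N σ : ℤ} {J : ℕ} {M1 M : ℝ} (hM1 : 0 < M1)
    (hM : 2 * M1 * (2 * J + 1) ≤ M) (I : Finset ℤ) :
    ∑ i ∈ I, tr M (Sv σ i t p N) ≤ 2 * ∑ l ∈ Finset.Icc 0 N, Ytr σ M1 (p l) t +
      M1 * cnt (Finset.Ico 0 N) fun x => ¬ Win p N 1 J x := by
  classical
  have h1 : ∀ k, (0 : ℝ) ≤ M1 * if ¬ Win p N 1 J k then 1 else 0 := fun k => by split_ifs <;> positivity
  have h2 := fun k => aloc_Ytr_nonneg σ hM1.le (p k) t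
  refine (Finset.sum_le_sum fun i _ => aloc_row hM1 hM i).trans ?_
  simp only [Finset.sum_filter]
  rw [Finset.sum_comm]
  refine (Finset.sum_le_sum (g := fun k => 2 * Ytr σ M1 (p k) t + M1 * if ¬ Win p N 1 J k then 1 else 0)
    fun k _ => ?_).trans ?_
  · by_cases hk : ∃ i0, Cross p i0 k
    · obtain ⟨i0, hi0⟩ := hk
      refine (Finset.sum_le_sum (g := fun i => if i = i0 then
        2 * Ytr σ M1 (p k) t + M1 * (if ¬ Win p N 1 J k then 1 else 0) else 0) fun i _ => ?_).trans ?_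
      · by_cases hi : Cross p i k
        · have e : i = i0 := by
            unfold Cross at hi hi0
            omega
          rw [if_pos hi, if_pos e]
          refine add_le_add (mul_le_mul_of_nonneg_left ?_ zero_le_two) (le_of_eq (by congr))
          rcases hi with ⟨h, -⟩ | ⟨h, -⟩
          · rw [← h]
            exact le_add_of_nonneg_right (tr_nonneg hM1.le)
          · rw [show i = (p k).2 - 1 by omega]
            exact le_add_of_nonneg_left (tr_nonneg hM1.le)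
        · rw [if_neg hi]
          split_ifs
          all_goals first | rfl | (have := h2 k; positivity)
      · rw [Finset.sum_ite_eq']
        split_ifs
        all_goals first | rfl | (have := h2 k; positivity)
    · rw [Finset.sum_eq_zero fun i _ => if_neg fun h => hk ⟨i, h⟩]
      exact add_nonneg (mul_nonneg zero_le_two (h2 k)) (h1 k)
  · rw [Finset.sum_add_distrib, ← Finset.mul_sum, ← Finset.mul_sum, cnt_eq_sum]
    refine add_le_add (mul_le_mul_of_nonneg_left (Finset.sum_le_sum_of_subset_of_nonneg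
      Finset.Ico_subset_Icc_self fun k _ _ => h2 k) zero_le_two)
      (le_of_eq (by congr!))

theorem ui_GB {C1 : ℝ} (hC1 : 0 ≤ C1) {η : ℝ} (hη : 0 < η) : ∃ M > (0 : ℝ), ∀ᶠ h : ℕ in atTop, ∀ z,
    P.Adm C1 h z → ∀ σ : ℤ, (σ = 1 ∨ σ = -1) → ∀ I : Finset ℤ,
      GB G 0 z (P.cap h) (fun t p N => ∑ i ∈ I, tr M (Sv σ i t p N)) (η * SS h) := by
  have hC0 := aloc_C0 P
  obtain ⟨M1, hM1, h1⟩ := Ytr_GB P.hyp (η := η / 4 / P.C0) (by positivity)
  obtain ⟨J, h2⟩ := win_GB P hC1 1 (η := η / 2 / M1) (by positivity)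
  refine ⟨2 * M1 * (2 * J + 1), by positivity, ?_⟩
  filter_upwards [h2, aloc_ev P 1] with h hW hΛ z hz σ hσ I
  refine (((h1 σ hσ 0 z _ hΛ).smul zero_le_two).add ((hW z hz).smul hM1.le)).mono P.hyp
    (fun t p N ht _ _ => sum_tr_Sv_le (fun e => (ht.pos e).le) hM1 le_rfl I) (le_of_eq ?_)
  rw [aloc_cap]
  field_simp
  ring

end Crest.Agent.R151.PA
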