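import Crest.Agent.R151.AShear
import Crest.Agent.R151.AAnimal

/-! R151/A: the local site events `LT`, `LTs`, `KL` are local, rare, and what their complements give. -/

set_option autoImplicit false
open MeasureTheory ProbabilityTheory Crest.ProbabilityR.FirstPassage Filter Topology
open scoped ENNReal

namespace Crest.Agent.R151.PA

variable {t : Env} {x : V} {r R : ℕ} {C : ℝ}

theorem asite_dep_LT (r : ℕ) (C : ℝ) (x : V) :
    DependsOnly (fun t => t ∈ LT r C x) (edgesIn (ball x (r + 3 * KK))) := by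
  intro t t' h
  have := fun u v => dependsOnly_TS (ball x (r + 3 * KK)) u v t t' h
  simp only [LT, Set.mem_ofPred_eq] at this ⊢
  simp only [this]

theorem asite_dep_KL (r : ℕ) (C : ℝ) (R : ℕ) (x : V) : DependsOnly (fun t => t ∈ KL r C R x) (edgesIn (ball x R)) := by
  intro t t' h
  have := fun u v => dependsOnly_TS (ball x R) u v t t' h
  simp only [KL, Set.mem_ofPred_eq] at this ⊢
  simp only [this]

theorem locEv_LT (r : ℕ) (C : ℝ) : LocEv 1 (r + 3 * KK) (LT r C) := by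
  refine ⟨fun c => ?_, fun c => by simpa using asite_dep_LT r C c⟩
  have : LT r C c = ⋃ u ∈ ball c r, ⋃ v ∈ ball c r, {t | C < TS t (ball c (r + 3 * KK)) u v} := by
    ext t
    simp [LT]
  rw [this]
  exact MeasurableSet.biUnion (Set.to_countable _) fun u _ => MeasurableSet.biUnion (Set.to_countable _) fun v _ =>
    measurableSet_lt measurable_const (measurable_TS _ _ _)

theorem locEv_LTs {σ : ℤ} (hσ : σ = 1 ∨ σ = -1) (r : ℕ) (C : ℝ) : LocEv 1 (r + 3 * KK + 1) (LTs σ r C) := by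
  refine ⟨fun c => measurable_sh _ ((locEv_LT r C).meas c), fun c => ?_⟩
  have := dependsOnly_sh_gap (i := c.2) (σ := σ) (by rcases hσ with rfl | rfl <;> simp) (asite_dep_LT r C c)
  simpa [LTs] using this
theorem locEv_KL (r : ℕ) (C : ℝ) (R : ℕ) : LocEv 1 R (KL r C R) := by
  refine ⟨fun c => ?_, fun c => by simpa using asite_dep_KL r C R c⟩
  have : KL r C R c = ⋃ u ∈ ball c r, ⋃ v ∈ {v | nrm (v - c) = R}, {t | TS t (ball c R) u v ≤ C} := by
    ext t
    simp [KL]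
  rw [this]
  exact MeasurableSet.biUnion (Set.to_countable _) fun u _ => MeasurableSet.biUnion (Set.to_countable _) fun v _ =>
    measurableSet_le (measurable_TS _ _ _) measurable_const


/-- `exists_geo_of_finite`, `conn_ball` -/
theorem path_of_not_LT (ht : ∀ e, 0 ≤ t e) (h : t ∉ LT r C x) {u v : V} (hu : u ∈ ball x r) (hv : v ∈ ball x r) :
    ∃ q n, PathIn (ball x (r + 3 * KK)) q 0 n ∧ q 0 = u ∧ q n = v ∧ cost t q 0 n ≤ C := by
  have hs : ball x r ⊆ ball x (r + 3 * KK) := ball_subset_ball (by simp [nrm])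
  obtain ⟨q, n, hq, rfl, rfl⟩ := exists_geo_of_finite ht (ball_finite x _) (conn_ball (hs hu) (hs hv))
  exact ⟨q, n, hq.1, rfl, rfl, hq.2.2.trans_le (not_lt.1 fun hc => h ⟨_, hu, _, hv, hc⟩)⟩

theorem T_le_of_not_LT (ht : ∀ e, 0 ≤ t e) (h : t ∉ LT r C x) {u v : V} (hu : u ∈ ball x r)
    (hv : v ∈ ball x r) : T t u v ≤ C := by
  obtain ⟨q, n, hq, rfl, rfl, hc⟩ := path_of_not_LT ht h hu hv
  exact (T_le_cost ht hq).trans hc

/-- stop the path at its first visit to `nrm (· - x) = R` (`PathIn.exists_first`, `lip1_nrm`) -/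
theorem nrm_lt_of_not_KL (ht : ∀ e, 0 ≤ t e) (h : t ∉ KL r C R x) (hr : r ≤ R) {q : ℤ → V} {i j : ℤ}
    (hq : PathIn Set.univ q i j) (hi : q i ∈ ball x r) (hc : cost t q i j ≤ C) :
    ∀ k, i ≤ k → k ≤ j → nrm (q k - x) < R := by
  intro k hik hkj
  by_contra hk
  obtain ⟨k', h1, h2, h3, h4⟩ := (hq.sub le_rfl hik hkj).exists_first (lip1_nrm x) (c := R)
    (le_trans hi (by exact_mod_cast hr)) (not_lt.1 hk)
  have hp : PathIn (ball x R) q i k' := (hq.sub le_rfl h1 (h2.trans hkj)).restrict fun l hl hl' =>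
    hl'.eq_or_lt.elim (fun e => e ▸ h3.le) fun hl'' => (h4 l hl hl'').le
  exact h ⟨_, hi, _, h3, (TS_le_cost ht hp).trans ((cost_sub_le ht le_rfl (h2.trans hkj)).trans hc)⟩


variable {G : Measure ℝ} [IsProbabilityMeasure G] [NullSingletonClass G]

theorem asite_shift (r : ℕ) (C : ℝ) (x : V) : LT r C x = shift x ⁻¹' LT r C 0 := by
  have h1 : ∀ ρ : ℤ, (fun y => y + x) '' ball 0 ρ = ball x ρ := fun ρ => by
    ext y
    simp [ball, sub_eq_add_neg]
  ext t
  simp only [LT, Set.mem_preimage, Set.mem_ofPred_eq, shift, TS_act (isAut_add x), h1]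
  simp only [← h1 r, Set.exists_mem_image]

/-- `TS_le_ZY` along `exists_staircase` (it stays in the box spanned by `u, v`, inside `ball x r`):
`TS ≤ 2 Σ_{ball} Z + 2 Σ_{ball} Y =: W`, `E W ≤ C r²` uniformly in `x` (`memLp_Zv`, `memLp_Yv`), Markov. -/
theorem prob_LT (hG : Hyp G) (r : ℕ) {π : ℝ} (hπ : 0 < π) :
    ∃ C ≥ (0 : ℝ), ∀ x, (iidLaw G).real (LT r C x) ≤ π := by
  have h0 : ⋂ n : ℕ, LT r n 0 = ∅ := by
    refine Set.eq_empty_of_forall_notMem fun t ht => ?_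
    obtain ⟨M, hM⟩ := (((ball_finite 0 r).prod (ball_finite 0 r)).image
      fun y : V × V => TS t (ball 0 (r + 3 * KK)) y.1 y.2).bddAbove
    obtain ⟨u, hu, v, hv, h⟩ := Set.mem_iInter.1 ht ⌈M⌉₊
    exact (h.trans_le ((hM ⟨(u, v), ⟨hu, hv⟩, rfl⟩).trans (Nat.le_ceil M))).false
  have h1 := tendsto_measure_iInter_atTop (μ := iidLaw G) (s := fun n : ℕ => LT r n 0)
    (fun n => ((locEv_LT r n).meas 0).nullMeasurableSet)
    (fun n m hnm t ⟨u, hu, v, hv, h⟩ => ⟨u, hu, v, hv, lt_of_le_of_lt (by exact_mod_cast hnm) h⟩)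
    ⟨0, measure_ne_top _ _⟩
  rw [h0, measure_empty] at h1
  obtain ⟨n, hn⟩ := (h1.eventually_le_const (ENNReal.ofReal_pos.2 hπ)).exists
  refine ⟨n, Nat.cast_nonneg n, fun x => ?_⟩
  rw [asite_shift, (measurePreserving_shift G x).measureReal_preimage ((locEv_LT r n).meas 0).nullMeasurableSet]
  exact ENNReal.toReal_le_of_le_ofReal hπ.le hn

theorem prob_LTs (σ : ℤ) (r : ℕ) (C : ℝ) (x : V) :
    (iidLaw G).real (LTs σ r C x) = (iidLaw G).real (LT r C x) := by
  exact (measurePreserving_sh G (gap σ x.2)).measureReal_preimage ((locEv_LT r C).meas x).nullMeasurableSet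

theorem asite_KL (hG : Hyp G) (r : ℕ) (C : ℝ) : ∀ᶠ R : ℕ in atTop, ∀ x,
    (iidLaw G).real (KL r C R x) ≤ (2 * r + 1) ^ 2 * (2 * Real.exp (-(R - r : ℕ))) := by
  obtain ⟨θ, hθ, h⟩ := T_lower_tail G hG.nonneg
  filter_upwards [eventually_ge_atTop r, tendsto_natCast_atTop_atTop.eventually_gt_atTop (C / θ + r)] with R hr hR x
  have h1 : (iidLaw G).real (KL r C R x) ≤ (iidLaw G).real (⋃ u ∈ banBall x r,
      {t | ∃ y, ((R - r : ℕ) : ℤ) ≤ nrm (y - u) ∧ T t u y < θ * nrm (y - u)}) := by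
    refine bnear_mono G (ae_nonneg G hG.nonneg) fun t ht ⟨u, hu, v, hv, hc⟩ => ?_
    have h2 : (R : ℤ) - r ≤ nrm (v - u) := by
      have := nrm_add_le (v - u) (u - x)
      rw [sub_add_sub_cancel, hv] at this
      have : nrm (u - x) ≤ r := hu
      omega
    have h3 : (R : ℝ) - r ≤ nrm (v - u) := by exact_mod_cast h2
    refine Set.mem_biUnion (ban_mem_ball.2 hu) ⟨v, by omega, ?_⟩
    refine (T_le_TS ht (conn_ball (le_trans (b := (r : ℤ)) hu (by exact_mod_cast hr)) hv.le)).trans_lt (hc.trans_lt ?_)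
    have : C < (R - r) * θ := (div_lt_iff₀ hθ).1 (by linarith)
    nlinarith
  refine h1.trans ((measureReal_biUnion_finset_le _ _).trans ((Finset.sum_le_card_nsmul _ _ _ fun u _ => h u _).trans_eq ?_))
  rw [ban_card_ball, nsmul_eq_mul]
  push_cast
  rfl

theorem asite_small {A : ℝ} (hA : 0 ≤ A) (r : ℕ) {ε : ℝ} (hε : 0 < ε) :
    ∀ᶠ R : ℕ in atTop, A * (4 * R + 1) ^ 6 * Real.exp (-(R - r : ℕ)) ≤ ε := by
  have h := ((Real.tendsto_pow_mul_exp_neg_atTop_nhds_zero 6).comp tendsto_natCast_atTop_atTop).const_mul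
    (A * 5 ^ 6 * Real.exp r)
  rw [mul_zero] at h
  filter_upwards [h.eventually_le_const hε, eventually_ge_atTop r, eventually_ge_atTop 1] with R h1 h2 h3
  refine le_trans ?_ h1
  have h4 : (1 : ℝ) ≤ R := by exact_mod_cast h3
  rw [Nat.cast_sub h2, neg_sub, sub_eq_add_neg, Real.exp_add]
  calc A * (4 * R + 1) ^ 6 * (Real.exp r * Real.exp (-R)) ≤ A * (5 * R) ^ 6 * (Real.exp r * Real.exp (-R)) := by
        gcongr
        linarith
    _ = _ := by
        simp only [Function.comp]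
        ring

/-- `T ≤ TS`, `T_lower_tail` from each `u ∈ ball x r` with `n = R - r`, `θ (R - r) > C` -/
theorem prob_KL (hG : Hyp G) (r : ℕ) (C : ℝ) {π : ℝ} (hπ : 0 < π) :
    ∀ᶠ R : ℕ in atTop, ∀ x, (iidLaw G).real (KL r C R x) ≤ π := by
  filter_upwards [asite_KL hG r C, asite_small (A := (2 * r + 1) ^ 2 * 2) (by positivity) r hπ] with R h1 h2 x
  refine (h1 x).trans (le_trans ?_ h2)
  have : (1 : ℝ) ≤ (4 * R + 1) ^ 6 := one_le_pow₀ (by linarith [Nat.cast_nonneg (α := ℝ) R])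
  rw [← mul_assoc]
  exact mul_le_mul_of_nonneg_right (le_mul_of_one_le_right (by positivity) this) (Real.exp_pos _).le


theorem LT_GB (hG : Hyp G) (r : ℕ) {η : ℝ} (hη : 0 < η) : ∃ C ≥ (0 : ℝ), ∀ (a b : V) (Λ : ℕ), 1 ≤ Λ →
    GB G a b Λ (fun t p N => cnt (Finset.Icc 0 N) fun l => t ∈ LT r C (p l)) (η * Λ) := by
  obtain ⟨π, hπ, h⟩ := site_GB_small hG (r + 3 * KK) hη
  obtain ⟨C, hC, h'⟩ := prob_LT hG r hπ
  exact ⟨C, hC, h _ (locEv_LT r C) h'⟩

theorem LTs_GB (hG : Hyp G) (r : ℕ) {η : ℝ} (hη : 0 < η) : ∃ C ≥ (0 : ℝ), ∀ σ : ℤ, (σ = 1 ∨ σ = -1) →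
    ∀ (a b : V) (Λ : ℕ), 1 ≤ Λ →
    GB G a b Λ (fun t p N => cnt (Finset.Icc 0 N) fun l => t ∈ LTs σ r C (p l)) (η * Λ) := by
  obtain ⟨π, hπ, h⟩ := site_GB_small hG (r + 3 * KK + 1) hη
  obtain ⟨C, hC, h'⟩ := prob_LT hG r hπ
  exact ⟨C, hC, fun σ hσ => h _ (locEv_LTs hσ r C) fun x => (prob_LTs σ r C x).trans_le (h' x)⟩

theorem asite_cnt {S Λ : ℕ} (hS : 1 ≤ S) (E : V → Set Env) {a b : V} {p : ℤ → V} {N : ℤ} (hp : SAP a b p N)
    (hN : N ≤ Λ) : (cnt (Finset.Icc 0 N) fun l => t ∈ E (p l)) ≤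
      (4 * S + 1) ^ 2 * cellCnt S Λ (fun c => ⋃ x ∈ banBall (corner S c) (2 * S), E x) t p := by
  classical
  have key : ∀ l : ℤ, p l ∈ banBall (corner S (cell S (p (l / S * S)))) (2 * S) := fun l => by
    have h1 := hp.nrm_le (l / S * S) l
    have h2 := nrm_sub_corner hS (p (l / S * S))
    have h3 := nrm_add_le (p l - p (l / S * S)) (p (l / S * S) - corner S (cell S (p (l / S * S))))
    have h4 := abas_div hS l
    rw [sub_add_sub_cancel] at h3
    rw [abs_of_nonneg (by omega)] at h1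
    rw [ban_mem_ball]
    push_cast
    omega
  have := Finset.card_le_mul_card_image_of_maps_to (s := (Finset.Icc 0 N).filter fun l => t ∈ E (p l))
    (t := ((Finset.range (Λ / S + 1)).image fun k : ℕ => cell S (p (k * S))).filter
      fun c => t ∈ ⋃ x ∈ banBall (corner S c) (2 * S), E x)
    (f := fun l => cell S (p (l / S * S))) (fun l hl => by
      obtain ⟨h1, h2⟩ := Finset.mem_filter.1 hl
      obtain ⟨h3, h4⟩ := Finset.mem_Icc.1 h1
      refine Finset.mem_filter.2 ⟨Finset.mem_image.2 ⟨l.toNat / S, ?_, ?_⟩, Set.mem_biUnion (key l) h2⟩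
      · exact Finset.mem_range.2 (Nat.lt_succ_of_le (Nat.div_le_div_right (by omega)))
      · rw [Int.natCast_div, Int.toNat_of_nonneg h3]) ((4 * S + 1) ^ 2) fun c _ => by
      refine (Finset.card_le_card_of_injOn p (t := banBall (corner S c) (2 * S)) (fun l hl => ?_)
        (hp.inj.mono fun l hl => ?_)).trans_eq (by rw [ban_card_ball]; ring)
      · rw [← (Finset.mem_filter.1 hl).2]
        exact key l
      · exact Finset.mem_Icc.1 (Finset.mem_filter.1 (Finset.mem_filter.1 hl).1).1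
  unfold cnt cellCnt
  convert (Nat.cast_le (α := ℝ)).2 this using 1
  · congr
  · push_cast
    congr

/-- Here the range `R` grows as `π` decreases, so `site_GB` cannot be applied directly.  Use cells instead: with `S = R`,
`B c = ⋃_{x ∈ ball (corner S c) (2S)} KL r C R x` is `LocEv S 3`, of probability `≤ (4R+1)² (2r+1)² 2 e^{-(R-r)} =: π_R`
(redo `prob_KL` quantitatively), every index `l` has `p l` within `2S` of the corner of the cell of `p (⌊l/S⌋ S)`, and at most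
`(4R+1)²` indices have `p l` in such a ball; `cell_GB 3` gives `(4R+1)² C (Λ/R) √π_R ≤ η Λ` for large `R`. -/
theorem KL_GB (hG : Hyp G) (r : ℕ) (C : ℝ) {η : ℝ} (hη : 0 < η) : ∀ᶠ R : ℕ in atTop, ∀ (a b : V) (Λ : ℕ),
    R ≤ Λ → GB G a b Λ (fun t p N => cnt (Finset.Icc 0 N) fun l => t ∈ KL r C R (p l)) (η * Λ) := by
  obtain ⟨C0, hC0, h⟩ := cell_GB (G := G) 3
  filter_upwards [asite_KL hG r C, asite_small (A := C0 ^ 2 * ((2 * r + 1) ^ 2 * 2)) (by positivity) r
    (pow_pos hη 2), eventually_ge_atTop 1] with R h1 h2 h3 a b Λ hΛ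
  have hL : LocEv R 3 fun c => ⋃ x ∈ banBall (corner R c) (2 * R), KL r C R x := by
    refine ⟨fun c => Finset.measurableSet_biUnion _ fun x _ => (locEv_KL r C R).meas x, fun c t t' htt => ?_⟩
    simp only [Set.mem_iUnion]
    refine congrArg Exists (funext fun x => congrArg Exists (funext fun hx => ?_))
    refine dependsOnly_mono (asite_dep_KL r C R x) (edgesIn_mono (ball_subset_ball ?_)) t t' htt
    have := ban_mem_ball.1 hx
    change nrm (x - corner R c) + R ≤ _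
    push_cast at this ⊢
    omega
  have h4 := (h R _ h3 hL ((4 * R + 1) ^ 2 * ((2 * r + 1) ^ 2 * (2 * Real.exp (-(R - r : ℕ))))) (by positivity)
    (fun c => (measureReal_biUnion_finset_le _ _).trans ((Finset.sum_le_card_nsmul _ _ _ fun x _ => h1 x).trans_eq (by
      rw [ban_card_ball, nsmul_eq_mul]
      push_cast
      ring))) a b Λ hΛ).smul (k := (4 * R + 1) ^ 2) (by positivity)
  refine h4.mono hG (fun t p N _ hp hN => asite_cnt h3 _ hp.sap hN) ?_
  have h5 : (4 * R + 1 : ℝ) ^ 2 * C0 * √((4 * R + 1) ^ 2 * ((2 * r + 1) ^ 2 * (2 * Real.exp (-(R - r : ℕ))))) ≤ η := by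
    refine le_of_sq_le_sq ?_ hη.le
    rw [mul_pow, Real.sq_sqrt (by positivity)]
    exact le_of_eq_of_le (by ring) h2
  have h6 : (Λ : ℝ) / R ≤ Λ := div_le_self (Nat.cast_nonneg _) (by exact_mod_cast h3)
  calc _ = (4 * R + 1 : ℝ) ^ 2 * C0 * √((4 * R + 1) ^ 2 * ((2 * r + 1) ^ 2 * (2 * Real.exp (-(R - r : ℕ))))) *
        (Λ / R) := by ring
    _ ≤ η * Λ := by gcongr


end Crest.Agent.R151.PA
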