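import Crest.Agent.R151.AHit
import Crest.Agent.R151.ASite

/-! R151/A: either the optimal repair of a single shear is local, or there is a long cheap detour nearby. Deterministic. -/

set_option autoImplicit false
open MeasureTheory ProbabilityTheory Crest.ProbabilityR.FirstPassage Filter Topology
open scoped ENNReal

namespace Crest.Agent.R151.PA

variable {t : Env} {σ i : ℤ} {z : V} {p π : ℤ → V} {N N' : ℤ}

theorem ALocal_cat {S : Set V} {q w : ℤ → V} {a b a' b' : ℤ} (t : Env) (h : PathIn S q a b)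
    (h' : PathIn S w a' b') (e : q b = w a') : ∃ v n, PathIn S v a n ∧ v a = q a ∧ v n = w b' ∧
      cost t v a n = cost t q a b + cost t w a' b' := by
  refine ⟨glue q b w a', b + (b' - a'), h.glue h' e, glue_of_le h.1, ?_, cost_glue h.1 h'.1 e⟩
  rw [glue_of_ge e (by linarith [h'.1])]
  congr 1; ring

theorem ALocal_row {x y : V} {r : ℤ} (h : nrm (x - y) ≤ r) : |x.2 - y.2| ≤ r :=
  le_trans (le_max_right _ _) h

theorem ALocal_tr {q : ℤ → V} {a b : ℤ} (h : PathIn Set.univ q a b) (v : V) :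
    PathIn Set.univ (fun k => q k + v) a b := (h.map (isAut_add v)).mono (Set.subset_univ _)

theorem ALocal_T (ht : ∀ e, 0 ≤ t e) {q : ℤ → V} {a b : ℤ} (h : PathIn Set.univ q a b) :
    T t (q a) (q b) ≤ cost t q a b := TS_le_cost ht h

theorem ALocal_canc (x : V) (s : ℤ) : x + (s, 0) + (-s, 0) = x := by ext <;> simp

theorem ALocal_canc' (x : V) (s : ℤ) : x + (-s, 0) + (s, 0) = x := by ext <;> simp

/-- above the gap, translated back -/
theorem ALocal_up {q : ℤ → V} {u v : ℤ} (h : ∀ k, u ≤ k → k ≤ v → i < (q k).2) :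
    cost t (fun k => q k + (-σ, 0)) u v = cost (sh (gap σ i) t) q u v := by
  rw [← cost_gap_upper (σ := σ) (i := i) (p := fun k => q k + (-σ, 0)) fun k h1 h2 => by
    simpa using h k h1 h2]
  simp only [ALocal_canc']

theorem ALocal_self (x : V) (r : ℕ) : x ∈ ball x r := by
  show nrm (x - x) ≤ r
  rw [sub_self, nrm_eq_zero.2 rfl]; positivity

/-- first crossing: `a + 1` is the first visit to row `i + 1` -/
theorem exists_entry (hp : PathIn Set.univ p 0 N) (h0 : (p 0).2 ≤ i) (hN : i < (p N).2) :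
    ∃ a, 0 ≤ a ∧ a < N ∧ (p a).2 = i ∧ (∀ l, 0 ≤ l → l ≤ a → (p l).2 ≤ i) ∧
      ∀ l, 0 ≤ l → Cross p i l → a ≤ l := by
  obtain ⟨k, h1, h2, h3, h4⟩ := hp.exists_first lip1_snd (c := i + 1) (by omega) (by omega)
  have hk : k ≠ 0 := by rintro rfl; omega
  have h5 := h4 (k - 1) (by omega) (by omega)
  have h6 := lip1_snd _ _ (hp.2.2 (k - 1) (by omega) (by omega))
  rw [sub_add_cancel] at h6
  simp only at h6
  refine ⟨k - 1, by omega, by omega, by omega, fun l a1 a2 => ?_, fun l a1 a2 => ?_⟩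
  · have := h4 l a1 (by omega); omega
  · by_contra hc
    have b1 := h4 l a1 (by omega)
    have b2 := h4 (l + 1) (by omega) (by omega)
    rcases a2 with a2 | a2 <;> omega
theorem Cross.le_exit {b l : ℤ} (hb : IsExit p N i b) (hl : l < N) (h : Cross p i l) : l ≤ b := by
  by_contra hc
  have b1 := hb.2.2.2 l (by omega) (by omega)
  have b2 := hb.2.2.2 (l + 1) (by omega) (by omega)
  rcases h with h | h <;> omega

/-- `T' 0 (z+σ) ≤ cost p 0 a + T' (p a) (p (b+1) + σ) + cost p (b+1) N` (`cost_gap_lower/upper`), both points are in `ball (p b) r` -/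
theorem Dv_le_of_not_LTs (ht : ∀ e, 0 ≤ t e) (hσ : σ = 1 ∨ σ = -1) (hp : IsG t 0 z p N) (hi : 0 ≤ i ∧ i < z.2)
    {b : ℤ} (hb : IsExit p N i b) {r J : ℕ} (hw : Win p N r J b) {C : ℝ} (hL : t ∉ LTs σ (J + 1) C (p b)) :
    Dv σ i z t ≤ C := by
  have hpp := hp.geo.1
  obtain ⟨a, a0, aN, ai, al, -⟩ := exists_entry (i := i) hpp (by rw [hp.start]; exact hi.1)
    (by rw [hp.stop]; exact hi.2)
  have ab : a ≤ b := hb.le_of_row aN.le ai.le
  obtain ⟨b0, bN, bi, bu⟩ := id hb
  have ht' : ∀ e, 0 ≤ sh (gap σ i) t e := sh_nonneg ht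
  have hab := hw a a0 aN.le (by rw [ai, bi]; simp)
  have hL' : sh (gap σ i) t ∉ LT (J + 1) C (p b) := by rw [← bi]; exact hL
  have h1 := ALocal_T ht' (hpp.sub le_rfl a0 aN.le)
  rw [cost_gap_lower al, hp.start] at h1
  have h2 := ALocal_T ht' (ALocal_tr (hpp.sub (i' := b + 1) (by omega) (by omega) le_rfl) (σ, 0))
  rw [cost_gap_upper fun k h1 h2 => bu k (by omega) h2] at h2
  simp only [hp.stop] at h2
  have h3 := T_le_of_not_LT ht' hL' (u := p a) (v := p (b + 1) + (σ, 0))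
    ((hp.sap.nrm_le b a).trans (by push_cast; omega))
    (by
      show nrm _ ≤ _
      rw [hb.next hpp]
      simp only [nrm, Prod.fst_sub, Prod.snd_sub, Prod.fst_add, Prod.snd_add, max_le_iff, abs_le]
      push_cast
      omega)
  have h4 := T_triangle (x := 0) (y := p a) (z := z + (σ, 0)) ht'
  have h5 := T_triangle (x := p a) (y := p (b + 1) + (σ, 0)) (z := z + (σ, 0)) ht'
  have h6 := cost_add (t := t) (p := p) a0 aN.le
  have h7 := cost_add (t := t) (p := p) (i := a) (j := b + 1) (k := N) (by omega) (by omega)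
  have h8 := cost_nonneg (p := p) (i := a) (j := b + 1) ht
  have h9 := hp.cost_eq
  unfold Dv
  linarith

/-- If `p` on `0..j` and `π` on `0..j'` stay in the rows `≤ i` and end at the same point, their costs agree
(each is optimal in its own environment and has the same cost in the other one). -/
theorem cost_lower_eq (ht : ∀ e, 0 ≤ t e) (hp : IsG t 0 z p N) (hπ : IsG (sh (gap σ i) t) 0 (z + (σ, 0)) π N')
    {j j' : ℤ} (hj : 0 ≤ j ∧ j ≤ N) (hj' : 0 ≤ j' ∧ j' ≤ N') (h1 : ∀ l, 0 ≤ l → l ≤ j → (p l).2 ≤ i)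
    (h2 : ∀ l, 0 ≤ l → l ≤ j' → (π l).2 ≤ i) (he : π j' = p j) :
    cost (sh (gap σ i) t) π 0 j' = cost t p 0 j := by
  have ht' : ∀ e, 0 ≤ sh (gap σ i) t e := sh_nonneg ht
  refine le_antisymm ?_ ?_
  · rw [hπ.cost_sub ht' le_rfl hj'.1 hj'.2, he, hπ.start, ← cost_gap_lower (σ := σ) h1]
    have := ALocal_T ht' (hp.geo.1.sub le_rfl hj.1 hj.2)
    rwa [hp.start] at this
  · rw [hp.cost_sub ht le_rfl hj.1 hj.2, ← he, hp.start, cost_gap_lower h2]
    have := ALocal_T ht (hπ.geo.1.sub le_rfl hj'.1 hj'.2)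
    rwa [hπ.start] at this
theorem cost_upper_eq (ht : ∀ e, 0 ≤ t e) (hp : IsG t 0 z p N) (hπ : IsG (sh (gap σ i) t) 0 (z + (σ, 0)) π N')
    {k k' : ℤ} (hk : 0 ≤ k ∧ k ≤ N) (hk' : 0 ≤ k' ∧ k' ≤ N') (h1 : ∀ l, k ≤ l → l ≤ N → i < (p l).2)
    (h2 : ∀ l, k' ≤ l → l ≤ N' → i < (π l).2) (he : π k' = p k + (σ, 0)) :
    cost (sh (gap σ i) t) π k' N' = cost t p k N := by
  have ht' : ∀ e, 0 ≤ sh (gap σ i) t e := sh_nonneg ht
  refine le_antisymm ?_ ?_
  · rw [hπ.cost_sub ht' hk'.1 hk'.2 le_rfl, he, hπ.stop, ← cost_gap_upper (σ := σ) h1]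
    have := ALocal_T ht' (ALocal_tr (hp.geo.1.sub hk.1 hk.2 le_rfl) (σ, 0))
    simpa only [hp.stop] using this
  · rw [hp.cost_sub ht hk.1 hk.2 le_rfl, hp.stop, ← ALocal_up h2]
    have := ALocal_T ht (ALocal_tr (hπ.geo.1.sub hk'.1 hk'.2 le_rfl) (-σ, 0))
    simpa only [hπ.stop, he, ALocal_canc] using this

/-- Let `t' = sh (gap σ i) t`, `a, a'` the entry indices (`exists_entry`) of `p, π`.  `j'` = last index `≤ a'` with `π j' = p j` for some
`j ∈ [0,a]`; `k'` = first index `≥ b'+1` with `π k' = p k + σ` for some `k ∈ [b+1,N]`.  Then `cost t' π j' k' = cost t p j k + D`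
(`cost_lower_eq`, `cost_upper_eq`), `D ≤ C1`.  Let `q` = `π` on `j'..a'`, then a path of `t`-cost `≤ C2` from `π a'` to `π (b'+1) - σ` inside
`ball (π b') (J0+1+3KK)` (`path_of_not_LT`, `sh_gap_neg`; `b' - a' ≤ J0`), then `π - σ` on `b'+1..k'`; `cost t q ≤ cost t p j k + C1 + C2`.
Hits `q u = p l`: on the first part `l = j` or `a < l ≤ b`; on the middle part the row is within `J0+3KK+2` of `i`; on the last part `l = k` or
`a < l ≤ b`; so `|l - b| ≤ J1` by `Win`.  `near_of_path` gives `j, k` within `J1+M` of `b`; `cost t p j k = T ≤ C3`; `π` on `j'..a'` and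
`π - σ` on `b'+1..k'` (reversed) have `t`-cost `≤ C3 + C1` and start in `ball (p b) (J1+M)`, so stay within `R` (`nrm_lt_of_not_KL`);
on `a'..b'+1` the rows are within `J0+1` of `i`.  Hence `π` on `j'..k'` lies in the slab. -/
theorem local_good (ht : ∀ e, 0 ≤ t e) (hσ : σ = 1 ∨ σ = -1) (hp : IsG t 0 z p N)
    (hπ : IsG (sh (gap σ i) t) 0 (z + (σ, 0)) π N') (hi : 0 ≤ i ∧ i < z.2) {b b' : ℤ} (hb : IsExit p N i b)
    (hb' : IsExit π N' i b') {J0 J1 M R : ℕ} {C1 C2 C3 : ℝ} (hM : 2 ≤ M) (hR : J1 + M + J0 + 2 ≤ R)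
    (hw : Win p N (J0 + 3 * KK + 2) J1 b) (hw' : Win π N' 1 J0 b')
    (hL1 : t ∉ LTs σ (J1 + 1) C1 (p b)) (hL2 : sh (gap σ i) t ∉ LTs (-σ) (J0 + 1) C2 (π b'))
    (hL3 : t ∉ LT (J1 + M) C3 (p b)) (hK : t ∉ KL (J1 + M) (C3 + C1) R (p b))
    (hn : ¬ Near t p N (C1 + C2) M J1 b) : GoodD R σ i t p N (Dv σ i z t) := by
  have hpp := hp.geo.1
  have hππ := hπ.geo.1
  have ht' : ∀ e, 0 ≤ sh (gap σ i) t e := sh_nonneg ht
  obtain ⟨a, a0, aN, ai, al, ac⟩ := exists_entry (i := i) hpp (by rw [hp.start]; exact hi.1)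
    (by rw [hp.stop]; exact hi.2)
  obtain ⟨a', a0', aN', ai', al', -⟩ := exists_entry (i := i) hππ (by rw [hπ.start]; exact hi.1)
    (by rw [hπ.stop]; simpa using hi.2)
  have ab : a ≤ b := hb.le_of_row aN.le ai.le
  have ab' : a' ≤ b' := hb'.le_of_row aN'.le ai'.le
  obtain ⟨b0, bN, bi, bu⟩ := id hb
  obtain ⟨b0', bN', bi', bu'⟩ := id hb'
  have hab := abs_le.1 (hw a a0 aN.le (by rw [ai, bi, sub_self, abs_zero]; positivity))
  have hab' := abs_le.1 (hw' a' a0' aN'.le (by rw [ai', bi']; simp))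
  obtain ⟨j', ⟨j0', ja', j, j0, ja, ej⟩, jmax⟩ := Int.exists_greatest_of_bdd
    (P := fun u => 0 ≤ u ∧ u ≤ a' ∧ ∃ l, 0 ≤ l ∧ l ≤ a ∧ π u = p l) ⟨a', fun u hu => hu.2.1⟩
    ⟨0, le_rfl, a0', 0, le_rfl, a0, by rw [hπ.start, hp.start]⟩
  obtain ⟨k', ⟨kb', kN', k, kb, kN, ek⟩, kmin⟩ := Int.exists_least_of_bdd
    (P := fun u => b' + 1 ≤ u ∧ u ≤ N' ∧ ∃ l, b + 1 ≤ l ∧ l ≤ N ∧ π u = p l + (σ, 0))
    ⟨b' + 1, fun u hu => hu.1⟩ ⟨N', by omega, le_rfl, N, by omega, le_rfl, by rw [hπ.stop, hp.stop]⟩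
  have e1 := cost_lower_eq ht hp hπ ⟨j0, by omega⟩ ⟨j0', by omega⟩ (fun l h1 h2 => al l h1 (by omega))
    (fun l h1 h2 => al' l h1 (by omega)) ej
  have e2 := cost_upper_eq ht hp hπ ⟨by omega, kN⟩ ⟨by omega, kN'⟩ (fun l h1 h2 => bu l (by omega) h2)
    (fun l h1 h2 => bu' l (by omega) h2) ek
  have hD : cost (sh (gap σ i) t) π j' k' = cost t p j k + Dv σ i z t := by
    have c1 := cost_add (t := t) (p := p) (i := 0) (j := j) (k := N) j0 (by omega)
    have c2 := cost_add (t := t) (p := p) (i := j) (j := k) (k := N) (by omega) kN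
    have c3 := cost_add (t := sh (gap σ i) t) (p := π) (i := 0) (j := j') (k := N') j0' (by omega)
    have c4 := cost_add (t := sh (gap σ i) t) (p := π) (i := j') (j := k') (k := N') (by omega) kN'
    have c5 := hp.cost_eq
    have c6 := hπ.cost_eq
    unfold Dv
    linarith
  have hD1 := Dv_le_of_not_LTs ht hσ hp hi hb hw hL1
  have c1 := cost_add (t := sh (gap σ i) t) (p := π) (i := j') (j := a') (k := k') ja' (by omega)
  have c2 := cost_add (t := sh (gap σ i) t) (p := π) (i := a') (j := b' + 1) (k := k') (by omega) kb'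
  have c3 := cost_nonneg (p := π) (i := j') (j := a') ht'
  have c4 := cost_nonneg (p := π) (i := a') (j := b' + 1) ht'
  have c5 := cost_nonneg (p := π) (i := b' + 1) (j := k') ht'
  have f1 : cost (sh (gap σ i) t) π j' a' = cost t π j' a' :=
    cost_gap_lower fun l h1 h2 => al' l (by omega) h2
  have f2 := ALocal_up (t := t) (σ := σ) (i := i) (q := π) (u := b' + 1) (v := k')
    fun l h1 h2 => bu' l (by omega) (by omega)
  have hL2' : t ∉ LT (J0 + 1) C2 (π b') := by
    rw [← sh_gap_neg σ i t]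
    have h : sh (gap (-σ) (π b').2) (sh (gap σ i) t) ∉ LT (J0 + 1) C2 (π b') := hL2
    rwa [bi'] at h
  obtain ⟨w, n, w1, w2, w3, w4⟩ := path_of_not_LT ht hL2' (u := π a') (v := π (b' + 1) + (-σ, 0))
    ((hπ.sap.nrm_le b' a').trans (by rw [abs_le]; push_cast; omega))
    (by
      show nrm _ ≤ _
      rw [hb'.next hππ]
      simp only [nrm, Prod.fst_sub, Prod.snd_sub, Prod.fst_add, Prod.snd_add, max_le_iff, abs_le]
      push_cast
      omega)
  have p1 : PathIn Set.univ π j' a' := hππ.sub j0' ja' aN'.le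
  have p3 : PathIn Set.univ (fun l => π l + (-σ, 0)) (b' + 1) k' :=
    ALocal_tr (hππ.sub (by omega) kb' kN') _
  have ek' : π k' + (-σ, 0) = p k := by rw [ek, ALocal_canc]
  let S : Set V := {v | ∀ l, 0 ≤ l → l ≤ N → v = p l → l = j ∨ l = k ∨ |l - b| ≤ J1}
  have s1 : PathIn S π j' a' := p1.restrict fun u h1 h2 l l0 lN e => by
    have r := al' u (by omega) h2
    rw [e] at r
    have lb := hb.le_of_row lN r
    by_cases hla : l ≤ a
    · have := jmax u ⟨by omega, h2, l, l0, hla, e⟩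
      have eu : u = j' := by omega
      rw [eu, ej] at e
      exact Or.inl (hp.geo.2.1 ⟨j0, by omega⟩ ⟨l0, lN⟩ e).symm
    · exact Or.inr (Or.inr (by rw [abs_le]; omega))
  have s2 : PathIn S w 0 n := w1.mono fun v hv l l0 lN e => by
    refine Or.inr (Or.inr (hw l l0 lN ?_))
    have r := ALocal_row hv
    rw [e, bi', abs_le] at r
    rw [bi, abs_le]
    push_cast at r ⊢
    omega
  have s3 : PathIn S (fun l => π l + (-σ, 0)) (b' + 1) k' := p3.restrict fun u h1 h2 l l0 lN e => by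
    have r := bu' u (by omega) (by omega)
    have e' : π u = p l + (σ, 0) := by rw [← e, ALocal_canc']
    rw [e'] at r
    simp only [Prod.snd_add, add_zero] at r
    have la : a < l := by
      by_contra hc
      have := al l l0 (by omega)
      omega
    by_cases hlb : b + 1 ≤ l
    · have := kmin u ⟨h1, by omega, l, hlb, lN, e'⟩
      have eu : u = k' := by omega
      simp only [eu, ek'] at e
      exact Or.inr (Or.inl (hp.geo.2.1 ⟨by omega, kN⟩ ⟨l0, lN⟩ e).symm)
    · exact Or.inr (Or.inr (by rw [abs_le]; omega))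
  obtain ⟨v, m, v1, v2, v3, v4⟩ := ALocal_cat t s1 s2 w2.symm
  obtain ⟨q, m', q1, q2, q3, q4⟩ := ALocal_cat t v1 s3 (v3.trans w3)
  have hnear := near_of_path (C := C1 + C2) (J := J1) ht hp j0 (by omega : j < k) kN
    (q1.mono (Set.subset_univ _)) (q2.trans (v2.trans ej)) (q3.trans ek') (by linarith) hM
    (x := b) ⟨by omega, by omega⟩ fun l u l0 lN u1 u2 e => q1.2.1 u u1 u2 l l0 lN e
  obtain ⟨jb, kb2⟩ := hnear.resolve_left hn
  have mj : p j ∈ ball (p b) (J1 + M : ℕ) :=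
    (hp.sap.nrm_le b j).trans (by rw [abs_le]; push_cast; omega)
  have mk : p k ∈ ball (p b) (J1 + M : ℕ) :=
    (hp.sap.nrm_le b k).trans (by rw [abs_le]; push_cast; omega)
  have hC3 := T_le_of_not_LT ht hL3 mj mk
  rw [← hp.cost_sub ht j0 (by omega) kN] at hC3
  have g1 := nrm_lt_of_not_KL ht hK (by omega) p1 (by rw [ej]; exact mj) (by linarith)
  have g3 := nrm_lt_of_not_KL ht hK (by omega) p3.rev (by simp only [neg_neg, ek']; exact mk)
    (by rw [cost_rev (p := fun l => π l + (-σ, 0))]; linarith)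
  have hR' : (J1 : ℤ) + M + J0 + 2 ≤ R := by exact_mod_cast hR
  have hin : PathIn (rows (i - R) (i + 1 + R)) π j' k' :=
    (hππ.sub j0' (by omega) kN').restrict fun u h1 h2 => by
      show _ ∧ _
      by_cases k1 : u ≤ a'
      · have r := abs_le.1 (ALocal_row (g1 u h1 k1).le)
        omega
      by_cases k2 : b' + 1 ≤ u
      · have r := abs_le.1 (ALocal_row (g3 (-u) (by omega) (by omega)).le)
        simp only [neg_neg, Prod.snd_add, add_zero] at r
        omega
      · have r := abs_le.1 ((ALocal_row (hπ.sap.nrm_le b' u)).trans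
          (show |u - b'| ≤ J0 by rw [abs_le]; omega))
        omega
  refine ⟨j, k, j0, by omega, kN, fun l l0 lN hc => ?_, fun l h1 h2 => ?_, ?_⟩
  · have := ac l l0 hc
    have := hc.le_exit hb lN
    omega
  · have r := abs_le.1 ((ALocal_row (hp.sap.nrm_le b l)).trans
      (show |l - b| ≤ J1 + M by rw [abs_le]; omega))
    show _ ∧ _
    omega
  · rw [psi_gap_of_le (al j j0 ja), psi_gap_of_lt (bu k (by omega) kN), ← ej, ← ek, ← hD]
    exact TS_le_cost ht' hin

/-- A point `q u` of a long detour close to `x = p b`.  Join `q u` to `p b` inside `ball (p b) (r + 3KK)` at cost `≤ C'`.  With `φ = cost t p 0`: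
`cost q u n ≥ T (q u) (p k) ≥ φ k - φ b - C'`, so `q` on `0..u` followed by the connection costs `≤ φ b - φ j + C + 2C'`; its hits other than
`p j` are in the ball (note `q u' = p k` only for `u' = n`; if `u = n` then `p k` is in the ball), so within `J` of `b`.  If `b - j ≥ M' + J`,
`first_hit` gives an end near `b`; otherwise `k - b ≥ M' + J` and `last_hit` (connection, then `q` on `u..n`) gives a start near `b`. -/
theorem ends_of_close (ht : ∀ e, 0 ≤ t e) {a a' : V} (hp : IsG t a a' p N) {C C' : ℝ} {j k n b u : ℤ} {q : ℤ → V}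
    (hq : Det t p N C j k q n) (hb : j ≤ b ∧ b ≤ k) (hu : 0 ≤ u ∧ u ≤ n) {r J M' : ℕ} (hM' : 2 ≤ M')
    (hM : j + 2 * (M' + J) ≤ k) (hclose : q u ∈ ball (p b) r) (hw : Win p N (r + 3 * KK) J b)
    (hL : t ∉ LT r C' (p b)) : Ends t p N (C + 2 * C') M' J b := by
  obtain ⟨j0, jk, kN, q1, q2, q3, q4, q5⟩ := hq
  have qu : PathIn Set.univ q 0 n := q1.mono (Set.subset_univ _)
  have hball : ∀ v ∈ ball (p b) (r + 3 * KK), ∀ l, 0 ≤ l → l ≤ N → p l = v → |l - b| ≤ J := by
    intro v hv l l0 lN e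
    refine hw l l0 lN ?_
    rw [e]
    exact_mod_cast ALocal_row hv
  have hcl : q u ∈ ball (p b) (r + 3 * KK) := (show nrm (q u - p b) ≤ r from hclose).trans (by omega)
  have c1 := cost_add (t := t) (p := q) hu.1 hu.2
  have c2 := cost_add (t := t) (p := p) (i := 0) (j := j) (k := k) j0 (by omega)
  have t1 := T_le_of_not_LT ht hL hclose (ALocal_self _ _)
  have t2 := T_le_of_not_LT ht hL (ALocal_self _ _) hclose
  by_cases hc : j + (M' + J) ≤ b
  · obtain ⟨w, m, w1, w2, w3, w4⟩ := path_of_not_LT ht hL hclose (ALocal_self _ _)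
    let S : Set V := {v | ∀ l, 0 ≤ l → l ≤ N → p l = v → l = j ∨ |l - b| ≤ J}
    have s1 : PathIn S q 0 u := (q1.sub le_rfl hu.1 hu.2).restrict fun u' h1 h2 l l0 lN e => by
      rcases q1.2.1 u' h1 (by omega) l l0 lN e with h | h
      · exact Or.inl h
      · have h3 : u' = n := q2 ⟨h1, by omega⟩ ⟨q1.1, le_rfl⟩ (by rw [← e, h, q4])
        have h4 : u' = u := by omega
        exact Or.inr (hball _ hcl l l0 lN (by rw [e, h4]))
    have s2 : PathIn S w 0 m := w1.mono fun v hv l l0 lN e => Or.inr (hball v hv l l0 lN e)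
    obtain ⟨v, m', v1, v2, v3, v4⟩ := ALocal_cat t s1 s2 w2.symm
    have t3 := ALocal_T ht (qu.sub hu.1 hu.2 le_rfl)
    rw [q4] at t3
    have t4 := T_triangle (x := p b) (y := q u) (z := p k) ht
    have t5 := hp.pot ht (u := b) (v := k) ⟨by omega, by omega⟩ ⟨by omega, kN⟩
    obtain ⟨l, u', l0, lN, lj, u1, u2, e, hch⟩ := first_hit (C := C + 2 * C') ht hp (j := j) (k := b)
      ⟨j0, by omega⟩ ⟨by omega, by omega⟩ (by omega) (v1.mono (Set.subset_univ _)) (v2.trans q3)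
      (v3.trans w3) (by linarith)
    have hl := (v1.2.1 u' u1 u2 l l0 lN e.symm).resolve_left lj
    have hl' := abs_le.1 hl
    exact ⟨l, hl, Or.inl ⟨j, by omega, hch (by omega)⟩⟩
  · obtain ⟨w, m, w1, w2, w3, w4⟩ := path_of_not_LT ht hL (ALocal_self _ _) hclose
    let S : Set V := {v | ∀ l, 0 ≤ l → l ≤ N → p l = v → l = k ∨ |l - b| ≤ J}
    have s1 : PathIn S q u n := (q1.sub hu.1 hu.2 le_rfl).restrict fun u' h1 h2 l l0 lN e => by
      rcases q1.2.1 u' (by omega) h2 l l0 lN e with h | h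
      · have h3 : u' = 0 := q2 ⟨by omega, h2⟩ ⟨le_rfl, q1.1⟩ (by rw [← e, h, q3])
        have h4 : u' = u := by omega
        exact Or.inr (hball _ hcl l l0 lN (by rw [e, h4]))
      · exact Or.inl h
    have s2 : PathIn S w 0 m := w1.mono fun v hv l l0 lN e => Or.inr (hball v hv l l0 lN e)
    obtain ⟨v, m', v1, v2, v3, v4⟩ := ALocal_cat t s2 s1 w3
    have t3 := ALocal_T ht (qu.sub le_rfl hu.1 hu.2)
    rw [q3] at t3
    have t4 := T_triangle (x := p j) (y := q u) (z := p b) ht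
    have t5 := hp.pot ht (u := j) (v := b) ⟨by omega, by omega⟩ ⟨by omega, by omega⟩
    obtain ⟨l, u', l0, lN, lk, u1, u2, e, hch⟩ := last_hit (C := C + 2 * C') ht hp (j := b) (k := k)
      ⟨by omega, by omega⟩ ⟨by omega, kN⟩ (by omega) (v1.mono (Set.subset_univ _)) (v2.trans w2)
      (v3.trans q4) (by linarith)
    have hl := (v1.2.1 u' u1 u2 l l0 lN e.symm).resolve_left lk
    have hl' := abs_le.1 hl
    exact ⟨l, hl, Or.inr ⟨k, by omega, hch (by omega)⟩⟩

end Crest.Agent.R151.PA
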