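import Crest.Agent.R151.ABlock

/-! R151/A: the test function `Phi` decreases when weights of the block are lowered. -/

set_option autoImplicit false
open MeasureTheory ProbabilityTheory Crest.ProbabilityR.FirstPassage Filter Topology
open scoped ENNReal

namespace Crest.Agent.R151.PA

variable {G : Measure ℝ} [IsProbabilityMeasure G] [NullSingletonClass G] (P : Setup G) (Q : QD G)
variable {h Λ : ℕ} {m b σ : ℤ} {C : ℝ} {z : V} {t : Env}

theorem aphi_nonneg (ht : ∀ e, 0 ≤ t e) (e : Sym2 V) {s : ℝ} (h0 : 0 ≤ s) :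
    ∀ f, 0 ≤ Function.update t e s f := fun f => by
  rcases eq_or_ne f e with rfl | hf
  · rwa [Function.update_self]
  · rw [Function.update_of_ne hf]
    exact ht f

theorem aphi_le {e : Sym2 V} {s : ℝ} (hs : s ≤ t e) : ∀ f, Function.update t e s f ≤ t f := fun f => by
  rcases eq_or_ne f e with rfl | hf
  · rwa [Function.update_self]
  · rw [Function.update_of_ne hf]

omit [IsProbabilityMeasure G] [NullSingletonClass G] in
theorem aphi_bdd (hC : 0 ≤ C) (t : Env) : BddBelow (Set.range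
    fun x : {x : (ℤ → V) × ℤ // SAP 0 z x.1 x.2 ∧ P.Thru h m b σ x.1 x.2} =>
      min (max (cost t x.1.1 0 x.1.2 - T t 0 z) 0) (C + 1)) :=
  ⟨0, by
    rintro _ ⟨x, rfl⟩
    exact le_min (le_max_right _ _) (by linarith)⟩

theorem measurableSet_Hev (h Λ : ℕ) (z : V) (m b : ℤ) : MeasurableSet (P.Hev h Λ z m b) := by
  exact measurableSet_exists_isG 0 z (fun _ p N => N ≤ Λ ∧ P.Adjc h m b p N)
    fun _ _ => MeasurableSet.const _
theorem Xc_mem (hC : 0 ≤ C) : 0 ≤ P.Xc h C z m b σ t ∧ P.Xc h C z m b σ t ≤ C + 1 := by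
  refine ⟨Real.iInf_nonneg fun x => le_min (le_max_right _ _) (by linarith), ?_⟩
  unfold Setup.Xc
  rcases isEmpty_or_nonempty {x : (ℤ → V) × ℤ // SAP 0 z x.1 x.2 ∧ P.Thru h m b σ x.1 x.2} with H | ⟨⟨x⟩⟩
  · rw [Real.iInf_of_isEmpty]
    linarith
  · exact (ciInf_le (aphi_bdd P hC t) x).trans (min_le_right _ _)
/-- the index type is countable (`countable_sap`), `Measurable.iInf` -/
theorem measurable_Xc (h : ℕ) (C : ℝ) (z : V) (m b σ : ℤ) : Measurable (P.Xc h C z m b σ) := by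
  have : Countable {x : (ℤ → V) × ℤ // SAP 0 z x.1 x.2 ∧ P.Thru h m b σ x.1 x.2} :=
    ((countable_sap 0 z).mono (s₁ := {x : (ℤ → V) × ℤ | SAP 0 z x.1 x.2 ∧ P.Thru h m b σ x.1 x.2})
      fun x hx => hx.1).to_subtype
  exact Measurable.iInf fun x =>
    (((measurable_cost _ _ _).sub (measurable_T _ _)).max measurable_const).min measurable_const
theorem measurable_Phi (h Λ : ℕ) (C : ℝ) (z : V) (m b σ : ℤ) : Measurable (P.Phi h Λ C z m b σ) := by
  exact Measurable.ite (measurableSet_Hev P h Λ z m b)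
    (measurable_const.add (measurable_Xc P h C z m b σ)) measurable_const
theorem Phi_mem (hC : 0 ≤ C) : 0 ≤ P.Phi h Λ C z m b σ t ∧ P.Phi h Λ C z m b σ t ≤ C + 2 := by
  have := Xc_mem P (h := h) (m := m) (b := b) (σ := σ) (z := z) (t := t) hC
  unfold Setup.Phi
  split_ifs <;> constructor <;> linarith
theorem Phi_eq_zero (ht : t ∉ P.Hev h Λ z m b) : P.Phi h Λ C z m b σ t = 0 := by
  exact if_neg ht
/-- the geodesic of `t'` avoids the block (`notMem_blk_of_adjc`), so it does not use `e`: `IsGeo.raise`, equal costs -/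
theorem Hev_of_lower (hb : P.Big h) (hσ : σ = 1 ∨ σ = -1) (ht : ∀ e, 0 ≤ t e) {e : Sym2 V}
    (he : e ∈ latE (P.blk h m b σ)) {s : ℝ} (h0 : 0 ≤ s) (hs : s ≤ t e)
    (hH : Function.update t e s ∈ P.Hev h Λ z m b) :
    t ∈ P.Hev h Λ z m b ∧ T (Function.update t e s) 0 z = T t 0 z := by
  obtain ⟨p, N, h1, h2, h3⟩ := hH
  have hoff : ∀ k, 0 ≤ k → k < N → t (edge p k) = Function.update t e s (edge p k) := by
    intro k a1 a2
    rw [Function.update_of_ne]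
    rintro rfl
    exact notMem_blk_of_adjc P hb hσ h3 ⟨a1, a2.le⟩
      (((mem_latE (blk_finite P hb hσ).1).1 he).1 _ (Sym2.mem_mk_left _ _))
  have h4 : IsG t 0 z p N := ⟨h1.geo.raise (aphi_nonneg ht e h0) (aphi_le hs) hoff, h1.left, h1.right⟩
  refine ⟨⟨p, N, h4, h2, h3⟩, ?_⟩
  rw [← h1.cost_eq, ← h4.cost_eq]
  exact (cost_congr_env hoff).symm
theorem Phi_mono (hb : P.Big h) (hσ : σ = 1 ∨ σ = -1) (hC : 0 ≤ C) (ht : ∀ e, 0 ≤ t e) {e : Sym2 V}
    (he : e ∈ latE (P.blk h m b σ)) {s : ℝ} (h0 : 0 ≤ s) (hs : s ≤ t e) :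
    P.Phi h Λ C z m b σ (Function.update t e s) ≤ P.Phi h Λ C z m b σ t := by
  by_cases hH : Function.update t e s ∈ P.Hev h Λ z m b
  · obtain ⟨h1, h2⟩ := Hev_of_lower P hb hσ ht he h0 hs hH
    unfold Setup.Phi
    rw [if_pos hH, if_pos h1]
    refine add_le_add le_rfl (ciInf_mono (aphi_bdd P hC _) fun x => ?_)
    rw [h2]
    exact min_le_min (max_le_max (sub_le_sub_right
      (cost_mono_env fun k _ _ => aphi_le hs _) _) le_rfl) le_rfl
  · rw [Phi_eq_zero P hH]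
    exact (Phi_mem P hC).1
/-- `d = min δ 1 / 2`.  `Xc ≤ C`; choose a path `x` of the class with clamped excess `< Xc + d < C + 1`, so `cost x - T < Xc + d`; `D` from `useful_of_thru`.
For `e ∈ D` and `t' = update t e s`: if `t' ∉ Hev`, `Phi t' = 0`; otherwise `T' = T`, `0 ≤ cost' x - T' ≤ cost x - δ - T < Xc - d`. -/
theorem Phi_drop (hb : P.Big h) (hσ : σ = 1 ∨ σ = -1) (hC : 0 ≤ C) (ht : ∀ e, 0 ≤ t e)
    (hH : t ∈ P.Hev h Λ z m b) {S : Set V} (hS : P.blk h m b σ ⊆ S) (hP : t ∉ Q.Pei (gg h) S)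
    {q : ℤ → V} {n : ℤ} (hq : SAP 0 z q n) (hT : P.Thru h m b σ q n) (hc : cost t q 0 n ≤ T t 0 z + C) :
    ∃ D : Finset (Sym2 V), D ⊆ latE (P.blk h m b σ) ∧ (h : ℝ) ^ 69 / 16 ≤ D.card ∧
      ∀ e ∈ D, Q.q ≤ t e ∧ ∀ s, 0 ≤ s → s < Q.q - Q.δ →
        P.Phi h Λ C z m b σ (Function.update t e s) ≤ P.Phi h Λ C z m b σ t - min Q.δ 1 / 2 := by
  have d0 : 0 < min Q.δ 1 := lt_min Q.δ_pos one_pos
  have d1 : min Q.δ 1 ≤ Q.δ := min_le_left _ _
  have d2 : min Q.δ 1 ≤ 1 := min_le_right _ _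
  have : Nonempty {x : (ℤ → V) × ℤ // SAP 0 z x.1 x.2 ∧ P.Thru h m b σ x.1 x.2} := ⟨⟨(q, n), hq, hT⟩⟩
  have hX : P.Xc h C z m b σ t ≤ C :=
    (ciInf_le (aphi_bdd P hC t) ⟨(q, n), hq, hT⟩).trans
      ((min_le_left _ _).trans (max_le (by dsimp only; linarith) hC))
  have hX0 := (Xc_mem P (h := h) (m := m) (b := b) (σ := σ) (z := z) (t := t) hC).1
  obtain ⟨x, hx⟩ := exists_lt_of_ciInf_lt
    (show P.Xc h C z m b σ t < P.Xc h C z m b σ t + min Q.δ 1 / 2 by linarith)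
  have hx1 : cost t x.1.1 0 x.1.2 - T t 0 z < P.Xc h C z m b σ t + min Q.δ 1 / 2 := by
    rcases min_lt_iff.1 hx with H | H
    · exact (le_max_left _ _).trans_lt H
    · linarith
  obtain ⟨D, hD1, hD2, hD3⟩ := useful_of_thru P Q hb hσ hS hP x.2.1 x.2.2
  refine ⟨D, hD1, hD2, fun e he => ⟨(hD3 e he).1, fun s h0 hs => ?_⟩⟩
  obtain ⟨a1, k, a2, a3, a4⟩ := hD3 e he
  have hse : s ≤ t e := by linarith [Q.δ_pos]
  have hPhi : P.Phi h Λ C z m b σ t = 1 + P.Xc h C z m b σ t := if_pos hH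
  by_cases hH' : Function.update t e s ∈ P.Hev h Λ z m b
  · obtain ⟨-, h2⟩ := Hev_of_lower P hb hσ ht (hD1 he) h0 hse hH'
    have hPhi' : P.Phi h Λ C z m b σ (Function.update t e s)
        = 1 + P.Xc h C z m b σ (Function.update t e s) := if_pos hH'
    have b1 := ageo_cost (t := t) x.2.1.inj e s
    rw [if_pos (a4 ▸ Finset.mem_image_of_mem _ (Finset.mem_Ico.2 ⟨a2, a3⟩))] at b1
    have b2 := T_le_cost (aphi_nonneg ht e h0) x.2.1.path
    rw [x.2.1.left 0 le_rfl, x.2.1.right _ le_rfl] at b2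
    have b3 : P.Xc h C z m b σ (Function.update t e s)
        ≤ cost (Function.update t e s) x.1.1 0 x.1.2 - T (Function.update t e s) 0 z :=
      (ciInf_le (aphi_bdd P hC _) x).trans ((min_le_left _ _).trans (max_le le_rfl (by linarith)))
    rw [hPhi, hPhi']
    linarith
  · rw [Phi_eq_zero P hH', hPhi]
    linarith

/-- `QD.kernel`, `QD.integral_mul_ZB_le` with `τ = h^68`, `card_latE_blk`; divide by `d h^69 / 16` -/
theorem block_bound (hb : P.Big h) (hσ : σ = 1 ∨ σ = -1) (hC : 0 ≤ C) (Λ : ℕ) (z : V) (m b : ℤ) :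
    ∃ g : Env → ℝ, Integrable g (iidLaw G) ∧ (∀ t, 0 ≤ g t) ∧
      ∫ t, g t ∂iidLaw G ≤ 32 * (C + 2) / min Q.δ 1 * ((iidLaw G).real (P.Hev h Λ z m b) / h +
        2 ^ 71 * Q.bnd * (h : ℝ) ^ 65 * (iidLaw G).real (P.Hev h Λ z m b ∩
          {t | (h : ℝ) ^ 68 < |Q.ZB (latE (P.blk h m b σ)) t|})) ∧
      ∀ t, (∀ e, 0 ≤ t e) → t ∈ P.Hev h Λ z m b → ∀ S : Set V, P.blk h m b σ ⊆ S → t ∉ Q.Pei (gg h) S →
        ∀ q n, SAP 0 z q n → P.Thru h m b σ q n → cost t q 0 n ≤ T t 0 z + C → 1 ≤ g t := by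
  have d0 : 0 < min Q.δ 1 := lt_min Q.δ_pos one_pos
  have h1 : (1 : ℝ) ≤ h := (ablock_sc P hb).1
  have h0 : (0 : ℝ) < h := by linarith
  obtain ⟨g, g1, g2, g3, g4⟩ := Q.kernel P.hyp (latE (P.blk h m b σ)) (measurable_Phi P h Λ C z m b σ)
    (C := C + 2) (fun t => by
      have := Phi_mem P (h := h) (Λ := Λ) (m := m) (b := b) (σ := σ) (z := z) (t := t) hC
      rw [abs_of_nonneg this.1]
      exact this.2)
    (fun t ht e he a1 s a2 a3 => Phi_mono P hb hσ hC ht he a2 (by linarith [Q.δ_pos]))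
  have g5 := Q.integral_mul_ZB_le (latE (P.blk h m b σ)) (measurable_Phi P h Λ C z m b σ)
    (C := C + 2) (τ := (h : ℝ) ^ 68) (by linarith) (by positivity) (measurableSet_Hev P h Λ z m b)
    (fun t => Phi_mem P hC) (fun t ht => Phi_eq_zero P ht)
  have hc : 0 < min Q.δ 1 / 2 * ((h : ℝ) ^ 69 / 16) := by positivity
  refine ⟨fun t => g t / (min Q.δ 1 / 2 * ((h : ℝ) ^ 69 / 16)), g1.div_const _,
    fun t => div_nonneg (g2 t) hc.le, ?_, fun t ht hH S hS hP q n hq hT hq' => ?_⟩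
  · rw [integral_div, g3, div_le_iff₀ hc]
    refine g5.trans ?_
    have c1 := card_latE_blk P (m := m) (b := b) hb hσ
    have c2 : 0 ≤ Q.bnd := zero_le_one.trans Q.bnd_ge
    generalize (iidLaw G).real (P.Hev h Λ z m b) = A
    have c3 : 0 ≤ (iidLaw G).real (P.Hev h Λ z m b ∩
      {t | (h : ℝ) ^ 68 < |Q.ZB (latE (P.blk h m b σ)) t|}) := measureReal_nonneg
    generalize (iidLaw G).real (P.Hev h Λ z m b ∩
      {t | (h : ℝ) ^ 68 < |Q.ZB (latE (P.blk h m b σ)) t|}) = B at c3 ⊢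
    have e : 32 * (C + 2) / min Q.δ 1 * (A / h + 2 ^ 71 * Q.bnd * (h : ℝ) ^ 65 * B) *
        (min Q.δ 1 / 2 * ((h : ℝ) ^ 69 / 16))
        = (C + 2) * ((h : ℝ) ^ 68 * A + 2 ^ 71 * (h : ℝ) ^ 134 * Q.bnd * B) := by
      field_simp
      ring
    rw [e]
    gcongr
  · obtain ⟨D, hD1, hD2, hD3⟩ := Phi_drop P Q hb hσ hC ht hH hS hP hq hT hq'
    rw [le_div_iff₀ hc, one_mul]
    exact (mul_le_mul_of_nonneg_left hD2 (by positivity)).trans (g4 t ht D _ hD1 hD3)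

end Crest.Agent.R151.PA
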