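import Crest.Agent.R151.AGeo

/-! R151/A: the shear of the environment. -/

set_option autoImplicit false
open MeasureTheory ProbabilityTheory Crest.ProbabilityR.FirstPassage Filter Topology
open scoped ENNReal

namespace Crest.Agent.R151.PA

variable {a a' : ℤ → ℤ} {t : Env} {σ i : ℤ}

theorem minrow_mk (x y : V) : minrow s(x, y) = min x.2 y.2 := by
  rfl
theorem sh_apply (a : ℤ → ℤ) (t : Env) (x y : V) :
    sh a t s(x, y) = t s((x.1 - a (min x.2 y.2), x.2), (y.1 - a (min x.2 y.2), y.2)) := by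
  rfl
theorem sh_nonneg (ht : ∀ e, 0 ≤ t e) : ∀ e, 0 ≤ sh a t e := by
  exact fun e => ht _
theorem sh_sh (a a' : ℤ → ℤ) (t : Env) : sh a' (sh a t) = sh (fun y => a y + a' y) t := by
  funext e
  induction e using Sym2.ind with
  | _ x y => simp only [sh_apply, sub_sub, add_comm]
theorem sh_zero (t : Env) : sh (fun _ => 0) t = t := by
  funext e
  induction e using Sym2.ind with
  | _ x y => simp only [sh_apply, sub_zero]
theorem sh_gap_neg (σ i : ℤ) (t : Env) : sh (gap (-σ) i) (sh (gap σ i) t) = t := by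
  rw [sh_sh]
  have : (fun y => gap σ i y + gap (-σ) i y) = fun _ => 0 := by
    funext y
    unfold gap
    split_ifs <;> simp
  rw [this, sh_zero]
theorem psi_snd (a : ℤ → ℤ) (x : V) : (psi a x).2 = x.2 := by
  rfl
theorem psi_gap_neg (σ i : ℤ) (x : V) : psi (gap (-σ) i) (psi (gap σ i) x) = x := by
  unfold psi gap
  split_ifs with h <;> simp
theorem psi_gap_of_le {x : V} (h : x.2 ≤ i) : psi (gap σ i) x = x := by
  simp [psi, gap, not_lt.2 h]
theorem psi_gap_of_lt {x : V} (h : i < x.2) : psi (gap σ i) x = x + (σ, 0) := by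
  ext <;> simp [psi, gap, h]
theorem gaps_singleton (σ i : ℤ) : gaps σ {i} = gap σ i := by
  funext y
  unfold gaps gap
  rw [Finset.filter_singleton]
  split_ifs <;> simp
theorem sh_psi {x y : V} (h : a x.2 = a y.2) : sh a t s(psi a x, psi a y) = t s(x, y) := by
  have h1 : a (min x.2 y.2) = a x.2 := by
    rcases min_choice x.2 y.2 with h' | h' <;> rw [h']
    exact h.symm
  rw [sh_apply]
  simp only [psi, h1, add_sub_cancel_right]
  rw [← h, add_sub_cancel_right]
theorem adj_psi {x y : V} (h : a x.2 = a y.2) (hxy : Adj x y) : Adj (psi a x) (psi a y) := by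
  rw [adj_iff] at hxy ⊢
  simp only [psi]
  rw [← h]
  omega
theorem measurable_sh (a : ℤ → ℤ) : Measurable (sh a) := by
  exact measurable_pi_lambda _ fun e => measurable_pi_apply _
/-- `measurePreserving_comp_equiv`; the inverse is the shear by `-a` (`minrow` is invariant) -/
theorem measurePreserving_sh (G : Measure ℝ) [IsProbabilityMeasure G] (a : ℤ → ℤ) :
    MeasurePreserving (sh a) (iidLaw G) (iidLaw G) := by
  let τ : Sym2 V ≃ Sym2 V :=
    { toFun := fun e => e.map fun x => (x.1 - a (minrow e), x.2)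
      invFun := fun e => e.map fun x => (x.1 + a (minrow e), x.2)
      left_inv := fun e => by
        induction e using Sym2.ind with
        | _ x y => simp [minrow_mk]
      right_inv := fun e => by
        induction e using Sym2.ind with
        | _ x y => simp [minrow_mk] }
  exact measurePreserving_comp_equiv G τ

/-- a path along which `a` is constant is carried to a path of the same cost -/
theorem pathIn_psi {S S' : Set V} {p : ℤ → V} {u v : ℤ} (h : PathIn S p u v)
    (ha : ∀ k, u ≤ k → k < v → a (p k).2 = a (p (k + 1)).2) (hS : ∀ k, u ≤ k → k ≤ v → psi a (p k) ∈ S') :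
    PathIn S' (fun k => psi a (p k)) u v ∧ cost (sh a t) (fun k => psi a (p k)) u v = cost t p u v := by
  refine ⟨⟨h.1, hS, fun k h1 h2 => adj_psi (ha k h1 h2) (h.2.2 k h1 h2)⟩, ?_⟩
  refine Finset.sum_congr rfl fun k hk => ?_
  rw [Finset.mem_Ico] at hk
  exact sh_psi (ha k hk.1 hk.2)
/-- below the gap nothing changes -/
theorem cost_gap_lower {p : ℤ → V} {u v : ℤ} (h : ∀ k, u ≤ k → k ≤ v → (p k).2 ≤ i) :
    cost (sh (gap σ i) t) p u v = cost t p u v := by
  refine Finset.sum_congr rfl fun k hk => ?_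
  rw [Finset.mem_Ico] at hk
  have h1 := h k hk.1 hk.2.le
  have h2 := h (k + 1) (by omega) (by omega)
  have h3 : gap σ i (p k).2 = gap σ i (p (k + 1)).2 := by
    simp [gap, not_lt.2 h1, not_lt.2 h2]
  have := sh_psi (t := t) h3
  rwa [psi_gap_of_le h1, psi_gap_of_le h2] at this
/-- above the gap everything is translated -/
theorem cost_gap_upper {p : ℤ → V} {u v : ℤ} (h : ∀ k, u ≤ k → k ≤ v → i < (p k).2) :
    cost (sh (gap σ i) t) (fun k => p k + (σ, 0)) u v = cost t p u v := by
  refine Finset.sum_congr rfl fun k hk => ?_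
  rw [Finset.mem_Ico] at hk
  have h1 := h k hk.1 hk.2.le
  have h2 := h (k + 1) (by omega) (by omega)
  have h3 : gap σ i (p k).2 = gap σ i (p (k + 1)).2 := by
    simp [gap, h1, h2]
  have := sh_psi (t := t) h3
  rwa [psi_gap_of_lt h1, psi_gap_of_lt h2] at this

/-- if `a = a' + d` on the rows `y0..y1`, the two sheared environments differ by a translation there -/
theorem sh_eq_shift {y0 y1 d : ℤ} (h : ∀ y, y0 ≤ y → y ≤ y1 → a y = a' y + d) {e : Sym2 V}
    (he : e ∈ edgesIn (rows y0 y1)) : shift (d, 0) (sh a t) e = sh a' t e := by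
  induction e using Sym2.ind with
  | _ x y =>
    have hx : x ∈ rows y0 y1 := he x (Sym2.mem_mk_left _ _)
    have hy : y ∈ rows y0 y1 := he y (Sym2.mem_mk_right _ _)
    have h1 := h (min x.2 y.2) (le_min hx.1 hy.1) ((min_le_left _ _).trans hx.2)
    rw [shift_apply, sh_apply, sh_apply]
    simp only [Prod.fst_add, Prod.snd_add, add_zero, h1]
    congr 3 <;> ring
theorem TS_sh_rows {y0 y1 d : ℤ} (h : ∀ y, y0 ≤ y → y ≤ y1 → a y = a' y + d) (x y : V) :
    TS (sh a t) (rows y0 y1) (x + (d, 0)) (y + (d, 0)) = TS (sh a' t) (rows y0 y1) x y := by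
  have h1 := TS_shift_rows (t := sh a t) (x := x) (y := y) (d, 0) y0 y1
  simp only [add_zero] at h1
  rw [← h1]
  exact dependsOnly_TS _ x y _ _ fun e he => sh_eq_shift h he
theorem Yv_sh {d : ℤ} {K : ℕ} {x : V} (h : ∀ y, x.2 - 3 * K ≤ y → y ≤ x.2 + 3 * K → a y = a' y + d) :
    Yv K (sh a t) (x + (d, 0)) = Yv K (sh a' t) x := by
  rw [← Yv_shift]
  refine dependsOnly_Yv K x _ _ fun e he => sh_eq_shift h fun v hv => ?_
  exact (bpath_mem_ball.1 (he v hv).1).2
theorem dependsOnly_sh_gap {α : Type} {f : Env → α} {x : V} {r : ℤ} (hσ : |σ| ≤ 1)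
    (h : DependsOnly f (edgesIn (ball x r))) :
    DependsOnly (fun t => f (sh (gap σ i) t)) (edgesIn (ball x (r + 1))) := by
  intro t t' htt'
  refine h _ _ fun e he => htt' _ fun v hv => ?_
  obtain ⟨w, hw, rfl⟩ := Sym2.mem_map.1 hv
  have h1 := bpath_mem_ball.1 (he w hw)
  have h2 := abs_le.1 hσ
  rw [bpath_mem_ball]
  unfold gap
  split_ifs <;> simp only <;> omega

theorem Yh_nonneg (ht : ∀ e, 0 ≤ t e) (x : V) : 0 ≤ Yh σ i t x := by
  exact Yv_nonneg (sh_nonneg ht) _
theorem measurable_Yh (σ i : ℤ) (x : V) : Measurable fun t => Yh σ i t x := by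
  exact (measurable_Yv KK _).comp (measurable_sh _)
theorem dependsOnly_Yh (hσ : |σ| ≤ 1) (i : ℤ) (x : V) :
    DependsOnly (fun t => Yh σ i t x) (edgesIn (ball x (3 * KK + 2))) := by
  have h1 : DependsOnly (fun t => Yv KK t (psi (gap σ i) x))
      (edgesIn (ball (psi (gap σ i) x) (3 * KK))) :=
    dependsOnly_mono (dependsOnly_Yv KK _) (edgesIn_mono Set.sdiff_subset)
  refine dependsOnly_mono (dependsOnly_sh_gap (i := i) hσ h1) (edgesIn_mono fun v hv => ?_)
  have h2 := abs_le.1 hσ
  rw [bpath_mem_ball] at hv ⊢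
  unfold psi gap at hv
  split_ifs at hv <;> simp only at hv <;> omega
theorem Sv_nonneg (ht : ∀ e, 0 ≤ t e) (p : ℤ → V) (N : ℤ) : 0 ≤ Sv σ i t p N := by
  exact Finset.sum_nonneg fun k _ => Yh_nonneg ht _
theorem measurable_Sv (σ i : ℤ) (p : ℤ → V) (N : ℤ) : Measurable fun t => Sv σ i t p N := by
  exact Finset.measurable_sum _ fun k _ => measurable_Yh σ i _
theorem measurable_Dv (σ i : ℤ) (z : V) : Measurable (Dv σ i z) := by
  exact ((measurable_T _ _).comp (measurable_sh _)).sub (measurable_T _ _)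

variable {G : Measure ℝ} [IsProbabilityMeasure G]
theorem integrable_T_sh (hG : Hyp G) (a : ℤ → ℤ) (x y : V) :
    Integrable (fun t => T (sh a t) x y) (iidLaw G) := by
  exact (measurePreserving_sh G a).integrable_comp_of_integrable (integrable_T G hG x y)
theorem integral_T_sh (a : ℤ → ℤ) (z : V) : ∫ t, T (sh a t) 0 z ∂iidLaw G = mT G z := by
  rw [mT, ← (measurePreserving_sh G a).map_eq,
    integral_map (measurable_sh a).aemeasurable (measurable_T 0 z).aestronglyMeasurable,
    (measurePreserving_sh G a).map_eq]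
theorem integrable_Dv (hG : Hyp G) (σ i : ℤ) (z : V) : Integrable (Dv σ i z) (iidLaw G) := by
  exact (integrable_T_sh hG _ _ _).sub (integrable_T G hG _ _)
theorem integral_Dv (hG : Hyp G) (σ i : ℤ) (z : V) :
    ∫ t, Dv σ i z t ∂iidLaw G = mT G (z + (σ, 0)) - mT G z := by
  unfold Dv
  rw [integral_sub (integrable_T_sh hG _ _ _) (integrable_T G hG _ _), integral_T_sh]
  rfl
theorem tail_Yh (hG : Hyp G) : ∃ C > 0, ∀ (σ i : ℤ) (x : V) (s : ℝ), 0 < s →
    (iidLaw G).real {t | s < Yh σ i t x} ≤ C / s ^ 500 := by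
  obtain ⟨C, hC, h⟩ := tail_Yv G hG (K := KK) (by decide)
  refine ⟨C, hC, fun σ i x s hs => ?_⟩
  have h1 := (measurePreserving_sh G (gap σ i)).measureReal_preimage
    (s := {t | s < Yv KK t (psi (gap σ i) x)})
    (measurableSet_lt measurable_const (measurable_Yv KK _)).nullMeasurableSet
  refine (le_of_eq h1).trans ((h _ s hs).trans (le_of_eq ?_))
  have h2 : ((KK : ℝ) / 2) = ((500 : ℕ) : ℝ) := by
    simp only [KK]
    norm_num
  rw [h2, Real.rpow_neg hs.le, Real.rpow_natCast, div_eq_mul_inv]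

end Crest.Agent.R151.PA
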