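import Crest.Agent.R151.AHit

/-! R151/A: sliding averages and the effect of lowering one edge on the detour profile. Deterministic. -/

set_option autoImplicit false
open MeasureTheory ProbabilityTheory Crest.ProbabilityR.FirstPassage Filter Topology
open scoped ENNReal

namespace Crest.Agent.R151.PA

theorem aslide_zero (u : ℤ → ℝ) (x : ℤ) : mv u 0 x = u x := by
  rw [mv, pow_zero, pow_zero, div_one, show Finset.Ico x (x + 1) = {x} by ext; simp; omega, Finset.sum_singleton]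

theorem aslide_cover {u : ℤ → ℝ} (h0 : ∀ k, 0 ≤ u k) (h1 : ∀ k, u k ≤ 1) {A B : Finset ℤ} (a : ℤ) (n : ℕ)
    (h : ∀ k ∈ A, k ∉ B → a ≤ k ∧ k < a + n) : ∑ k ∈ A, u k ≤ ∑ k ∈ B, u k + n := by
  rw [← Finset.sum_inter_add_sum_sdiff A B]
  refine add_le_add (Finset.sum_le_sum_of_subset_of_nonneg Finset.inter_subset_right fun k _ _ => h0 k)
    ((Finset.sum_le_sum_of_subset_of_nonneg (t := Finset.Ico a (a + n)) (fun k hk => ?_)
      fun k _ _ => h0 k).trans ((Finset.sum_le_card_nsmul _ _ 1 fun k _ => h1 k).trans (by simp)))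
  exact Finset.mem_Ico.2 (h k (Finset.mem_sdiff.1 hk).1 (Finset.mem_sdiff.1 hk).2)

theorem mv_succ (u : ℤ → ℝ) (s : ℕ) (x : ℤ) : mv u (s + 1) x = (mv u s x + mv u s (x + 2 ^ s)) / 2 := by
  have h : (0 : ℤ) ≤ 2 ^ s := by positivity
  rw [mv, mv, mv, ← add_div, ← Finset.sum_union (Finset.Ico_disjoint_Ico_consecutive _ _ _),
    Finset.Ico_union_Ico_eq_Ico (by omega) (by omega), div_div, ← pow_succ, add_assoc, ← mul_two, ← pow_succ]

/-- With `Q s = Σ_{x ∈ W} (mv u s x)²` over a window `W = Ico (k0 - 2^(S+1)) (k0 + L + 2^(S+1))` containing all supports (or a `tsum`/`finsum` over `ℤ`),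
`Q (s+1) = Q s - ¼ Σ_x (mv u s (x + 2^s) - mv u s x)²` (parallelogram identity and translation invariance of the sum), `Q 0 = Σ u² ≤ L`. -/
theorem slide_sq (u : ℤ → ℝ) (k0 : ℤ) (L : ℕ) (h0 : ∀ k, 0 ≤ u k) (h1 : ∀ k, u k ≤ 1)
    (hs : ∀ k, u k ≠ 0 → k0 ≤ k ∧ k < k0 + L) (S : ℕ) :
    ∑ s ∈ Finset.range S, ∑ x ∈ Finset.Ico k0 (k0 + L), (mv u s (x + 1) - mv u s (x + 1 - 2 ^ s)) ^ 2 ≤
      4 * L := by
  have hu : HasSum (fun x => mv u 0 x ^ 2) (∑ x ∈ Finset.Ico k0 (k0 + L), mv u 0 x ^ 2) :=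
    hasSum_sum_of_ne_finset_zero fun x hx => by
      rw [aslide_zero, not_not.1 fun h => hx (Finset.mem_Ico.2 (hs x h)), zero_pow two_ne_zero]
  have hS : ∀ s, Summable fun x => mv u s x ^ 2 := fun s => by
    induction s with
    | zero => exact hu.summable
    | succ s ih =>
      refine .of_nonneg_of_le (fun _ => sq_nonneg _) (fun x => ?_)
        (ih.add ((Equiv.addRight (2 ^ s : ℤ)).summable_iff.2 ih))
      simp only [mv_succ, Function.comp, Equiv.coe_addRight]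
      nlinarith [sq_nonneg (mv u s x - mv u s (x + 2 ^ s)), sq_nonneg (mv u s x),
        sq_nonneg (mv u s (x + 2 ^ s))]
  have key : ∀ s, ∑ x ∈ Finset.Ico k0 (k0 + L), (mv u s (x + 1) - mv u s (x + 1 - 2 ^ s)) ^ 2 ≤
      4 * (∑' x, mv u s x ^ 2 - ∑' x, mv u (s + 1) x ^ 2) := fun s => by
    have a1 := (Equiv.addRight (1 : ℤ)).hasSum_iff.2 (hS s).hasSum
    have a2 := (Equiv.addRight (1 - 2 ^ s : ℤ)).hasSum_iff.2 (hS s).hasSum
    have a3 := (Equiv.addRight (1 - 2 ^ s : ℤ)).hasSum_iff.2 (hS (s + 1)).hasSum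
    refine (sum_le_hasSum _ (fun _ _ => sq_nonneg _) (?_ : HasSum _ _)).trans_eq
      (by ring : 2 * (∑' x, mv u s x ^ 2 + ∑' x, mv u s x ^ 2) - 4 * ∑' x, mv u (s + 1) x ^ 2 = _)
    refine (((a1.add a2).mul_left 2).sub (a3.mul_left 4)).congr_fun fun x => ?_
    simp only [mv_succ, Function.comp, Equiv.coe_addRight, add_sub_assoc, add_assoc, sub_add_cancel]
    ring
  refine (Finset.sum_le_sum fun s _ => key s).trans ?_
  rw [← Finset.mul_sum, Finset.sum_range_sub' fun s => ∑' x, mv u s x ^ 2, hu.tsum_eq]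
  have a1 : 0 ≤ ∑' x, mv u S x ^ 2 := tsum_nonneg fun _ => sq_nonneg _
  have a2 := Finset.sum_le_card_nsmul (Finset.Ico k0 (k0 + L)) (fun x => mv u 0 x ^ 2) 1 fun x _ => by
    rw [aslide_zero]
    exact pow_le_one₀ (h0 x) (h1 x)
  simp only [Int.card_Ico, add_sub_cancel_left, Int.toNat_natCast, nsmul_eq_mul, mul_one] at a2
  linarith
/-- `|J| ≤ ε/2 + J²/(2ε)` -/
theorem slide_abs (u : ℤ → ℝ) (k0 : ℤ) (L : ℕ) (h0 : ∀ k, 0 ≤ u k) (h1 : ∀ k, u k ≤ 1)
    (hs : ∀ k, u k ≠ 0 → k0 ≤ k ∧ k < k0 + L) (S : ℕ) {ε : ℝ} (hε : 0 < ε) :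
    ∑ s ∈ Finset.range S, ∑ x ∈ Finset.Ico k0 (k0 + L), |mv u s (x + 1) - mv u s (x + 1 - 2 ^ s)| ≤
      (S * ε / 2 + 2 / ε) * L := by
  have h2 : ∀ J : ℝ, |J| ≤ ε / 2 + J ^ 2 / (2 * ε) := fun J => by
    rw [div_add_div _ _ two_ne_zero (by positivity), le_div_iff₀ (by positivity), ← sq_abs J]
    nlinarith [sq_nonneg (|J| - ε)]
  refine (Finset.sum_le_sum fun s _ => Finset.sum_le_sum fun x _ => h2 _).trans ?_
  simp only [Finset.sum_add_distrib, ← Finset.sum_div, Finset.sum_const, Int.card_Ico, add_sub_cancel_left,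
    Int.toNat_natCast, nsmul_eq_mul, Finset.card_range]
  refine (add_le_add le_rfl (div_le_div_of_nonneg_right (slide_sq u k0 L h0 h1 hs S)
    (by positivity))).trans_eq ?_
  field_simp
  ring
/-- every `k ∈ [k0 + 2^s, k1]` is counted `2^s` times -/
theorem slide_sum (u : ℤ → ℝ) (h0 : ∀ k, 0 ≤ u k) (h1 : ∀ k, u k ≤ 1) (k0 k1 : ℤ) (s : ℕ) :
    ∑ k ∈ Finset.Icc k0 k1, u k ≤ ∑ x ∈ Finset.Ico k0 k1, mv u s (x + 1) + 2 ^ s := by
  induction s generalizing k0 k1 with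
  | zero =>
    simp only [aslide_zero, Finset.sum_Ico_add' u]
    simpa using aslide_cover h0 h1 (B := Finset.Ico (k0 + 1) (k1 + 1)) k0 1 fun k a b => by
      simp only [Finset.mem_Icc, Finset.mem_Ico] at a b
      omega
  | succ s ih =>
    have a1 := ih k0 k1
    have a2 := ih (k0 + 2 ^ s) (k1 + 2 ^ s)
    have a3 := aslide_cover h0 h1 (A := Finset.Icc k0 k1) (B := Finset.Icc (k0 + 2 ^ s) (k1 + 2 ^ s)) k0
      (2 ^ s) fun k a b => by
        have : (0 : ℤ) ≤ 2 ^ s := by positivity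
        simp only [Finset.mem_Icc] at a b
        push_cast
        omega
    rw [← Finset.sum_Ico_add' fun x => mv u s (x + 1)] at a2
    simp only [mv_succ, ← Finset.sum_div, Finset.sum_add_distrib, add_right_comm _ (1 : ℤ), pow_succ]
    push_cast at a3
    linarith [pow_pos (zero_lt_two' ℝ) s]
theorem mv_nonneg {u : ℤ → ℝ} (h0 : ∀ k, 0 ≤ u k) (s : ℕ) (x : ℤ) : 0 ≤ mv u s x := by
  exact div_nonneg (Finset.sum_nonneg fun k _ => h0 k) (by positivity)
theorem mv_le_one {u : ℤ → ℝ} (h1 : ∀ k, u k ≤ 1) (s : ℕ) (x : ℤ) : mv u s x ≤ 1 := by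
  refine (div_le_one (by positivity)).2 ((Finset.sum_le_card_nsmul _ _ 1 fun k _ => h1 k).trans_eq ?_)
  rw [Int.card_Ico, add_sub_cancel_left, show (2 : ℤ) ^ s = (2 ^ s : ℕ) by push_cast; rfl, Int.toNat_natCast]
  simp

variable {t : Env} {a b : V} {p : ℤ → V} {N : ℤ} {L s : ℕ}

theorem aslide_blocks (hL : 1 ≤ L) {A : Finset ℤ} (hA : A ⊆ Finset.Icc 0 N) (f : ℤ → ℝ) :
    ∑ x ∈ A, f x = ∑ m ∈ Finset.Icc 0 (N / L), ∑ x ∈ A with x / L = m, f x :=
  (Finset.sum_fiberwise_of_maps_to (fun x hx => Finset.mem_Icc.2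
    ⟨Int.ediv_nonneg (Finset.mem_Icc.1 (hA hx)).1 (by omega),
      Int.ediv_le_ediv (by omega) (Finset.mem_Icc.1 (hA hx)).2⟩) f).symm

theorem aslide_card (hL : 1 ≤ L) (hN : 0 ≤ N) : ((Finset.Icc 0 (N / L)).card : ℝ) ≤ N / L + 1 := by
  have h1 := Int.card_Icc_of_le (a := 0) (b := N / L) (by
    have := Int.ediv_nonneg hN (Int.natCast_nonneg L)
    omega)
  have h2 : ((N / L : ℤ) : ℝ) * L ≤ N := by exact_mod_cast Int.ediv_mul_le N (by omega : (L : ℤ) ≠ 0)
  rw [← le_div_iff₀ (by exact_mod_cast hL)] at h2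
  rw [← Int.cast_natCast, h1]
  push_cast
  linarith

theorem uu_nonneg (k0 k : ℤ) : 0 ≤ uu t p N L k0 k := by
  unfold uu
  split_ifs
  · exact Real.iSup_nonneg fun _ => (Real.exp_pos _).le
  · exact le_rfl
theorem uu_support {k0 k : ℤ} (h : uu t p N L k0 k ≠ 0) : k0 ≤ k ∧ k < k0 + L := by
  unfold uu at h
  split_ifs at h with h1
  · exact ⟨h1.1, h1.2.1⟩
  · exact absurd rfl h
/-- `cost = T ≤ TS` -/
theorem uu_le_one (ht : ∀ e, 0 ≤ t e) (hp : IsG t a b p N) (k0 k : ℤ) : uu t p N L k0 k ≤ 1 := by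
  unfold uu
  split_ifs with h1
  · refine Real.iSup_le (fun ⟨j, a1, a2, a3⟩ => Real.exp_le_one_iff.2 (sub_nonpos.2 ?_)) zero_le_one
    exact (hp.cost_sub ht a1 (by omega) h1.2.2).trans_le (T_le_TS ht a3)
  · exact zero_le_one
theorem measurable_uu (p : ℤ → V) (N : ℤ) (L : ℕ) (k0 k : ℤ) : Measurable fun t => uu t p N L k0 k := by
  unfold uu
  split_ifs
  · exact .iSup fun j => ((measurable_cost _ _ _).sub (measurable_TS _ _ _)).exp
  · exact measurable_const
theorem measurable_Rv (L s : ℕ) (x : ℤ) (p : ℤ → V) (N : ℤ) : Measurable fun t => Rv L s x t p N := by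
  exact (Finset.measurable_sum _ fun k _ => measurable_uu _ _ _ _ _).div_const _
theorem measurable_Jv (L s : ℕ) (x : ℤ) (p : ℤ → V) (N : ℤ) : Measurable fun t => Jv L s x t p N := by
  exact (measurable_Rv _ _ _ _ _).sub ((Finset.measurable_sum _ fun k _ => measurable_uu _ _ _ _ _).div_const _)
theorem uu_ge_of_end {C : ℝ} (hL : 1 ≤ L) {k : ℤ} (h : EndAt t p N C (L + 1) k) :
    Real.exp (-C) ≤ uu t p N L (k / L * L) k := by
  obtain ⟨j, h1, h2, -, h3, h4, h5⟩ := h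
  obtain ⟨h6, h7⟩ := (Int.ediv_eq_iff_of_pos (x := k) (by omega : (0 : ℤ) < L)).1 rfl
  have : Finite {j : ℤ // 0 ≤ j ∧ j + 2 ≤ k / L * L ∧ Conn (Free p N j k) (p j) (p k)} :=
    ((Set.finite_Icc 0 (k / L * L)).subset fun j hj => ⟨hj.1, by have := hj.2.1; omega⟩).to_subtype
  rw [uu, if_pos ⟨h6, h7, h3⟩]
  exact le_ciSup_of_le (Set.finite_range _).bddAbove ⟨j, h2, by push_cast at h1; omega, h4⟩
    (Real.exp_le_exp.2 (by dsimp only; linarith))
/-- The edge `edge p x` is not in `edgesIn (Free p N j k)` (`x ≠ j` since `j < k0 ≤ x`), so `TS` does not change (`dependsOnly_TS`); `cost p j k` changes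
iff `x < k` (`edge_injOn`). -/
theorem uu_update (hp : SAP a b p N) {k0 x : ℤ} (hx : k0 ≤ x ∧ 0 ≤ x ∧ x < N) (v : ℝ) (k : ℤ) :
    uu (Function.update t (edge p x) v) p N L k0 k =
      (if x < k then Real.exp (v - t (edge p x)) else 1) * uu t p N L k0 k := by
  by_cases h1 : k0 ≤ k ∧ k < k0 + L ∧ k ≤ N
  · rw [uu, uu, if_pos h1, if_pos h1, Real.mul_iSup_of_nonneg (by split_ifs <;> positivity)]
    refine iSup_congr fun ⟨j, a1, a2, _⟩ => ?_
    have b1 := ageo_cost (t := t) (hp.inj.mono (Set.Icc_subset_Icc a1 h1.2.2)) (edge p x) v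
    have b2 : edge p x ∈ (Finset.Ico j k).image (edge p) ↔ x < k := by
      refine ⟨fun h => ?_, fun h => Finset.mem_image_of_mem _ (Finset.mem_Ico.2 ⟨by omega, h⟩)⟩
      obtain ⟨l, c1, c2⟩ := Finset.mem_image.1 h
      obtain ⟨c3, c4⟩ := Finset.mem_Ico.1 c1
      exact edge_injOn hp.inj ⟨by omega, by omega⟩ hx.2 c2 ▸ c4
    have b3 := dependsOnly_TS (Free p N j k) (p j) (p k) (Function.update t (edge p x) v) t fun e he =>
      Function.update_of_ne (by
        rintro rfl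
        have c1 := he _ (Sym2.mem_mk_left _ _) x hx.2.1 hx.2.2.le rfl
        have c2 := he _ (Sym2.mem_mk_right _ _) (x + 1) (by omega) (by omega) rfl
        omega) _ _
    simp only [b2] at b1 b3 ⊢
    rw [b3]
    split_ifs at b1 ⊢
    · rw [← Real.exp_add]
      congr 1
      linarith
    · rw [one_mul]
      congr 1
      linarith
  · rw [uu, uu, if_neg h1, if_neg h1, mul_zero]
/-- `J - J' = (1 - e^{-d}) R` with `d ≥ δ` -/
theorem Rv_le (hp : SAP a b p N) (hL : 1 ≤ L) {x : ℤ} (hx : 0 ≤ x ∧ x < N) {v δ : ℝ}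
    (hv : v + δ ≤ t (edge p x)) :
    (1 - Real.exp (-δ)) * Rv L s x t p N ≤
      |Jv L s x t p N| + |Jv L s x (Function.update t (edge p x) v) p N| := by
  have h0 : x / L * L ≤ x ∧ 0 ≤ x ∧ x < N := ⟨Int.ediv_mul_le _ (by omega), hx⟩
  have h1 : Rv L s x (Function.update t (edge p x) v) p N = Real.exp (v - t (edge p x)) * Rv L s x t p N := by
    rw [Rv, Rv, mv, mv, ← mul_div_assoc, Finset.mul_sum]
    refine congrArg (· / _) (Finset.sum_congr rfl fun k hk => ?_)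
    rw [uu_update hp h0, if_pos (by exact (Finset.mem_Ico.1 hk).1)]
  have h2 : mv (uu (Function.update t (edge p x) v) p N L (x / L * L)) s (x + 1 - 2 ^ s) =
      mv (uu t p N L (x / L * L)) s (x + 1 - 2 ^ s) := by
    refine congrArg (· / _) (Finset.sum_congr rfl fun k hk => ?_)
    rw [uu_update hp h0, if_neg (by have := (Finset.mem_Ico.1 hk).2; omega), one_mul]
  refine le_trans ?_ ((le_abs_self _).trans (abs_sub _ _))
  rw [Jv, Jv, h1, h2, sub_sub_sub_cancel_right, ← one_sub_mul]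
  exact mul_le_mul_of_nonneg_right (sub_le_sub_left (Real.exp_le_exp.2 (by linarith)) 1)
    (mv_nonneg (uu_nonneg _) _ _)
/-- sum over the blocks `[mL, (m+1)L)`, `m ≤ N / L` -/
theorem sum_abs_Jv (ht : ∀ e, 0 ≤ t e) (hp : IsG t a b p N) (hL : 1 ≤ L) (S : ℕ) {ε : ℝ} (hε : 0 < ε) :
    ∑ s ∈ Finset.range S, ∑ x ∈ Finset.Ico 0 N, |Jv L s x t p N| ≤ (S * ε / 2 + 2 / ε) * (N + L) := by
  have hL' : (0 : ℝ) < L := by exact_mod_cast hL
  simp only [aslide_blocks hL Finset.Ico_subset_Icc_self]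
  rw [Finset.sum_comm]
  refine (Finset.sum_le_card_nsmul _ _ ((S * ε / 2 + 2 / ε) * L) fun m _ => le_trans
    (Finset.sum_le_sum fun s _ => ?_) (slide_abs _ (m * L) L (uu_nonneg _) (uu_le_one ht hp _)
      (fun _ => uu_support) S hε)).trans ?_
  · refine (Finset.sum_congr rfl fun x hx => ?_).trans_le (Finset.sum_le_sum_of_subset_of_nonneg
      (fun x hx => ?_) fun _ _ _ => abs_nonneg _)
    · rw [Jv, Rv, (Finset.mem_filter.1 hx).2]
    · exact Finset.mem_Ico.2 ((Int.ediv_eq_iff_of_pos (by omega)).1 (Finset.mem_filter.1 hx).2)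
  · rw [nsmul_eq_mul]
    refine (mul_le_mul_of_nonneg_right (aslide_card hL hp.nonneg) (by positivity)).trans_eq ?_
    field_simp
open Classical in
/-- `slide_sum` in each block (`k1 = min (k0 + L) N`, `uu` vanishes at `k0 + L`), `uu_ge_of_end`, `Rv ≤ 1` on useless edges -/
theorem cnt_end_le (ht : ∀ e, 0 ≤ t e) (hp : IsG t a b p N) (hL : 1 ≤ L) (C q : ℝ) :
    Real.exp (-C) * cnt (Finset.Icc 0 N) (EndAt t p N C (L + 1)) ≤
      ∑ x ∈ Finset.Ico 0 N, (if q ≤ t (edge p x) then Rv L s x t p N else 0) +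
        cnt (Finset.Ico 0 N) (fun x => t (edge p x) < q) + 2 ^ s * (N / L + 1 : ℝ) := by
  have h1 : Real.exp (-C) * cnt (Finset.Icc 0 N) (EndAt t p N C (L + 1)) ≤
      ∑ k ∈ Finset.Icc 0 N, uu t p N L (k / L * L) k := by
    rw [cnt_eq_sum, Finset.mul_sum]
    refine Finset.sum_le_sum fun k _ => ?_
    split_ifs with h
    · exact (mul_one _).trans_le (uu_ge_of_end hL h)
    · exact (mul_zero _).trans_le (uu_nonneg _ _)
  have h2 : ∑ x ∈ Finset.Ico 0 N, Rv L s x t p N ≤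
      ∑ x ∈ Finset.Ico 0 N, (if q ≤ t (edge p x) then Rv L s x t p N else 0) +
        cnt (Finset.Ico 0 N) (fun x => t (edge p x) < q) := by
    rw [cnt_eq_sum, ← Finset.sum_add_distrib]
    refine Finset.sum_le_sum fun x _ => ?_
    by_cases h : q ≤ t (edge p x)
    · simp [h, not_lt.2 h]
    · rw [if_neg h, if_pos (not_le.1 h), zero_add]
      exact mv_le_one (uu_le_one ht hp _) _ _
  refine h1.trans (le_trans ?_ (add_le_add h2 (mul_le_mul_of_nonneg_left (aslide_card hL hp.nonneg)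
    (by positivity))))
  rw [aslide_blocks hL subset_rfl, aslide_blocks hL Finset.Ico_subset_Icc_self, mul_comm, ← nsmul_eq_mul,
    ← Finset.sum_const, ← Finset.sum_add_distrib]
  refine Finset.sum_le_sum fun m hm => ?_
  have h3 : 0 ≤ m * L := mul_nonneg (Finset.mem_Icc.1 hm).1 (Int.natCast_nonneg L)
  have h4 := fun x => Int.ediv_eq_iff_of_pos (x := x) (y := m) (by omega : (0 : ℤ) < L)
  refine le_trans ?_ ((slide_sum _ (uu_nonneg (L := L) (m * L)) (uu_le_one ht hp _) (m * L)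
    (min (m * L + L) N) s).trans_eq ?_)
  · refine (Finset.sum_congr rfl fun x hx => ?_).trans_le (Finset.sum_le_sum_of_subset_of_nonneg
      (fun x hx => ?_) fun _ _ _ => uu_nonneg _ _)
    · rw [(Finset.mem_filter.1 hx).2]
    · simp only [Finset.mem_filter, Finset.mem_Icc, h4] at hx ⊢
      omega
  · refine congrArg (· + _) (Finset.sum_congr ?_ fun x hx => ?_)
    · ext x
      simp only [Finset.mem_filter, Finset.mem_Ico, h4]
      omega
    · rw [Rv, (Finset.mem_filter.1 hx).2]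

end Crest.Agent.R151.PA
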