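import Crest.Agent.R151.BPeierls

/-! R151 base: greedy lattice paths for finite range fields. -/

set_option autoImplicit false
open MeasureTheory ProbabilityTheory Crest.ProbabilityR.FirstPassage Filter Topology
open scoped ENNReal

namespace Crest.Agent.R151

variable (G : Measure ℝ) [IsProbabilityMeasure G]

/-- `F c` is measurable, reads `U c`, and `U c`, `U c'` are disjoint when `nrm (c - c') > ρ` -/
structure LocalField (ρ : ℕ) (F : V → Env → ℝ) : Prop where
  meas : ∀ c, Measurable (F c)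
  nonneg : ∀ c t, 0 ≤ F c t
  dep : ∃ U : V → Set (Sym2 V), (∀ c, DependsOnly (F c) (U c)) ∧
    ∀ c c', (ρ : ℤ) < nrm (c - c') → Disjoint (U c) (U c')

/-- `w 0, …, w k` is a king's walk -/
def KWalk (w : ℕ → V) (k : ℕ) : Prop := ∀ i < k, nrm (w (i + 1) - w i) ≤ 1

theorem ban_nrm_le {x : V} {r : ℤ} : nrm x ≤ r ↔ (-r ≤ x.1 ∧ x.1 ≤ r) ∧ (-r ≤ x.2 ∧ x.2 ≤ r) := by
  simp only [nrm, max_le_iff, abs_le]

/-- the sup-norm ball as a finite set -/
noncomputable def banBall (c : V) (r : ℕ) : Finset V :=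
  Finset.Icc (c.1 - r) (c.1 + r) ×ˢ Finset.Icc (c.2 - r) (c.2 + r)

theorem ban_mem_ball {c x : V} {r : ℕ} : x ∈ banBall c r ↔ nrm (x - c) ≤ r := by
  simp only [banBall, Finset.mem_product, Finset.mem_Icc, ban_nrm_le, Prod.fst_sub, Prod.snd_sub]
  omega

theorem ban_card_ball (c : V) (r : ℕ) : (banBall c r).card = (2 * r + 1) ^ 2 := by
  have h : ∀ a : ℤ, (Finset.Icc (a - r) (a + r)).card = 2 * r + 1 := fun a => by
    rw [Int.card_Icc]; omega
  rw [banBall, Finset.card_product, h, h, sq]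

theorem ban_walk_le {w : ℕ → V} {k : ℕ} (hw : KWalk w k) (i : ℕ) (hi : i ≤ k) : nrm (w i - w 0) ≤ i := by
  induction i with
  | zero => simp [nrm]
  | succ i ih =>
    have h1 := ih (by omega)
    have h2 := hw i (by omega)
    simp only [ban_nrm_le, Prod.fst_sub, Prod.snd_sub] at h1 h2 ⊢
    push_cast
    omega

/-- few small sets cover all walks -/
theorem ban_cover (L a : ℕ) : ∀ c0 : V, ∃ 𝒟 : Finset (Finset V), 𝒟.card ≤ 4 ^ a ∧
    (∀ D ∈ 𝒟, D.card ≤ a * (4 * L + 1) ^ 2) ∧
    ∀ w : ℕ → V, (∀ k, KWalk w k) → nrm (w 0 - c0) ≤ L → ∃ D ∈ 𝒟, ∀ i < a * L, w i ∈ D := by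
  classical
  induction a with
  | zero => exact fun c0 => ⟨{∅}, by simp, by simp, fun w _ _ => ⟨∅, by simp, by simp⟩⟩
  | succ a ih =>
    intro c0
    choose 𝒟 h1 h2 h3 using ih
    let St : Finset V := ({(L : ℤ), -(L : ℤ)} : Finset ℤ) ×ˢ ({(L : ℤ), -(L : ℤ)} : Finset ℤ)
    have hSt : St.card ≤ 4 := by
      rw [Finset.card_product]
      exact Nat.mul_le_mul Finset.card_le_two Finset.card_le_two
    refine ⟨St.biUnion fun s => (𝒟 (c0 + s)).image fun D => banBall c0 (2 * L) ∪ D, ?_, ?_, ?_⟩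
    · refine (Finset.card_biUnion_le_card_mul _ _ (4 ^ a) fun s _ => Finset.card_image_le.trans (h1 _)).trans ?_
      rw [pow_succ']
      exact Nat.mul_le_mul_right _ hSt
    · intro D hD
      obtain ⟨s, -, hs⟩ := Finset.mem_biUnion.1 hD
      obtain ⟨E, hE, rfl⟩ := Finset.mem_image.1 hs
      refine (Finset.card_union_le _ _).trans ?_
      have := h2 _ E hE
      rw [ban_card_ball, show 2 * (2 * L) + 1 = 4 * L + 1 by ring, add_mul, one_mul]
      omega
    · intro w hw h0
      have hL := ban_walk_le (hw L) L le_rfl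
      obtain ⟨s, hs, hs'⟩ : ∃ s ∈ St, nrm (w L - (c0 + s)) ≤ L := by
        refine ⟨(if c0.1 < (w L).1 then L else -L, if c0.2 < (w L).2 then L else -L), ?_, ?_⟩
        · refine Finset.mem_product.2 ⟨?_, ?_⟩ <;> dsimp only <;> split_ifs <;> simp
        · simp only [ban_nrm_le, Prod.fst_sub, Prod.snd_sub, Prod.fst_add, Prod.snd_add] at h0 hL ⊢
          split_ifs <;> omega
      obtain ⟨D, hD, hD'⟩ := h3 (c0 + s) (fun i => w (L + i)) (fun k i _ => hw (L + i + 1) (L + i) (by omega)) hs'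
      refine ⟨_, Finset.mem_biUnion.2 ⟨s, hs, Finset.mem_image_of_mem _ hD⟩, fun i hi => ?_⟩
      rcases lt_or_ge i L with h | h
      · refine Finset.mem_union_left _ (ban_mem_ball.2 ?_)
        have hi' := ban_walk_le (hw i) i le_rfl
        simp only [ban_nrm_le, Prod.fst_sub, Prod.snd_sub] at h0 hi' ⊢
        push_cast
        omega
      · obtain ⟨j, rfl⟩ := Nat.exists_eq_add_of_le h
        refine Finset.mem_union_right _ (hD' j ?_)
        rw [add_mul, one_mul] at hi
        omega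

open Classical in
/-- marked sites in a fixed finite set -/
theorem ban_count {ρ : ℕ} {F : V → Env → ℝ} (hF : LocalField ρ F) {π : ℝ}
    (hπ : ∀ c, (iidLaw G).real {t | 0 < F c t} ≤ π) (D : Finset V) {a : ℝ} (ha : D.card * π ≤ a) {m : ℕ}
    (hm : 0 < m) :
    (iidLaw G).real {t | (ρ + 1) ^ 2 * m ≤ (D.filter fun c => 0 < F c t).card} ≤
      ((ρ + 1) ^ 2 : ℕ) * (Real.exp 1 * a / m) ^ m := by
  have : IsProbabilityMeasure (iidLaw G) := by unfold iidLaw; infer_instance
  obtain ⟨U, hU, hd⟩ := hF.dep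
  let cls : V → V := fun c => (c.1 % (ρ + 1), c.2 % (ρ + 1))
  let Rs : Finset V := Finset.Ico (0 : ℤ) (ρ + 1) ×ˢ Finset.Ico (0 : ℤ) (ρ + 1)
  have hρ : (0 : ℤ) < ρ + 1 := by omega
  have hRs : Rs.card = (ρ + 1) ^ 2 := by
    have h : (Finset.Ico (0 : ℤ) (ρ + 1)).card = ρ + 1 := by rw [Int.card_Ico]; omega
    rw [Finset.card_product, h, sq]
  have hcls : ∀ c, cls c ∈ Rs := fun c => Finset.mem_product.2
    ⟨Finset.mem_Ico.2 ⟨Int.emod_nonneg _ hρ.ne', Int.emod_lt_of_pos _ hρ⟩,
      Finset.mem_Ico.2 ⟨Int.emod_nonneg _ hρ.ne', Int.emod_lt_of_pos _ hρ⟩⟩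
  let F' : V → V → Env → ℝ := fun r c => if cls c = r then F c else 0
  have hm' : ∀ r c, Measurable (F' r c) := fun r c => by
    dsimp only [F']
    split_ifs
    · exact hF.meas c
    · exact measurable_zero
  have hms : ∀ r c, MeasurableSet {t | 0 < F' r c t} := fun r c => measurableSet_lt measurable_const (hm' r c)
  have hind : ∀ r, iIndepSet (fun c => {t | 0 < F' r c t}) (iidLaw G) := by
    intro r
    have h1 : iIndepFun (F' r) (iidLaw G) := by
      refine iIndepFun_of_dependsOnly G (U := fun c => if cls c = r then U c else ∅) (hm' r) (fun c => ?_) ?_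
      · dsimp only [F']
        split_ifs
        · exact hU c
        · exact fun _ _ _ => rfl
      · intro c c' hne
        split_ifs with h h'
        · refine hd c c' (lt_of_not_ge fun hle => hne ?_)
          have e := h.trans h'.symm
          simp only [cls, Prod.mk.injEq] at e
          simp only [ban_nrm_le, Prod.fst_sub, Prod.snd_sub] at hle
          have k1 := Int.eq_zero_of_abs_lt_dvd (Int.ModEq.dvd e.1)
            (abs_lt.2 ⟨by omega, by omega⟩)
          have k2 := Int.eq_zero_of_abs_lt_dvd (Int.ModEq.dvd e.2)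
            (abs_lt.2 ⟨by omega, by omega⟩)
          exact Prod.ext (by omega) (by omega)
        all_goals simp
    rw [iIndepSet_iff_meas_biInter (hms r)]
    intro s
    exact h1.measure_inter_preimage_eq_mul s (sets := fun _ => Set.Ioi 0) fun _ _ => measurableSet_Ioi
  have hsub : {t | (ρ + 1) ^ 2 * m ≤ (D.filter fun c => 0 < F c t).card} ⊆
      ⋃ r ∈ Rs, {t | m ≤ (D.filter fun c => t ∈ {t | 0 < F' r c t}).card} := by
    intro t ht
    obtain ⟨r, hr, h⟩ := Finset.exists_le_card_fiber_of_mul_le_card_of_maps_to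
      (s := D.filter fun c => 0 < F c t) (t := Rs) (f := cls) (n := m) (fun c _ => hcls c) ⟨_, hcls 0⟩
      (by rw [hRs]; exact ht)
    refine Set.mem_biUnion hr (h.trans (Finset.card_le_card fun c hc => ?_))
    obtain ⟨h1, h2⟩ := Finset.mem_filter.1 hc
    obtain ⟨h3, h4⟩ := Finset.mem_filter.1 h1
    refine Finset.mem_filter.2 ⟨h3, ?_⟩
    simpa only [F', if_pos h2, Set.mem_ofPred_eq] using h4
  refine (measureReal_mono hsub (measure_ne_top _ _)).trans ((measureReal_biUnion_finset_le _ _).trans ?_)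
  rw [← hRs, ← nsmul_eq_mul]
  refine Finset.sum_le_card_nsmul _ _ _ fun r _ => ?_
  have h := chernoff_count (iidLaw G) D (fun c => {t | 0 < F' r c t}) (hms r) (hind r) (a := a) ?_ hm
  · convert h
  · refine le_trans ?_ ha
    rw [← nsmul_eq_mul]
    refine Finset.sum_le_card_nsmul _ _ _ fun c _ => le_trans (measureReal_mono fun t ht => ?_) (hπ c)
    by_cases h : cls c = r
    · simpa only [F', if_pos h, Set.mem_ofPred_eq] using ht
    · simp [F', h] at ht

open Classical in
/-- `L = ⌈π^{-1/2}⌉`.  The squares of side `L` containing `w 0, w L, w (2L), …` form a king's walk of `a = k/L + 1`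
squares (`9^a` choices) and every `w i` is in one of the `9a` neighbouring squares: `≤ 9 a L²` sites of total
probability `≤ 36 a`; `(ρ+1)²` residue classes of independent sites; `chernoff_count`. -/
theorem animal_tail (ρ : ℕ) : ∃ C > 0, ∀ F : V → Env → ℝ, LocalField ρ F → ∀ π : ℝ, 0 < π → π ≤ 1 →
    (∀ c, (iidLaw G).real {t | 0 < F c t} ≤ π) → ∀ (c0 : V) (k : ℕ) (u : ℝ), 0 ≤ u →
      (iidLaw G).real {t | ∃ w, KWalk w k ∧ w 0 = c0 ∧ C * (k * √π + u + 1) ≤
        ((((Finset.range (k + 1)).image w).filter fun c => 0 < F c t).card : ℝ)} ≤ Real.exp (-u) := by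
  have : IsProbabilityMeasure (iidLaw G) := by unfold iidLaw; infer_instance
  set R : ℕ := (ρ + 1) ^ 2 with hR
  have hR1 : (1 : ℝ) ≤ R := by exact_mod_cast Nat.one_le_pow _ _ (Nat.succ_pos ρ)
  refine ⟨R * (801 + R), by positivity, fun F hF π hπ hπ1 hP c0 k u hu => ?_⟩
  have hs : 0 < √π := Real.sqrt_pos.2 hπ
  have hs1 : √π ≤ 1 := Real.sqrt_le_one.2 hπ1
  have hss : √π * √π = π := Real.mul_self_sqrt hπ.le
  set L : ℕ := ⌈1 / √π⌉₊ with hL
  have hL1 : 1 ≤ L * √π := by
    have := Nat.le_ceil (1 / √π)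
    rwa [div_le_iff₀ hs] at this
  have hL2 : L * √π ≤ 2 := by
    have := (Nat.ceil_lt_add_one (a := 1 / √π) (by positivity)).le
    have h2 := mul_le_mul_of_nonneg_right this hs.le
    rw [add_mul, one_div_mul_cancel hs.ne'] at h2
    linarith
  have hL0 : 0 < L := Nat.ceil_pos.2 (by positivity)
  have hL0' : (1 : ℝ) ≤ L := by exact_mod_cast hL0
  set a : ℕ := k / L + 1 with ha
  have ha1 : (a : ℝ) ≤ k * √π + 1 := by
    have h1 : ((k / L : ℕ) : ℝ) * L ≤ k := by exact_mod_cast Nat.div_mul_le_self k L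
    have h2 : (0 : ℝ) ≤ (k / L : ℕ) := Nat.cast_nonneg _
    rw [ha]; push_cast
    nlinarith [mul_le_mul_of_nonneg_right h1 hs.le, mul_le_mul_of_nonneg_left hL1 h2]
  have ha0 : (0 : ℝ) ≤ a := Nat.cast_nonneg _
  obtain ⟨𝒟, h1, h2, h3⟩ := ban_cover L a c0
  set m : ℕ := 800 * a + ⌈u⌉₊ + R with hm
  have hm0 : 0 < m := by have : 0 < a := Nat.succ_pos _; omega
  have hm0' : (0 : ℝ) < m := by exact_mod_cast hm0
  have hmr : (m : ℝ) = 800 * a + ⌈u⌉₊ + R := by rw [hm]; push_cast; ring
  have hu1 := Nat.le_ceil u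
  have hu2 := (Nat.ceil_lt_add_one hu).le
  have hsub : {t | ∃ w, KWalk w k ∧ w 0 = c0 ∧ (R : ℝ) * (801 + R) * (k * √π + u + 1) ≤
        ((((Finset.range (k + 1)).image w).filter fun c => 0 < F c t).card : ℝ)} ⊆
      ⋃ D ∈ 𝒟, {t | R * m ≤ (D.filter fun c => 0 < F c t).card} := by
    rintro t ⟨w, hw, hw0, ht⟩
    obtain ⟨D, hD, hD'⟩ := h3 (fun i => w (min i k)) (fun _ i _ => by
      rcases lt_or_ge i k with h | h
      · simpa only [min_eq_left h.le, min_eq_left (Nat.succ_le_of_lt h)] using hw i h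
      · simp [min_eq_right h, min_eq_right (Nat.le_succ_of_le h), nrm]) (by simp [hw0, nrm])
    refine Set.mem_biUnion hD ?_
    have h4 : (((Finset.range (k + 1)).image w).filter fun c => 0 < F c t).card ≤
        (D.filter fun c => 0 < F c t).card := by
      refine Finset.card_le_card (Finset.filter_subset_filter _ fun c hc => ?_)
      obtain ⟨i, hi, rfl⟩ := Finset.mem_image.1 hc
      have hi' : i ≤ k := Nat.lt_succ_iff.1 (Finset.mem_range.1 hi)
      have := hD' i (hi'.trans_lt (by rw [ha, mul_comm]; exact Nat.lt_mul_div_succ k hL0))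
      rwa [min_eq_left hi'] at this
    have h5 : (R : ℝ) * m ≤ R * (801 + R) * (k * √π + u + 1) := by
      rw [mul_assoc]
      refine mul_le_mul_of_nonneg_left ?_ (by positivity)
      have : 0 ≤ k * √π := by positivity
      rw [hmr]
      nlinarith [mul_nonneg (zero_le_one.trans hR1) (add_nonneg this hu)]
    have h6 : (R : ℝ) * m ≤ (D.filter fun c => 0 < F c t).card := h5.trans (ht.trans (by exact_mod_cast h4))
    exact_mod_cast h6
  refine (measureReal_mono hsub (measure_ne_top _ _)).trans ((measureReal_biUnion_finset_le _ _).trans ?_)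
  have h7 : ∀ D ∈ 𝒟, (iidLaw G).real {t | R * m ≤ (D.filter fun c => 0 < F c t).card} ≤
      R * Real.exp (-m) := by
    intro D hD
    have h4 : (D.card : ℝ) ≤ a * (4 * L + 1) ^ 2 := by exact_mod_cast h2 D hD
    have h5 : D.card * π ≤ 100 * a := by
      refine (mul_le_mul_of_nonneg_right h4 hπ.le).trans ?_
      have h6 : (4 * (L : ℝ) + 1) * √π ≤ 10 := by nlinarith
      have h8 : ((4 * (L : ℝ) + 1) * √π) ^ 2 ≤ 10 ^ 2 := pow_le_pow_left₀ (by positivity) h6 2
      rw [mul_pow, Real.sq_sqrt hπ.le] at h8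
      nlinarith
    refine (ban_count G hF hP D h5 hm0).trans (mul_le_mul_of_nonneg_left ?_ (by positivity))
    rw [show -(m : ℝ) = m * (-1) by ring, Real.exp_nat_mul]
    refine pow_le_pow_left₀ (by positivity) ?_ m
    have he := Real.exp_one_lt_d9
    have he0 := Real.exp_pos 1
    rw [Real.exp_neg, div_le_iff₀ hm0', inv_mul_eq_div, le_div_iff₀ he0, hmr]
    have h9 : Real.exp 1 * Real.exp 1 ≤ 8 := by nlinarith
    nlinarith [mul_le_mul_of_nonneg_right h9 ha0]
  refine (Finset.sum_le_card_nsmul _ _ _ h7).trans ?_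
  have h8 : (𝒟.card : ℝ) ≤ Real.exp (800 * a) := by
    have h9 : (𝒟.card : ℝ) ≤ 4 ^ a := by exact_mod_cast h1
    rw [mul_comm, Real.exp_nat_mul]
    exact h9.trans (pow_le_pow_left₀ (by norm_num) (by linarith [Real.add_one_le_exp (800 : ℝ)]) a)
  have h9 : (R : ℝ) ≤ Real.exp R := by linarith [Real.add_one_le_exp (R : ℝ)]
  rw [nsmul_eq_mul]
  calc (𝒟.card : ℝ) * (R * Real.exp (-m)) ≤ Real.exp (800 * a) * (Real.exp R * Real.exp (-m)) := by gcongr
    _ ≤ Real.exp (-u) := by
      rw [← Real.exp_add, ← Real.exp_add, Real.exp_le_exp, hmr]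
      linarith

theorem ban_layer {y b C : ℝ} (hC : 0 ≤ C) (J : ℕ) (h : y ≤ b + C * J) :
    y ≤ b + C * ∑ j ∈ Finset.range J, if b + C * j ≤ y then (1 : ℝ) else 0 := by
  induction J with
  | zero => simpa using h
  | succ J ih =>
    by_cases h1 : b + C * J ≤ y
    · rw [Finset.sum_congr rfl fun j hj => if_pos (le_trans ?_ h1)]
      · simpa using h
      · have : (j : ℝ) ≤ J := by exact_mod_cast Nat.lt_succ_iff.1 (Finset.mem_range.1 hj)
        nlinarith
    · rw [Finset.sum_range_succ, if_neg h1, add_zero]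
      exact ih (not_le.1 h1).le

/-- exponential tails give a bound on the mean -/
theorem ban_mean_of_tail {Ω : Type} [MeasurableSpace Ω] (μ : Measure Ω) [IsProbabilityMeasure μ] {g : Ω → ℝ}
    (hg : Measurable g) (hi : Integrable g μ) {b C : ℝ} (hC : 0 < C) {K : ℝ} (hK : ∀ t, g t ≤ K)
    (h : ∀ j : ℕ, μ.real {t | b + C * j ≤ g t} ≤ Real.exp (-j)) : ∫ t, g t ∂μ ≤ b + 2 * C := by
  obtain ⟨J, hJ⟩ := exists_nat_ge ((K - b) / C)
  rw [div_le_iff₀ hC] at hJ
  have hms : ∀ j : ℕ, MeasurableSet {t | b + C * j ≤ g t} := fun j => measurableSet_le measurable_const hg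
  have hI : ∀ j ∈ Finset.range J, Integrable ({t | b + C * j ≤ g t}.indicator fun _ => (1 : ℝ)) μ :=
    fun j _ => (integrable_const _).indicator (hms j)
  have h1 : ∫ t, g t ∂μ ≤
      ∫ t, (b + C * ∑ j ∈ Finset.range J, {t | b + C * j ≤ g t}.indicator (fun _ => (1 : ℝ)) t) ∂μ := by
    refine integral_mono hi ((integrable_const _).add ((integrable_finsetSum _ hI).const_mul _)) fun t => ?_
    simpa only [Set.indicator_apply, Set.mem_ofPred_eq] using
      ban_layer hC.le J (y := g t) (b := b) (by linarith [hK t])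
  refine h1.trans ?_
  rw [integral_add (integrable_const _) ((integrable_finsetSum _ hI).const_mul _), integral_const_mul,
    integral_finsetSum _ hI]
  have h2 : ∑ j ∈ Finset.range J, ∫ t, {t | b + C * j ≤ g t}.indicator (fun _ => (1 : ℝ)) t ∂μ ≤ 2 := by
    refine le_trans (Finset.sum_le_sum fun j _ => ?_) (sum_geometric_two_le J)
    rw [integral_indicator_const _ (hms j), smul_eq_mul, mul_one]
    refine (h j).trans ?_
    rw [show -(j : ℝ) = j * (-1) by ring, Real.exp_nat_mul]
    refine pow_le_pow_left₀ (Real.exp_pos _).le ?_ j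
    rw [Real.exp_neg, one_div]
    exact inv_anti₀ two_pos (by linarith [Real.add_one_le_exp (1 : ℝ)])
  simp only [integral_const, probReal_univ, smul_eq_mul, one_mul]
  nlinarith

theorem ban_meas_sup {Ω ι : Type} [MeasurableSpace Ω] (s : Finset ι) (f : ι → Ω → ℕ) (hf : ∀ i, Measurable (f i)) :
    Measurable fun t => s.sup fun i => f i t := by
  classical
  induction s using Finset.induction_on with
  | empty => simp
  | insert a s _ ih =>
    simp only [Finset.sup_insert]
    exact (hf a).max ih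

open Classical in
/-- if `k √π ≤ 1` count all marked sites in the ball of radius `k`; otherwise integrate `animal_tail` -/
theorem animal_mean (ρ : ℕ) : ∃ C > 0, ∀ F : V → Env → ℝ, LocalField ρ F → ∀ π : ℝ, 0 < π → π ≤ 1 →
    (∀ c, (iidLaw G).real {t | 0 < F c t} ≤ π) → ∀ (c0 : V) (k : ℕ), 1 ≤ k →
      ∃ g : Env → ℝ, Measurable g ∧ Integrable g (iidLaw G) ∧ ∫ t, g t ∂iidLaw G ≤ C * k * √π ∧
        ∀ t w, KWalk w k → w 0 = c0 →
          ((((Finset.range (k + 1)).image w).filter fun c => 0 < F c t).card : ℝ) ≤ g t := by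
  have : IsProbabilityMeasure (iidLaw G) := by unfold iidLaw; infer_instance
  obtain ⟨C, hC, hT⟩ := animal_tail G ρ
  refine ⟨9 + 4 * C, by positivity, fun F hF π hπ hπ1 hP c0 k hk => ?_⟩
  set B := banBall c0 k with hB
  set W := B.powerset.filter fun S => ∃ w, KWalk w k ∧ w 0 = c0 ∧ (Finset.range (k + 1)).image w = S with hW
  have hWm : ∀ w, KWalk w k → w 0 = c0 → (Finset.range (k + 1)).image w ∈ W := by
    intro w hw h0
    refine Finset.mem_filter.2 ⟨Finset.mem_powerset.2 fun c hc => ?_, w, hw, h0, rfl⟩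
    obtain ⟨i, hi, rfl⟩ := Finset.mem_image.1 hc
    have hi' : i ≤ k := Nat.lt_succ_iff.1 (Finset.mem_range.1 hi)
    rw [hB, ban_mem_ball, ← h0]
    exact (ban_walk_le hw i hi').trans (by exact_mod_cast hi')
  have hms : ∀ c, MeasurableSet {t | 0 < F c t} := fun c => measurableSet_lt measurable_const (hF.meas c)
  set N : Env → ℕ := fun t => W.sup fun S => (S.filter fun c => 0 < F c t).card with hN
  have hNm : Measurable fun t => (N t : ℝ) := by
    refine (measurable_from_top (f := fun n : ℕ => (n : ℝ))).comp (ban_meas_sup W _ fun S => ?_)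
    simp only [Finset.card_filter]
    exact Finset.measurable_sum _ fun c _ => Measurable.ite (hms c) measurable_const measurable_const
  have hNB : ∀ t, N t ≤ (B.filter fun c => 0 < F c t).card := fun t =>
    Finset.sup_le fun S hS => Finset.card_le_card
      (Finset.filter_subset_filter _ (Finset.mem_powerset.1 (Finset.mem_filter.1 hS).1))
  have hNK : ∀ t, (N t : ℝ) ≤ B.card := fun t => by exact_mod_cast (hNB t).trans (Finset.card_filter_le _ _)
  have hNi : Integrable (fun t => (N t : ℝ)) (iidLaw G) :=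
    Integrable.of_bound hNm.aestronglyMeasurable B.card (ae_of_all _ fun t => by
      rw [Real.norm_natCast]; exact hNK t)
  refine ⟨fun t => N t, hNm, hNi, ?_, fun t w hw h0 => ?_⟩
  · have hs : 0 < √π := Real.sqrt_pos.2 hπ
    have hk' : (1 : ℝ) ≤ k := by exact_mod_cast hk
    have hx : 0 < k * √π := by positivity
    rw [mul_assoc]
    rcases le_or_gt (k * √π) 1 with h | h
    · have hI : ∀ c ∈ B, Integrable ({t | 0 < F c t}.indicator fun _ => (1 : ℝ)) (iidLaw G) :=
        fun c _ => (integrable_const _).indicator (hms c)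
      have h1 : ∫ t, (N t : ℝ) ∂iidLaw G ≤
          ∫ t, ∑ c ∈ B, {t | 0 < F c t}.indicator (fun _ => (1 : ℝ)) t ∂iidLaw G := by
        refine integral_mono hNi (integrable_finsetSum _ hI) fun t => ?_
        have h2 : (N t : ℝ) ≤ (B.filter fun c => 0 < F c t).card := by exact_mod_cast hNB t
        simpa only [Set.indicator_apply, Set.mem_ofPred_eq, Finset.sum_boole] using h2
      rw [integral_finsetSum _ hI] at h1
      have h2 : ∑ c ∈ B, ∫ t, {t | 0 < F c t}.indicator (fun _ => (1 : ℝ)) t ∂iidLaw G ≤ B.card • π := by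
        refine Finset.sum_le_card_nsmul _ _ _ fun c _ => ?_
        rw [integral_indicator_const _ (hms c), smul_eq_mul, mul_one]
        exact hP c
      rw [nsmul_eq_mul, hB, ban_card_ball] at h2
      push_cast at h2
      have h3 : (2 * (k : ℝ) + 1) ^ 2 * π ≤ (3 * k) ^ 2 * π :=
        mul_le_mul_of_nonneg_right (pow_le_pow_left₀ (by positivity) (by linarith) 2) hπ.le
      have h4 : (3 * (k : ℝ)) ^ 2 * π = 9 * ((k * √π) * (k * √π)) := by
        conv_lhs => rw [← Real.mul_self_sqrt hπ.le]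
        ring
      nlinarith [mul_pos hC hx, mul_le_mul_of_nonneg_left h hx.le]
    · have h1 := ban_mean_of_tail (iidLaw G) hNm hNi (b := C * (k * √π + 1)) hC hNK fun j => by
        refine le_trans (measureReal_mono (fun t ht => ?_) (measure_ne_top _ _))
          (hT F hF π hπ hπ1 hP c0 k j (Nat.cast_nonneg j))
        obtain ⟨S, hS, he⟩ := Finset.exists_mem_eq_sup W
          ⟨_, hWm (fun _ => c0) (fun i _ => by simp [nrm]) rfl⟩ fun S => (S.filter fun c => 0 < F c t).card
        obtain ⟨w, hw, h0, rfl⟩ := (Finset.mem_filter.1 hS).2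
        refine ⟨w, hw, h0, ?_⟩
        rw [← he]
        have ht' : C * (k * √π + 1) + C * j ≤ (N t : ℝ) := ht
        linarith
      nlinarith [mul_le_mul_of_nonneg_left h.le hC.le]
  · exact Nat.cast_le.2 (Finset.le_sup (f := fun S => (S.filter fun c => 0 < F c t).card) (hWm w hw h0))

theorem ban_dyadic {y M : ℝ} (hM : 0 ≤ M) (J : ℕ) (h : y ≤ 2 ^ J * M) :
    y ≤ M + ∑ j ∈ Finset.range J, 2 ^ (j + 1) * M * if 2 ^ j * M < y then (1 : ℝ) else 0 := by
  induction J with
  | zero => simpa using h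
  | succ J ih =>
    rw [Finset.sum_range_succ]
    split_ifs with h1
    · have : 0 ≤ ∑ j ∈ Finset.range J, 2 ^ (j + 1) * M * if 2 ^ j * M < y then (1 : ℝ) else 0 :=
        Finset.sum_nonneg fun j _ => by split_ifs <;> positivity
      linarith
    · simpa using ih (not_lt.1 h1)

/-- dyadic layer cake: `F ≤ M + Σ_j 2^{j+1} M 1{F > 2^j M}` -/
theorem animal_sum (ρ : ℕ) {γ : ℝ} (hγ : 2 < γ) : ∃ C > 0, ∀ F : V → Env → ℝ, LocalField ρ F →
    ∀ M : ℝ, 0 < M → (∀ c s, 0 < s → (iidLaw G).real {t | s < F c t} ≤ (M / s) ^ γ) →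
      ∀ (c0 : V) (k : ℕ), 1 ≤ k →
      ∃ g : Env → ℝ, Measurable g ∧ Integrable g (iidLaw G) ∧ ∫ t, g t ∂iidLaw G ≤ C * M * k ∧
        ∀ᵐ t ∂iidLaw G, ∀ w, KWalk w k → w 0 = c0 →
          ∑ c ∈ (Finset.range (k + 1)).image w, F c t ≤ g t := by
  classical
  have : IsProbabilityMeasure (iidLaw G) := by unfold iidLaw; infer_instance
  obtain ⟨C, hC, hA⟩ := animal_mean G ρ
  set r : ℝ := (1 / 2 : ℝ) ^ (γ / 2) with hr
  have hr0 : 0 < r := Real.rpow_pos_of_pos (by norm_num) _
  have hr1 : 2 * r < 1 := by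
    have := Real.rpow_lt_rpow_of_exponent_gt (x := 1 / 2) (by norm_num) (by norm_num) (show (1 : ℝ) < γ / 2 by linarith)
    rw [Real.rpow_one] at this
    linarith
  have hq : 0 < 1 - 2 * r := by linarith
  refine ⟨2 + 2 * C / (1 - 2 * r), by positivity, fun F hF M hM hP c0 k hk => ?_⟩
  let Fj : ℕ → V → Env → ℝ := fun j c t => max (F c t - 2 ^ j * M) 0
  have hFj : ∀ j c t, 0 < Fj j c t ↔ 2 ^ j * M < F c t := fun j c t => by simp [Fj]
  have hL : ∀ j, LocalField ρ (Fj j) := by
    intro j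
    obtain ⟨U, hU, hd⟩ := hF.dep
    exact ⟨fun c => ((hF.meas c).sub_const _).max measurable_const, fun _ _ => le_max_right _ _,
      U, fun c t t' h => by simp only [Fj, hU c t t' h], hd⟩
  have hπ : ∀ (j : ℕ) c, (iidLaw G).real {t | 0 < Fj j c t} ≤ (r ^ j) ^ 2 := by
    intro j c
    simp only [hFj]
    refine (hP c _ (by positivity)).trans (le_of_eq ?_)
    have e : M / (2 ^ j * M) = (1 / 2 : ℝ) ^ (j : ℝ) := by
      rw [Real.rpow_natCast, one_div_pow]; field_simp
    rw [e, hr, ← pow_mul, ← Real.rpow_natCast, ← Real.rpow_mul (by norm_num), ← Real.rpow_mul (by norm_num)]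
    congr 1
    push_cast; ring
  choose g hg1 hg2 hg3 hg4 using fun j : ℕ => hA (Fj j) (hL j) ((r ^ j) ^ 2) (by positivity)
    (pow_le_one₀ (by positivity) (pow_le_one₀ hr0.le (by linarith))) (hπ j) c0 k hk
  have hg0 : ∀ j t, 0 ≤ g j t := fun j t =>
    (Nat.cast_nonneg _).trans (hg4 j t (fun _ => c0) (fun i _ => by simp [nrm]) rfl)
  set H : Env → ℝ≥0∞ := fun t => ∑' j, ENNReal.ofReal (2 ^ (j + 1) * M * g j t) with hH
  have hm : ∀ j, Measurable fun t => ENNReal.ofReal (2 ^ (j + 1) * M * g j t) := fun j =>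
    ((hg1 j).const_mul _).ennreal_ofReal
  have hHm : Measurable H := Measurable.tsum hm
  have hk' : (1 : ℝ) ≤ k := by exact_mod_cast hk
  have hA0 : 0 ≤ 2 * C * M * k := by positivity
  have hHi : ∫⁻ t, H t ∂iidLaw G ≤ ENNReal.ofReal (2 * C * M * k * (1 - 2 * r)⁻¹) := by
    have hs := summable_geometric_of_lt_one (r := 2 * r) (by positivity) hr1
    rw [hH, lintegral_tsum fun j => (hm j).aemeasurable, ← tsum_geometric_of_lt_one (by positivity) hr1,
      ← tsum_mul_left, ENNReal.ofReal_tsum_of_nonneg (fun j => by positivity) (hs.mul_left _)]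
    refine ENNReal.tsum_le_tsum fun j => ?_
    rw [← ofReal_integral_eq_lintegral_ofReal ((hg2 j).const_mul _)
      (ae_of_all _ fun t => mul_nonneg (by positivity) (hg0 j t)), integral_const_mul]
    refine ENNReal.ofReal_le_ofReal ?_
    have h1 := hg3 j
    rw [Real.sqrt_sq (by positivity)] at h1
    refine (mul_le_mul_of_nonneg_left h1 (by positivity)).trans (le_of_eq ?_)
    rw [mul_pow]; ring
  have hHt : ∫⁻ t, H t ∂iidLaw G ≠ ⊤ := ne_top_of_le_ne_top ENNReal.ofReal_ne_top hHi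
  have hI := integrable_toReal_of_lintegral_ne_top hHm.aemeasurable hHt
  have hlt := ae_lt_top hHm hHt
  refine ⟨fun t => M * (k + 1) + (H t).toReal, hHm.ennreal_toReal.const_add _, (integrable_const _).add hI, ?_, ?_⟩
  · rw [integral_add (integrable_const _) hI, integral_toReal hHm.aemeasurable hlt]
    have h1 := ENNReal.toReal_le_of_le_ofReal (by positivity) hHi
    simp only [integral_const, probReal_univ, smul_eq_mul, one_mul]
    have e : (2 + 2 * C / (1 - 2 * r)) * M * k = 2 * M * k + 2 * C * M * k * (1 - 2 * r)⁻¹ := by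
      rw [div_eq_mul_inv]; ring
    nlinarith
  · filter_upwards [hlt] with t ht w hw h0
    set S := (Finset.range (k + 1)).image w with hS
    obtain ⟨J, hJ⟩ := pow_unbounded_of_one_lt ((∑ c ∈ S, F c t) / M) (one_lt_two (α := ℝ))
    rw [div_lt_iff₀ hM] at hJ
    have h1 : ∑ c ∈ S, F c t ≤
        ∑ c ∈ S, (M + ∑ j ∈ Finset.range J, 2 ^ (j + 1) * M * if 2 ^ j * M < F c t then (1 : ℝ) else 0) :=
      Finset.sum_le_sum fun c hc => ban_dyadic hM.le J
        ((Finset.single_le_sum (fun c _ => hF.nonneg c t) hc).trans hJ.le)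
    rw [Finset.sum_add_distrib, Finset.sum_comm, Finset.sum_const, nsmul_eq_mul] at h1
    have h2 : (S.card : ℝ) ≤ k + 1 := by
      exact_mod_cast Finset.card_image_le.trans (Finset.card_range _).le
    have h3 : ∑ j ∈ Finset.range J, ∑ c ∈ S, (2 ^ (j + 1) * M * if 2 ^ j * M < F c t then (1 : ℝ) else 0) ≤
        ∑ j ∈ Finset.range J, 2 ^ (j + 1) * M * g j t := by
      refine Finset.sum_le_sum fun j _ => ?_
      rw [← Finset.mul_sum, Finset.sum_boole]
      refine mul_le_mul_of_nonneg_left ?_ (by positivity)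
      simpa only [hFj] using hg4 j t w hw h0
    have h4 : ∑ j ∈ Finset.range J, 2 ^ (j + 1) * M * g j t ≤ (H t).toReal := by
      refine (ENNReal.ofReal_le_iff_le_toReal ht.ne).1 ?_
      rw [ENNReal.ofReal_sum_of_nonneg fun j _ => mul_nonneg (by positivity) (hg0 j t)]
      exact ENNReal.sum_le_tsum _
    nlinarith

end Crest.Agent.R151
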