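import Crest.Agent.R151.BTS

/-! R151 base: planar crossing lemmas, Monge inequality, two small combinatorial lemmas. -/

set_option autoImplicit false
open MeasureTheory ProbabilityTheory Crest.ProbabilityR.FirstPassage Filter Topology
open scoped ENNReal

namespace Crest.Agent.R151

variable {p q : ℤ → V} {i j i' j' : ℤ} {t : Env}

theorem BCross_tele (f : ℤ → ℤ) (h : i ≤ j) : ∑ k ∈ Finset.Ico i j, (f (k + 1) - f k) = f j - f i := by
  induction j, h using Int.leInduction with
  | base => simp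
  | succ j h ih =>
    rw [← Finset.insert_Ico_right_eq_Ico_add_one h, Finset.sum_insert (by simp), ih]
    ring

/-- signed crossing of the half line at height `y + 1/2` left of `x` by the step `u → w` -/
def BCross_g (x y : ℤ) (u w : V) : ℤ :=
  (if u.2 = y ∧ w.2 = y + 1 ∧ u.1 < x then 1 else 0) -
    (if u.2 = y + 1 ∧ w.2 = y ∧ u.1 < x then 1 else 0)

/-- indicator of the half row left of `(x, y)` -/
def BCross_r (x y : ℤ) (u : V) : ℤ := if u.2 = y ∧ u.1 < x then 1 else 0

/-- winding number of `q` (extended upwards) around `(x, y)` -/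
noncomputable def BCross_N (q : ℤ → V) (i' j' : ℤ) (x y : ℤ) : ℤ :=
  ∑ k ∈ Finset.Ico i' j', BCross_g x y (q k) (q (k + 1)) + BCross_r x y (q j')

theorem BCross_hor {S : Set V} (hq : PathIn S q i' j') {x y : ℤ}
    (h : ∀ l, i' ≤ l → l ≤ j' → q l ≠ (x, y)) : BCross_N q i' j' (x + 1) y = BCross_N q i' j' x y := by
  unfold BCross_N
  congr 1
  · refine Finset.sum_congr rfl fun k hk => ?_
    rw [Finset.mem_Ico] at hk
    have h1 := (adj_iff _ _).1 (hq.2.2 k hk.1 hk.2)
    have h2 := h k hk.1 hk.2.le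
    have h3 := h (k + 1) (by omega) (by omega)
    simp only [ne_eq, Prod.ext_iff] at h2 h3
    unfold BCross_g
    split_ifs <;> omega
  · have h2 := h j' hq.1 le_rfl
    simp only [ne_eq, Prod.ext_iff] at h2
    unfold BCross_r
    split_ifs <;> omega

theorem BCross_ver {S : Set V} (hq : PathIn S q i' j') {x y : ℤ}
    (h : ∀ l, i' ≤ l → l ≤ j' → q l ≠ (x, y + 1)) :
    BCross_N q i' j' x (y + 1) + BCross_r x y (q j') =
      BCross_N q i' j' x y + BCross_r x (y + 1) (q i') := by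
  have h1 := BCross_tele (fun k => BCross_r x (y + 1) (q k)) hq.1
  have h2 : ∑ k ∈ Finset.Ico i' j', (BCross_r x (y + 1) (q (k + 1)) - BCross_r x (y + 1) (q k)) =
      ∑ k ∈ Finset.Ico i' j',
        (BCross_g x y (q k) (q (k + 1)) - BCross_g x (y + 1) (q k) (q (k + 1))) := by
    refine Finset.sum_congr rfl fun k hk => ?_
    rw [Finset.mem_Ico] at hk
    have h1 := (adj_iff _ _).1 (hq.2.2 k hk.1 hk.2)
    have h2 := h k hk.1 hk.2.le
    have h3 := h (k + 1) (by omega) (by omega)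
    simp only [ne_eq, Prod.ext_iff] at h2 h3
    unfold BCross_g BCross_r
    split_ifs <;> omega
  rw [h2, Finset.sum_sub_distrib] at h1
  unfold BCross_N
  linarith

theorem BCross_const {a b : ℤ} (hp : PathIn (rows a b) p i j) {S : Set V} (hq : PathIn S q i' j')
    (hqa : (q i').2 = a) (hqb : (q j').2 = b)
    (h : ∀ k l, i ≤ k → k ≤ j → i' ≤ l → l ≤ j' → q l ≠ p k) :
    BCross_N q i' j' (p j).1 (p j).2 = BCross_N q i' j' (p i).1 (p i).2 := by
  suffices H : ∀ k, i ≤ k → k ≤ j →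
      BCross_N q i' j' (p k).1 (p k).2 = BCross_N q i' j' (p i).1 (p i).2 from H j hp.1 le_rfl
  intro k hk
  induction k, hk using Int.leInduction with
  | base => exact fun _ => rfl
  | succ k hk ih =>
    intro hj
    rw [← ih (by omega)]
    have h1 := (adj_iff _ _).1 (hp.2.2 k hk (by omega))
    have h2 := fun l => h k l hk (by omega)
    have h3 := fun l => h (k + 1) l (by omega) hj
    have h4 := hp.2.1 k hk (by omega)
    have h5 := hp.2.1 (k + 1) (by omega) hj
    generalize p k = u at h1 h2 h4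
    generalize p (k + 1) = w at h1 h3 h5
    obtain ⟨x, y⟩ := u
    obtain ⟨x', y'⟩ := w
    simp only [rows, Set.mem_ofPred_eq] at h1 h4 h5 ⊢
    rcases h1 with ⟨rfl, rfl | rfl⟩ | ⟨rfl, rfl | rfl⟩
    · have := BCross_ver hq h3
      rw [BCross_r, BCross_r, if_neg (by omega), if_neg (by omega)] at this
      linarith
    · have := BCross_ver hq h2
      rw [BCross_r, BCross_r, if_neg (by omega), if_neg (by omega)] at this
      linarith
    · exact BCross_hor hq h2
    · exact (BCross_hor hq h3).symm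

theorem BCross_sep {a b : ℤ} (hp : PathIn (rows a b) p i j) (hq : PathIn (rows a b) q i' j')
    (hqa : (q i').2 = a) (hqb : (q j').2 = b)
    (hl : ∀ l, i' ≤ l → l ≤ j' → (q l).2 = (p i).2 → (p i).1 ≤ (q l).1)
    (hr : ∀ l, i' ≤ l → l ≤ j' → (q l).2 = (p j).2 → (q l).1 ≤ (p j).1) :
    ∃ k l, i ≤ k ∧ k ≤ j ∧ i' ≤ l ∧ l ≤ j' ∧ p k = q l := by
  by_contra hcon
  have h : ∀ k l, i ≤ k → k ≤ j → i' ≤ l → l ≤ j' → q l ≠ p k := fun k l a1 a2 a3 a4 e =>
    hcon ⟨k, l, a1, a2, a3, a4, e.symm⟩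
  have h0 := BCross_const hp hq hqa hqb h
  have h1 : BCross_N q i' j' (p i).1 (p i).2 = 0 := by
    have := hl j' hq.1 le_rfl
    rw [BCross_N, BCross_r, if_neg (by omega), add_zero]
    refine Finset.sum_eq_zero fun k hk => ?_
    rw [Finset.mem_Ico] at hk
    have h1 := (adj_iff _ _).1 (hq.2.2 k hk.1 hk.2)
    have h2 := hl k hk.1 hk.2.le
    have h3 := hl (k + 1) (by omega) (by omega)
    unfold BCross_g
    split_ifs <;> omega
  have hr' : ∀ l, i' ≤ l → l ≤ j' → (q l).2 = (p j).2 → (q l).1 < (p j).1 := fun l a1 a2 a3 =>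
    lt_of_le_of_ne (hr l a1 a2 a3) fun e => h j l hp.1 le_rfl a1 a2 (Prod.ext e a3)
  have h2 := BCross_tele (fun k => if (p j).2 < (q k).2 then 1 else 0) hq.1
  have h3 : ∑ k ∈ Finset.Ico i' j', BCross_g (p j).1 (p j).2 (q k) (q (k + 1)) =
      ∑ k ∈ Finset.Ico i' j', ((if (p j).2 < (q (k + 1)).2 then (1 : ℤ) else 0) -
        if (p j).2 < (q k).2 then 1 else 0) := by
    refine Finset.sum_congr rfl fun k hk => ?_
    rw [Finset.mem_Ico] at hk
    have h1 := (adj_iff _ _).1 (hq.2.2 k hk.1 hk.2)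
    have h2 := hr' k hk.1 hk.2.le
    have h3 := hr' (k + 1) (by omega) (by omega)
    unfold BCross_g
    split_ifs <;> omega
  have h4 := hr' j' hq.1 le_rfl
  have h5 : a ≤ (p j).2 ∧ (p j).2 ≤ b := hp.2.1 j hp.1 le_rfl
  rw [h1, BCross_N, h3, h2, BCross_r] at h0
  split_ifs at h0 <;> omega

theorem BCross_max (a : ℕ → ℝ) (ha : ∀ n, 0 ≤ a n) (lam : ℝ) (N M : ℕ) (B : ℕ → Prop)
    [DecidablePred B]
    (hB : ∀ y, B y → ∃ m ∈ Finset.Icc 1 M, lam * m < ∑ k ∈ Finset.range m, a (y + k)) :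
    lam * (((Finset.range N).filter B).card : ℝ) ≤ ∑ y ∈ Finset.range (N + M), a y := by
  rcases le_total lam 0 with hl | hl
  · exact (mul_nonpos_of_nonpos_of_nonneg hl (Nat.cast_nonneg _)).trans
      (Finset.sum_nonneg fun n _ => ha n)
  suffices H : ∀ n s, N ≤ s + n →
      lam * (((Finset.Ico s N).filter B).card : ℝ) ≤ ∑ y ∈ Finset.Ico s (N + M), a y by
    simpa only [Finset.range_eq_Ico] using H N 0 (by omega)
  intro n
  induction n using Nat.strong_induction_on with
  | _ n ih =>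
    intro s hs
    rcases le_or_gt N s with h | h
    · rw [Finset.Ico_eq_empty_of_le h, Finset.filter_empty, Finset.card_empty, Nat.cast_zero,
        mul_zero]
      exact Finset.sum_nonneg fun n _ => ha n
    by_cases hb : B s
    · obtain ⟨m, hm, h1⟩ := hB s hb
      rw [Finset.mem_Icc] at hm
      have h2 := ih (n - 1) (by omega) (s + m) (by omega)
      rw [← Finset.sum_Ico_consecutive a (Nat.le_add_right s m) (by omega),
        Finset.sum_Ico_eq_sum_range, Nat.add_sub_cancel_left]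
      refine le_trans ?_ (add_le_add h1.le h2)
      rw [← mul_add]
      refine mul_le_mul_of_nonneg_left ?_ hl
      norm_cast
      refine (Finset.card_le_card (t := Finset.Ico s (s + m) ∪ (Finset.Ico (s + m) N).filter B)
        fun y hy => ?_).trans
        ((Finset.card_union_le _ _).trans (by rw [Nat.card_Ico, Nat.add_sub_cancel_left]))
      rw [Finset.mem_filter, Finset.mem_Ico] at hy
      rw [Finset.mem_union, Finset.mem_filter, Finset.mem_Ico, Finset.mem_Ico]
      by_cases h3 : y < s + m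
      · exact Or.inl ⟨hy.1.1, h3⟩
      · exact Or.inr ⟨⟨by omega, hy.1.2⟩, hy.2⟩
    · have h2 := ih (n - 1) (by omega) (s + 1) (by omega)
      rw [Finset.sum_eq_sum_Ico_succ_bot (by omega), ← Finset.insert_Ico_add_one_left_eq_Ico h,
        Finset.filter_insert, if_neg hb]
      linarith [ha s]

/-- A left-right and a bottom-top crossing of a rectangle meet.  Proof: extend `p` by one step to the left
and to the right.  If they do not meet, let `N v` be the parity of the number of indices `k` whose edge is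
`(v.1,y)-(v.1+1,y)` with `y < v.2`.  `N` is constant along steps between vertices off `p` (vertical step:
an edge counted on one side only contains the lower vertex; horizontal step: count the edges of `p` with
exactly one endpoint in the half column below the right vertex, this number is even).  `N = 0` in the
bottom row, `N = 1` in the top row (the gap between two columns is crossed an odd number of times). -/
theorem cross_LR_BT {a b c d : ℤ} (hp : PathIn (box a b c d) p i j) (hpa : (p i).1 = a)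
    (hpb : (p j).1 = b) (hq : PathIn (box a b c d) q i' j') (hqc : (q i').2 = c) (hqd : (q j').2 = d) :
    ∃ k l, i ≤ k ∧ k ≤ j ∧ i' ≤ l ∧ l ≤ j' ∧ p k = q l :=
  BCross_sep (hp.mono fun _ h => h.2.2) (hq.mono fun _ h => h.2.2) hqc hqd
    (fun l h1 h2 _ => hpa ▸ (hq.2.1 l h1 h2).1) fun l h1 h2 _ => hpb ▸ (hq.2.1 l h1 h2).2.1

/-- Two crossings of a strip whose order changes meet (extend `q` along the rows `a-1`, `b+1`). -/
theorem cross_strip {a b : ℤ} (hp : PathIn (rows a b) p i j) (hpa : (p i).2 = a) (hpb : (p j).2 = b)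
    (hq : PathIn (rows a b) q i' j') (hqa : (q i').2 = a) (hqb : (q j').2 = b)
    (h1 : (p i).1 ≤ (q i').1) (h2 : (q j').1 ≤ (p j).1) :
    ∃ k l, i ≤ k ∧ k ≤ j ∧ i' ≤ l ∧ l ≤ j' ∧ p k = q l := by
  by_contra hcon
  have h : ∀ k l, i ≤ k → k ≤ j → i' ≤ l → l ≤ j' → q l ≠ p k := fun k l a1 a2 a3 a4 e =>
    hcon ⟨k, l, a1, a2, a3, a4, e.symm⟩
  have h0 := BCross_const hp hq hqa hqb h
  have h3 : ∀ x y, (y = a - 1 ∨ y = b) →
      ∑ k ∈ Finset.Ico i' j', BCross_g x y (q k) (q (k + 1)) = 0 := fun x y hy => by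
    refine Finset.sum_eq_zero fun k hk => ?_
    rw [Finset.mem_Ico] at hk
    have h2 : a ≤ (q k).2 ∧ (q k).2 ≤ b := hq.2.1 k hk.1 hk.2.le
    have h3 : a ≤ (q (k + 1)).2 ∧ (q (k + 1)).2 ≤ b := hq.2.1 (k + 1) (by omega) (by omega)
    unfold BCross_g
    split_ifs <;> omega
  have h4 := BCross_ver hq (x := (p i).1) (y := a - 1) fun l a1 a2 => by
    rw [sub_add_cancel, ← hpa]
    exact h i l le_rfl hp.1 a1 a2
  have h5 : (q j').1 ≠ (p j).1 := fun e => h j j' hp.1 le_rfl hq.1 le_rfl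
    (Prod.ext e (hqb.trans hpb.symm))
  rw [sub_add_cancel, BCross_N.eq_1 q i' j' (p i).1 (a - 1), h3 _ _ (Or.inl rfl),
    BCross_r.eq_1 (p i).1 a, if_neg (by omega)] at h4
  rw [hpa, hpb, BCross_N, h3 _ _ (Or.inr rfl), BCross_r, if_pos (by omega)] at h0
  omega

/-- Separation by a crossing `q` of a strip: a path `p` in the strip from a point whose row contains no
point of `q` to its left to a point whose row contains no point of `q` to its right meets `q`. -/
theorem cross_sep {a b : ℤ} (hp : PathIn (rows a b) p i j) (hq : PathIn (rows a b) q i' j')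
    (hqa : (q i').2 = a) (hqb : (q j').2 = b)
    (hl : ∀ l, i' ≤ l → l ≤ j' → (q l).2 = (p i).2 → (p i).1 ≤ (q l).1)
    (hr : ∀ l, i' ≤ l → l ≤ j' → (q l).2 = (p j).2 → (q l).1 ≤ (p j).1) :
    ∃ k l, i ≤ k ∧ k ≤ j ∧ i' ≤ l ∧ l ≤ j' ∧ p k = q l :=
  BCross_sep hp hq hqa hqb hl hr

/-- Monge inequality in a strip -/
theorem monge (ht : ∀ e, 0 ≤ t e) {a b x x' u u' : ℤ} (hab : a ≤ b) (hx : x ≤ x') (hu : u ≤ u') :
    TS t (rows a b) (x, a) (u, b) + TS t (rows a b) (x', a) (u', b) ≤
      TS t (rows a b) (x, a) (u', b) + TS t (rows a b) (x', a) (u, b) := by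
  have ma : ∀ x, (x, a) ∈ rows a b := fun x => ⟨le_rfl, hab⟩
  have mb : ∀ x, (x, b) ∈ rows a b := fun x => ⟨hab, le_rfl⟩
  rw [← sub_le_iff_le_add]
  refine le_TS (conn_rows (ma _) (mb _)) fun p i j hp p1 p2 => ?_
  rw [sub_le_comm]
  refine le_TS (conn_rows (ma _) (mb _)) fun q i' j' hq q1 q2 => ?_
  obtain ⟨k, l, a1, a2, a3, a4, e⟩ := cross_strip hp (by rw [p1]) (by rw [p2]) hq (by rw [q1])
    (by rw [q2]) (by rw [p1, q1]; exact hx) (by rw [p2, q2]; exact hu)
  have mz : p k ∈ rows a b := hp.2.1 k a1 a2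
  have h1 := TS_triangle ht (conn_rows (ma x) mz) (conn_rows mz (mb u))
  have h2 := TS_triangle ht (conn_rows (ma x') mz) (conn_rows mz (mb u'))
  have h3 := TS_le_cost ht (hp.sub le_rfl a1 a2)
  have h4 := TS_le_cost ht (hp.sub a1 a2 le_rfl)
  have h5 := TS_le_cost ht (hq.sub le_rfl a3 a4)
  have h6 := TS_le_cost ht (hq.sub a3 a4 le_rfl)
  rw [p1] at h3
  rw [p2] at h4
  rw [q1, ← e] at h5
  rw [q2, ← e] at h6
  rw [cost_add a1 a2, cost_add a3 a4]
  linarith

/-- overlap-two covering of finitely many integer intervals (take a minimal subcover) -/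
theorem cover2 {ι : Type} (I : Finset ι) (l r : ι → ℤ) :
    ∃ J ⊆ I, (∀ a ∈ I, ∀ m, l a ≤ m → m ≤ r a → ∃ b ∈ J, l b ≤ m ∧ m ≤ r b) ∧
      ∀ m, (J.filter fun b => l b ≤ m ∧ m ≤ r b).card ≤ 2 := by
  classical
  induction I using Finset.strongInduction with
  | H I ih =>
    by_cases h : ∀ m, (I.filter fun b => l b ≤ m ∧ m ≤ r b).card ≤ 2
    · exact ⟨I, Finset.Subset.refl _, fun a ha m h1 h2 => ⟨a, ha, h1, h2⟩, h⟩
    push Not at h
    obtain ⟨m, hm⟩ := h
    have hne : (I.filter fun b => l b ≤ m ∧ m ≤ r b).Nonempty := Finset.card_pos.1 (by omega)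
    obtain ⟨b1, hb1, h1⟩ := Finset.exists_min_image _ l hne
    obtain ⟨b2, hb2, h2⟩ := Finset.exists_max_image _ r hne
    obtain ⟨b3, hb3, h3⟩ := Finset.exists_mem_notMem_of_card_lt_card
      (s := {b1, b2}) (Finset.card_le_two.trans_lt hm)
    have h4 := h1 b3 hb3
    have h5 := h2 b3 hb3
    simp only [Finset.mem_insert, Finset.mem_singleton, not_or] at h3
    rw [Finset.mem_filter] at hb1 hb2 hb3
    obtain ⟨J, hJ, c1, c2⟩ := ih _ (Finset.erase_ssubset hb3.1)
    refine ⟨J, hJ.trans (Finset.erase_subset _ _), fun a ha n a1 a2 => ?_, c2⟩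
    by_cases e : a = b3
    · subst e
      rcases le_total n m with a3 | a3
      · exact c1 b1 (Finset.mem_erase.2 ⟨Ne.symm h3.1, hb1.1⟩) n (by omega) (by omega)
      · exact c1 b2 (Finset.mem_erase.2 ⟨Ne.symm h3.2, hb2.1⟩) n (by omega) (by omega)
    · exact c1 a (Finset.mem_erase.2 ⟨e, ha⟩) n a1 a2

open Classical in
/-- deterministic maximal inequality (greedy choice of disjoint intervals from the left) -/
theorem maximal_1d (a : ℕ → ℝ) (ha : ∀ n, 0 ≤ a n) (lam : ℝ) (N M : ℕ) :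
    lam * (((Finset.range N).filter fun y => ∃ m ∈ Finset.Icc 1 M,
      lam * m < ∑ k ∈ Finset.range m, a (y + k)).card : ℝ) ≤ ∑ y ∈ Finset.range (N + M), a y :=
  @BCross_max a ha lam N M _ (_) fun _ h => h

end Crest.Agent.R151
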