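import Crest.Agent.R151.BMeas

/-! R151 base: mass transport, recurrence, mixing, law of large numbers for shifts. -/

set_option autoImplicit false
open MeasureTheory ProbabilityTheory Crest.ProbabilityR.FirstPassage Filter Topology
open scoped ENNReal

namespace Crest.Agent.R151

variable (G : Measure ℝ) [IsProbabilityMeasure G]

theorem berg_transport {ι : Type} [Countable ι] (φ : ι → V) (g : Env → ι → ℝ≥0∞)
    (hg : ∀ y, AEMeasurable (fun t => g t y) (iidLaw G)) :
    ∫⁻ t, ∑' y, g t y ∂iidLaw G = ∫⁻ t, ∑' y, g (shift (φ y) t) y ∂iidLaw G := by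
  rw [lintegral_tsum hg, lintegral_tsum (f := fun y t => g (shift (φ y) t) y) fun y =>
    (hg y).comp_quasiMeasurePreserving (measurePreserving_shift G (φ y)).quasiMeasurePreserving]
  refine tsum_congr fun y => ?_
  have h := measurePreserving_shift G (φ y)
  rw [← lintegral_map' (f := fun t => g t y) (h.map_eq.symm ▸ hg y) h.measurable.aemeasurable, h.map_eq]

/-- mass sent from `0` to `y` is `g t y`; mass received at `0` from `-y` is `g (shift (-y) t) y` -/
theorem mass_transport (g : Env → V → ℝ≥0∞) (hg : ∀ y, AEMeasurable (fun t => g t y) (iidLaw G)) :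
    ∫⁻ t, ∑' y, g t y ∂iidLaw G = ∫⁻ t, ∑' y, g (shift (-y) t) y ∂iidLaw G :=
  berg_transport G (fun y => -y) g hg
theorem mass_transport_row (g : Env → ℤ → ℝ≥0∞) (hg : ∀ y, AEMeasurable (fun t => g t y) (iidLaw G)) :
    ∫⁻ t, ∑' y, g t y ∂iidLaw G = ∫⁻ t, ∑' y, g (shift (-y, 0) t) y ∂iidLaw G :=
  berg_transport G (fun y => (-y, 0)) g hg

/-- Poincaré recurrence (`MeasurePreserving.conservative`), at every site -/
theorem recurrence {A : Set Env} (hA : NullMeasurableSet A (iidLaw G)) (v : V) :
    ∀ᵐ t ∂iidLaw G, ∀ x : V, shift x t ∈ A → ∃ᶠ n : ℕ in atTop, shift (x + n • v) t ∈ A := by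
  have : IsProbabilityMeasure (iidLaw G) := by unfold iidLaw; infer_instance
  refine ae_all_iff.2 fun x => ?_
  have h := (measurePreserving_shift G v).conservative.ae_mem_imp_frequently_image_mem hA
  filter_upwards [(measurePreserving_shift G x).quasiMeasurePreserving.ae h] with t ht hx
  have e : ∀ n : ℕ, (shift v)^[n] (shift x t) = shift (x + n • v) t := by
    intro n
    induction n with
    | zero => simp
    | succ n ih => rw [Function.iterate_succ_apply', ih, shift_shift, succ_nsmul, add_assoc]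
  simpa only [e] using ht hx

/-- approximation by events reading finitely many weights -/
theorem exists_cylinder_approx {A : Set Env} (hA : NullMeasurableSet A (iidLaw G)) {ε : ℝ≥0∞}
    (hε : 0 < ε) : ∃ (B : Set Env) (U : Finset (Sym2 V)), MeasurableSet B ∧
      DependsOnly (fun t => t ∈ B) U ∧ iidLaw G (symmDiff A B) < ε := by
  have : IsProbabilityMeasure (iidLaw G) := by unfold iidLaw; infer_instance
  obtain ⟨A', -, hA', he⟩ := hA.exists_measurable_subset_ae_eq
  obtain ⟨B, hB, h⟩ := exists_measure_symmDiff_lt_of_generateFrom_isSetRing (μ := iidLaw G)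
    isSetRing_measurableCylinders ⟨{Set.univ}, Set.countable_singleton _,
      Set.singleton_subset_iff.2 (univ_mem_measurableCylinders _), by simp⟩
    generateFrom_measurableCylinders.symm hA' hε
  obtain ⟨U, S, hS, rfl⟩ := (mem_measurableCylinders _).1 hB
  refine ⟨_, U, MeasurableSet.of_mem_measurableCylinders hB, fun t t' htt => ?_, ?_⟩
  · have e : U.restrict t = U.restrict t' := funext fun e => htt e e.2
    simp only [mem_cylinder, e]
  · rw [symmDiff_comm]
    exact (measure_congr (ae_eq_set_symmDiff (ae_eq_refl _) he)).symm.trans_lt h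

theorem berg_bound (U : Finset (Sym2 V)) : ∃ r : ℤ, ∀ e ∈ U, ∀ x ∈ e, nrm x ≤ r := by
  classical
  induction U using Finset.induction_on with
  | empty => simp
  | insert e U _ ih =>
    obtain ⟨r, hr⟩ := ih
    induction e using Sym2.ind with
    | h a b =>
      refine ⟨max r (max (nrm a) (nrm b)), fun e' he' x hx => ?_⟩
      rcases Finset.mem_insert.1 he' with rfl | h
      · rcases Sym2.mem_iff.1 hx with rfl | rfl <;> simp
      · exact (hr e' h x hx).trans (le_max_left _ _)

theorem mixing {A B : Set Env} (hA : NullMeasurableSet A (iidLaw G))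
    (hB : NullMeasurableSet B (iidLaw G)) {ε : ℝ} (hε : 0 < ε) :
    ∃ R : ℤ, ∀ v : V, R ≤ nrm v →
      |(iidLaw G).real (A ∩ shift v ⁻¹' B) - (iidLaw G).real A * (iidLaw G).real B| ≤ ε := by
  classical
  have : IsProbabilityMeasure (iidLaw G) := by unfold iidLaw; infer_instance
  have hδ : 0 < ENNReal.ofReal (ε / 4) := ENNReal.ofReal_pos.2 (by positivity)
  obtain ⟨A', U, hA', hU, ha⟩ := exists_cylinder_approx G hA hδ
  obtain ⟨B', W, hB', hW, hb⟩ := exists_cylinder_approx G hB hδ
  have ha' : (iidLaw G).real (symmDiff A A') ≤ ε / 4 := ENNReal.toReal_le_of_le_ofReal (by positivity) ha.le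
  have hb' : (iidLaw G).real (symmDiff B B') ≤ ε / 4 := ENNReal.toReal_le_of_le_ofReal (by positivity) hb.le
  obtain ⟨r, hr⟩ := berg_bound (U ∪ W)
  refine ⟨2 * r + 1, fun v hv => ?_⟩
  have hs := measurePreserving_shift G v
  have hind : IndepFun (fun t => t ∈ A') (fun t => shift v t ∈ B') (iidLaw G) := by
    refine indepFun_of_dependsOnly G (U := U) (W := Sym2.map (fun x => x + v) '' W) hA'.mem
      (hB'.mem.comp hs.measurable) hU (fun t t' h => hW _ _ fun e he => h _ ⟨e, he, rfl⟩) ?_
    refine Set.disjoint_left.2 ?_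
    rintro _ h1 ⟨e, h2, rfl⟩
    induction e using Sym2.ind with
    | h a b =>
      have k1 := hr _ (Finset.mem_union_left _ h1) (a + v) (by simp)
      have k2 := hr _ (Finset.mem_union_right _ h2) a (by simp)
      simp only [nrm, max_le_iff, abs_le, le_max_iff, le_abs, Prod.fst_add, Prod.snd_add] at k1 k2 hv
      omega
  have h1 : (iidLaw G).real (A' ∩ shift v ⁻¹' B') = (iidLaw G).real A' * (iidLaw G).real B' := by
    have h2 : iidLaw G (A' ∩ shift v ⁻¹' B') = iidLaw G A' * iidLaw G (shift v ⁻¹' B') :=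
      hind.measure_inter_preimage_eq_mul {p | p} {p | p} trivial trivial
    rw [measureReal_def, h2, hs.measure_preimage hB'.nullMeasurableSet, ENNReal.toReal_mul]
    rfl
  have h2 := abs_measureReal_sub_le_measureReal_symmDiff hA hA'.nullMeasurableSet
  have h3 := abs_measureReal_sub_le_measureReal_symmDiff hB hB'.nullMeasurableSet
  have h4 := abs_measureReal_sub_le_measureReal_symmDiff (hA.inter (hB.preimage hs.quasiMeasurePreserving))
    (hA'.inter (hs.measurable hB')).nullMeasurableSet
  have h5 : (iidLaw G).real (symmDiff (A ∩ shift v ⁻¹' B) (A' ∩ shift v ⁻¹' B')) ≤ ε / 4 + ε / 4 := by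
    have h6 : symmDiff (A ∩ shift v ⁻¹' B) (A' ∩ shift v ⁻¹' B') ⊆ symmDiff A A' ∪ shift v ⁻¹' symmDiff B B' := by
      intro t
      simp only [Set.mem_symmDiff, Set.mem_inter_iff, Set.mem_preimage, Set.mem_union]
      tauto
    refine (measureReal_mono h6 (measure_ne_top _ _)).trans ((measureReal_union_le _ _).trans (add_le_add ha' ?_))
    rw [hs.measureReal_preimage (hB.symmDiff hB'.nullMeasurableSet)]
    exact hb'
  have p1 : 0 ≤ (iidLaw G).real A := measureReal_nonneg
  have p2 : (iidLaw G).real A ≤ 1 := measureReal_le_one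
  have p3 : 0 ≤ (iidLaw G).real B' := measureReal_nonneg
  have p4 : (iidLaw G).real B' ≤ 1 := measureReal_le_one
  rw [h1] at h4
  have q2 := abs_le.1 (h2.trans ha')
  have q3 := abs_le.1 (h3.trans hb')
  have q4 := abs_le.1 (h4.trans h5)
  rw [abs_le]
  constructor <;> nlinarith

theorem berg_nrm {v : V} (hv : v ≠ 0) (z : ℤ) : |z| ≤ nrm (z • v) := by
  have h : v.1 ≠ 0 ∨ v.2 ≠ 0 := by
    by_contra h
    push Not at h
    exact hv (Prod.ext h.1 h.2)
  simp only [nrm, Prod.smul_fst, Prod.smul_snd, smul_eq_mul, abs_mul, le_max_iff]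
  exact h.imp (fun h => le_mul_of_one_le_right (abs_nonneg _) (Int.one_le_abs h))
    fun h => le_mul_of_one_le_right (abs_nonneg _) (Int.one_le_abs h)

/-- `L²` law of large numbers along a line, uniformly in the starting point (stationarity) -/
theorem lln_row {A : Set Env} (hA : NullMeasurableSet A (iidLaw G)) {v : V} (hv : v ≠ 0) {ε : ℝ}
    (hε : 0 < ε) : ∀ᶠ n : ℕ in atTop, ∀ x : V,
      ∫ t, ((∑ k ∈ Finset.range n, A.indicator (fun _ => (1 : ℝ)) (shift (x + k • v) t)) / n -
        (iidLaw G).real A) ^ 2 ∂iidLaw G ≤ ε := by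
  have : IsProbabilityMeasure (iidLaw G) := by unfold iidLaw; infer_instance
  obtain ⟨R, hR⟩ := mixing G hA hA (half_pos hε)
  set a := (iidLaw G).real A with ha
  have ha0 : 0 ≤ a := measureReal_nonneg
  filter_upwards [eventually_ge_atTop ⌈4 * (R.toNat : ℝ) / ε⌉₊, eventually_gt_atTop 0] with n hn hn0 x
  have hn' : (0 : ℝ) < n := by exact_mod_cast hn0
  have hn1 : 4 * (R.toNat : ℝ) ≤ n * ε := (div_le_iff₀ hε).1 (Nat.ceil_le.1 hn)
  set S : ℕ → Set Env := fun k => shift (x + k • v) ⁻¹' A with hS
  have hSm : ∀ k, NullMeasurableSet (S k) (iidLaw G) := fun k =>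
    hA.preimage (measurePreserving_shift G _).quasiMeasurePreserving
  have hSa : ∀ k, (iidLaw G).real (S k) = a := fun k => (measurePreserving_shift G _).measureReal_preimage hA
  have hI : ∀ {B : Set Env}, NullMeasurableSet B (iidLaw G) →
      Integrable (B.indicator fun _ => (1 : ℝ)) (iidLaw G) ∧
      ∫ t, B.indicator (fun _ => (1 : ℝ)) t ∂iidLaw G = (iidLaw G).real B := fun hB =>
    ⟨(integrable_const _).indicator₀ hB, by rw [integral_indicator₀ hB]; simp⟩
  set Y : ℕ → Env → ℝ := fun k t => (S k).indicator (fun _ => (1 : ℝ)) t - a with hY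
  have e1 : ∀ k l t, Y k t * Y l t = (S k ∩ S l).indicator (fun _ => (1 : ℝ)) t -
      a * (S k).indicator (fun _ => (1 : ℝ)) t - a * (S l).indicator (fun _ => (1 : ℝ)) t + a ^ 2 := by
    intro k l t
    by_cases h1 : t ∈ S k <;> by_cases h2 : t ∈ S l <;> simp [hY, h1, h2] <;> ring
  have hY2 : ∀ k l, Integrable (fun t => Y k t * Y l t) (iidLaw G) ∧
      ∫ t, Y k t * Y l t ∂iidLaw G = (iidLaw G).real (S k ∩ S l) - a * a := by
    intro k l
    obtain ⟨i1, j1⟩ := hI ((hSm k).inter (hSm l))
    obtain ⟨i2, j2⟩ := hI (hSm k)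
    obtain ⟨i3, j3⟩ := hI (hSm l)
    have i4 : Integrable (fun t => (S k ∩ S l).indicator (fun _ => (1 : ℝ)) t -
      a * (S k).indicator (fun _ => (1 : ℝ)) t) (iidLaw G) := i1.sub (i2.const_mul a)
    have i5 : Integrable (fun t => (S k ∩ S l).indicator (fun _ => (1 : ℝ)) t -
      a * (S k).indicator (fun _ => (1 : ℝ)) t - a * (S l).indicator (fun _ => (1 : ℝ)) t) (iidLaw G) :=
      i4.sub (i3.const_mul a)
    simp only [e1]
    refine ⟨i5.add (integrable_const _), ?_⟩
    rw [integral_add i5 (integrable_const _), integral_sub i4 (i3.const_mul a), integral_sub i1 (i2.const_mul a),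
      integral_const_mul, integral_const_mul, j1, j2, j3, hSa, hSa]
    simp only [integral_const, probReal_univ, smul_eq_mul, one_mul]
    ring
  have hc : ∀ k l, ∫ t, Y k t * Y l t ∂iidLaw G ≤
      ε / 2 + if l ∈ Finset.Ico (k - R.toNat) (k + R.toNat) then 1 else 0 := by
    intro k l
    rw [(hY2 k l).2]
    split_ifs with h
    · have : (iidLaw G).real (S k ∩ S l) ≤ 1 := measureReal_le_one
      nlinarith
    · have e : S k ∩ S l = shift (x + k • v) ⁻¹' (A ∩ shift (((l : ℤ) - k) • v) ⁻¹' A) := by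
        ext t
        have e' : x + k • v + ((l : ℤ) - k) • v = x + l • v := by
          rw [sub_smul, natCast_zsmul, natCast_zsmul]; abel
        simp only [hS, Set.mem_inter_iff, Set.mem_preimage, shift_shift, e']
      rw [e, (measurePreserving_shift G _).measureReal_preimage
        (hA.inter (hA.preimage (measurePreserving_shift G _).quasiMeasurePreserving)), add_zero]
      refine (abs_le.1 (hR _ (le_trans ?_ (berg_nrm hv _)))).2
      rw [Finset.mem_Ico] at h
      rw [le_abs]
      omega
  have e2 : ∀ t, ((∑ k ∈ Finset.range n, A.indicator (fun _ => (1 : ℝ)) (shift (x + k • v) t)) / n - a) ^ 2 =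
      (∑ k ∈ Finset.range n, ∑ l ∈ Finset.range n, Y k t * Y l t) / n ^ 2 := by
    intro t
    rw [← Finset.sum_mul_sum, ← sq, ← div_pow]
    congr 1
    simp only [hY, Finset.sum_sub_distrib, Finset.sum_const, Finset.card_range, nsmul_eq_mul]
    rw [sub_div, mul_div_cancel_left₀ _ hn'.ne']
    rfl
  simp only [e2]
  rw [integral_div, integral_finsetSum _ fun k _ => integrable_finsetSum _ fun l _ => (hY2 k l).1,
    div_le_iff₀ (by positivity)]
  have h3 : ∀ k ∈ Finset.range n, ∫ t, ∑ l ∈ Finset.range n, Y k t * Y l t ∂iidLaw G ≤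
      n * (ε / 2) + 2 * R.toNat := by
    intro k _
    rw [integral_finsetSum _ fun l _ => (hY2 k l).1]
    refine (Finset.sum_le_sum fun l _ => hc k l).trans ?_
    rw [Finset.sum_add_distrib, Finset.sum_const, Finset.card_range, nsmul_eq_mul, Finset.sum_boole]
    have h4 : ((Finset.range n).filter fun l => l ∈ Finset.Ico (k - R.toNat) (k + R.toNat)).card ≤ 2 * R.toNat := by
      refine (Finset.card_le_card fun l hl => (Finset.mem_filter.1 hl).2).trans ?_
      rw [Nat.card_Ico]; omega
    exact add_le_add le_rfl (by exact_mod_cast h4)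
  refine (Finset.sum_le_card_nsmul _ _ _ h3).trans ?_
  rw [Finset.card_range, nsmul_eq_mul]
  nlinarith

/-- events of probability `≥ c` happen infinitely often with probability `≥ c` -/
theorem le_measure_frequently {Ω : Type} [MeasurableSpace Ω] (μ : Measure Ω) [IsFiniteMeasure μ]
    (A : ℕ → Set Ω) (hA : ∀ n, NullMeasurableSet (A n) μ) {c : ℝ≥0∞} (h : ∀ᶠ n in atTop, c ≤ μ (A n)) :
    c ≤ μ {x | ∃ᶠ n in atTop, x ∈ A n} := by
  have e : {x | ∃ᶠ n in atTop, x ∈ A n} = ⋂ N, ⋃ n, ⋃ (_ : N ≤ n), A n := by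
    ext x
    simp [frequently_atTop]
  have ha : Antitone fun N => ⋃ n, ⋃ (_ : N ≤ n), A n := fun a b hab =>
    Set.iUnion_mono fun n => Set.iUnion_subset fun hn => Set.subset_iUnion_of_subset (hab.trans hn) subset_rfl
  rw [e, ha.measure_iInter (fun N => NullMeasurableSet.iUnion fun n => NullMeasurableSet.iUnion fun _ => hA n)
    ⟨0, measure_ne_top _ _⟩]
  refine le_iInf fun N => ?_
  obtain ⟨n, h1, h2⟩ := (h.and (eventually_ge_atTop N)).exists
  exact h1.trans (measure_mono (Set.subset_iUnion_of_subset n (Set.subset_iUnion_of_subset h2 subset_rfl)))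

end Crest.Agent.R151
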