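import Crest.Agent.R151.BTS

/-! R151 base: geodesics (existence, uniqueness, limits). -/

set_option autoImplicit false
open MeasureTheory ProbabilityTheory Crest.ProbabilityR.FirstPassage Filter Topology
open scoped ENNReal

namespace Crest.Agent.R151

variable {S S' : Set V} {p q : ℤ → V} {i j i' j' : ℤ} {t : Env} {x y : V}

theorem Reg.nonneg (h : Reg t) : ∀ e, 0 ≤ t e := fun e => (h.pos e).le
theorem bgeo_finite (ht : ∀ e, 0 ≤ t e) (hS : S.Finite) (hc : Conn S x y) :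
    ∃ p n, IsGeo t S p 0 n ∧ p 0 = x ∧ p n = y := by
  have hf : {c | ∃ p n, PathIn S p 0 n ∧ Set.InjOn p (Set.Icc 0 n) ∧ p 0 = x ∧ p n = y ∧
      c = cost t p 0 n}.Finite := by
    refine (((edgesIn_finite hS).toFinset.powerset).finite_toSet.image fun E => ∑ e ∈ E, t e).subset ?_
    rintro _ ⟨p, n, h1, h2, -, -, rfl⟩
    refine ⟨_, Finset.mem_coe.2 (Finset.mem_powerset.2 fun e he => ?_), (cost_eq_sum_image h2).symm⟩
    obtain ⟨k, hk, rfl⟩ := Finset.mem_image.1 he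
    exact (Set.Finite.mem_toFinset _).2 (h1.edge_mem (Finset.mem_Ico.1 hk).1 (Finset.mem_Ico.1 hk).2)
  obtain ⟨p0, n0, a1, a2, a3, a4, -⟩ := exists_path_lt ht hc (lt_add_one _)
  obtain ⟨_, ⟨p, n, h1, h2, rfl, rfl, rfl⟩, h5⟩ := Set.exists_min_image _ id hf ⟨_, p0, n0, a1, a2, a3, a4, rfl⟩
  exact ⟨p, n, ⟨h1, h2, le_antisymm (le_TS_injOn ht hc fun q m b1 b2 b3 b4 => h5 _ ⟨q, m, b1, b2, b3, b4, rfl⟩)
    (TS_le_cost ht h1)⟩, rfl, rfl⟩
theorem bgeo_in (ht : ∀ e, 0 ≤ t e) (h : PathIn S p i j) {M : ℝ} (hM : cost t p i j ≤ M) :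
    PathIn (S ∩ {v | T t (p i) v ≤ M}) p i j :=
  h.restrict fun k h1 h2 => ⟨h.2.1 k h1 h2,
    ((T_le_cost ht (h.sub le_rfl h1 h2)).trans (cost_sub_le ht le_rfl h2)).trans hM⟩
/-- Paths of cost `≤ M` from `x` stay in the finite `T`-ball, so finitely many self-avoiding ones. -/
theorem exists_geo (h : Reg t) (hc : Conn S x y) :
    ∃ p n, IsGeo t S p 0 n ∧ p 0 = x ∧ p n = y := by
  have ht := h.nonneg
  obtain ⟨p0, n0, a1, -, rfl, rfl, a5⟩ := exists_path_lt ht hc (lt_add_one _)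
  have a6 := bgeo_in ht a1 a5.le
  obtain ⟨p, n, ⟨h1, h2, h3⟩, h4, h5⟩ := bgeo_finite ht ((h.fin _ _).inter_of_right S) a6.conn
  have h6 := h1.mono Set.inter_subset_left
  refine ⟨p, n, ⟨h6, h2, le_antisymm ?_ (TS_le_cost ht h6)⟩, h4, h5⟩
  rw [h3, h4, h5]
  refine le_TS hc fun q i j b1 b2 b3 => ?_
  rcases le_total (cost t q i j) (TS t S (p0 0) (p0 n0) + 1) with c | c
  · have := TS_le_cost ht (bgeo_in ht b1 c)
    rwa [b2, b3] at this
  · exact ((TS_le_cost ht a6).trans a5.le).trans c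
/-- the same for a finite region, only nonnegativity needed -/
theorem exists_geo_of_finite (ht : ∀ e, 0 ≤ t e) (hS : S.Finite) (hc : Conn S x y) :
    ∃ p n, IsGeo t S p 0 n ∧ p 0 = x ∧ p n = y := bgeo_finite ht hS hc
theorem IsGeo.sub (ht : ∀ e, 0 ≤ t e) (h : IsGeo t S p i j) (h1 : i ≤ i') (h2 : i' ≤ j') (h3 : j' ≤ j) :
    IsGeo t S p i' j' := by
  have a1 := h.1.sub le_rfl h1 (h2.trans h3)
  have a2 := h.1.sub h1 h2 h3
  have a3 := h.1.sub (h1.trans h2) h3 le_rfl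
  refine ⟨a2, h.2.1.mono (Set.Icc_subset_Icc h1 h3), le_antisymm ?_ (TS_le_cost ht a2)⟩
  have b1 := TS_triangle ht a1.conn (a2.trans a3).conn
  have b2 := TS_triangle ht a2.conn a3.conn
  have b3 := h.2.2
  rw [cost_add h1 (h2.trans h3), cost_add h2 h3] at b3
  linarith [TS_le_cost ht a1, TS_le_cost ht a3]
theorem IsGeo.restrict (ht : ∀ e, 0 ≤ t e) (h : IsGeo t S p i j) (hS : S' ⊆ S)
    (hp : ∀ k, i ≤ k → k ≤ j → p k ∈ S') : IsGeo t S' p i j := by
  have a := h.1.restrict hp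
  exact ⟨a, h.2.1, le_antisymm (h.2.2.trans_le (TS_anti ht hS a.conn)) (TS_le_cost ht a)⟩
theorem IsGeo.rev (h : IsGeo t S p i j) : IsGeo t S (fun k => p (-k)) (-j) (-i) := by
  refine ⟨h.1.rev, fun a ha b hb e => ?_, ?_⟩
  · have := h.2.1 (x₁ := -a) (x₂ := -b) ⟨by have := ha.2; omega, by have := ha.1; omega⟩
      ⟨by have := hb.2; omega, by have := hb.1; omega⟩ e
    omega
  · simp only [neg_neg]
    rw [cost_rev, h.2.2, TS_comm]
theorem IsGeo.reindex (h : IsGeo t S p i j) (c : ℤ) :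
    IsGeo t S (fun k => p (k + c)) (i - c) (j - c) := by
  refine ⟨h.1.reindex c, fun a ha b hb e => ?_, ?_⟩
  · have := h.2.1 (x₁ := a + c) (x₂ := b + c) ⟨by have := ha.1; omega, by have := ha.2; omega⟩
      ⟨by have := hb.1; omega, by have := hb.2; omega⟩ e
    omega
  · simp only [sub_add_cancel]
    rw [cost_reindex, h.2.2]
theorem IsGeo.congr (h : IsGeo t S p i j) (hq : ∀ k, i ≤ k → k ≤ j → q k = p k) :
    IsGeo t S q i j := by
  refine ⟨h.1.congr hq, h.2.1.congr fun k hk => (hq k hk.1 hk.2).symm, ?_⟩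
  rw [cost_congr hq, hq i le_rfl h.1.1, hq j h.1.1 le_rfl, h.2.2]
/-- an optimal path is self-avoiding when the weights are positive -/
theorem isGeo_of_cost_le (ht : ∀ e, 0 < t e) (h : PathIn S p i j)
    (hc : cost t p i j ≤ TS t S (p i) (p j)) : IsGeo t S p i j := by
  have ht0 := fun e => (ht e).le
  have key : ∀ a b, i ≤ a → a < b → b ≤ j → p a ≠ p b := by
    intro a b h1 h2 h3 e
    have a1 := h.sub le_rfl h1 (h2.le.trans h3)
    have a3 := h.sub (h1.trans h2.le) h3 le_rfl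
    have b1 := TS_triangle ht0 a1.conn (e ▸ a3.conn)
    have b2 := TS_le_cost ht0 a3
    have b3 : 0 < cost t p a b := Finset.sum_pos (fun _ _ => ht _) (Finset.nonempty_Ico.2 h2)
    rw [cost_add h1 (h2.le.trans h3), cost_add h2.le h3] at hc
    rw [← e] at b2
    linarith [TS_le_cost ht0 a1]
  refine ⟨h, fun a ha b hb e => ?_, le_antisymm hc (TS_le_cost ht0 h)⟩
  rcases lt_trichotomy a b with c | c | c
  exacts [absurd e (key a b ha.1 c hb.2), c, absurd e.symm (key b a hb.1 c ha.2)]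
/-- uniqueness: `cost_eq_sum_image`, `Reg.sum_ne`, `eq_of_edges_eq` -/
theorem geo_unique (h : Reg t) (hp : IsGeo t S p i j) (hq : IsGeo t S q i' j') (h0 : p i = q i')
    (h1 : p j = q j') : j - i = j' - i' ∧ ∀ k, 0 ≤ k → k ≤ j - i → p (i + k) = q (i' + k) := by
  refine eq_of_edges_eq hp.1 hq.1 hp.2.1 hq.2.1 h0 (by_contra fun hne => h.sum_ne _ _ hne ?_)
  rw [← cost_eq_sum_image hp.2.1, ← cost_eq_sum_image hq.2.1, hp.2.2, hq.2.2, h0, h1]
/-- two geodesics that meet twice share everything in between (either orientation) -/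
theorem geo_mem_of_meet (h : Reg t) (hp : IsGeo t S p i j) (hq : IsGeo t S q i' j') {a b c a' c' : ℤ}
    (ha : i ≤ a) (hab : a ≤ b) (hbc : b ≤ c) (hc : c ≤ j) (ha' : i' ≤ a' ∧ a' ≤ j')
    (hc' : i' ≤ c' ∧ c' ≤ j') (e1 : p a = q a') (e2 : p c = q c') :
    ∃ b', min a' c' ≤ b' ∧ b' ≤ max a' c' ∧ p b = q b' := by
  have h1 := hp.sub h.nonneg ha (hab.trans hbc) hc
  rcases le_total a' c' with d | d
  · obtain ⟨h2, h3⟩ := geo_unique h h1 (hq.sub h.nonneg ha'.1 d hc'.2) e1 e2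
    have h4 := h3 (b - a) (by omega) (by omega)
    rw [add_sub_cancel] at h4
    exact ⟨_, by omega, by omega, h4⟩
  · obtain ⟨h2, h3⟩ := geo_unique h h1 (hq.sub h.nonneg hc'.1 d ha'.2).rev (by simpa using e1)
      (by simpa using e2)
    have h4 := h3 (b - a) (by omega) (by omega)
    rw [add_sub_cancel] at h4
    exact ⟨_, by omega, by omega, h4⟩
/-- lowering weights on the geodesic (and nowhere else) keeps it -/
theorem IsGeo.lower {t' : Env} (ht' : ∀ e, 0 ≤ t' e) (h : IsGeo t S p i j) (hle : ∀ e, t' e ≤ t e)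
    (hon : ∀ e, t' e ≠ t e → ∃ k, i ≤ k ∧ k < j ∧ e = edge p k) : IsGeo t' S p i j := by
  refine ⟨h.1, h.2.1, le_antisymm ?_ (TS_le_cost ht' h.1)⟩
  have h1 := bts_sub_le (S := S) (x := p i) (y := p j) (fun e => (ht' e).trans (hle e)) ht'
    ((Finset.Ico i j).image (edge p)) fun e he => by
      by_contra hne
      obtain ⟨k, a, b, rfl⟩ := hon e (Ne.symm hne)
      exact he (Finset.mem_image_of_mem _ (Finset.mem_Ico.2 ⟨a, b⟩))
  simp only [fun e => abs_of_nonneg (sub_nonneg.2 (hle e))] at h1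
  rw [Finset.sum_sub_distrib, ← cost_eq_sum_image h.2.1, ← cost_eq_sum_image h.2.1, h.2.2] at h1
  linarith
/-- raising weights off the geodesic keeps it -/
theorem IsGeo.raise {t' : Env} (ht : ∀ e, 0 ≤ t e) (h : IsGeo t S p i j) (hle : ∀ e, t e ≤ t' e)
    (hoff : ∀ k, i ≤ k → k < j → t' (edge p k) = t (edge p k)) : IsGeo t' S p i j := by
  refine ⟨h.1, h.2.1, le_antisymm ?_ (TS_le_cost (fun e => (ht e).trans (hle e)) h.1)⟩
  rw [cost_congr_env hoff, h.2.2]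
  exact TS_mono_env ht hle

/-- König / diagonal extraction for paths through a fixed vertex at index `0` -/
theorem konig (P : ℕ → ℤ → V) (a b : ℕ → ℤ) (hP : ∀ n, PathIn Set.univ (P n) (a n) (b n))
    (ha : ∀ n, a n ≤ 0) (hb : ∀ n, 0 ≤ b n) (h0 : ∀ n, P n 0 = x) :
    ∃ (q : ℤ → V) (φ : ℕ → ℕ), StrictMono φ ∧
      ∀ k, (∀ᶠ n in atTop, a n ≤ k ∧ k ≤ b n) → ∀ᶠ n in atTop, P (φ n) k = q k := by
  have hc : IsCompact (Set.univ.pi fun k : ℤ => ball x |k|) :=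
    isCompact_univ_pi fun k => (ball_finite x _).isCompact
  obtain ⟨q, -, φ, hφ, hq⟩ := hc.tendsto_subseq (x := fun n k => if a n ≤ k ∧ k ≤ b n then P n k else x)
    fun n k _ => by
      change nrm ((if a n ≤ k ∧ k ≤ b n then P n k else x) - x) ≤ |k|
      split_ifs with h
      · rw [← h0 n]
        rcases le_total 0 k with c | c
        · exact ((hP n).sub (ha n) c h.2).nrm_le.trans (by rw [abs_of_nonneg c, sub_zero])
        · rw [nrm_sub_comm]
          exact ((hP n).sub h.1 c (hb n)).nrm_le.trans (by rw [abs_of_nonpos c, zero_sub])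
      · rw [sub_self, nrm_eq_zero.2 rfl]
        exact abs_nonneg k
  refine ⟨q, φ, hφ, fun k hk => ?_⟩
  have h1 := tendsto_pi_nhds.1 hq k
  rw [nhds_discrete, tendsto_pure] at h1
  filter_upwards [h1, hφ.tendsto_atTop.eventually hk] with n h2 h3
  exact (if_pos h3).symm.trans h2
theorem bgeo_limit {P : ℕ → ℤ → V} {a b : ℕ → ℤ} {φ : ℕ → ℕ} (ht : ∀ e, 0 ≤ t e)
    (hP : ∀ n, IsGeo t S (P n) (a n) (b n)) (hφ : StrictMono φ)
    (hq : ∀ k, (∀ᶠ n in atTop, a n ≤ k ∧ k ≤ b n) → ∀ᶠ n in atTop, P (φ n) k = q k) (hij : i ≤ j)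
    (h : ∀ᶠ n in atTop, a n ≤ i ∧ j ≤ b n) : IsGeo t S q i j := by
  have h1 : ∀ᶠ n in atTop, ∀ k ∈ Set.Icc i j, P (φ n) k = q k :=
    (eventually_all_finite (Set.finite_Icc i j)).2 fun k hk =>
      hq k (h.mono fun n hn => ⟨hn.1.trans hk.1, hk.2.trans hn.2⟩)
  obtain ⟨n, h2, h3⟩ := (h1.and (hφ.tendsto_atTop.eventually h)).exists
  exact ((hP _).sub ht h3.1 hij h3.2).congr fun k c1 c2 => (h2 k ⟨c1, c2⟩).symm
theorem exists_ray_limit (P : ℕ → ℤ → V) (b : ℕ → ℤ) (ht : ∀ e, 0 ≤ t e)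
    (hP : ∀ n, IsGeo t S (P n) 0 (b n)) (h0 : ∀ n, P n 0 = x) (hb : Tendsto b atTop atTop) :
    ∃ (q : ℤ → V) (φ : ℕ → ℕ), StrictMono φ ∧ IsRay t S q 0 ∧ q 0 = x ∧
      ∀ k, 0 ≤ k → ∀ᶠ n in atTop, P (φ n) k = q k := by
  obtain ⟨q, φ, hφ, hq⟩ := konig P (fun _ => 0) b (fun n => (hP n).1.mono (Set.subset_univ _))
    (fun _ => le_rfl) (fun n => (hP n).1.1) h0
  have h1 : ∀ k, 0 ≤ k → ∀ᶠ n in atTop, P (φ n) k = q k := fun k hk =>
    hq k ((hb.eventually_ge_atTop k).mono fun n hn => ⟨hk, hn⟩)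
  obtain ⟨n, hn⟩ := (h1 0 le_rfl).exists
  exact ⟨q, φ, hφ, fun j hj => bgeo_limit ht hP hφ hq hj
    ((hb.eventually_ge_atTop j).mono fun n hn => ⟨le_rfl, hn⟩), hn.symm.trans (h0 _), h1⟩
theorem exists_line_limit (P : ℕ → ℤ → V) (a b : ℕ → ℤ) (ht : ∀ e, 0 ≤ t e)
    (hP : ∀ n, IsGeo t S (P n) (a n) (b n)) (h0 : ∀ n, P n 0 = x) (ha : Tendsto a atTop atBot)
    (hb : Tendsto b atTop atTop) :
    ∃ (q : ℤ → V) (φ : ℕ → ℕ), StrictMono φ ∧ (∀ i j, i ≤ j → IsGeo t S q i j) ∧ q 0 = x ∧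
      ∀ k, ∀ᶠ n in atTop, P (φ n) k = q k := by
  have he : ∀ i j : ℤ, ∀ᶠ n in atTop, a n ≤ i ∧ j ≤ b n := fun i j =>
    (ha.eventually_le_atBot i).and (hb.eventually_ge_atTop j)
  obtain ⟨N, hN⟩ := eventually_atTop.1 (he 0 0)
  obtain ⟨q, φ, hφ, hq⟩ := konig (fun n => P (n + N)) (fun n => a (n + N)) (fun n => b (n + N))
    (fun n => (hP _).1.mono (Set.subset_univ _)) (fun n => (hN _ (Nat.le_add_left N n)).1)
    (fun n => (hN _ (Nat.le_add_left N n)).2) fun n => h0 _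
  have h1 : ∀ k, ∀ᶠ n in atTop, P (φ n + N) k = q k := fun k =>
    hq k ((tendsto_add_atTop_nat N).eventually (he k k))
  have h2 : StrictMono fun n => φ n + N := hφ.add_const N
  obtain ⟨n, hn⟩ := (h1 0).exists
  exact ⟨q, _, h2, fun i j hij => bgeo_limit ht hP h2 (fun k _ => h1 k) hij (he i j), hn.symm.trans (h0 _), h1⟩
theorem IsRay.eventually_notMem (h : IsRay t S p i) {F : Set V} (hF : F.Finite) :
    ∀ᶠ k in atTop, p k ∉ F := by
  have h1 : {k | i ≤ k ∧ p k ∈ F}.Finite := by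
    refine Set.Finite.of_finite_image (f := p) (hF.subset ?_) fun a ha b hb e => ?_
    · rintro _ ⟨k, hk, rfl⟩
      exact hk.2
    · exact (h (max a b) (ha.1.trans (le_max_left a b))).2.1 ⟨ha.1, le_max_left a b⟩ ⟨hb.1, le_max_right a b⟩ e
  obtain ⟨B, hB⟩ := h1.bddAbove
  filter_upwards [eventually_ge_atTop i, eventually_gt_atTop B] with k a b c
  exact absurd (hB ⟨a, c⟩) b.not_ge
theorem IsRay.tendsto_nrm (h : IsRay t S p i) : Tendsto (fun k => nrm (p k)) atTop atTop := by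
  refine tendsto_atTop.2 fun r => (h.eventually_notMem (ball_finite 0 r)).mono fun k hk => ?_
  refine le_of_not_ge fun c => hk ?_
  change nrm (p k - 0) ≤ r
  rwa [sub_zero]
theorem Reg.tendsto_T (h : Reg t) (x : V) {u : ℕ → V} (hu : Tendsto (fun n => nrm (u n)) atTop atTop) :
    Tendsto (fun n => T t x (u n)) atTop atTop := by
  refine tendsto_atTop.2 fun M => ?_
  obtain ⟨B, hB⟩ := ((h.fin x M).image nrm).bddAbove
  exact (hu.eventually_gt_atTop B).mono fun n hn => le_of_not_ge fun c => hn.not_ge (hB ⟨u n, c, rfl⟩)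

end Crest.Agent.R151
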