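import Crest.Agent.R151.BMom

/-! R151 base: almost sure upper bound between nearby points. -/

set_option autoImplicit false
open MeasureTheory ProbabilityTheory Crest.ProbabilityR.FirstPassage Filter Topology
open scoped ENNReal

namespace Crest.Agent.R151

variable (G : Measure ℝ) [IsProbabilityMeasure G]

theorem bnear_range (f : ℕ → ℝ) (ρ L : ℕ) :
    ∑ k ∈ Finset.range (ρ * L), f k = ∑ r ∈ Finset.range ρ, ∑ j ∈ Finset.range L, f (ρ * j + r) := by
  rw [Finset.sum_comm]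
  induction L with
  | zero => simp
  | succ L ih => rw [Nat.mul_succ, Finset.sum_range_add, ih, Finset.sum_range_succ]

theorem bnear_smul (l : ℤ) (c : V) : nrm (l • c) = |l| * nrm c := by
  simp only [nrm, Prod.smul_fst, Prod.smul_snd, smul_eq_mul, abs_mul,
    mul_max_of_nonneg _ _ (abs_nonneg l)]

theorem bnear_mono {A B : Set Env} {p : Env → Prop} (hp : ∀ᵐ t ∂iidLaw G, p t)
    (h : ∀ t, p t → t ∈ A → t ∈ B) : (iidLaw G).real A ≤ (iidLaw G).real B :=
  ENNReal.toReal_mono (measure_ne_top _ _) (measure_mono_ae (hp.mono h))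

theorem bnear_class (hG : Hyp G) {K : ℕ} (hK : 8 < K) : ∃ C > 0, ∀ (z : ℕ → V) (L : ℕ), 1 ≤ L →
    (∀ i j, i ≠ j → (6 * K : ℤ) < nrm (z i - z j)) →
    (iidLaw G).real {t | C * L < ∑ j ∈ Finset.range L, Yv K t (z j)} ≤ C / (L : ℝ) ^ 2 := by
  obtain ⟨C4, hC4, h4⟩ := memLp_Yv G hG (K := K) (m := 4) (by omega)
  have hmem : ∀ x, MemLp (fun t => Yv K t x) 4 (iidLaw G) := fun x => by exact_mod_cast (h4 x).1
  have hmean : ∀ x, |∫ t, Yv K t x ∂iidLaw G| ≤ 1 + C4 := fun x => by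
    refine abs_integral_le_integral_abs.trans (le_trans (integral_mono
      ((hmem x).integrable (by norm_num)).abs ((integrable_const (1 : ℝ)).add (bprob_pow (hmem x) le_rfl))
      fun t => ?_) ?_)
    · simp only [Pi.add_apply]
      rw [← Even.pow_abs (by decide)]
      rcases le_total |Yv K t x| 1 with h | h
      · linarith [pow_nonneg (abs_nonneg (Yv K t x)) 4]
      · linarith [le_self_pow₀ h (n := 4) (by norm_num)]
    · simp only [Pi.add_apply]
      rw [integral_add (integrable_const _) (bprob_pow (hmem x) le_rfl)]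
      simpa using (h4 x).2
  obtain ⟨M, hM⟩ : ∃ M, M = 8 * (C4 + (1 + C4) ^ 4) := ⟨_, rfl⟩
  have M0 : 0 < M := by rw [hM]; positivity
  refine ⟨2 + C4 + 3 * M, by positivity, fun z L hL hz => ?_⟩
  have L0 : (0 : ℝ) < L := by exact_mod_cast hL
  let X : ℕ → Env → ℝ := fun j t => Yv K t (z j) - ∫ t, Yv K t (z j) ∂iidLaw G
  have hXm : ∀ j, Measurable (X j) := fun j => (measurable_Yv K (z j)).sub measurable_const
  have hX4 : ∀ j, MemLp (X j) 4 (iidLaw G) := fun j => (hmem (z j)).sub (memLp_const _)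
  have hXi : iIndepFun X (iidLaw G) := by
    refine iIndepFun_of_dependsOnly G (U := fun j => edgesIn (ball (z j) (3 * K) \ {z j})) hXm
      (fun j t t' h => ?_) fun i j hij => disjoint_edgesIn (Set.disjoint_left.2 fun v h1 h2 => ?_)
    · simp only [X]
      rw [show Yv K t (z j) = Yv K t' (z j) from dependsOnly_Yv K (z j) t t' h]
    · have a1 : nrm (v - z i) ≤ 3 * K := h1.1
      have a2 : nrm (v - z j) ≤ 3 * K := h2.1
      have a3 := nrm_add_le (v - z j) (z i - v)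
      rw [nrm_sub_comm (z i) v, show v - z j + (z i - v) = z i - z j by abel] at a3
      linarith [hz i j hij]
  have hmom := fourth_moment_sum (iidLaw G) (Finset.range L) X hXm hXi (fun j _ => hX4 j)
    (fun j _ => by
      simp only [X]
      rw [integral_sub ((hmem _).integrable (by norm_num)) (integrable_const _)]
      simp) (M := M) fun j _ => by
      have a1 : (∫ t, Yv K t (z j) ∂iidLaw G) ^ 4 ≤ (1 + C4) ^ 4 := by
        rw [← Even.pow_abs (by decide)]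
        exact pow_le_pow_left₀ (abs_nonneg _) (hmean _) 4
      refine le_trans (integral_mono (bprob_pow (hX4 j) le_rfl)
        (((bprob_pow (hmem (z j)) le_rfl).add (integrable_const ((1 + C4) ^ 4))).const_mul 8)
        fun t => ?_) ?_
      · simp only [X, Pi.add_apply]
        generalize Yv K t (z j) = a
        generalize ∫ t, Yv K t (z j) ∂iidLaw G = b at a1
        nlinarith [sq_nonneg (a + b), sq_nonneg (a ^ 2 - b ^ 2), sq_nonneg ((a + b) ^ 2),
          mul_nonneg (sq_nonneg (a + b)) (sq_nonneg (a - b))]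
      · simp only [Pi.add_apply]
        rw [integral_const_mul, integral_add (bprob_pow (hmem _) le_rfl) (integrable_const _), hM]
        simpa using (h4 (z j)).2
  have hS : MemLp (fun t => ∑ j ∈ Finset.range L, X j t) 4 (iidLaw G) :=
    memLp_finsetSum _ fun j _ => hX4 j
  have hmk := mul_meas_ge_le_integral_of_nonneg (μ := iidLaw G)
    (f := fun t => (∑ j ∈ Finset.range L, X j t) ^ 4)
    (Eventually.of_forall fun t => by positivity) (bprob_pow hS le_rfl) ((L : ℝ) ^ 4)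
  have hsub : (iidLaw G).real {t | (2 + C4 + 3 * M) * L < ∑ j ∈ Finset.range L, Yv K t (z j)} ≤
      (iidLaw G).real {t | (L : ℝ) ^ 4 ≤ (∑ j ∈ Finset.range L, X j t) ^ 4} := by
    refine measureReal_mono (fun t ht => pow_le_pow_left₀ L0.le ?_ 4) (measure_ne_top _ _)
    have a1 : (2 + C4 + 3 * M) * L < ∑ j ∈ Finset.range L, Yv K t (z j) := ht
    have a2 := Finset.sum_le_card_nsmul (Finset.range L) (fun j => ∫ t, Yv K t (z j) ∂iidLaw G) (1 + C4)
      fun j _ => (abs_le.1 (hmean _)).2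
    rw [Finset.card_range, nsmul_eq_mul] at a2
    simp only [X, Finset.sum_sub_distrib]
    nlinarith [mul_pos M0 L0]
  rw [Finset.card_range] at hmom
  rw [le_div_iff₀ (by positivity)]
  refine le_of_mul_le_mul_left ?_ (show (0 : ℝ) < (L : ℝ) ^ 2 by positivity)
  nlinarith [mul_le_mul_of_nonneg_left hsub (show (0 : ℝ) ≤ (L : ℝ) ^ 4 by positivity),
    mul_pos (show (0 : ℝ) < (L : ℝ) ^ 2 by positivity) (show 0 < 2 + C4 by positivity)]

/-- sums of `Yv` along a straight segment of `L` sites: split into residue classes mod `6K+1`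
(independent), `fourth_moment_sum`, Markov -/
theorem tail_sum_Yv (hG : Hyp G) {K : ℕ} (hK : 8 < K) : ∃ C > 0, ∀ (x v : V) (L : ℕ), 1 ≤ L → nrm v = 1 →
    (iidLaw G).real {t | C * L < ∑ k ∈ Finset.range L, Yv K t (x + k • v)} ≤ C / (L : ℝ) ^ 2 := by
  obtain ⟨C, hC, h⟩ := bnear_class G hG hK
  obtain ⟨ρ, hρ⟩ : ∃ ρ : ℕ, ρ = 6 * K + 1 := ⟨_, rfl⟩
  have ρ0 : (0 : ℝ) < ρ := by rw [hρ]; positivity
  refine ⟨ρ * C, by positivity, fun x v L hL hv => ?_⟩
  refine le_trans (bnear_mono G (B := ⋃ r ∈ Finset.range ρ,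
    {t | C * L < ∑ j ∈ Finset.range L, Yv K t (x + (ρ * j + r) • v)}) (ae_nonneg G hG.nonneg)
    fun t ht h1 => ?_) ((measureReal_biUnion_finset_le _ _).trans
      ((Finset.sum_le_card_nsmul _ _ (C / (L : ℝ) ^ 2) fun r _ => h _ L hL fun i j hij => ?_).trans ?_))
  · by_contra hcon
    simp only [Set.mem_iUnion, Set.mem_ofPred_eq, not_exists, not_lt] at hcon
    have a1 := Finset.sum_le_card_nsmul _ _ _ hcon
    rw [← bnear_range (fun k => Yv K t (x + k • v)), Finset.card_range, nsmul_eq_mul] at a1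
    have a2 : ∑ k ∈ Finset.range L, Yv K t (x + k • v) ≤ ∑ k ∈ Finset.range (ρ * L), Yv K t (x + k • v) :=
      Finset.sum_le_sum_of_subset_of_nonneg (Finset.range_subset_range.2
        (Nat.le_mul_of_pos_left L (by omega))) fun _ _ _ => Yv_nonneg ht _
    have a3 : ρ * C * L < ∑ k ∈ Finset.range L, Yv K t (x + k • v) := h1
    linarith
  · rw [add_sub_add_left_eq_sub, ← natCast_zsmul, ← natCast_zsmul, ← sub_smul, bnear_smul, hv, mul_one]
    push_cast
    rw [show (ρ : ℤ) * i + r - (ρ * j + r) = ρ * (i - j) by ring, abs_mul, Nat.abs_cast]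
    have : (1 : ℤ) ≤ |(i : ℤ) - j| := Int.one_le_abs (by omega)
    have e : (ρ : ℤ) = 6 * K + 1 := by omega
    nlinarith
  · rw [Finset.card_range, nsmul_eq_mul, mul_div_assoc]

theorem bnear_count {ε : ℝ} (hε : 0 < ε) (a : ℝ) :
    ∑' z : V, ({z : V | ε * nrm z < a}).indicator (fun _ => (1 : ℝ≥0∞)) z ≤
      ENNReal.ofReal (8 / ε ^ 2 * a ^ 2 + 2) := by
  refine (tsum_eq_sum (s := (ball_finite 0 ⌊|a| / ε⌋₊).toFinset) fun z hz => Set.indicator_of_notMem
    (s := {z : V | ε * nrm z < a})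
    (fun h : ε * nrm z < a => hz ((ball_finite _ _).mem_toFinset.2 ?_)) _).trans_le ?_
  swap
  · refine (Finset.sum_le_card_nsmul _ _ 1 fun z _ => Set.indicator_le_self' (fun _ _ => zero_le) z).trans ?_
    rw [nsmul_eq_mul, mul_one, ← Set.ncard_eq_toFinset_card _ (ball_finite _ _), ← ENNReal.ofReal_natCast]
    refine ENNReal.ofReal_le_ofReal ?_
    have a1 : ((ball 0 ⌊|a| / ε⌋₊).ncard : ℝ) ≤ (2 * (⌊|a| / ε⌋₊ : ℝ) + 1) ^ 2 := by
      exact_mod_cast ncard_ball_le 0 ⌊|a| / ε⌋₊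
    have a2 : (⌊|a| / ε⌋₊ : ℝ) ≤ |a| / ε := Nat.floor_le (by positivity)
    have a3 : (2 * (⌊|a| / ε⌋₊ : ℝ) + 1) ^ 2 ≤ (2 * (|a| / ε) + 1) ^ 2 := by gcongr
    have a4 : 8 / ε ^ 2 * a ^ 2 = 8 * (|a| / ε) ^ 2 := by rw [div_pow, sq_abs]; ring
    nlinarith [sq_nonneg (2 * (|a| / ε) - 1)]
  · change nrm (z - 0) ≤ _
    rw [sub_zero]
    have a3 : (nrm z).toNat ≤ ⌊|a| / ε⌋₊ := Nat.le_floor (by
      rw [← Int.cast_natCast, Int.toNat_of_nonneg (nrm_nonneg z), le_div_iff₀ hε]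
      linarith [le_abs_self a])
    omega

/-- Borel-Cantelli: `Σ_z P(Z_z > ε |z|) ≤ C E Z²/ε²` -/
theorem ae_Zv_le (hG : Hyp G) (K : ℕ) : ∀ᵐ t ∂iidLaw G, ∀ ε > (0 : ℝ), ∃ r0 : ℝ, ∀ z : V,
    Zv K t z ≤ ε * nrm z + r0 := by
  have key : ∀ ε > (0 : ℝ), ∀ᵐ t ∂iidLaw G, {z : V | t ∈ {t : Env | ε * nrm z < Zv K t z}}.Finite :=
    fun ε hε => by
    refine ae_finite_setOfPred_mem ?_
    have hm : ∀ z : V, MeasurableSet {t : Env | ε * nrm z < Zv K t 0} := fun z =>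
      measurableSet_lt measurable_const (measurable_Zv K 0)
    have e1 : ∀ z : V, iidLaw G {t : Env | ε * nrm z < Zv K t z} =
        ∫⁻ t, ({t : Env | ε * nrm z < Zv K t 0}).indicator (fun _ => (1 : ℝ≥0∞)) t ∂iidLaw G := fun z => by
      rw [lintegral_indicator (hm z), setLIntegral_one,
        ← (measurePreserving_shift G z).measure_preimage (hm z).nullMeasurableSet]
      congr 1
      ext t
      simp [Zv_shift]
    simp only [e1]
    rw [← lintegral_tsum fun z => (measurable_const.indicator (hm z)).aemeasurable]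
    obtain ⟨C, -, h2⟩ := memLp_Zv G hG K
    have hi : Integrable (fun t => 8 / ε ^ 2 * Zv K t 0 ^ 2 + 2) (iidLaw G) :=
      ((h2 0).1.integrable_sq.const_mul _).add (integrable_const _)
    exact ne_top_of_le_ne_top hi.lintegral_lt_top.ne
      (lintegral_mono fun t => bnear_count hε (Zv K t 0))
  filter_upwards [ae_all_iff.2 fun n : ℕ => key (1 / ((n : ℝ) + 1)) Nat.one_div_pos_of_nat] with t ht ε hε
  obtain ⟨n, hn⟩ := exists_nat_one_div_lt hε
  obtain ⟨r0, hr0⟩ := ((ht n).image fun z => Zv K t z).bddAbove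
  refine ⟨max r0 0, fun z => ?_⟩
  have n0 : (0 : ℝ) ≤ nrm z := by exact_mod_cast nrm_nonneg z
  rcases lt_or_ge (1 / ((n : ℝ) + 1) * nrm z) (Zv K t z) with h | h
  · have := hr0 ⟨z, h, rfl⟩
    nlinarith [le_max_left r0 0, mul_nonneg hε.le n0]
  · nlinarith [le_max_right r0 0, mul_le_mul_of_nonneg_right hn.le n0]

theorem bnear_line {K : ℕ} (hK : 1 ≤ K) {t : Env} (ht : ∀ e, 0 ≤ t e) {φ : ℤ → V}
    (hφ : ∀ i j, i ≤ j → PathIn Set.univ φ i j) {J : ℤ} {L : ℕ} (hL : 1 ≤ L) {B : ℝ}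
    (hB : ∀ a : ℤ, |a| ≤ J → ∑ k ∈ Finset.range (2 * L), Yv K t (φ (a * L + k)) ≤ B) {u u' : ℤ}
    (hu : |u| ≤ J * L) (hu' : |u'| ≤ J * L) (huu : |u' - u| ≤ L) :
    T t (φ u) (φ u') ≤ Zv K t (φ u) + Zv K t (φ u') + 2 * B := by
  wlog h : u ≤ u' generalizing u u'
  · have := this hu' hu (by rwa [abs_sub_comm]) (by omega)
    rw [T_comm]
    linarith
  have L0 : (0 : ℤ) < L := by exact_mod_cast hL
  have h1 := (TS_le_ZY hK ht (hφ u u' h) (S := Set.univ) fun _ _ _ => Set.subset_univ _).2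
  have a1 := Int.emod_nonneg u L0.ne'
  have a2 := Int.emod_lt_of_pos u L0
  have a3 := Int.mul_ediv_add_emod u L
  rw [abs_le] at hu huu
  have h2 := hB (u / L) (abs_le.2 ⟨by nlinarith [hu.1], by nlinarith [hu.2]⟩)
  rw [← Finset.sum_image (g := fun k : ℕ => u / L * L + k) (f := fun k => Yv K t (φ k))
    fun a _ b _ e => by simpa using e] at h2
  have h3 : ∑ k ∈ Finset.Icc u u', Yv K t (φ k) ≤
      ∑ k ∈ (Finset.range (2 * L)).image fun k : ℕ => u / L * L + k, Yv K t (φ k) := by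
    refine Finset.sum_le_sum_of_subset_of_nonneg (fun k hk => ?_) fun _ _ _ => Yv_nonneg ht _
    have b1 := Finset.mem_Icc.1 hk
    rw [mul_comm] at a3
    refine Finset.mem_image.2 ⟨(k - u / L * L).toNat, Finset.mem_range.2 ?_, ?_⟩ <;> omega
  change T t _ _ ≤ _ at h1
  linarith

theorem bnear_good (hG : Hyp G) {K : ℕ} (hK : 8 < K) : ∃ C > 0, ∀ (φ : ℤ → ℤ → V) (v : V), nrm v = 1 →
    (∀ b a (k : ℕ), φ b (a + k) = φ b a + k • v) → ∀ J : ℕ, ∀ᵐ t ∂iidLaw G, ∀ᶠ n : ℕ in atTop,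
      ∀ a b : ℤ, |a| ≤ J → |b| ≤ J * (2 ^ n : ℕ) →
        ∑ k ∈ Finset.range (2 * 2 ^ n), Yv K t (φ b (a * (2 ^ n : ℕ) + k)) ≤ C * (2 ^ n : ℕ) := by
  obtain ⟨C, hC, h⟩ := tail_sum_Yv G hG hK
  refine ⟨2 * C, by positivity, fun φ v hv hφ J => ?_⟩
  have hs : Summable fun n : ℕ => (2 * J + 1) ^ 2 * C * (1 / 2 : ℝ) ^ n :=
    summable_geometric_two.mul_left _
  have key := ae_eventually_notMem (μ := iidLaw G) (s := fun n : ℕ =>
    ⋃ p ∈ Finset.Icc (-J : ℤ) J ×ˢ Finset.Icc (-(J * (2 ^ n : ℕ)) : ℤ) (J * (2 ^ n : ℕ)),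
      {t | C * (2 * 2 ^ n : ℕ) < ∑ k ∈ Finset.range (2 * 2 ^ n), Yv K t (φ p.2 (p.1 * (2 ^ n : ℕ)) + k • v)})
    (ne_top_of_le_ne_top hs.tsum_ofReal_lt_top.ne (ENNReal.tsum_le_tsum fun n =>
      (ENNReal.le_ofReal_iff_toReal_le (measure_ne_top _ _) (by positivity)).2 ?_))
  · filter_upwards [key] with t ht
    filter_upwards [ht] with n hn a b ha hb
    simp only [Set.mem_iUnion, Set.mem_ofPred_eq, not_exists, not_lt] at hn
    have := hn (a, b) (Finset.mem_product.2 ⟨Finset.mem_Icc.2 (abs_le.1 ha),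
      Finset.mem_Icc.2 (abs_le.1 hb)⟩)
    simp only [hφ]
    refine this.trans (le_of_eq ?_)
    push_cast
    ring
  · obtain ⟨L, hL⟩ : ∃ L : ℕ, L = 2 ^ n := ⟨_, rfl⟩
    have L1 : 1 ≤ L := by rw [hL]; exact Nat.one_le_two_pow
    have L2 : (1 : ℝ) ≤ L := by exact_mod_cast L1
    have L3 : (1 / 2 : ℝ) ^ n = 1 / L := by rw [hL]; simp
    rw [← hL, L3]
    refine (measureReal_biUnion_finset_le _ _).trans ((Finset.sum_le_card_nsmul _ _ _ fun p _ =>
      h _ v (2 * L) (by omega) hv).trans ?_)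
    rw [nsmul_eq_mul, Finset.card_product, Int.card_Icc, Int.card_Icc,
      show ((J : ℤ) + 1 - -J).toNat = 2 * J + 1 by omega,
      show ((J : ℤ) * L + 1 - -(J * L)).toNat = 2 * (J * L) + 1 by
        rw [← Nat.cast_mul]; omega]
    push_cast
    have J0 : (0 : ℝ) ≤ J := Nat.cast_nonneg J
    calc (2 * (J : ℝ) + 1) * (2 * (J * L) + 1) * (C / (2 * L) ^ 2)
        ≤ (2 * J + 1) * ((2 * J + 1) * L) * (C / L ^ 2) := by
          gcongr
          · nlinarith
          · linarith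
      _ = _ := by field_simp

/-- At scale `2^n` cut the rows and columns of the box of radius `2^(n+2)` into blocks of length `ε 2^n`;
`tail_sum_Yv` and Borel-Cantelli; an L-shaped guiding path uses at most six blocks. -/
theorem ae_T_le_near (hG : Hyp G) : ∃ C > 0, ∀ᵐ t ∂iidLaw G, ∀ ε > (0 : ℝ), ε ≤ 1 → ∃ r0 : ℝ,
    ∀ z z' : V, ∀ r : ℝ, (nrm z : ℝ) ≤ r → (nrm (z' - z) : ℝ) ≤ ε * r → T t z z' ≤ C * ε * r + r0 := by
  obtain ⟨C, hC, h⟩ := bnear_good G hG (K := 9) (by norm_num)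
  refine ⟨8 * C + 8, by positivity, ?_⟩
  filter_upwards [ae_all_iff.2 (h (fun b a => (a, b)) (1, 0) (by simp [nrm]) fun b a k => by simp),
    ae_all_iff.2 (h (fun b a => (b, a)) (0, 1) (by simp [nrm]) fun b a k => by simp),
    ae_Zv_le G hG 9, ae_nonneg G hG.nonneg] with t h1 h2 h3 ht ε hε ε1
  obtain ⟨J, hJ⟩ := exists_nat_ge (1 / ε + 1)
  obtain ⟨n0, hn0⟩ := eventually_atTop.1 ((h1 J).and (h2 J))
  obtain ⟨r1, hr1⟩ := h3 ε hε
  refine ⟨4 * r1 + 4 * C * 2 ^ n0, fun z z' r a1 a2 => ?_⟩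
  have r0 : 0 ≤ r := le_trans (by exact_mod_cast nrm_nonneg z) a1
  obtain ⟨n, n1, n2, n3⟩ : ∃ n, n0 ≤ n ∧ ε * r ≤ 2 ^ n ∧ (2 : ℝ) ^ n ≤ 2 * (ε * r) + 2 ^ n0 := by
    rcases le_or_gt (ε * r) (2 ^ n0) with hh | hh
    · exact ⟨n0, le_rfl, hh, by nlinarith [mul_nonneg hε.le r0]⟩
    · obtain ⟨n, b1, b2⟩ := exists_nat_pow_near ((one_le_pow₀ one_le_two).trans hh.le) one_lt_two
      refine ⟨n + 1, ((pow_lt_pow_iff_right₀ one_lt_two).1 (hh.trans b2)).le, b2.le, ?_⟩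
      rw [pow_succ]
      linarith [pow_pos (two_pos (α := ℝ)) n0]
  obtain ⟨g1, g2⟩ := hn0 n n1
  obtain ⟨L, hL⟩ : ∃ L : ℕ, L = 2 ^ n := ⟨_, rfl⟩
  have L1 : 1 ≤ L := by rw [hL]; exact Nat.one_le_two_pow
  have L2 : (2 : ℝ) ^ n = L := by rw [hL]; simp
  rw [← hL] at g1 g2
  rw [L2] at n2 n3
  have b0 := nrm_add_le z (z' - z)
  rw [add_sub_cancel] at b0
  have b0' : (nrm z' : ℝ) ≤ nrm z + nrm (z' - z) := by exact_mod_cast b0
  have b1 : r + L ≤ J * L := by
    have c1 : r ≤ 1 / ε * L := by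
      rw [one_div_mul_eq_div, le_div_iff₀ hε]
      linarith
    nlinarith [(Nat.cast_nonneg L : (0 : ℝ) ≤ L)]
  have b2 : nrm z ≤ J * L := by
    exact_mod_cast (by linarith [(Nat.cast_nonneg L : (0 : ℝ) ≤ L)] : (nrm z : ℝ) ≤ J * L)
  have b3 : nrm z' ≤ J * L := by exact_mod_cast (by linarith : (nrm z' : ℝ) ≤ J * L)
  have b4 : nrm (z' - z) ≤ L := by exact_mod_cast a2.trans n2
  have c1 : |z.1| ≤ J * L := (le_max_left _ _).trans b2
  have c2 : |z.2| ≤ J * L := (le_max_right _ _).trans b2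
  have c3 : |z'.1| ≤ J * L := (le_max_left _ _).trans b3
  have c4 : |z'.2| ≤ J * L := (le_max_right _ _).trans b3
  have c5 : |z'.1 - z.1| ≤ L := (le_max_left _ _).trans b4
  have c6 : |z'.2 - z.2| ≤ L := (le_max_right _ _).trans b4
  have d1 := bnear_line (K := 9) (by norm_num) ht (φ := fun a => (a, z.2))
    (fun i j hij => pathIn_hseg hij fun _ _ _ => trivial) L1 (fun a ha => g1 a z.2 ha c2) c1 c3 c5
  have d2 := bnear_line (K := 9) (by norm_num) ht (φ := fun a => (z'.1, a))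
    (fun i j hij => pathIn_vseg hij fun _ _ _ => trivial) L1 (fun a ha => g2 a z'.1 ha c3) c2 c4 c6
  have d3 := T_triangle (x := z) (y := (z'.1, z.2)) (z := z') ht
  have e1 : (nrm z' : ℝ) ≤ 2 * r := by nlinarith
  have e2 : (nrm (z'.1, z.2) : ℝ) ≤ 2 * r := by
    have f1 : nrm (z'.1, z.2) ≤ max (nrm z') (nrm z) :=
      max_le_max (le_max_left _ _) (le_max_right _ _)
    have f2 : (nrm (z'.1, z.2) : ℝ) ≤ max (nrm z' : ℝ) (nrm z) := by exact_mod_cast f1
    exact f2.trans (max_le e1 (by linarith))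
  have f1 := hr1 z
  have f2 := hr1 z'
  have f3 := hr1 (z'.1, z.2)
  simp only [Prod.mk.eta] at d1 d2
  nlinarith [mul_le_mul_of_nonneg_left a1 hε.le, mul_le_mul_of_nonneg_left e1 hε.le,
    mul_le_mul_of_nonneg_left e2 hε.le, mul_le_mul_of_nonneg_left n3 hC.le, mul_nonneg hε.le r0]

end Crest.Agent.R151
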