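import Crest.Agent.R151.BUpper
import Crest.Agent.R151.BNear
import Crest.Agent.R151.BAnimal

/-! R151 base: exponential lower large deviations.

Fix `ε`, a scale `ℓ` and `A = A(ε)`.  A site `x` is *bad* if some path from `x` inside `ball x (Aℓ)` reaches a point `z` with
`nrm (z - x) = ℓ` at cost `< (1-ε) mu (z - x)`, or reaches the boundary of the ball at cost `< C ℓ` (`C` the upper
constant of `mu`).  A *cell* (`ℓ × ℓ` square) is bad if it contains a bad site.  P(cell bad) → 0 as `ℓ → ∞`: use the net of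
spacing `ε' ℓ`, `L1_conv` (Markov) for net pairs, `ae_T_le_near`/`tail_sum_Yv` to move to net points, `T_lower_tail`.
[Simplest: by `ae_T_le_near` and `L1_conv`, P(∃ x ∈ ball 0 ℓ, z, nrm (z-x) = ℓ, T x z < (1-ε) mu(z-x)) → 0.]
Given a self-avoiding path from `x` to `y` of cost `≤ (1-3ε) mu`, use the last-exit decomposition: `x_{k+1}` is the LAST point of
the path at distance exactly `ℓ` from `x_k` (all later points are farther, while the end is farther than `ℓ`), so the `x_k` are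
`ℓ`-separated, lie in distinct cells of side `ℓ`, consecutive cells are neighbours (9 choices).  If `x_k` is good the piece costs
`≥ (1-ε) mu(x_{k+1} - x_k) ≥ c ℓ`.  With `n ≥ |y - x|/ℓ - 1` pieces, `Σ mu(pieces) ≥ mu(y-x) - Cℓ`; so at least `ε' n` pieces are bad;
a residue class mod `2A+3` contains `ε'' n` bad cells, which are independent: `9^n · C · (e p/ε'')^{ε'' n} ≤ e^{-n}` (`chernoff_count`). -/

set_option autoImplicit false
open MeasureTheory ProbabilityTheory Crest.ProbabilityR.FirstPassage Filter Topology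
open scoped ENNReal

namespace Crest.Agent.R151

theorem lld_union {Ω ι : Type} [MeasurableSpace Ω] [Countable ι] (μ : Measure Ω) (A : ι → Set Ω)
    [IsFiniteMeasure μ] {a : ι → ℝ} (ha : ∀ i, μ.real (A i) ≤ a i) (hs : Summable a) :
    μ.real (⋃ i, A i) ≤ ∑' i, a i := by
  have h0 : ∀ i, 0 ≤ a i := fun i => measureReal_nonneg.trans (ha i)
  refine ENNReal.toReal_le_of_le_ofReal (tsum_nonneg h0) ((measure_iUnion_le A).trans ?_)
  rw [ENNReal.ofReal_tsum_of_nonneg h0 hs]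
  exact ENNReal.tsum_le_tsum fun i => (ENNReal.le_ofReal_iff_toReal_le (measure_ne_top _ _) (h0 i)).2 (ha i)

theorem lld_mono {Ω : Type} [MeasurableSpace Ω] {μ : Measure Ω} [IsFiniteMeasure μ] {A B : Set Ω}
    {p : Ω → Prop} (hp : ∀ᵐ t ∂μ, p t) (h : ∀ t, p t → t ∈ A → t ∈ B) : μ.real A ≤ μ.real B :=
  ENNReal.toReal_mono (measure_ne_top _ _) (measure_mono_ae (hp.mono h))

theorem lld_ball {Ω : Type} [MeasurableSpace Ω] (μ : Measure Ω) (x : V) (r : ℕ) (A : V → Set Ω) {a : ℝ}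
    (h0 : 0 ≤ a) (ha : ∀ z, μ.real (A z) ≤ a) :
    μ.real (⋃ z ∈ (ball_finite x r).toFinset, A z) ≤ (2 * r + 1) ^ 2 * a := by
  refine (measureReal_biUnion_finset_le _ _).trans ((Finset.sum_le_card_nsmul _ _ a fun z _ => ha z).trans ?_)
  rw [nsmul_eq_mul, ← Set.ncard_eq_toFinset_card _ (ball_finite x r)]
  exact mul_le_mul_of_nonneg_right (by exact_mod_cast ncard_ball_le x r) h0

theorem lld_summable {a : ℝ} (ha : 0 < a) : Summable fun z : V => Real.exp (-a * nrm z) := by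
  have h1 : Summable fun n : ℕ => Real.exp (-(a / 2) * n) :=
    Real.summable_exp_nat_mul_of_ge (by linarith) fun _ => le_rfl
  have h2 : Summable fun k : ℤ => Real.exp (-(a / 2) * (|k| : ℤ)) :=
    Summable.of_nat_of_neg (by simpa using h1) (by simpa using h1)
  refine (h2.mul_of_nonneg h2 (fun _ => (Real.exp_pos _).le) fun _ => (Real.exp_pos _).le).of_nonneg_of_le
    (fun _ => (Real.exp_pos _).le) fun z => ?_
  have a1 : ((|z.1| : ℤ) : ℝ) ≤ nrm z := Int.cast_le.2 (le_max_left _ _)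
  have a2 : ((|z.2| : ℤ) : ℝ) ≤ nrm z := Int.cast_le.2 (le_max_right _ _)
  rw [← Real.exp_add]
  exact Real.exp_le_exp.2 (by nlinarith)

theorem lld_nrm_smul {l : ℤ} (hl : 0 ≤ l) (c : V) : nrm (l • c) = l * nrm c := by
  simp only [nrm, Prod.smul_fst, Prod.smul_snd, smul_eq_mul, abs_mul, abs_of_nonneg hl, mul_max_of_nonneg _ _ hl]

theorem lld_tri (x y z : V) : nrm (z - x) ≤ nrm (y - x) + nrm (z - y) := by
  simpa using nrm_add_le (y - x) (z - y)

/-- the cell of side `l` containing `x` -/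
def lldCell (l : ℤ) (x : V) : V := (x.1 / l, x.2 / l)

theorem lld_cell_diff {l : ℤ} (hl : 0 < l) (x y : V) :
    nrm (x - l • lldCell l x - (y - l • lldCell l y)) < l := by
  have h : ∀ a : ℤ, 0 ≤ a - l * (a / l) ∧ a - l * (a / l) < l := fun a => by
    rw [← Int.emod_def]
    exact ⟨Int.emod_nonneg _ hl.ne', Int.emod_lt_of_pos _ hl⟩
  simp only [nrm, lldCell, Prod.fst_sub, Prod.snd_sub, Prod.smul_fst, Prod.smul_snd, smul_eq_mul, max_lt_iff,
    abs_lt]
  refine ⟨⟨?_, ?_⟩, ?_, ?_⟩ <;> linarith [h x.1, h x.2, h y.1, h y.2]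

theorem lld_cell_near {l : ℤ} (hl : 0 < l) (x : V) : nrm (x - l • lldCell l x) < l := by
  simpa [lldCell, show ((0, 0) : V) = 0 from rfl] using lld_cell_diff hl x 0

theorem lld_cell_step {l : ℤ} (hl : 0 < l) {x y : V} (h : nrm (y - x) ≤ l) :
    nrm (lldCell l y - lldCell l x) ≤ 1 := by
  have h1 := nrm_add_le (y - x) (x - l • lldCell l x - (y - l • lldCell l y))
  rw [show y - x + (x - l • lldCell l x - (y - l • lldCell l y)) = l • (lldCell l y - lldCell l x) by
    rw [smul_sub]; abel, lld_nrm_smul hl.le] at h1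
  have h2 := lld_cell_diff hl x y
  by_contra h3
  nlinarith

/-- last-exit decomposition -/
theorem lld_decomp {t : Env} (ht : ∀ e, 0 ≤ t e) {l : ℤ} (hl : 0 < l) {p : ℤ → V} {n : ℤ} (m : ℕ) :
    ∀ i, n - i ≤ m → PathIn Set.univ p i n → ∃ (k : ℕ) (w : ℕ → V), w 0 = p i ∧
      (∀ j, ∃ a, i ≤ a ∧ a ≤ n ∧ w j = p a) ∧ (∀ j < k, nrm (w (j + 1) - w j) = l) ∧
      (∀ j j', j < j' → j' ≤ k → l ≤ nrm (w j' - w j)) ∧ nrm (p n - w k) < l ∧
      ∑ j ∈ Finset.range k, T t (w j) (w (j + 1)) ≤ cost t p i n := by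
  induction m with
  | zero =>
    intro i hi hp
    obtain rfl : i = n := by have := hp.1; omega
    exact ⟨0, fun _ => p i, rfl, fun _ => ⟨i, le_rfl, le_rfl, rfl⟩, by simp, by omega,
      by rwa [sub_self, nrm_eq_zero.2 rfl], by simpa using cost_nonneg ht⟩
  | succ m ih =>
    intro i hi hp
    rcases lt_or_ge (nrm (p n - p i)) l with h | h
    · exact ⟨0, fun _ => p i, rfl, fun _ => ⟨i, le_rfl, hp.1, rfl⟩, by simp, by omega, h,
        by simpa using cost_nonneg ht⟩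
    have h0 : nrm (p i - p i) = 0 := by rw [sub_self, nrm_eq_zero]
    obtain ⟨b, b1, b2, b3, b4⟩ := hp.exists_last (lip1_nrm (p i)) (h0.le.trans hl.le) h
    have b5 : i < b := lt_of_le_of_ne b1 fun e => by rw [← e, h0] at b3; omega
    obtain ⟨k, w, w0, w1, w2, w3, w4, w5⟩ := ih b (by push_cast at hi; omega) (hp.sub b1 b2 le_rfl)
    obtain ⟨v, v0, v1⟩ : ∃ v : ℕ → V, v 0 = p i ∧ ∀ j, v (j + 1) = w j :=
      ⟨fun j => Nat.casesOn j (p i) w, rfl, fun _ => rfl⟩
    refine ⟨k + 1, v, v0, fun j => ?_, fun j hj => ?_, fun j j' h1 h2 => ?_, by rwa [v1], ?_⟩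
    · cases j with
      | zero => exact ⟨i, le_rfl, hp.1, v0⟩
      | succ j =>
        obtain ⟨a, a1, a2, a3⟩ := w1 j
        exact ⟨a, by omega, a2, (v1 j).trans a3⟩
    · cases j with
      | zero => rwa [v1, v0, w0]
      | succ j => rw [v1, v1]; exact w2 j (by omega)
    · obtain ⟨j', rfl⟩ : ∃ j'', j' = j'' + 1 := ⟨j' - 1, by omega⟩
      cases j with
      | zero =>
        obtain ⟨a, a1, a2, a3⟩ := w1 j'
        rw [v1, v0, a3]
        rcases a1.eq_or_lt with rfl | a4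
        exacts [b3.ge, (b4 a a4 a2).le]
      | succ j => rw [v1, v1]; exact w3 j j' (by omega) (by omega)
    · rw [Finset.sum_range_succ', cost_add b1 b2, add_comm]
      simp only [v1]
      rw [v0, w0]
      exact add_le_add (T_le_cost ht (hp.sub le_rfl b1 b2)) w5

/-- the local bad event of the cell `c` -/
def lldBad (μ : ℝ × ℝ → ℝ) (ε C : ℝ) (l A : ℤ) (c : V) : Set Env :=
  {t | ∃ x z, nrm (x - l • c) ≤ l ∧
    ((nrm (z - x) = l ∧ TS t (ball x (A * l)) x z < (1 - ε) * μ (toR (z - x))) ∨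
      (nrm (z - x) = A * l ∧ TS t (ball x (A * l)) x z < C * l))}

theorem lld_meas (μ : ℝ × ℝ → ℝ) (ε C : ℝ) (l A : ℤ) (c : V) : MeasurableSet (lldBad μ ε C l A c) :=
  Measurable.setOf (Measurable.exists fun x => Measurable.exists fun z => measurable_const.and
    ((measurable_const.and ((measurable_TS _ x z).lt measurable_const)).or
      (measurable_const.and ((measurable_TS _ x z).lt measurable_const))))

theorem lld_local (μ : ℝ × ℝ → ℝ) (ε C : ℝ) {l : ℤ} (hl : 0 < l) (A : ℕ) :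
    LocalField (2 * A + 2) fun c => (lldBad μ ε C l A c).indicator fun _ => (1 : ℝ) := by
  refine ⟨fun c => measurable_const.indicator (lld_meas _ _ _ _ _ _),
    fun c t => Set.indicator_nonneg (fun _ _ => zero_le_one) t,
    fun c => edgesIn (ball (l • c) ((A + 1) * l)), fun c => ?_, fun c c' h => disjoint_edgesIn ?_⟩
  · have key : ∀ t t' : Env, (∀ e ∈ edgesIn (ball (l • c) ((A + 1) * l)), t e = t' e) →
        t ∈ lldBad μ ε C l A c → t' ∈ lldBad μ ε C l A c := fun t t' h ⟨x, z, h1, h2⟩ => by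
      refine ⟨x, z, h1, ?_⟩
      have e : TS t (ball x (A * l)) x z = TS t' (ball x (A * l)) x z :=
        dependsOnly_TS _ x z t t' fun e he => h e fun v hv => by
          have a1 : nrm (v - x) ≤ A * l := he v hv
          have a2 := lld_tri (l • c) x v
          change nrm (v - l • c) ≤ _
          linarith
      rwa [← e]
    intro t t' h
    by_cases ht : t ∈ lldBad μ ε C l A c
    · rw [Set.indicator_of_mem ht, Set.indicator_of_mem (key t t' h ht)]
    · rw [Set.indicator_of_notMem ht,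
        Set.indicator_of_notMem fun ht' => ht (key t' t (fun e he => (h e he).symm) ht')]
  · refine Set.disjoint_left.2 fun v h1 h2 => ?_
    have a1 : nrm (v - l • c) ≤ (A + 1) * l := h1
    have a2 : nrm (v - l • c') ≤ (A + 1) * l := h2
    have a3 := lld_tri (l • c') v (l • c)
    rw [← smul_sub, lld_nrm_smul hl.le, nrm_sub_comm (l • c)] at a3
    push_cast at h
    nlinarith

theorem lld_good {μ : ℝ × ℝ → ℝ} {ε C : ℝ} (hε : 0 ≤ ε) (hμ0 : ∀ v, 0 ≤ μ v) (hμ : ∀ v, μ v ≤ C * ‖v‖)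
    {l A : ℤ} (hl : 0 < l) (hA : 0 ≤ A) {t : Env} (ht : ∀ e, 0 ≤ t e) {x z : V}
    (h : t ∉ lldBad μ ε C l A (lldCell l x)) (hz : nrm (z - x) = l) :
    (1 - ε) * μ (toR (z - x)) ≤ T t x z := by
  refine le_TS (conn_univ x z) fun p i j hp hi hj => ?_
  have hx := (lld_cell_near hl x).le
  by_cases hb : ∀ k, i ≤ k → k ≤ j → p k ∈ ball x (A * l)
  · have := TS_le_cost ht (hp.restrict hb)
    rw [hi, hj] at this
    exact (not_lt.1 fun h' => h ⟨x, z, hx, Or.inl ⟨hz, h'⟩⟩).trans this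
  · push Not at hb
    obtain ⟨k, k1, k2, k3⟩ := hb
    obtain ⟨m, m1, m2, m3, m4⟩ := (hp.sub le_rfl k1 k2).exists_first (lip1_nrm x) (c := A * l)
      (by rw [hi, sub_self, nrm_eq_zero.2 rfl]; positivity) (not_le.1 k3).le
    have a1 := TS_le_cost ht ((hp.sub le_rfl m1 (m2.trans k2)).restrict (S' := ball x (A * l))
      fun a a1 a2 => a2.eq_or_lt.elim (fun e => e ▸ m3.le) fun e => (m4 a a1 e).le)
    rw [hi] at a1
    have a2 : C * l ≤ TS t (ball x (A * l)) x (p m) := not_lt.1 fun h' => h ⟨x, p m, hx, Or.inr ⟨m3, h'⟩⟩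
    have a3 := cost_sub_le (p := p) ht (le_refl i) (m2.trans k2)
    have a4 := hμ (toR (z - x))
    rw [norm_toR, hz] at a4
    nlinarith [hμ0 (toR (z - x))]

open Classical in
/-- the deterministic part: a cheap path produces a king's walk of cells with many bad cells -/
theorem lld_det {μ : ℝ × ℝ → ℝ} (hμ : SymNorm μ) {ε c C : ℝ} (hε : 0 < ε) (hC : 0 < C)
    (h1 : ∀ v, c * ‖v‖ ≤ μ v) (h2 : ∀ v, μ v ≤ C * ‖v‖) {l A : ℤ} (hl : 0 < l) (hA : 0 ≤ A) {t : Env}
    (ht : ∀ e, 0 ≤ t e) {x y : V} (h : T t x y < (1 - ε) * μ (toR (y - x))) :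
    ∃ k : ℕ, (nrm (y - x) : ℝ) / l - 1 ≤ k ∧ ∃ w, KWalk w k ∧ w 0 = lldCell l x ∧ ε * c / (2 * C) * k - 1 ≤
      ((((Finset.range (k + 1)).image w).filter fun a =>
        0 < (lldBad μ (ε / 2) C l A a).indicator (fun _ => (1 : ℝ)) t).card : ℝ) := by
  obtain ⟨p, n, hp, -, p0, pn, hc⟩ := exists_path_lt ht (conn_univ x y) h
  obtain ⟨k, w, w0, -, w2, w3, w4, w5⟩ := lld_decomp ht hl n.toNat 0 (by omega) hp
  rw [p0] at w0
  rw [pn] at w4
  have l0 : (0 : ℝ) < l := by exact_mod_cast hl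
  have ε1 : 0 ≤ 1 - ε := by
    by_contra h'
    nlinarith [T_nonneg (x := x) (y := y) ht, hμ.nonneg (toR (y - x))]
  have t1 : ∀ j ≤ k, nrm (w j - x) ≤ j * l ∧
      μ (toR (w j - x)) ≤ ∑ i ∈ Finset.range j, μ (toR (w (i + 1) - w i)) := fun j => by
    induction j with
    | zero => intro _; simp [w0, nrm_eq_zero.2 rfl, toR, show ((0, 0) : ℝ × ℝ) = 0 from rfl, hμ.zero]
    | succ j ih =>
      intro hj
      obtain ⟨a1, a2⟩ := ih (by omega)
      have a3 := lld_tri x (w j) (w (j + 1))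
      have a4 := hμ.add_le (toR (w j - x)) (toR (w (j + 1) - w j))
      rw [← toR_add, sub_add_sub_cancel'] at a4
      rw [Finset.sum_range_succ, w2 j hj] at *
      push_cast
      constructor <;> linarith
  obtain ⟨t2, t3⟩ := t1 k le_rfl
  refine ⟨k, ?_, fun j => lldCell l (w j), fun j hj => lld_cell_step hl (w2 j hj).le,
    congrArg (lldCell l) w0, ?_⟩
  · have a1 := lld_tri x (w k) y
    have a2 : (nrm (y - x) : ℝ) ≤ k * l + l := by exact_mod_cast (by linarith : nrm (y - x) ≤ k * l + l)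
    rw [sub_le_iff_le_add, div_le_iff₀ l0]
    linarith
  obtain ⟨b, hb⟩ : ∃ b : ℕ, b = ((Finset.range k).filter fun j =>
    t ∈ lldBad μ (ε / 2) C l A (lldCell l (w j))).card := ⟨_, rfl⟩
  refine le_trans (b := (b : ℝ)) ?_ (Nat.cast_le.2 (hb.trans_le (Finset.card_le_card_of_injOn
    (fun j => lldCell l (w j)) (fun j hj => ?_) fun i hi j hj e => ?_)))
  rotate_left
  · obtain ⟨a1, a2⟩ := Finset.mem_filter.1 hj
    exact Finset.mem_filter.2 ⟨Finset.mem_image_of_mem _ (Finset.mem_range.2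
      ((Finset.mem_range.1 a1).trans k.lt_succ_self)), by rw [Set.indicator_of_mem a2]; exact one_pos⟩
  · have key : ∀ i j, i < j → j < k → lldCell l (w i) ≠ lldCell l (w j) := fun i j a1 a2 e => by
      have a3 := lld_cell_diff hl (w j) (w i)
      rw [e, sub_sub_sub_cancel_right] at a3
      linarith [w3 i j a1 a2.le]
    have a1 := Finset.mem_range.1 (Finset.mem_filter.1 hi).1
    have a2 := Finset.mem_range.1 (Finset.mem_filter.1 hj).1
    rcases lt_trichotomy i j with a | a | a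
    exacts [absurd e (key i j a a2), a, absurd e.symm (key j i a a1)]
  obtain ⟨M, hM⟩ : ∃ M, M = ∑ i ∈ Finset.range k, μ (toR (w (i + 1) - w i)) := ⟨_, rfl⟩
  have s1 : k * (c * l) ≤ M := by
    have := Finset.card_nsmul_le_sum (Finset.range k) (fun i => μ (toR (w (i + 1) - w i))) (c * l)
      fun i hi => by simpa only [norm_toR, w2 i (Finset.mem_range.1 hi)] using h1 (toR (w (i + 1) - w i))
    rwa [Finset.card_range, nsmul_eq_mul, ← hM] at this
  have s2 : (1 - ε / 2) * M ≤ ∑ j ∈ Finset.range k, T t (w j) (w (j + 1)) + b * (C * l) := by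
    rw [hM, hb, Finset.mul_sum, ← nsmul_eq_mul, ← Finset.sum_const, Finset.sum_filter,
      ← Finset.sum_add_distrib]
    refine Finset.sum_le_sum fun j hj => ?_
    have a1 := w2 j (Finset.mem_range.1 hj)
    split_ifs with a2
    · have a3 := h2 (toR (w (j + 1) - w j))
      rw [norm_toR, a1] at a3
      nlinarith [T_nonneg (x := w j) (y := w (j + 1)) ht, hμ.nonneg (toR (w (j + 1) - w j))]
    · rw [add_zero]
      exact lld_good (by linarith) hμ.nonneg h2 hl hA ht a2 a1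
  have s3 : μ (toR (y - x)) ≤ M + C * l := by
    have a1 := hμ.add_le (toR (w k - x)) (toR (y - w k))
    have a2 := h2 (toR (y - w k))
    have a3 : (nrm (y - w k) : ℝ) ≤ l := by exact_mod_cast w4.le
    rw [← toR_add, sub_add_sub_cancel'] at a1
    rw [norm_toR] at a2
    nlinarith
  have s4 := mul_le_mul_of_nonneg_left s3 ε1
  have s5 := mul_le_mul_of_nonneg_left s1 hε.le
  have s6 : 0 ≤ ε * (C * l) := by positivity
  rw [sub_le_iff_le_add, div_mul_eq_mul_div, div_le_iff₀ (by positivity)]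
  refine le_of_mul_le_mul_right ?_ l0
  linarith

variable (G : Measure ℝ) [IsProbabilityMeasure G] [NullSingletonClass G]

omit [NullSingletonClass G] in
theorem lld_near (hG : Hyp G) : ∃ Cn > 0, ∀ J : ℕ, 1 ≤ J → Tendsto (fun L : ℕ => (iidLaw G).real
    {t | ∃ z z' : V, nrm z ≤ 2 * J * L ∧ nrm (z' - z) ≤ L ∧ Cn * L < T t z z'}) atTop (𝓝 0) := by
  obtain ⟨Cn, hCn, hae⟩ := ae_T_le_near G hG
  refine ⟨Cn + 1, by linarith, fun J hJ => ?_⟩
  have hJ' : (1 : ℝ) ≤ J := by exact_mod_cast hJ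
  have h := tendsto_measure_of_ae_tendsto_indicator_of_isFiniteMeasure (μ := iidLaw G) atTop
    (As := fun L : ℕ => {t | ∃ z z' : V, nrm z ≤ 2 * J * L ∧ nrm (z' - z) ≤ L ∧
      (Cn + 1) * L < T t z z'}) MeasurableSet.empty
    (fun L => Measurable.setOf (Measurable.exists fun z => Measurable.exists fun z' =>
      measurable_const.and (measurable_const.and (measurable_const.lt (measurable_T z z')))))
    (hae.mono fun t ht => by
      obtain ⟨r0, hr0⟩ := ht (1 / (2 * J)) (by positivity)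
        (by rw [div_le_one (by positivity)]; linarith)
      filter_upwards [tendsto_natCast_atTop_atTop.eventually_ge_atTop r0] with L hL
      refine iff_of_false (fun ⟨z, z', h1, h2, h3⟩ => ?_) (Set.notMem_empty t)
      have e : 1 / (2 * (J : ℝ)) * (2 * J * L) = L := by field_simp
      have := hr0 z z' (2 * J * L) (by exact_mod_cast h1) (by rw [e]; exact_mod_cast h2)
      rw [mul_assoc, e] at this
      linarith)
  have h2 := (ENNReal.tendsto_toReal (by simp)).comp h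
  simpa [Function.comp_def, Measure.real] using h2

theorem lld_pair (hG : Hyp G) (a b : V) : Tendsto (fun L : ℕ => (iidLaw G).real
    {t | T t ((L : ℤ) • a) ((L : ℤ) • b) < mu G (toR ((L : ℤ) • b - (L : ℤ) • a)) - L}) atTop (𝓝 0) := by
  refine tendsto_order.2 ⟨fun c hc => Eventually.of_forall fun L => hc.trans_le measureReal_nonneg,
    fun c hc => ?_⟩
  have hn : (0 : ℝ) ≤ nrm (b - a) := by exact_mod_cast nrm_nonneg _
  obtain ⟨C, hC⟩ := L1_conv G hG (show 0 < c / (2 * (nrm (b - a) + 1)) by positivity)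
  filter_upwards [tendsto_natCast_atTop_atTop.eventually_gt_atTop (max 0 (2 * C / c))] with L hL
  have L0 : (0 : ℝ) < L := (le_max_left _ _).trans_lt hL
  have L1 : 2 * C < L * c := (div_lt_iff₀ hc).1 ((le_max_right _ _).trans_lt hL)
  have h1 := mul_meas_ge_le_integral_of_nonneg (μ := iidLaw G)
    (f := fun t => |T t ((L : ℤ) • a) ((L : ℤ) • b) - mu G (toR ((L : ℤ) • b - (L : ℤ) • a))|)
    (Eventually.of_forall fun t => abs_nonneg _)
    ((integrable_T G hG _ _).sub (integrable_const _)).abs L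
  have h2 := hC ((L : ℤ) • a) ((L : ℤ) • b)
  have h3 : (nrm ((L : ℤ) • b - (L : ℤ) • a) : ℝ) = L * nrm (b - a) := by
    rw [← smul_sub, lld_nrm_smul (Int.natCast_nonneg L)]; push_cast; ring
  rw [h3] at h2
  have h4 : (iidLaw G).real {t | T t ((L : ℤ) • a) ((L : ℤ) • b) <
      mu G (toR ((L : ℤ) • b - (L : ℤ) • a)) - L} ≤ (iidLaw G).real
      {t | (L : ℝ) ≤ |T t ((L : ℤ) • a) ((L : ℤ) • b) - mu G (toR ((L : ℤ) • b - (L : ℤ) • a))|} :=
    measureReal_mono fun t ht => by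
      have : T t ((L : ℤ) • a) ((L : ℤ) • b) < mu G (toR ((L : ℤ) • b - (L : ℤ) • a)) - L := ht
      change (L : ℝ) ≤ |_|
      exact le_trans (by linarith) (neg_le_abs _)
  have h5 : c / (2 * (nrm (b - a) + 1)) * (L * nrm (b - a)) ≤ L * c / 2 := by
    rw [div_mul_eq_mul_div, div_le_div_iff₀ (by positivity) (by positivity)]
    nlinarith [mul_pos L0 hc]
  refine lt_of_mul_lt_mul_left (a := (L : ℝ)) ?_ L0.le
  nlinarith [mul_le_mul_of_nonneg_left h4 L0.le]

theorem lld_B1 (hG : Hyp G) {ε : ℝ} (hε : 0 < ε) : ∃ J : ℕ, 1 ≤ J ∧ Tendsto (fun L : ℕ =>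
    (iidLaw G).real {t | ∃ x z : V, nrm x ≤ J * L ∧ nrm (z - x) = J * L ∧
      T t x z < (1 - ε) * mu G (toR (z - x))}) atTop (𝓝 0) := by
  have hμ := symNorm_mu G hG
  obtain ⟨c, hc, h1⟩ := hμ.lower
  obtain ⟨C, hC, h2⟩ := hμ.upper
  obtain ⟨Cn, hCn, hnear⟩ := lld_near G hG
  obtain ⟨J, hJ⟩ := exists_nat_ge ((C + 2 * Cn + 1) / (ε * c))
  have hJ' : C + 2 * Cn + 1 ≤ J * (ε * c) := (div_le_iff₀ (by positivity)).1 hJ
  have hJ1 : 1 ≤ J := by
    by_contra h
    obtain rfl : J = 0 := by omega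
    simp only [CharP.cast_eq_zero, zero_mul] at hJ'
    linarith
  refine ⟨J, hJ1, ?_⟩
  set F := (ball_finite 0 (2 * J + 1)).toFinset with hF
  have hsum := (hnear J hJ1).add (tendsto_finsetSum (F ×ˢ F) fun p _ => lld_pair G hG p.1 p.2)
  simp only [Finset.sum_const_zero, add_zero] at hsum
  refine squeeze_zero' (Eventually.of_forall fun _ => measureReal_nonneg) ?_ hsum
  filter_upwards [eventually_ge_atTop 1] with L hL
  have L0 : (0 : ℤ) < L := by exact_mod_cast hL
  refine le_trans ?_ (add_le_add le_rfl (measureReal_biUnion_finset_le _ _))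
  refine le_trans ?_ (measureReal_union_le _ _)
  refine lld_mono (ae_nonneg G hG.nonneg) fun t ht ⟨x, z, a1, a2, a3⟩ => ?_
  by_contra hcon
  simp only [Set.mem_union, Set.mem_ofPred_eq, Set.mem_iUnion, not_or, not_exists, not_and,
    not_lt] at hcon
  obtain ⟨b1, b2⟩ := hcon
  have hz : nrm z ≤ 2 * J * L := by
    have := lld_tri 0 x z
    rw [sub_zero, sub_zero] at this
    linarith
  have hx : nrm x ≤ 2 * J * L := by nlinarith [Int.natCast_nonneg J]
  have hcell : ∀ v : V, nrm v ≤ 2 * J * L → lldCell L v ∈ F := fun v hv => by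
    rw [hF, Set.Finite.mem_toFinset]
    change nrm (lldCell L v - 0) ≤ _
    have c1 := lld_tri 0 v ((L : ℤ) • lldCell L v)
    have c2 := lld_cell_near L0 v
    rw [sub_zero, sub_zero, lld_nrm_smul L0.le, nrm_sub_comm] at c1
    rw [sub_zero]
    by_contra c3
    nlinarith
  have c1 := b1 x ((L : ℤ) • lldCell L x) hx (by rw [nrm_sub_comm]; exact (lld_cell_near L0 x).le)
  have c2 := b1 z ((L : ℤ) • lldCell L z) hz (by rw [nrm_sub_comm]; exact (lld_cell_near L0 z).le)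
  have c3 := b2 (lldCell L x, lldCell L z) (Finset.mem_product.2 ⟨hcell x hx, hcell z hz⟩)
  simp only at c3
  have c4 := T_triangle (x := (L : ℤ) • lldCell L x) (y := x) (z := (L : ℤ) • lldCell L z) ht
  have c5 := T_triangle (x := x) (y := z) (z := (L : ℤ) • lldCell L z) ht
  rw [T_comm (x := (L : ℤ) • lldCell L x) (y := x)] at c4
  have c6 := hμ.add_le (toR ((L : ℤ) • lldCell L z - (L : ℤ) • lldCell L x))
    (toR (z - (L : ℤ) • lldCell L z - (x - (L : ℤ) • lldCell L x)))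
  rw [← toR_add, show (L : ℤ) • lldCell L z - (L : ℤ) • lldCell L x +
    (z - (L : ℤ) • lldCell L z - (x - (L : ℤ) • lldCell L x)) = z - x by abel] at c6
  have c7 := h2 (toR (z - (L : ℤ) • lldCell L z - (x - (L : ℤ) • lldCell L x)))
  have c8 : (nrm (z - (L : ℤ) • lldCell L z - (x - (L : ℤ) • lldCell L x)) : ℝ) ≤ L := by
    exact_mod_cast (lld_cell_diff L0 z x).le
  have c9 := h1 (toR (z - x))
  rw [norm_toR] at c7 c9
  rw [a2] at c9
  push_cast at c9
  have L1 : (0 : ℝ) < L := by exact_mod_cast hL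
  nlinarith [mul_le_mul_of_nonneg_left c8 hC.le, mul_le_mul_of_nonneg_left c9 hε.le,
    mul_le_mul_of_nonneg_left hJ' L1.le]

theorem lld_bad (hG : Hyp G) (C : ℝ) : ∃ A : ℕ, ∀ ε > 0, ∀ π > 0, ∃ l : ℤ, 0 < l ∧
    ∀ c, (iidLaw G).real (lldBad (mu G) ε C l A c) ≤ π := by
  obtain ⟨θ, hθ, htail⟩ := T_lower_tail G hG.nonneg
  obtain ⟨A0, hA0⟩ := exists_nat_ge (C / θ)
  have hA : C ≤ ((A0 + 1 : ℕ) : ℝ) * θ := by
    have := (div_le_iff₀ hθ).1 hA0
    push_cast
    nlinarith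
  refine ⟨A0 + 1, fun ε hε π hπ => ?_⟩
  generalize hA' : A0 + 1 = A at hA
  have hA1 : 1 ≤ A := by omega
  obtain ⟨J, hJ, hB1⟩ := lld_B1 G hG hε
  have hJL : Tendsto (fun L : ℕ => ((J * L : ℕ) : ℝ)) atTop atTop :=
    tendsto_natCast_atTop_atTop.comp (tendsto_id.const_mul_atTop' hJ)
  have hB2 : Tendsto (fun L : ℕ => 18 * (((J * L : ℕ) : ℝ) ^ 2 * Real.exp (-((J * L : ℕ) : ℝ))))
      atTop (𝓝 0) := by
    simpa using ((Real.tendsto_pow_mul_exp_neg_atTop_nhds_zero 2).comp hJL).const_mul 18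
  have hsum := hB1.add hB2
  rw [add_zero] at hsum
  obtain ⟨L, hL1, hL2⟩ := ((hsum.eventually (gt_mem_nhds hπ)).and (eventually_ge_atTop 1)).exists
  obtain ⟨l, hl⟩ : ∃ l : ℕ, l = J * L := ⟨_, rfl⟩
  have l1 : 1 ≤ l := by rw [hl]; exact Nat.mul_pos hJ hL2
  have l2 : (J : ℤ) * L = l := by rw [hl]; push_cast; rfl
  rw [← hl, l2] at hL1
  have l0 : (0 : ℤ) < l := by exact_mod_cast l1
  have l3 : (1 : ℝ) ≤ l := by exact_mod_cast l1
  refine ⟨l, l0, fun c => le_trans ?_ hL1.le⟩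
  have m1 : MeasurableSet {t : Env | ∃ x z : V, nrm x ≤ l ∧ nrm (z - x) = l ∧
      T t x z < (1 - ε) * mu G (toR (z - x))} :=
    Measurable.setOf (Measurable.exists fun x => Measurable.exists fun z =>
      measurable_const.and (measurable_const.and ((measurable_T x z).lt measurable_const)))
  rw [← (measurePreserving_shift G ((l : ℤ) • c)).measureReal_preimage m1.nullMeasurableSet]
  have b2 := lld_ball (iidLaw G) ((l : ℤ) • c) l (fun x => {t | ∃ y, ((A * l : ℕ) : ℤ) ≤ nrm (y - x) ∧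
    T t x y < θ * nrm (y - x)}) (by positivity) fun x => htail x (A * l)
  have b3 : (2 * (l : ℝ) + 1) ^ 2 * (2 * Real.exp (-((A * l : ℕ) : ℝ))) ≤
      18 * ((l : ℝ) ^ 2 * Real.exp (-(l : ℝ))) := by
    have e1 : Real.exp (-((A * l : ℕ) : ℝ)) ≤ Real.exp (-(l : ℝ)) := by
      refine Real.exp_le_exp.2 (neg_le_neg ?_)
      exact_mod_cast Nat.le_mul_of_pos_left l hA1
    have e2 : (2 * (l : ℝ) + 1) ^ 2 ≤ 9 * (l : ℝ) ^ 2 := by nlinarith
    calc _ ≤ 9 * (l : ℝ) ^ 2 * (2 * Real.exp (-(l : ℝ))) := by gcongr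
      _ = _ := by ring
  refine le_trans ?_ (add_le_add le_rfl (b2.trans b3))
  refine le_trans ?_ (measureReal_union_le _ _)
  refine lld_mono (ae_nonneg G hG.nonneg) fun t ht ⟨x, z, a1, a2⟩ => ?_
  have hx : x ∈ ball x (A * l) := by
    change nrm (x - x) ≤ _
    rw [sub_self, nrm_eq_zero.2 rfl]; positivity
  have A1 : (1 : ℤ) ≤ A := by exact_mod_cast hA1
  rcases a2 with ⟨a2, a3⟩ | ⟨a2, a3⟩
  · have hz : z ∈ ball x (A * l) := by
      change nrm (z - x) ≤ _
      nlinarith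
    refine Or.inl ⟨x - (l : ℤ) • c, z - (l : ℤ) • c, a1, by rwa [sub_sub_sub_cancel_right], ?_⟩
    rw [T_shift, sub_add_cancel, sub_add_cancel, sub_sub_sub_cancel_right]
    exact (T_le_TS ht (conn_ball hx hz)).trans_lt a3
  · have hz : z ∈ ball x (A * l) := a2.le
    refine Or.inr (Set.mem_biUnion (x := x) ((ball_finite _ _).mem_toFinset.2 a1)
      ⟨z, by push_cast; exact a2.ge, ((T_le_TS ht (conn_ball hx hz)).trans_lt a3).trans_le ?_⟩)
    rw [a2]
    push_cast
    nlinarith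

theorem lowLD (hG : Hyp G) {ε : ℝ} (hε : 0 < ε) : ∃ C > 0, ∃ c > 0, ∀ x y : V,
    (iidLaw G).real {t | T t x y < (1 - ε) * mu G (toR (y - x))} ≤
      C * Real.exp (-c * nrm (y - x)) := by
  classical
  have hμ := symNorm_mu G hG
  obtain ⟨c, hc, h1⟩ := hμ.lower
  obtain ⟨C, hC, h2⟩ := hμ.upper
  obtain ⟨A, hA⟩ := lld_bad G hG C
  obtain ⟨Ca, hCa, hani⟩ := animal_tail G (2 * A + 2)
  obtain ⟨η, hη⟩ : ∃ η, η = ε * c / (2 * C) := ⟨_, rfl⟩
  have η0 : 0 < η := by rw [hη]; positivity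
  obtain ⟨δ, hδ⟩ : ∃ δ, δ = η / (4 * Ca) := ⟨_, rfl⟩
  have δ0 : 0 < δ := by rw [hδ]; positivity
  have δ1 : Ca * δ = η / 4 := by rw [hδ]; field_simp
  have π0 : 0 < min 1 (δ ^ 2) := lt_min one_pos (by positivity)
  have π1 : √(min 1 (δ ^ 2)) ≤ δ := Real.sqrt_le_iff.2 ⟨δ0.le, min_le_right _ _⟩
  obtain ⟨l, hl, hbad⟩ := hA (ε / 2) (by positivity) _ π0
  have l0 : (0 : ℝ) < l := by exact_mod_cast hl
  have hani' := hani _ (lld_local (mu G) (ε / 2) C hl A) _ π0 (min_le_left _ _) fun c' =>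
    le_trans (measureReal_mono fun t ht => by
      by_contra h
      simp [Set.indicator_of_notMem h] at ht) (hbad c')
  obtain ⟨k1, hk1⟩ : ∃ k1 : ℝ, k1 = 2 * (Ca + 1) / η := ⟨_, rfl⟩
  have k10 : 0 ≤ k1 := by rw [hk1]; positivity
  have k11 : η * k1 = 2 * (Ca + 1) := by rw [hk1]; field_simp
  have hs : Summable fun k : ℕ => Real.exp (-(δ / 2) * k) :=
    Real.summable_exp_nat_mul_of_ge (by linarith) fun _ => le_rfl
  have S0 : 0 ≤ ∑' k : ℕ, Real.exp (-(δ / 2) * k) := tsum_nonneg fun _ => (Real.exp_pos _).le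
  refine ⟨Real.exp (δ * k1 + δ / 2) * (∑' k : ℕ, Real.exp (-(δ / 2) * k) + 1), by positivity,
    δ / (2 * l), by positivity, fun x y => ?_⟩
  obtain ⟨D, hD⟩ : ∃ D : ℝ, D = nrm (y - x) / l - 1 := ⟨_, rfl⟩
  have key := lld_union (iidLaw G) (fun k : ℕ => {t | D ≤ k ∧ ∃ w, KWalk w k ∧ w 0 = lldCell l x ∧
      η * k - 1 ≤ ((((Finset.range (k + 1)).image w).filter fun a =>
        0 < (lldBad (mu G) (ε / 2) C l A a).indicator (fun _ => (1 : ℝ)) t).card : ℝ)})
    (a := fun k => Real.exp (δ * k1 - δ / 2 * D) * Real.exp (-(δ / 2) * k)) (fun k => by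
      rw [← Real.exp_add]
      by_cases hk : D ≤ k
      · have k0 : (0 : ℝ) ≤ k := Nat.cast_nonneg k
        rcases le_or_gt k1 k with hk' | hk'
        · refine le_trans (le_trans (measureReal_mono ?_ (measure_ne_top _ _))
            (hani' (lldCell l x) k (δ * k) (by positivity))) (Real.exp_le_exp.2 ?_)
          · rintro t ⟨_, w, w1, w2, w3⟩
            refine ⟨w, w1, w2, le_trans ?_ w3⟩
            have a1 : Ca * (k * √(min 1 (δ ^ 2))) ≤ Ca * (k * δ) := by gcongr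
            nlinarith [mul_le_mul_of_nonneg_left hk' η0.le]
          · nlinarith [mul_le_mul_of_nonneg_left hk δ0.le, mul_nonneg δ0.le k10]
        · refine measureReal_le_one.trans (Real.one_le_exp ?_)
          nlinarith [mul_le_mul_of_nonneg_left hk δ0.le, mul_le_mul_of_nonneg_left hk'.le δ0.le]
      · simp only [hk, false_and, Set.ofPred_false, measureReal_empty]
        exact (Real.exp_pos _).le) (hs.mul_left _)
  refine le_trans (lld_mono (ae_nonneg G hG.nonneg) fun t ht h => ?_) (key.trans ?_)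
  · obtain ⟨k, a1, a2⟩ := lld_det hμ hε hC h1 h2 hl (Int.natCast_nonneg A) ht h
    exact Set.mem_iUnion.2 ⟨k, hD ▸ a1, hη ▸ a2⟩
  · rw [tsum_mul_left]
    have e : Real.exp (δ * k1 - δ / 2 * D) =
        Real.exp (δ * k1 + δ / 2) * Real.exp (-(δ / (2 * l)) * nrm (y - x)) := by
      rw [← Real.exp_add, hD]
      congr 1
      field_simp
      ring
    rw [e]
    nlinarith [mul_pos (Real.exp_pos (δ * k1 + δ / 2)) (Real.exp_pos (-(δ / (2 * l)) * nrm (y - x)))]

/-- union bound -/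
theorem lowLD_from (hG : Hyp G) {ε : ℝ} (hε : 0 < ε) : ∃ C > 0, ∃ c > 0, ∀ (x : V) (s : ℝ), 0 ≤ s →
    (iidLaw G).real {t | ∃ y, T t x y < (1 - ε) * mu G (toR (y - x)) - s} ≤
      C * Real.exp (-c * s) := by
  have hμ := symNorm_mu G hG
  obtain ⟨C, hC, h2⟩ := hμ.upper
  obtain ⟨C0, hC0, c0, hc0, h⟩ := lowLD G hG hε
  have hs := lld_summable (show 0 < c0 / 2 by positivity)
  have S0 : 0 ≤ ∑' z : V, Real.exp (-(c0 / 2) * nrm z) := tsum_nonneg fun _ => (Real.exp_pos _).le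
  refine ⟨C0 * (∑' z : V, Real.exp (-(c0 / 2) * nrm z) + 1), by positivity, c0 / (2 * C),
    by positivity, fun x s s0 => ?_⟩
  have key := lld_union (iidLaw G) (fun z : V => {t | s ≤ C * nrm z ∧
      T t x (x + z) < (1 - ε) * mu G (toR (x + z - x))})
    (a := fun z => C0 * Real.exp (-(c0 / (2 * C)) * s) * Real.exp (-(c0 / 2) * nrm z)) (fun z => by
      by_cases hz : s ≤ C * nrm z
      · simp only [hz, true_and]
        refine (h x (x + z)).trans ?_
        rw [mul_assoc, ← Real.exp_add, add_sub_cancel_left]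
        refine mul_le_mul_of_nonneg_left (Real.exp_le_exp.2 ?_) hC0.le
        have a1 : c0 / (2 * C) * s ≤ c0 / (2 * C) * (C * nrm z) := by gcongr
        have a2 : c0 / (2 * C) * (C * nrm z) = c0 / 2 * nrm z := by field_simp
        linarith
      · simp only [hz, false_and, Set.ofPred_false, measureReal_empty]
        positivity) (hs.mul_left _)
  refine le_trans (lld_mono (ae_nonneg G hG.nonneg) fun t ht ⟨y, hy⟩ => ?_) (key.trans ?_)
  · refine Set.mem_iUnion.2 ⟨y - x, ?_⟩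
    have a1 := h2 (toR (y - x))
    rw [norm_toR] at a1
    simp only [Set.mem_ofPred_eq, add_sub_cancel]
    exact ⟨by nlinarith [T_nonneg (x := x) (y := y) ht, hμ.nonneg (toR (y - x))], by linarith⟩
  · rw [tsum_mul_left]
    nlinarith [mul_pos hC0 (Real.exp_pos (-(c0 / (2 * C)) * s))]

/-- the global event `E_N` of `BlueD` -/
theorem lowLD_global (hG : Hyp G) {ε : ℝ} (hε : 0 < ε) : ∃ C > 0, ∀ N : ℝ, 2 ≤ N →
    (iidLaw G).real {t | ∃ x y, (nrm x : ℝ) ≤ N ^ 2 ∧
      T t x y < (1 - ε) * mu G (toR (y - x)) - C * Real.log N} ≤ 1 / N := by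
  obtain ⟨C, hC, c, hc, h⟩ := lowLD_from G hG hε
  obtain ⟨m, hm⟩ := pow_unbounded_of_one_lt (9 * C) (one_lt_two (α := ℝ))
  refine ⟨((5 + m : ℕ) : ℝ) / c, by positivity, fun N hN => ?_⟩
  have N0 : 0 < N := by linarith
  have hlog : 0 ≤ Real.log N := Real.log_nonneg (by linarith)
  have key := lld_ball (iidLaw G) 0 ⌊N ^ 2⌋₊ (fun x => {t | ∃ y,
    T t x y < (1 - ε) * mu G (toR (y - x)) - ((5 + m : ℕ) : ℝ) / c * Real.log N}) (by positivity)
    fun x => h x _ (by positivity)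
  refine le_trans (measureReal_mono (fun t ⟨x, y, a1, a2⟩ => ?_) (measure_ne_top _ _)) (key.trans ?_)
  · refine Set.mem_biUnion (x := x) ((ball_finite _ _).mem_toFinset.2 ?_) ⟨y, a2⟩
    change nrm (x - 0) ≤ _
    rw [sub_zero]
    have a3 : (nrm x).toNat ≤ ⌊N ^ 2⌋₊ := Nat.le_floor (by
      rwa [← Int.cast_natCast, Int.toNat_of_nonneg (nrm_nonneg x)])
    omega
  · have e : Real.exp (-c * (((5 + m : ℕ) : ℝ) / c * Real.log N)) = (N ^ (5 + m))⁻¹ := by
      rw [show -c * (((5 + m : ℕ) : ℝ) / c * Real.log N) = -(((5 + m : ℕ) : ℝ) * Real.log N) by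
        field_simp, Real.exp_neg, Real.exp_nat_mul, Real.exp_log N0]
    rw [e]
    have a1 : (⌊N ^ 2⌋₊ : ℝ) ≤ N ^ 2 := Nat.floor_le (by positivity)
    have a2 : (2 * (⌊N ^ 2⌋₊ : ℝ) + 1) ^ 2 ≤ (3 * N ^ 2) ^ 2 := by
      refine pow_le_pow_left₀ (by positivity) ?_ 2
      nlinarith
    have a3 : 9 * C ≤ N ^ m := hm.le.trans (pow_le_pow_left₀ zero_le_two hN m)
    calc _ ≤ (3 * N ^ 2) ^ 2 * (C * (N ^ (5 + m))⁻¹) := by gcongr
      _ = 9 * C / N ^ m * (1 / N) := by rw [pow_add]; field_simp; ring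
      _ ≤ 1 * (1 / N) := by
        gcongr
        exact (div_le_one (by positivity)).2 a3
      _ = _ := one_mul _

end Crest.Agent.R151
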