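import Crest.Agent.R151.BGeo

/-! R151 base: measurability, invariance, resampling, independence. -/

set_option autoImplicit false
open MeasureTheory ProbabilityTheory Crest.ProbabilityR.FirstPassage Filter Topology
open scoped ENNReal

namespace Crest.Agent.R151

variable (G : Measure ℝ) [IsProbabilityMeasure G]

instance : IsProbabilityMeasure (iidLaw G) := by unfold iidLaw; infer_instance

theorem bmeas_cc {Ω α β : Type} [MeasurableSpace Ω] [MeasurableSpace α] [Countable α]
    [MeasurableSingletonClass α] [MeasurableSpace β] {X : Ω → α} (hX : Measurable X)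
    {F : α → Ω → β} (hF : ∀ a, Measurable (F a)) : Measurable fun t => F (X t) t := by
  have h : Measurable fun p : Ω × α => F p.2 p.1 := measurable_from_prod_countable_left hF
  exact h.comp (measurable_id.prodMk hX)

/-- every path agrees on `i..j` with a finitely supported one -/
theorem bmeas_fs (p : ℤ → V) (i j : ℤ) : ∃ q : ℤ →₀ V, ∀ k, i ≤ k → k ≤ j → q k = p k := by
  refine ⟨Finsupp.indicator (Finset.Icc i j) fun k _ => p k, fun k h1 h2 => ?_⟩
  exact Finsupp.indicator_of_mem (Finset.mem_Icc.2 ⟨h1, h2⟩) _

theorem measurable_cost (p : ℤ → V) (i j : ℤ) : Measurable fun t : Env => cost t p i j := by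
  exact Finset.measurable_sum _ fun k _ => measurable_pi_apply _
/-- jointly in the path (product of discrete σ-algebras) -/
theorem measurable_cost_prod (i j : ℤ) : Measurable fun x : Env × (ℤ → V) => cost x.1 x.2 i j := by
  refine Finset.measurable_sum _ fun k _ => ?_
  exact bmeas_cc (X := fun x : Env × (ℤ → V) => (x.2 k, x.2 (k + 1)))
    (((measurable_pi_apply k).comp measurable_snd).prodMk
      ((measurable_pi_apply (k + 1)).comp measurable_snd))
    (F := fun a x => x.1 s(a.1, a.2)) fun a => (measurable_pi_apply _).comp measurable_fst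
/-- the set of values is indexed by the countable type of (length, list of vertices) -/
theorem measurable_TS (S : Set V) (x y : V) : Measurable fun t : Env => TS t S x y := by
  have h : (fun t : Env => TS t S x y) = fun t : Env =>
      sInf ((fun c : (ℤ →₀ V) × ℤ × ℤ => cost t c.1 c.2.1 c.2.2) ''
        {c | PathIn S c.1 c.2.1 c.2.2 ∧ c.1 c.2.1 = x ∧ c.1 c.2.2 = y}) := by
    funext t
    unfold TS
    congr 1
    ext c
    constructor
    · rintro ⟨p, i, j, hp, h1, h2, rfl⟩
      obtain ⟨q, hq⟩ := bmeas_fs p i j
      exact ⟨(q, i, j), ⟨hp.congr hq, (hq i le_rfl hp.1).trans h1, (hq j hp.1 le_rfl).trans h2⟩,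
        cost_congr hq⟩
    · rintro ⟨⟨q, i, j⟩, ⟨hp, h1, h2⟩, rfl⟩
      exact ⟨q, i, j, hp, h1, h2, rfl⟩
  rw [h]
  exact Measurable.sInf (f := fun (c : (ℤ →₀ V) × ℤ × ℤ) (t : Env) => cost t c.1 c.2.1 c.2.2)
    (Set.to_countable _) fun c _ => measurable_cost _ _ _
theorem measurable_T (x y : V) : Measurable fun t : Env => T t x y := by
  exact measurable_TS _ x y
theorem measurable_hseg (a b y : ℤ) : Measurable fun t : Env => hseg t a b y := by
  exact Finset.measurable_sum _ fun k _ => measurable_pi_apply _
theorem measurable_vseg (x c d : ℤ) : Measurable fun t : Env => vseg t x c d := by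
  exact Finset.measurable_sum _ fun k _ => measurable_pi_apply _
theorem bmeas_two (a b : ℤ) (R : V → V → Prop) : Measurable fun p : ℤ → V => R (p a) (p b) :=
  (measurable_of_countable fun v : V × V => R v.1 v.2).comp (f := fun p : ℤ → V => (p a, p b))
    ((measurable_pi_apply a).prodMk (measurable_pi_apply b))
theorem measurableSet_pathIn (S : Set V) (i j : ℤ) : MeasurableSet {p : ℤ → V | PathIn S p i j} := by
  refine measurableSet_setOfPred.2 (measurable_const.and (Measurable.and ?_ ?_))
  · exact Measurable.forall fun k => measurable_const.imp (measurable_const.imp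
      (bmeas_two k k fun v _ => v ∈ S))
  · exact Measurable.forall fun k => measurable_const.imp (measurable_const.imp
      (bmeas_two k (k + 1) Adj))
theorem measurableSet_isGeo (S : Set V) (i j : ℤ) :
    MeasurableSet {x : Env × (ℤ → V) | IsGeo x.1 S x.2 i j} := by
  have h1 : MeasurableSet {p : ℤ → V | Set.InjOn p (Set.Icc i j)} :=
    measurableSet_setOfPred.2 (Measurable.forall fun a => measurable_const.imp
      (Measurable.forall fun b => measurable_const.imp
        ((bmeas_two a b (· = ·)).imp measurable_const)))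
  have h2 : Measurable fun x : Env × (ℤ → V) => TS x.1 S (x.2 i) (x.2 j) :=
    bmeas_cc (X := fun x : Env × (ℤ → V) => (x.2 i, x.2 j))
      (((measurable_pi_apply i).comp measurable_snd).prodMk
        ((measurable_pi_apply j).comp measurable_snd))
      (F := fun a x => TS x.1 S a.1 a.2) fun a => (measurable_TS S a.1 a.2).comp measurable_fst
  exact ((measurableSet_pathIn S i j).preimage measurable_snd).inter
    ((h1.preimage measurable_snd).inter (measurableSet_eq_fun (measurable_cost_prod i j) h2))
theorem measurableSet_reg : MeasurableSet {t : Env | Reg t} := by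
  have h : {t : Env | Reg t} = (⋂ e, {t : Env | 0 < t e}) ∩
      ((⋂ (A : Finset (Sym2 V)) (B : Finset (Sym2 V)) (_ : A ≠ B),
        {t : Env | ∑ e ∈ A, t e = ∑ e ∈ B, t e}ᶜ) ∩
      ⋂ (x : V) (n : ℕ), ⋃ F : Finset V, ⋂ (y : V) (_ : y ∉ F), {t : Env | (n : ℝ) < T t x y}) := by
    ext t
    simp only [Set.mem_inter_iff, Set.mem_iInter, Set.mem_iUnion, Set.mem_compl_iff,
      Set.mem_ofPred_eq]
    constructor
    · intro ht
      refine ⟨ht.pos, ht.sum_ne, fun x n => ⟨(ht.fin x n).toFinset, fun y hy => ?_⟩⟩
      rw [Set.Finite.mem_toFinset] at hy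
      exact not_le.1 hy
    · rintro ⟨h1, h2, h3⟩
      refine ⟨h1, h2, fun x M => ?_⟩
      obtain ⟨n, hn⟩ := exists_nat_ge M
      obtain ⟨F, hF⟩ := h3 x n
      refine F.finite_toSet.subset fun y hy => ?_
      by_contra hyF
      exact absurd (hF y hyF) (not_lt.2 (le_trans hy hn))
  rw [h]
  refine (MeasurableSet.iInter fun e =>
    measurableSet_lt measurable_const (measurable_pi_apply e)).inter (MeasurableSet.inter ?_ ?_)
  · exact MeasurableSet.iInter fun A => MeasurableSet.iInter fun B => MeasurableSet.iInter fun _ =>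
      (measurableSet_eq_fun (Finset.measurable_sum _ fun e _ => measurable_pi_apply e)
        (Finset.measurable_sum _ fun e _ => measurable_pi_apply e)).compl
  · exact MeasurableSet.iInter fun x => MeasurableSet.iInter fun n => MeasurableSet.iUnion fun F =>
      MeasurableSet.iInter fun y => MeasurableSet.iInter fun _ =>
        measurableSet_lt measurable_const (measurable_T x y)
/-- a function of a countably valued random variable -/
theorem measurable_comp_countable {Ω α β : Type} [MeasurableSpace Ω] [MeasurableSpace α] [Countable α]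
    [MeasurableSingletonClass α] [MeasurableSpace β] {X : Ω → α} (hX : Measurable X)
    {F : α → Ω → β} (hF : ∀ a, Measurable (F a)) : Measurable fun t => F (X t) t := by
  exact bmeas_cc hX hF
/-- existence over finite paths is measurable: `P t p` reads `p` only on `i..j` -/
theorem measurableSet_exists_path (i j : ℤ) (P : Env → (ℤ → V) → Prop)
    (hm : ∀ p, MeasurableSet {t | P t p})
    (hl : ∀ t p q, (∀ k, i ≤ k → k ≤ j → q k = p k) → P t p → P t q) :
    MeasurableSet {t | ∃ p, P t p} := by
  have h : {t | ∃ p, P t p} = ⋃ q : ℤ →₀ V, {t | P t q} := by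
    ext t
    simp only [Set.mem_iUnion, Set.mem_ofPred_eq]
    constructor
    · rintro ⟨p, hp⟩
      obtain ⟨q, hq⟩ := bmeas_fs p i j
      exact ⟨q, hl t p q hq hp⟩
    · rintro ⟨q, hq⟩
      exact ⟨q, hq⟩
  rw [h]
  exact MeasurableSet.iUnion fun q => hm q

theorem bmeas_geo_congr {S : Set V} {t t' : Env} (h : ∀ e ∈ edgesIn S, t e = t' e) {p : ℤ → V}
    {i j : ℤ} (hp : IsGeo t S p i j) : IsGeo t' S p i j := by
  refine ⟨hp.1, hp.2.1, ?_⟩
  rw [← cost_congr_env (t := t) fun k h1 h2 => h _ (hp.1.edge_mem h1 h2), hp.2.2]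
  exact dependsOnly_TS S _ _ t t' h

/-- measurable selection of a geodesic, reading only the weights inside `S` (least index in an
enumeration of the finite paths) -/
theorem exists_geoSel (S : Set V) (x y : V) : ∃ (g : Env → ℤ → V) (n : Env → ℤ),
    Measurable g ∧ Measurable n ∧ DependsOnly g (edgesIn S) ∧ DependsOnly n (edgesIn S) ∧
      ∀ t, (∃ p m, IsGeo t S p 0 m ∧ p 0 = x ∧ p m = y) →
        IsGeo t S (g t) 0 (n t) ∧ g t 0 = x ∧ g t (n t) = y := by
  classical
  obtain ⟨c, hc⟩ := exists_surjective_nat ((ℤ →₀ V) × ℤ)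
  let R : Env → ℕ → Prop := fun t k =>
    IsGeo t S (c k).1 0 (c k).2 ∧ (c k).1 0 = x ∧ (c k).1 (c k).2 = y
  have hRm : ∀ k, MeasurableSet {t | R t k} := fun k =>
    ((measurableSet_isGeo S 0 (c k).2).preimage
      (f := fun t : Env => (t, ((c k).1 : ℤ → V))) measurable_prodMk_right).inter
      (MeasurableSet.const _)
  have hRc : ∀ t t' : Env, (∀ e ∈ edgesIn S, t e = t' e) → ∀ k, R t k → R t' k :=
    fun t t' h k hk => ⟨bmeas_geo_congr h hk.1, hk.2⟩
  let Q : Env → ℕ → Prop := fun t k => R t k ∨ ∀ l, ¬ R t l
  have hQ : ∀ t, ∃ k, Q t k := fun t => by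
    by_cases h : ∃ k, R t k
    · exact h.imp fun k hk => Or.inl hk
    · exact ⟨0, Or.inr (not_exists.1 h)⟩
  have hQm : ∀ k, MeasurableSet {t | Q t k} := fun k => by
    have : {t | Q t k} = {t | R t k} ∪ ⋂ l, {t | R t l}ᶜ := by
      ext t
      simp only [Q, Set.mem_union, Set.mem_iInter, Set.mem_compl_iff, Set.mem_ofPred_eq]
    rw [this]
    exact (hRm k).union (MeasurableSet.iInter fun l => (hRm l).compl)
  have hQc : ∀ t t' : Env, (∀ e ∈ edgesIn S, t e = t' e) → ∀ k, Q t k → Q t' k :=
    fun t t' h k hk => hk.imp (hRc t t' h k) fun h1 l hl =>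
      h1 l (hRc t' t (fun e he => (h e he).symm) l hl)
  have hN : Measurable fun t => Nat.find (hQ t) := measurable_find hQ hQm
  have hNc : ∀ t t' : Env, (∀ e ∈ edgesIn S, t e = t' e) → Nat.find (hQ t) = Nat.find (hQ t') :=
    fun t t' h => le_antisymm (Nat.find_mono (hQc t' t fun e he => (h e he).symm))
      (Nat.find_mono (hQc t t' h))
  refine ⟨fun t => (c (Nat.find (hQ t))).1, fun t => (c (Nat.find (hQ t))).2,
    (measurable_of_countable fun k => ((c k).1 : ℤ → V)).comp hN,
    (measurable_of_countable fun k => (c k).2).comp hN,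
    fun t t' h => by simp only [hNc t t' h], fun t t' h => by simp only [hNc t t' h], ?_⟩
  rintro t ⟨p, m, hp, h0, h1⟩
  obtain ⟨q, hq⟩ := bmeas_fs p 0 m
  obtain ⟨k, hk⟩ := hc (q, m)
  have hR : R t k := by
    simp only [R, hk]
    exact ⟨hp.congr hq, (hq 0 le_rfl hp.1.1).trans h0, (hq m hp.1.1 le_rfl).trans h1⟩
  exact (Nat.find_spec (hQ t)).resolve_right fun h => h k hR

theorem measurable_act (φ : V → V) : Measurable (act φ) := by
  exact measurable_pi_lambda _ fun e => measurable_pi_apply _
theorem measurable_shift (v : V) : Measurable (shift v) := by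
  exact measurable_act _
theorem bmeas_inj {ι : Type} {f : ι → Sym2 V} (hf : Function.Injective f) :
    MeasurePreserving (fun t : Env => fun e => t (f e)) (iidLaw G)
      (Measure.infinitePi fun _ : ι => G) :=
  ⟨measurable_pi_lambda _ fun _ => measurable_pi_apply _,
    Measure.map_infinitePi_infinitePi_of_inj (P := fun _ : Sym2 V => G) hf⟩
theorem measurePreserving_comp_equiv (σ : Sym2 V ≃ Sym2 V) :
    MeasurePreserving (fun t : Env => fun e => t (σ e)) (iidLaw G) (iidLaw G) := by
  exact bmeas_inj G σ.injective
theorem measurePreserving_act {φ : V → V} (hφ : Function.Bijective φ) :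
    MeasurePreserving (act φ) (iidLaw G) (iidLaw G) := by
  exact bmeas_inj G (Sym2.map.injective hφ.1)
theorem measurePreserving_shift (v : V) : MeasurePreserving (shift v) (iidLaw G) (iidLaw G) := by
  exact bmeas_inj G (Sym2.map.injective (add_left_injective v))
theorem measurePreserving_eval (e : Sym2 V) : MeasurePreserving (fun t : Env => t e) (iidLaw G) G := by
  exact measurePreserving_eval_infinitePi (fun _ : Sym2 V => G) e
theorem iIndepFun_eval : iIndepFun (fun (e : Sym2 V) (t : Env) => t e) (iidLaw G) := by
  exact iIndepFun_infinitePi (P := fun _ : Sym2 V => G) (X := fun _ x => x) fun _ => measurable_id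
theorem ae_nonneg (h : G (Set.Iio 0) = 0) : ∀ᵐ t ∂iidLaw G, ∀ e, 0 ≤ t e := by
  refine ae_all_iff.2 fun e => ?_
  refine (measurePreserving_eval G e).quasiMeasurePreserving.ae (p := fun x : ℝ => 0 ≤ x) ?_
  rw [ae_iff]
  simp only [not_le]
  exact h

open Classical in
/-- resampling the weights in an arbitrary set of pairs -/
theorem measurePreserving_piecewise (U : Set (Sym2 V)) :
    MeasurePreserving (fun x : Env × Env => U.piecewise x.2 x.1) ((iidLaw G).prod (iidLaw G))
      (iidLaw G) := by
  have hm : Measurable fun x : Env × Env => U.piecewise x.2 x.1 := by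
    refine measurable_pi_lambda _ fun e => ?_
    by_cases he : e ∈ U
    · simp only [Set.piecewise_eq_of_mem _ _ _ he]
      exact (measurable_pi_apply e).comp measurable_snd
    · simp only [Set.piecewise_eq_of_notMem _ _ _ he]
      exact (measurable_pi_apply e).comp measurable_fst
  refine ⟨hm, Measure.eq_infinitePi _ fun s B hB => ?_⟩
  rw [Measure.map_apply hm (MeasurableSet.pi s.countable_toSet fun e _ => hB e)]
  have h : (fun x : Env × Env => U.piecewise x.2 x.1) ⁻¹' Set.pi s B =
      Set.pi (s.filter fun e => ¬ e ∈ U) B ×ˢ Set.pi (s.filter fun e => e ∈ U) B := by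
    ext x
    simp only [Set.mem_preimage, Set.mem_pi, Set.mem_prod, Finset.mem_coe, Finset.mem_filter]
    constructor
    · intro h
      refine ⟨fun e he => ?_, fun e he => ?_⟩
      · simpa only [Set.piecewise_eq_of_notMem _ _ _ he.2] using h e he.1
      · simpa only [Set.piecewise_eq_of_mem _ _ _ he.2] using h e he.1
    · rintro ⟨h1, h2⟩ e he
      by_cases hU : e ∈ U
      · simpa only [Set.piecewise_eq_of_mem _ _ _ hU] using h2 e ⟨he, hU⟩
      · simpa only [Set.piecewise_eq_of_notMem _ _ _ hU] using h1 e ⟨he, hU⟩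
  rw [h, Measure.prod_prod, iidLaw, Measure.infinitePi_pi _ fun e _ => hB e,
    Measure.infinitePi_pi _ fun e _ => hB e, mul_comm, Finset.prod_filter_mul_prod_filter_not]
open Classical in
theorem measurePreserving_update (e : Sym2 V) :
    MeasurePreserving (fun x : Env × ℝ => Function.update x.1 e x.2) ((iidLaw G).prod G)
      (iidLaw G) := by
  have hm : Measurable fun x : Env × ℝ => Function.update x.1 e x.2 := measurable_update'
  have h1 := (MeasurePreserving.id (iidLaw G)).prod (measurePreserving_eval G e)
  refine ⟨hm, ?_⟩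
  rw [← h1.map_eq, Measure.map_map hm h1.measurable]
  refine Eq.trans ?_ (measurePreserving_piecewise G {e}).map_eq
  congr 1
  funext x e'
  by_cases he : e' = e
  · subst he
    simp
  · simp [he]

open Classical in
theorem bmeas_left {α : Type} {f : Env → α} {U : Set (Sym2 V)} (hU : DependsOnly f U) (s t : Env) :
    f (U.piecewise s t) = f s :=
  hU _ _ fun _ he => Set.piecewise_eq_of_mem _ _ _ he
open Classical in
theorem bmeas_right {α : Type} {g : Env → α} {U W : Set (Sym2 V)} (hW : DependsOnly g W)
    (h : Disjoint U W) (s t : Env) : g (U.piecewise s t) = g t :=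
  hW _ _ fun _ he => Set.piecewise_eq_of_notMem _ _ _ (Set.disjoint_right.1 h he)

theorem indepFun_of_dependsOnly {α β : Type} [MeasurableSpace α] [MeasurableSpace β] {f : Env → α}
    {g : Env → β} {U W : Set (Sym2 V)} (hf : Measurable f) (hg : Measurable g)
    (hU : DependsOnly f U) (hW : DependsOnly g W) (h : Disjoint U W) :
    IndepFun f g (iidLaw G) := by
  rw [indepFun_iff_measure_inter_preimage_eq_mul]
  intro A B hA hB
  rw [← (measurePreserving_piecewise G U).measure_preimage
    ((hf hA).inter (hg hB)).nullMeasurableSet, mul_comm, ← Measure.prod_prod]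
  congr 1
  ext x
  simp only [Set.mem_preimage, Set.mem_inter_iff, Set.mem_prod, bmeas_left hU, bmeas_right hW h]
  exact and_comm
theorem iIndepFun_of_dependsOnly {ι : Type} {α : ι → Type} [∀ i, MeasurableSpace (α i)]
    {f : ∀ i, Env → α i} {U : ι → Set (Sym2 V)} (hf : ∀ i, Measurable (f i))
    (hU : ∀ i, DependsOnly (f i) (U i)) (h : Pairwise fun i j => Disjoint (U i) (U j)) :
    iIndepFun f (iidLaw G) := by
  classical
  have hinj : Function.Injective fun p : (i : ι) × U i => (p.2 : Sym2 V) := by
    rintro ⟨i, e, he⟩ ⟨j, e', he'⟩ hee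
    obtain rfl : e = e' := hee
    by_cases hij : i = j
    · subst hij
      rfl
    · exact absurd he' (Set.disjoint_left.1 (h hij) he)
  have hr : ∀ i, Measurable fun (t : Env) (e : U i) => t e := fun i =>
    measurable_pi_lambda _ fun _ => measurable_pi_apply _
  have h1 : iIndepFun (fun i (t : Env) (e : U i) => t e) (iidLaw G) := by
    rw [iIndepFun_iff_map_fun_eq_infinitePi_map hr]
    have h2 := (bmeas_inj G hinj).map_eq
    have h3 := Measure.infinitePi_map_piCurry (fun (i : ι) (_ : U i) => G)
    rw [← h2, Measure.map_map (MeasurableEquiv.measurable _) (bmeas_inj G hinj).measurable] at h3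
    refine Eq.trans ?_ (h3.trans ?_)
    · rfl
    · congr 1
      funext i
      exact ((bmeas_inj G (f := fun e : U i => (e : Sym2 V)) Subtype.val_injective).map_eq).symm
  have h4 := h1.comp (fun i (s : U i → ℝ) => f i fun e => if he : e ∈ U i then s ⟨e, he⟩ else 0)
    fun i => (hf i).comp (measurable_pi_lambda _ fun e => by
      by_cases he : e ∈ U i
      · simp only [dif_pos he]
        exact measurable_pi_apply _
      · simp only [dif_neg he]
        exact measurable_const)
  convert h4 using 2 with i
  funext t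
  exact hU i _ _ fun e he => by simp only [dif_pos he]

/-- freezing: `X` reads `U`, every `F a` reads `W`, `U` and `W` disjoint -/
theorem lintegral_freeze {α : Type} [MeasurableSpace α] [Countable α] [MeasurableSingletonClass α]
    {X : Env → α} {F : α → Env → ℝ≥0∞} {U W : Set (Sym2 V)} (hX : Measurable X)
    (hF : ∀ a, Measurable (F a)) (hU : DependsOnly X U) (hW : ∀ a, DependsOnly (F a) W)
    (h : Disjoint U W) :
    ∫⁻ t, F (X t) t ∂iidLaw G = ∫⁻ t, ∫⁻ t', F (X t) t' ∂iidLaw G ∂iidLaw G := by
  have hm : Measurable fun t => F (X t) t := bmeas_cc hX hF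
  have hm2 : Measurable fun x : Env × Env => F (X x.2) x.1 :=
    bmeas_cc (X := fun x : Env × Env => X x.2) (hX.comp measurable_snd)
      (F := fun a x => F a x.1) fun a => (hF a).comp measurable_fst
  rw [← (measurePreserving_piecewise G U).lintegral_comp hm]
  simp only [bmeas_left hU, bmeas_right (hW _) h]
  exact lintegral_prod_symm' _ hm2
/-- real version for finitely many values -/
theorem integral_freeze {α : Type} [MeasurableSpace α] [Countable α] [MeasurableSingletonClass α]
    {X : Env → α} {F : α → Env → ℝ} {U W : Set (Sym2 V)} (hX : Measurable X) (A : Finset α)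
    (hA : ∀ t, X t ∈ A) (hF : ∀ a, Measurable (F a)) (hI : ∀ a ∈ A, Integrable (F a) (iidLaw G))
    (hU : DependsOnly X U) (hW : ∀ a, DependsOnly (F a) W) (h : Disjoint U W) :
    Integrable (fun t => F (X t) t) (iidLaw G) ∧
      ∫ t, F (X t) t ∂iidLaw G = ∫ t, ∫ t', F (X t) t' ∂iidLaw G ∂iidLaw G := by
  classical
  have hm : Measurable fun t => F (X t) t := bmeas_cc hX hF
  have hi : Integrable (fun t => F (X t) t) (iidLaw G) := by
    refine (integrable_finsetSum A fun a ha => (hI a ha).norm).mono' hm.aestronglyMeasurable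
      (ae_of_all _ fun t => ?_)
    exact Finset.single_le_sum (f := fun a => ‖F a t‖) (fun a _ => norm_nonneg _) (hA t)
  refine ⟨hi, ?_⟩
  have hp := measurePreserving_piecewise G U
  have h2 := hp.integrable_comp_of_integrable hi
  have h3 : ∫ t, F (X t) t ∂iidLaw G = ∫ x, ((fun t => F (X t) t) ∘ fun x : Env × Env =>
      U.piecewise x.2 x.1) x ∂(iidLaw G).prod (iidLaw G) := by
    conv_lhs => rw [← hp.map_eq]
    exact integral_map hp.measurable.aemeasurable hm.aestronglyMeasurable
  rw [h3, integral_prod_symm _ h2]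
  simp only [Function.comp_apply, bmeas_left hU, bmeas_right (hW _) h]

end Crest.Agent.R151
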