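import Crest.Agent.R151.BMeas

/-! R151 base: abstract inequalities (fourth moments, Chernoff, Efron-Stein). -/

set_option autoImplicit false
open MeasureTheory ProbabilityTheory Crest.ProbabilityR.FirstPassage Filter Topology
open scoped ENNReal

namespace Crest.Agent.R151

theorem bprob_pow {Ω : Type} [MeasurableSpace Ω] {μ : Measure Ω} [IsProbabilityMeasure μ] {Y : Ω → ℝ}
    (h : MemLp Y 4 μ) {a : ℕ} (ha : a ≤ 4) : Integrable (fun ω => Y ω ^ a) μ := by
  have h4 : Integrable (fun ω => ‖Y ω‖ ^ 4) μ := MemLp.integrable_norm_pow (p := 4) (by exact_mod_cast h) (by norm_num)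
  refine ((integrable_const (1 : ℝ)).add h4).mono' (h.aestronglyMeasurable.pow a) (ae_of_all _ fun ω => ?_)
  rw [norm_pow, Pi.add_apply]
  rcases le_total ‖Y ω‖ 1 with h1 | h1
  · linarith [pow_le_one₀ (n := a) (norm_nonneg (Y ω)) h1, pow_nonneg (norm_nonneg (Y ω)) 4]
  · linarith [pow_le_pow_right₀ h1 ha]

theorem bprob_sq_le {Ω : Type} [MeasurableSpace Ω] {μ : Measure Ω} [IsProbabilityMeasure μ] {Y : Ω → ℝ}
    (h : MemLp Y 2 μ) : (∫ ω, Y ω ∂μ) ^ 2 ≤ ∫ ω, Y ω ^ 2 ∂μ := by
  have h1 := variance_nonneg Y μ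
  rw [variance_eq_sub h] at h1
  exact sub_nonneg.1 h1

theorem bprob_step {Ω : Type} [MeasurableSpace Ω] {μ : Measure Ω} [IsProbabilityMeasure μ] {S X : Ω → ℝ}
    (hS : MemLp S 4 μ) (hX : MemLp X 4 μ) (hi : IndepFun X S μ) (hS0 : ∫ ω, S ω ∂μ = 0) (hX0 : ∫ ω, X ω ∂μ = 0) :
    ∫ ω, (X ω + S ω) ^ 2 ∂μ = ∫ ω, X ω ^ 2 ∂μ + ∫ ω, S ω ^ 2 ∂μ ∧
    ∫ ω, (X ω + S ω) ^ 4 ∂μ = ∫ ω, X ω ^ 4 ∂μ + 6 * ((∫ ω, X ω ^ 2 ∂μ) * ∫ ω, S ω ^ 2 ∂μ) + ∫ ω, S ω ^ 4 ∂μ := by
  have hp : ∀ a b : ℕ, IndepFun (fun ω => X ω ^ a) (fun ω => S ω ^ b) μ := fun a b =>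
    hi.comp (measurable_id.pow_const a) (measurable_id.pow_const b)
  have hI : ∀ a b : ℕ, a ≤ 4 → b ≤ 4 → Integrable (fun ω => X ω ^ a * S ω ^ b) μ := fun a b ha hb =>
    (hp a b).integrable_mul (bprob_pow hX ha) (bprob_pow hS hb)
  have hE : ∀ a b : ℕ, ∫ ω, X ω ^ a * S ω ^ b ∂μ = (∫ ω, X ω ^ a ∂μ) * ∫ ω, S ω ^ b ∂μ := fun a b =>
    (hp a b).integral_fun_mul_eq_mul_integral (hX.aestronglyMeasurable.pow a) (hS.aestronglyMeasurable.pow b)
  have key : ∀ n ≤ 4, ∫ ω, (X ω + S ω) ^ n ∂μ = ∑ m ∈ Finset.range (n + 1),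
      (∫ ω, X ω ^ m ∂μ) * (∫ ω, S ω ^ (n - m) ∂μ) * n.choose m := by
    intro n hn
    simp only [add_pow]
    rw [integral_finsetSum _ fun m hm =>
      (hI m (n - m) (by have := Finset.mem_range.1 hm; omega) (by omega)).mul_const _]
    exact Finset.sum_congr rfl fun m _ => by rw [integral_mul_const, hE]
  constructor
  · rw [key 2 (by norm_num)]
    simp [Finset.sum_range_succ, hS0, hX0, add_comm]
  · rw [key 4 le_rfl]
    simp [Finset.sum_range_succ, hS0, hX0, Nat.choose]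
    ring

/-- induction on the index set: `E (S + X)^4 = E S^4 + 6 E S² E X² + 4 E S E X³ + 4 E S³ E X + E X^4` -/
theorem fourth_moment_sum {Ω ι : Type} [MeasurableSpace Ω] (μ : Measure Ω) [IsProbabilityMeasure μ]
    (I : Finset ι) (X : ι → Ω → ℝ) (hm : ∀ i, Measurable (X i)) (hi : iIndepFun X μ)
    (h4 : ∀ i ∈ I, MemLp (X i) 4 μ) (h0 : ∀ i ∈ I, ∫ ω, X i ω ∂μ = 0) {M : ℝ}
    (hM : ∀ i ∈ I, ∫ ω, X i ω ^ 4 ∂μ ≤ M) :
    ∫ ω, (∑ i ∈ I, X i ω) ^ 4 ∂μ ≤ 3 * (I.card : ℝ) ^ 2 * M := by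
  classical
  rcases I.eq_empty_or_nonempty with rfl | ⟨i0, hi0⟩
  · simp
  have hM0 : 0 ≤ M := (integral_nonneg fun ω => by positivity).trans (hM i0 hi0)
  obtain ⟨σ, hσ, rfl⟩ : ∃ σ : ℝ, 0 ≤ σ ∧ M = σ ^ 2 := ⟨√M, Real.sqrt_nonneg _, (Real.sq_sqrt hM0).symm⟩
  clear hi0
  suffices h : ∫ ω, (∑ i ∈ I, X i ω) ^ 2 ∂μ ≤ I.card * σ ∧
      ∫ ω, (∑ i ∈ I, X i ω) ^ 4 ∂μ ≤ 3 * (I.card : ℝ) ^ 2 * σ ^ 2 from h.2
  induction I using Finset.induction_on with
  | empty => simp
  | insert a I ha ih =>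
    have h4' : ∀ i ∈ I, MemLp (X i) 4 μ := fun i hi => h4 i (Finset.mem_insert_of_mem hi)
    have h0' : ∀ i ∈ I, ∫ ω, X i ω ∂μ = 0 := fun i hi => h0 i (Finset.mem_insert_of_mem hi)
    obtain ⟨ih1, ih2⟩ := ih h4' h0' fun i hi => hM i (Finset.mem_insert_of_mem hi)
    have ha4 := h4 a (Finset.mem_insert_self _ _)
    have haM := hM a (Finset.mem_insert_self _ _)
    have hind : IndepFun (X a) (fun ω => ∑ i ∈ I, X i ω) μ := by
      have := (hi.indepFun_finsetSum_of_notMem hm ha).symm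
      convert this using 2
      simp
    have hS0 : ∫ ω, ∑ i ∈ I, X i ω ∂μ = 0 := by
      rw [integral_finsetSum _ fun i hi => (h4' i hi).integrable (by norm_num)]
      exact Finset.sum_eq_zero h0'
    obtain ⟨e1, e2⟩ := bprob_step (memLp_finsetSum _ h4') ha4 hind hS0 (h0 a (Finset.mem_insert_self _ _))
    have hv : ∫ ω, X a ω ^ 2 ∂μ ≤ σ := by
      have h2 : MemLp (fun ω => X a ω ^ 2) 2 μ := by
        refine (memLp_two_iff_integrable_sq ((hm a).pow_const 2).aestronglyMeasurable).2 ?_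
        simpa only [← pow_mul] using bprob_pow ha4 le_rfl
      have h3 := bprob_sq_le h2
      simp only [← pow_mul] at h3
      exact (abs_le_of_sq_le_sq' (h3.trans haM) hσ).2
    have hv0 : 0 ≤ ∫ ω, X a ω ^ 2 ∂μ := integral_nonneg fun ω => by positivity
    have hn : (0 : ℝ) ≤ I.card := Nat.cast_nonneg _
    have h5 := mul_le_mul hv ih1 (integral_nonneg fun ω => by positivity) hσ
    simp only [Finset.sum_insert ha, Finset.card_insert_of_notMem ha, e1, e2]
    push_cast
    constructor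
    · linarith
    · nlinarith [sq_nonneg σ]

open Classical in
/-- union bound over the `m`-subsets: `Σ_{|J| = m} Π P(A i) ≤ a^m/m! ≤ (e a/m)^m` -/
theorem chernoff_count {Ω ι : Type} [MeasurableSpace Ω] (μ : Measure Ω) [IsProbabilityMeasure μ]
    (I : Finset ι) (A : ι → Set Ω) (hm : ∀ i, MeasurableSet (A i)) (hi : iIndepSet A μ) {a : ℝ}
    (ha : ∑ i ∈ I, μ.real (A i) ≤ a) {m : ℕ} (hm0 : 0 < m) :
    μ.real {ω | m ≤ (I.filter fun i => ω ∈ A i).card} ≤ (Real.exp 1 * a / m) ^ m := by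
  have hsub : {ω | m ≤ (I.filter fun i => ω ∈ A i).card} ⊆ ⋃ J ∈ I.powersetCard m, ⋂ i ∈ J, A i := by
    intro ω hω
    obtain ⟨J, hJ, hc⟩ := Finset.exists_subset_card_eq hω
    exact Set.mem_biUnion (Finset.mem_powersetCard.2 ⟨hJ.trans (Finset.filter_subset _ _), hc⟩)
      (Set.mem_iInter₂.2 fun i hi => (Finset.mem_filter.1 (hJ hi)).2)
  refine (measureReal_mono hsub (measure_ne_top _ _)).trans ((measureReal_biUnion_finset_le _ _).trans ?_)
  have e : ∀ J : Finset ι, μ.real (⋂ i ∈ J, A i) = ∏ i ∈ J, μ.real (A i) := fun J => by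
    simp only [measureReal_def]
    rw [(iIndepSet_iff_meas_biInter hm).1 hi J, ENNReal.toReal_prod]
  simp only [e]
  have hp : ∀ i, 0 ≤ μ.real (A i) := fun i => measureReal_nonneg
  have hm' : (0 : ℝ) < m := by exact_mod_cast hm0
  rcases eq_or_lt_of_le ((Finset.sum_nonneg fun i _ => hp i).trans ha) with h0 | h0
  · refine le_trans (le_of_eq (Finset.sum_eq_zero fun J hJ => ?_)) (by subst h0; positivity)
    obtain ⟨h1, h2⟩ := Finset.mem_powersetCard.1 hJ
    obtain ⟨i, hi⟩ := Finset.card_pos.1 (h2 ▸ hm0)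
    refine Finset.prod_eq_zero hi (le_antisymm ?_ (hp i))
    exact (Finset.single_le_sum (fun i _ => hp i) (h1 hi)).trans (ha.trans h0.ge)
  have hc : 0 < (m : ℝ) / a := by positivity
  have h1 : (m / a) ^ m * ∑ J ∈ I.powersetCard m, ∏ i ∈ J, μ.real (A i) ≤ Real.exp 1 ^ m := by
    calc (m / a) ^ m * ∑ J ∈ I.powersetCard m, ∏ i ∈ J, μ.real (A i)
        = ∑ J ∈ I.powersetCard m, ∏ i ∈ J, (m / a * μ.real (A i)) := by
          rw [Finset.mul_sum]
          refine Finset.sum_congr rfl fun J hJ => ?_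
          rw [Finset.prod_mul_distrib, Finset.prod_const, (Finset.mem_powersetCard.1 hJ).2]
      _ ≤ ∑ J ∈ I.powerset, ∏ i ∈ J, (m / a * μ.real (A i)) :=
          Finset.sum_le_sum_of_subset_of_nonneg
            (fun J hJ => Finset.mem_powerset.2 (Finset.mem_powersetCard.1 hJ).1)
            fun J _ _ => Finset.prod_nonneg fun i _ => mul_nonneg hc.le (hp i)
      _ = ∏ i ∈ I, (1 + m / a * μ.real (A i)) := (Finset.prod_one_add _).symm
      _ ≤ ∏ i ∈ I, Real.exp (m / a * μ.real (A i)) :=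
          Finset.prod_le_prod (fun i _ => add_nonneg zero_le_one (mul_nonneg hc.le (hp i))) fun i _ => by
            linarith [Real.add_one_le_exp (m / a * μ.real (A i))]
      _ ≤ Real.exp 1 ^ m := by
          rw [← Real.exp_sum, ← Finset.mul_sum, ← Real.exp_nat_mul, Real.exp_le_exp, mul_one]
          refine (mul_le_mul_of_nonneg_left ha hc.le).trans (le_of_eq ?_)
          field_simp
  rw [mul_comm, ← le_div_iff₀ (by positivity), ← div_pow] at h1
  refine h1.trans (le_of_eq ?_)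
  congr 1
  field_simp

variable (G : Measure ℝ) [IsProbabilityMeasure G]

theorem bprob_meas {Ω : Type} [MeasurableSpace Ω] {u v : Ω → ℝ} (hu : Measurable u) (hv : Measurable v) :
    Measurable fun x => ENNReal.ofReal ((max (u x - v x) 0) ^ 2) :=
  (((hu.sub hv).max measurable_const).pow_const 2).ennreal_ofReal

/-- one variable -/
theorem bprob_one {φ : ℝ → ℝ} (hm : Measurable φ) (h2 : MemLp φ 2 G) :
    ENNReal.ofReal (∫ s, φ s ^ 2 ∂G - (∫ s, φ s ∂G) ^ 2) ≤
      ∫⁻ s, ∫⁻ s', ENNReal.ofReal ((max (φ s' - φ s) 0) ^ 2) ∂G ∂G := by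
  have hv : 0 ≤ ∫ s, φ s ^ 2 ∂G - (∫ s, φ s ∂G) ^ 2 := sub_nonneg.2 (bprob_sq_le h2)
  set v := ∫ s, φ s ^ 2 ∂G - (∫ s, φ s ∂G) ^ 2 with hvd
  have h1 := h2.integrable one_le_two
  have hsq := h2.integrable_sq
  have hc : ∀ c : ℝ, Integrable (fun s => (φ s - c) ^ 2) G := fun c => (h2.sub (memLp_const c)).integrable_sq
  have e1 : ∀ c : ℝ, ∫ s, (φ s - c) ^ 2 ∂G = v + (c - ∫ s, φ s ∂G) ^ 2 := by
    intro c
    simp only [sub_sq]
    have h3 : Integrable (fun s => φ s ^ 2 - 2 * φ s * c) G := hsq.sub ((h1.const_mul 2).mul_const c)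
    rw [integral_add h3 (integrable_const _),
      integral_sub hsq ((h1.const_mul 2).mul_const c), integral_mul_const, integral_const_mul]
    simp only [integral_const, probReal_univ, smul_eq_mul, one_mul, hvd]
    ring
  have m1 : Measurable fun x : ℝ × ℝ => ENNReal.ofReal ((max (φ x.2 - φ x.1) 0) ^ 2) :=
    bprob_meas (hm.comp measurable_snd) (hm.comp measurable_fst)
  have m2 : Measurable fun x : ℝ × ℝ => ENNReal.ofReal ((max (φ x.1 - φ x.2) 0) ^ 2) :=
    bprob_meas (hm.comp measurable_fst) (hm.comp measurable_snd)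
  have e2 : ∫⁻ s, ∫⁻ s', ENNReal.ofReal ((max (φ s' - φ s) 0) ^ 2) ∂G ∂G =
      ∫⁻ s, ∫⁻ s', ENNReal.ofReal ((max (φ s - φ s') 0) ^ 2) ∂G ∂G :=
    lintegral_lintegral_swap (f := fun s s' => ENNReal.ofReal ((max (φ s' - φ s) 0) ^ 2)) m1.aemeasurable
  have e3 : ∫⁻ s, ∫⁻ s', ENNReal.ofReal ((max (φ s' - φ s) 0) ^ 2) ∂G ∂G +
      ∫⁻ s, ∫⁻ s', ENNReal.ofReal ((max (φ s - φ s') 0) ^ 2) ∂G ∂G = ENNReal.ofReal v + ENNReal.ofReal v := by
    rw [← lintegral_add_left m1.lintegral_prod_right']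
    have e4 : ∀ s, ∫⁻ s', ENNReal.ofReal ((max (φ s' - φ s) 0) ^ 2) ∂G +
        ∫⁻ s', ENNReal.ofReal ((max (φ s - φ s') 0) ^ 2) ∂G = ENNReal.ofReal (v + (φ s - ∫ s, φ s ∂G) ^ 2) := by
      intro s
      rw [← lintegral_add_left (bprob_meas hm measurable_const), ← e1,
        ofReal_integral_eq_lintegral_ofReal (hc _) (ae_of_all _ fun _ => sq_nonneg _)]
      refine lintegral_congr fun s' => ?_
      rw [← ENNReal.ofReal_add (sq_nonneg _) (sq_nonneg _)]
      congr 1
      rcases le_total (φ s') (φ s) with h | h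
      · rw [max_eq_right (sub_nonpos.2 h), max_eq_left (sub_nonneg.2 h)]; ring
      · rw [max_eq_left (sub_nonneg.2 h), max_eq_right (sub_nonpos.2 h)]; ring
    simp only [e4]
    have h3 : Integrable (fun s => v + (φ s - ∫ s, φ s ∂G) ^ 2) G := (integrable_const v).add (hc _)
    rw [← ofReal_integral_eq_lintegral_ofReal h3
      (ae_of_all _ fun _ => add_nonneg hv (sq_nonneg _)), integral_add (integrable_const v) (hc _), e1,
      ← ENNReal.ofReal_add hv hv]
    simp
  rw [← e2, ← two_mul, ← two_mul] at e3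
  exact ((ENNReal.mul_right_inj two_ne_zero ENNReal.ofNat_ne_top).1 e3).ge

/-- Jensen -/
theorem bprob_jensen {φ ψ : ℝ → ℝ} (hφ : MemLp φ 2 G) (hψ : MemLp ψ 2 G) :
    ENNReal.ofReal ((max (∫ s, φ s ∂G - ∫ s, ψ s ∂G) 0) ^ 2) ≤
      ∫⁻ s, ENNReal.ofReal ((max (φ s - ψ s) 0) ^ 2) ∂G := by
  have h1 : MemLp (fun s => max (φ s - ψ s) 0) 2 G := (hφ.sub hψ).pos_part
  rw [← ofReal_integral_eq_lintegral_ofReal h1.integrable_sq (ae_of_all _ fun _ => sq_nonneg _)]
  refine ENNReal.ofReal_le_ofReal (le_trans ?_ (bprob_sq_le h1))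
  refine pow_le_pow_left₀ (le_max_right _ _) (max_le ?_ (integral_nonneg fun s => le_max_right _ _)) 2
  rw [← integral_sub (hφ.integrable one_le_two) (hψ.integrable one_le_two)]
  exact integral_mono ((hφ.sub hψ).integrable one_le_two) (h1.integrable one_le_two) fun s => le_max_left _ _

open Classical in
theorem bprob_resample (e : Sym2 V) {W : Env → ℝ≥0∞} (hW : Measurable W) :
    ∫⁻ t, W t ∂iidLaw G = ∫⁻ t, ∫⁻ s, W (Function.update t e s) ∂G ∂iidLaw G := by
  have hΦ := measurePreserving_update G e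
  rw [← hΦ.lintegral_comp hW]
  exact lintegral_prod _ (hW.comp hΦ.measurable).aemeasurable

open Classical in
/-- the terms of the Efron-Stein bound -/
noncomputable def bprobT (e : Sym2 V) (f : Env → ℝ) : ℝ≥0∞ :=
  ∫⁻ t, ∫⁻ s, ENNReal.ofReal ((max (f (Function.update t e s) - f t) 0) ^ 2) ∂G ∂iidLaw G

open Classical in
theorem bprobT_eq (e e' : Sym2 V) {f : Env → ℝ} (hf : Measurable f) : bprobT G e' f =
    ∫⁻ t, ∫⁻ s, ∫⁻ s', ENNReal.ofReal ((max (f (Function.update (Function.update t e s) e' s') -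
      f (Function.update t e s)) 0) ^ 2) ∂G ∂G ∂iidLaw G :=
  bprob_resample G e
    (bprob_meas (hf.comp (measurePreserving_update G e').measurable) (hf.comp measurable_fst)).lintegral_prod_right'

open Classical in
theorem bprob_es (U : Finset (Sym2 V)) : ∀ f : Env → ℝ, Measurable f → MemLp f 2 (iidLaw G) → DependsOnly f U →
    ENNReal.ofReal Var[f; iidLaw G] ≤ ∑ e ∈ U, bprobT G e f := by
  have : IsProbabilityMeasure (iidLaw G) := by unfold iidLaw; infer_instance
  induction U using Finset.induction_on with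
  | empty =>
    intro f _ _ hU
    have e : f = fun _ => f 0 := funext fun t => hU _ _ (by simp)
    rw [e, variance_eq_sub (memLp_const _)]
    simp
  | insert e U he ih =>
    intro f hf h2 hU
    have hΦ := measurePreserving_update G e
    have hF : Measurable fun x : Env × ℝ => f (Function.update x.1 e x.2) := hf.comp hΦ.measurable
    have hF2 : MemLp (fun x : Env × ℝ => f (Function.update x.1 e x.2)) 2 ((iidLaw G).prod G) :=
      h2.comp_measurePreserving hΦ
    have hsm : ∀ t, Measurable fun s => f (Function.update t e s) := fun t => hF.comp measurable_prodMk_left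
    have hsec : ∀ᵐ t ∂iidLaw G, MemLp (fun s => f (Function.update t e s)) 2 G := by
      filter_upwards [hF2.integrable_sq.prod_right_ae] with t ht
      exact (memLp_two_iff_integrable_sq (hsm t).aestronglyMeasurable).2 ht
    set g : Env → ℝ := fun t => ∫ s, f (Function.update t e s) ∂G with hg
    have hgm : Measurable g := hF.stronglyMeasurable.integral_prod_right'.measurable
    have hq : Integrable (fun t => ∫ s, f (Function.update t e s) ^ 2 ∂G) (iidLaw G) :=
      hF2.integrable_sq.integral_prod_left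
    have hle : ∀ᵐ t ∂iidLaw G, g t ^ 2 ≤ ∫ s, f (Function.update t e s) ^ 2 ∂G :=
      hsec.mono fun t ht => bprob_sq_le ht
    have hg2 : MemLp g 2 (iidLaw G) := by
      rw [memLp_two_iff_integrable_sq hgm.aestronglyMeasurable]
      refine hq.mono' (hgm.pow_const 2).aestronglyMeasurable (hle.mono fun t ht => ?_)
      rwa [Real.norm_of_nonneg (sq_nonneg _)]
    have hgU : DependsOnly g U := by
      intro t t' h
      refine integral_congr_ae (ae_of_all _ fun s => hU _ _ fun e' he' => ?_)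
      rcases eq_or_ne e' e with rfl | hne
      · simp
      · rw [Function.update_of_ne hne, Function.update_of_ne hne]
        exact h e' (by simpa [hne] using he')
    have e1 : ∫ t, f t ∂iidLaw G = ∫ t, g t ∂iidLaw G := by
      rw [hg, ← integral_prod _ (hF2.integrable one_le_two), ← hΦ.map_eq,
        integral_map hΦ.measurable.aemeasurable hf.aestronglyMeasurable, hΦ.map_eq]
    have e2 : ∫ t, f t ^ 2 ∂iidLaw G = ∫ t, ∫ s, f (Function.update t e s) ^ 2 ∂G ∂iidLaw G := by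
      rw [← integral_prod _ hF2.integrable_sq, ← hΦ.map_eq,
        integral_map hΦ.measurable.aemeasurable (hf.pow_const 2).aestronglyMeasurable, hΦ.map_eq]
    have e3 : Var[f; iidLaw G] =
        ∫ t, (∫ s, f (Function.update t e s) ^ 2 ∂G - g t ^ 2) ∂iidLaw G + Var[g; iidLaw G] := by
      rw [variance_eq_sub h2, variance_eq_sub hg2, integral_sub hq hg2.integrable_sq]
      simp only [Pi.pow_apply]
      rw [e1, e2]; ring
    rw [Finset.sum_insert he, e3]
    refine ENNReal.ofReal_add_le.trans (add_le_add ?_ ((ih g hgm hg2 hgU).trans (Finset.sum_le_sum fun e' he' => ?_)))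
    · have h3 : Integrable (fun t => ∫ s, f (Function.update t e s) ^ 2 ∂G - g t ^ 2) (iidLaw G) :=
        hq.sub hg2.integrable_sq
      rw [ofReal_integral_eq_lintegral_ofReal h3 (hle.mono fun t ht => sub_nonneg.2 ht), bprobT_eq G e e hf]
      refine lintegral_mono_ae (hsec.mono fun t ht => ?_)
      simpa only [Function.update_idem] using bprob_one G (hsm t) ht
    · have hne : e ≠ e' := fun h => he (h ▸ he')
      have hΦ' := measurePreserving_update G e'
      rw [bprobT_eq G e e' hf]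
      refine lintegral_mono_ae ?_
      filter_upwards [hsec, Measure.ae_ae_of_ae_prod (hΦ'.quasiMeasurePreserving.ae hsec)] with t ht ht'
      rw [lintegral_lintegral_swap]
      · refine lintegral_mono_ae (ht'.mono fun s' hs' => ?_)
        simpa only [Function.update_comm hne] using bprob_jensen G hs' ht
      · exact (bprob_meas (hf.comp (hΦ'.measurable.comp (((hΦ.measurable.comp measurable_prodMk_left).comp
          measurable_fst).prodMk measurable_snd))) ((hsm t).comp measurable_fst)).aemeasurable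

open Classical in
/-- Efron-Stein.  Induction on `U`: with `g t = ∫ f (update t e s) dG s` (reads `U.erase e`),
`Var f = E (f - g)² + Var g`, `E (f - g)² = ½ E E (f(update t e s) - f t)² = E E ((…)⁺)²` by symmetry, and
Jensen gives the terms of `g` are at most those of `f` (use the symmetric form `½ (…)²` in the induction). -/
theorem efron_stein (U : Finset (Sym2 V)) (f : Env → ℝ) (hf : Measurable f) (h2 : MemLp f 2 (iidLaw G))
    (hU : DependsOnly f U) :
    Var[f; iidLaw G] ≤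
      ∑ e ∈ U, ∫ t, ∫ s, (max (f (Function.update t e s) - f t) 0) ^ 2 ∂G ∂iidLaw G := by
  have : IsProbabilityMeasure (iidLaw G) := by unfold iidLaw; infer_instance
  have h := bprob_es G U f hf h2 hU
  have e1 : ∀ e, bprobT G e f =
      ENNReal.ofReal (∫ t, ∫ s, (max (f (Function.update t e s) - f t) 0) ^ 2 ∂G ∂iidLaw G) := by
    intro e
    have hΦ := measurePreserving_update G e
    have h1 : MemLp (fun x : Env × ℝ => max (f (Function.update x.1 e x.2) - f x.1) 0) 2 ((iidLaw G).prod G) :=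
      ((h2.comp_measurePreserving hΦ).sub (h2.comp_measurePreserving measurePreserving_fst)).pos_part
    rw [← integral_prod _ h1.integrable_sq,
      ofReal_integral_eq_lintegral_ofReal h1.integrable_sq (ae_of_all _ fun _ => sq_nonneg _)]
    exact (lintegral_prod _ (bprob_meas (hf.comp hΦ.measurable) (hf.comp measurable_fst)).aemeasurable).symm
  have h0 : ∀ e ∈ U, 0 ≤ ∫ t, ∫ s, (max (f (Function.update t e s) - f t) 0) ^ 2 ∂G ∂iidLaw G :=
    fun e _ => integral_nonneg fun t => integral_nonneg fun s => sq_nonneg _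
  simp only [e1] at h
  rw [← ENNReal.ofReal_sum_of_nonneg h0] at h
  exact (ENNReal.ofReal_le_ofReal_iff (Finset.sum_nonneg h0)).1 h

end Crest.Agent.R151
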