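import Crest.Agent.R151.BNet
import Crest.Agent.R151.BProb

/-! R151 base: moments of the bypass variables and of passage times. -/

set_option autoImplicit false
open MeasureTheory ProbabilityTheory Crest.ProbabilityR.FirstPassage Filter Topology
open scoped ENNReal

namespace Crest.Agent.R151

/-- moments from tails (layer cake) -/
theorem bmom_mom {Ω : Type} [MeasurableSpace Ω] (μ : Measure Ω) {m : ℕ} (hm : 1 ≤ m)
    (h : ℝ → ℝ≥0∞) (hh : ∫⁻ s in Set.Ioi 0, h s * ENNReal.ofReal (s ^ ((m : ℝ) - 1)) < ⊤) :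
    ∃ C > 0, ∀ X : Ω → ℝ, Measurable X → 0 ≤ᵐ[μ] X → (∀ s > 0, μ {ω | s < X ω} ≤ h s) →
      MemLp X m μ ∧ ∫ ω, X ω ^ m ∂μ ≤ C := by
  have hm0 : (0 : ℝ) < m := by exact_mod_cast hm
  set B := ENNReal.ofReal m * ∫⁻ s in Set.Ioi 0, h s * ENNReal.ofReal (s ^ ((m : ℝ) - 1)) with hB
  have hBt : B ≠ ⊤ := ENNReal.mul_ne_top ENNReal.ofReal_ne_top hh.ne
  refine ⟨B.toReal + 1, by positivity, fun X hX h0 ht => ?_⟩
  have h1 : ∫⁻ ω, ENNReal.ofReal (X ω ^ m) ∂μ ≤ B := by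
    have h2 := lintegral_rpow_eq_lintegral_meas_lt_mul μ h0 hX.aemeasurable hm0
    simp only [Real.rpow_natCast] at h2
    rw [h2]
    exact mul_le_mul' le_rfl (setLIntegral_mono' measurableSet_Ioi fun s hs =>
      mul_le_mul' (ht s hs) le_rfl)
  have h3 : 0 ≤ᵐ[μ] fun ω => X ω ^ m := h0.mono fun ω hω => pow_nonneg hω m
  have h4 : Integrable (fun ω => X ω ^ m) μ := ⟨(hX.pow_const m).aestronglyMeasurable,
    (hasFiniteIntegral_iff_ofReal h3).2 (h1.trans_lt hBt.lt_top)⟩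
  constructor
  · rw [← integrable_norm_rpow_iff hX.aestronglyMeasurable (by simpa using hm0.ne') (by simp)]
    refine h4.congr (h0.mono fun ω hω => ?_)
    simp only [ENNReal.toReal_natCast, Real.rpow_natCast, Real.norm_of_nonneg hω]
  · rw [integral_eq_lintegral_of_nonneg_ae h3 h4.aestronglyMeasurable]
    exact (ENNReal.toReal_mono hBt h1).trans (by linarith)

/-- moments from polynomial tails -/
theorem bmom_poly {Ω : Type} [MeasurableSpace Ω] (μ : Measure Ω) [IsProbabilityMeasure μ] {m : ℕ}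
    (hm : 1 ≤ m) {A γ : ℝ} (hγ : m < γ) :
    ∃ C > 0, ∀ X : Ω → ℝ, Measurable X → 0 ≤ᵐ[μ] X →
      (∀ s > 0, μ {ω | s < X ω} ≤ ENNReal.ofReal (A * s ^ (-γ))) →
      MemLp X m μ ∧ ∫ ω, X ω ^ m ∂μ ≤ C := by
  have hm1 : (1 : ℝ) ≤ m := by exact_mod_cast hm
  obtain ⟨C, hC, H⟩ := bmom_mom μ hm (fun s => min 1 (ENNReal.ofReal (A * s ^ (-γ)))) (by
    rw [← Set.Ioc_union_Ioi_eq_Ioi (zero_le_one' ℝ)]
    refine (lintegral_union_le _ _ _).trans_lt (ENNReal.add_lt_top.2 ⟨?_, ?_⟩)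
    · refine lt_of_le_of_lt (setLIntegral_mono' (g := fun _ => 1) measurableSet_Ioc
        fun s hs => ?_) (by simp)
      exact mul_le_one' (min_le_left _ _)
        (ENNReal.ofReal_le_one.2 (Real.rpow_le_one hs.1.le hs.2 (by linarith)))
    · have hi : Integrable (fun s : ℝ => A * s ^ (-γ + (m - 1)))
          (volume.restrict (Set.Ioi (1 : ℝ))) :=
        (integrableOn_Ioi_rpow_of_lt (a := -γ + (m - 1)) (by linarith) one_pos).const_mul A
      refine lt_of_le_of_lt ?_ hi.lintegral_lt_top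
      refine setLIntegral_mono' measurableSet_Ioi fun s hs => ?_
      have hs0 : (0 : ℝ) < s := one_pos.trans (Set.mem_Ioi.1 hs)
      rw [Real.rpow_add hs0, ← mul_assoc,
        ENNReal.ofReal_mul' (p := A * s ^ (-γ)) (Real.rpow_nonneg hs0.le ((m : ℝ) - 1))]
      exact mul_le_mul' (min_le_right _ _) le_rfl)
  exact ⟨C, hC, fun X hX h0 ht => H X hX h0 fun s hs => le_min prob_le_one (ht s hs)⟩

variable (G : Measure ℝ) [IsProbabilityMeasure G]

theorem bmom_sum_tail (I : Finset ℤ) (e : ℤ → Sym2 V) {L : ℝ} (hL : 0 < L) (hI : (I.card : ℝ) ≤ L)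
    {s : ℝ} (hs : 0 < s) :
    iidLaw G {t | s < ∑ k ∈ I, t (e k)} ≤ ENNReal.ofReal L * G (Set.Ioi (s / L)) := by
  have h1 : {t : Env | s < ∑ k ∈ I, t (e k)} ⊆
      ⋃ k ∈ I, (fun t : Env => t (e k)) ⁻¹' Set.Ioi (s / L) := by
    intro t ht
    by_contra hc
    simp only [Set.mem_iUnion, Set.mem_preimage, Set.mem_Ioi, not_exists, not_lt] at hc
    have h2 := Finset.sum_le_card_nsmul I (fun k => t (e k)) (s / L) hc
    rw [nsmul_eq_mul] at h2
    have h3 : (I.card : ℝ) * (s / L) ≤ L * (s / L) := by gcongr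
    rw [mul_div_cancel₀ _ hL.ne'] at h3
    exact absurd ht (not_lt.2 (h2.trans h3))
  refine (measure_mono h1).trans ((measure_biUnion_finset_le _ _).trans ?_)
  simp only [(measurePreserving_eval G _).measure_preimage measurableSet_Ioi.nullMeasurableSet,
    Finset.sum_const, nsmul_eq_mul]
  gcongr
  rw [← ENNReal.ofReal_natCast]
  exact ENNReal.ofReal_le_ofReal hI

theorem bmom_min_tail {ι : Type} (J : Finset ι) (I : ι → Finset ℤ) (e : ι → ℤ → Sym2 V)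
    (hd : ∀ i j, i ≠ j → ∀ k ∈ I i, ∀ l ∈ I j, e i k ≠ e j l) {L : ℝ} (hL : 0 < L)
    (hI : ∀ i, ((I i).card : ℝ) ≤ L) {s : ℝ} (hs : 0 < s) :
    iidLaw G {t | ∀ i ∈ J, s < ∑ k ∈ I i, t (e i k)} ≤
      (ENNReal.ofReal L * G (Set.Ioi (s / L))) ^ J.card := by
  have hi := iIndepFun_of_dependsOnly G (α := fun _ : ι => ℝ)
    (f := fun i t => ∑ k ∈ I i, t (e i k)) (U := fun i => {a | ∃ k ∈ I i, a = e i k})
    (fun i => Finset.measurable_sum _ fun k _ => measurable_pi_apply _)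
    (fun i t t' h => Finset.sum_congr rfl fun k hk => h _ ⟨k, hk, rfl⟩)
    (fun i j hij => Set.disjoint_left.2 (by
      rintro _ ⟨k, hk, rfl⟩ ⟨l, hl, h⟩
      exact hd i j hij k hk l hl h))
  have h1 : {t : Env | ∀ i ∈ J, s < ∑ k ∈ I i, t (e i k)} =
      ⋂ i ∈ J, {t : Env | s < ∑ k ∈ I i, t (e i k)} := by
    ext t
    simp only [Set.mem_iInter, Set.mem_ofPred_eq]
  rw [h1, hi.meas_biInter (S := J) (s := fun i => {t : Env | s < ∑ k ∈ I i, t (e i k)})
    fun i _ => ⟨Set.Ioi s, measurableSet_Ioi, rfl⟩]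
  exact Finset.prod_le_pow_card _ _ _ fun i _ => bmom_sum_tail G _ _ hL (hI i) hs

theorem bmom_four (s : ℝ) :
    G (Set.Ioi s) ^ 4 = Measure.pi (fun _ : Fin 4 => G) {x | s < ⨅ i, x i} := by
  have h : {x : Fin 4 → ℝ | s < ⨅ i, x i} = Set.pi Set.univ fun _ => Set.Ioi s := by
    ext x
    simp only [Set.mem_ofPred_eq, Set.mem_pi, Set.mem_univ, Set.mem_Ioi, true_imp_iff]
    obtain ⟨j, hj⟩ := exists_eq_ciInf_of_finite (f := x)
    exact ⟨fun h i => h.trans_le (ciInf_le (Set.finite_range x).bddBelow i), fun h => hj ▸ h j⟩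
  rw [h, Measure.pi_pi]
  simp

theorem bmom_minf : Measurable fun x : Fin 4 → ℝ => ⨅ i, x i :=
  Measurable.iInf fun i => measurable_pi_apply i

/-- `G(s,∞)^4 = P(min of four > s) ≤ E min² / s²` -/
theorem tail_G (hG : Hyp G) : ∃ C > 0, ∀ s > 0, G.real (Set.Ioi s) ≤ C * s ^ (-(1 / 2 : ℝ)) := by
  set M := (∫⁻ x, ENNReal.ofReal ((⨅ i, x i) ^ 2) ∂(Measure.pi fun _ : Fin 4 => G)).toReal with hM
  have hM0 : 0 ≤ M := ENNReal.toReal_nonneg
  refine ⟨M + 1, by positivity, fun s hs => ?_⟩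
  have h1 : ENNReal.ofReal (s ^ 2) * G (Set.Ioi s) ^ 4 ≤
      ∫⁻ x, ENNReal.ofReal ((⨅ i, x i) ^ 2) ∂(Measure.pi fun _ : Fin 4 => G) := by
    rw [bmom_four]
    refine le_trans (mul_le_mul' le_rfl (measure_mono fun x hx => ?_))
      (mul_meas_ge_le_lintegral (bmom_minf.pow_const 2).ennreal_ofReal _)
    exact ENNReal.ofReal_le_ofReal (pow_le_pow_left₀ hs.le (le_of_lt hx) 2)
  have h2 := ENNReal.toReal_mono hG.mom.ne h1
  rw [ENNReal.toReal_mul, ENNReal.toReal_pow, ENNReal.toReal_ofReal (by positivity), ← hM] at h2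
  have h3 : (s ^ (-(1 / 2 : ℝ))) ^ 4 = (s ^ 2)⁻¹ := by
    rw [← Real.rpow_natCast, ← Real.rpow_mul hs.le, ← Real.rpow_natCast s 2, ← Real.rpow_neg hs.le]
    norm_num
  refine le_of_pow_le_pow_left₀ (n := 4) (by norm_num) (by positivity) ?_
  rw [mul_pow, h3, ← div_eq_mul_inv, le_div_iff₀ (by positivity), mul_comm]
  refine h2.trans ?_
  nlinarith [pow_nonneg hM0 2, pow_nonneg hM0 3, pow_nonneg hM0 4]
theorem bmom_pow_tail (hG : Hyp G) {L : ℝ} (hL : 0 < L) (n : ℕ) : ∃ A > 0, ∀ s > 0,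
    (ENNReal.ofReal L * G (Set.Ioi (s / L))) ^ n ≤ ENNReal.ofReal (A * s ^ (-(n / 2 : ℝ))) := by
  obtain ⟨C, hC, H⟩ := tail_G G hG
  refine ⟨(L * C * L ^ (1 / 2 : ℝ)) ^ n, by positivity, fun s hs => ?_⟩
  have h1 : G (Set.Ioi (s / L)) ≤ ENNReal.ofReal (C * (s / L) ^ (-(1 / 2 : ℝ))) := by
    rw [← ofReal_measureReal]
    exact ENNReal.ofReal_le_ofReal (H _ (by positivity))
  have h2 : s ^ (-(n / 2 : ℝ)) = (s ^ (-(1 / 2 : ℝ))) ^ n := by
    rw [← Real.rpow_natCast, ← Real.rpow_mul hs.le]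
    congr 1
    ring
  rw [h2, ← mul_pow, ENNReal.ofReal_pow (by positivity)]
  refine pow_le_pow_left' ((mul_le_mul' le_rfl h1).trans_eq ?_) n
  rw [← ENNReal.ofReal_mul hL.le, Real.div_rpow hs.le hL.le, Real.rpow_neg hL.le, div_inv_eq_mul]
  congr 1
  ring

theorem bmom_inf_tail {K : ℕ} (hK : 1 ≤ K) (I : Finset ℤ) (hI : (I.card : ℝ) ≤ 6 * K)
    (e : Fin K → ℤ → Sym2 V) (hd : ∀ i j, i ≠ j → ∀ k l, e i k ≠ e j l) {s : ℝ} (hs : 0 < s) :
    iidLaw G {t | s < ⨅ j : Fin K, ∑ k ∈ I, t (e j k)} ≤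
      (ENNReal.ofReal (6 * K) * G (Set.Ioi (s / (6 * K)))) ^ K := by
  have hK0 : (0 : ℝ) < K := by exact_mod_cast hK
  have h := bmom_min_tail G Finset.univ (fun _ : Fin K => I) e
    (fun i j hij k _ l _ => hd i j hij k l) (L := 6 * K) (by positivity) (fun _ => hI) hs
  rw [Finset.card_univ, Fintype.card_fin] at h
  refine le_trans (measure_mono ?_) h
  intro t ht i _
  exact lt_of_lt_of_le ht (ciInf_le (Set.finite_range _).bddBelow i)

theorem bmom_tail_Yv (hG : Hyp G) {K : ℕ} (hK : 1 ≤ K) : ∃ C > 0, ∀ (x : V) (s : ℝ), 0 < s →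
    iidLaw G {t | s < Yv K t x} ≤ ENNReal.ofReal (C * s ^ (-(K / 2 : ℝ))) := by
  have hK0 : (0 : ℝ) < K := by exact_mod_cast hK
  obtain ⟨A, hA, H⟩ := bmom_pow_tail G hG (L := 6 * K) (by positivity) K
  refine ⟨4 * (A * 4 ^ (K / 2 : ℝ)), by positivity, fun x s hs => ?_⟩
  have hc : ∀ a : ℤ, ((Finset.Ico (a - 3 * K) (a + 3 * K)).card : ℝ) ≤ 6 * K := fun a => by
    rw [Int.card_Ico, show a + 3 * K - (a - 3 * K) = ((6 * K : ℕ) : ℤ) by push_cast; ring,
      Int.toNat_natCast]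
    push_cast
    rfl
  have hs4 : 0 < s / 4 := by positivity
  have h1 := (bmom_inf_tail G hK _ (hc x.1)
    (fun j k => s((k, x.2 + (j + 1)), (k + 1, x.2 + (j + 1)))) (fun i j hij k l h => by
      have : (i : ℕ) ≠ j := fun h => hij (Fin.ext h)
      simp only [Sym2.eq_iff, Prod.mk.injEq] at h
      omega) hs4).trans (H _ hs4)
  have h2 := (bmom_inf_tail G hK _ (hc x.1)
    (fun j k => s((k, x.2 - (j + 1)), (k + 1, x.2 - (j + 1)))) (fun i j hij k l h => by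
      have : (i : ℕ) ≠ j := fun h => hij (Fin.ext h)
      simp only [Sym2.eq_iff, Prod.mk.injEq] at h
      omega) hs4).trans (H _ hs4)
  have h3 := (bmom_inf_tail G hK _ (hc x.2)
    (fun j k => s((x.1 + (j + 1), k), (x.1 + (j + 1), k + 1))) (fun i j hij k l h => by
      have : (i : ℕ) ≠ j := fun h => hij (Fin.ext h)
      simp only [Sym2.eq_iff, Prod.mk.injEq] at h
      omega) hs4).trans (H _ hs4)
  have h4 := (bmom_inf_tail G hK _ (hc x.2)
    (fun j k => s((x.1 - (j + 1), k), (x.1 - (j + 1), k + 1))) (fun i j hij k l h => by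
      have : (i : ℕ) ≠ j := fun h => hij (Fin.ext h)
      simp only [Sym2.eq_iff, Prod.mk.injEq] at h
      omega) hs4).trans (H _ hs4)
  have e : 4 * (A * 4 ^ (K / 2 : ℝ)) * s ^ (-(K / 2 : ℝ)) =
      A * (s / 4) ^ (-(K / 2 : ℝ)) + A * (s / 4) ^ (-(K / 2 : ℝ)) +
        A * (s / 4) ^ (-(K / 2 : ℝ)) + A * (s / 4) ^ (-(K / 2 : ℝ)) := by
    rw [Real.div_rpow hs.le (by norm_num), Real.rpow_neg (by norm_num : (0 : ℝ) ≤ 4),
      div_inv_eq_mul]
    ring
  rw [e, ENNReal.ofReal_add (by positivity) (by positivity),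
    ENNReal.ofReal_add (by positivity) (by positivity),
    ENNReal.ofReal_add (by positivity) (by positivity)]
  refine le_trans ?_ (add_le_add (add_le_add (add_le_add h1 h2) h3) h4)
  refine le_trans ?_ (add_le_add (add_le_add (measure_union_le _ _) le_rfl) le_rfl)
  refine le_trans ?_ (add_le_add (measure_union_le _ _) le_rfl)
  refine le_trans (measure_mono fun t ht => ?_) (measure_union_le _ _)
  by_contra hc
  simp only [Set.mem_union, Set.mem_ofPred_eq, not_or, not_lt] at hc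
  obtain ⟨⟨⟨c1, c2⟩, c3⟩, c4⟩ := hc
  have ht' : s < Yv K t x := ht
  unfold Yv hseg vseg at ht'
  linarith

/-- each of the four terms is a minimum of `K` independent sums of `6K` weights -/
theorem tail_Yv (hG : Hyp G) {K : ℕ} (hK : 1 ≤ K) : ∃ C > 0, ∀ (x : V) (s : ℝ), 0 < s →
    (iidLaw G).real {t | s < Yv K t x} ≤ C * s ^ (-(K / 2 : ℝ)) := by
  obtain ⟨C, hC, H⟩ := bmom_tail_Yv G hG hK
  exact ⟨C, hC, fun x s hs => ENNReal.toReal_le_of_le_ofReal (by positivity) (H x s hs)⟩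
theorem memLp_Yv (hG : Hyp G) {K m : ℕ} (hK : 2 * m < K) : ∃ C > 0, ∀ x : V,
    MemLp (fun t => Yv K t x) m (iidLaw G) ∧ ∫ t, Yv K t x ^ m ∂iidLaw G ≤ C := by
  rcases Nat.eq_zero_or_pos m with rfl | hm
  · refine ⟨1, one_pos, fun x => ⟨?_, by simp⟩⟩
    rw [Nat.cast_zero, memLp_zero_iff_aestronglyMeasurable]
    exact (measurable_Yv K x).aestronglyMeasurable
  · obtain ⟨A, -, H⟩ := bmom_tail_Yv G hG (K := K) (by omega)
    have h2 : (2 * m : ℝ) < K := by exact_mod_cast hK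
    obtain ⟨C, hC, H'⟩ := bmom_poly (iidLaw G) hm (A := A) (γ := K / 2) (by linarith)
    exact ⟨C, hC, fun x => H' _ (measurable_Yv K x)
      ((ae_nonneg G hG.nonneg).mono fun t ht => Yv_nonneg ht x) (H x)⟩
/-- the four straight segments of length `K` at `x`: right, left, up, down -/
noncomputable def bmom_seg (K : ℕ) (x : V) (t : Env) : Fin 4 → ℝ :=
  ![hseg t x.1 (x.1 + K) x.2, hseg t (x.1 - K) x.1 x.2, vseg t x.1 x.2 (x.2 + K),
    vseg t x.1 (x.2 - K) x.2]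

theorem bmom_seg_tail (K : ℕ) (x : V) (J : Finset (Fin 4)) {s : ℝ} (hs : 0 < s) :
    iidLaw G {t | ∀ i ∈ J, s < bmom_seg K x t i} ≤
      (ENNReal.ofReal (K + 1) * G (Set.Ioi (s / (K + 1)))) ^ J.card := by
  have h := bmom_min_tail G J
    ![Finset.Ico x.1 (x.1 + K), Finset.Ico (x.1 - K) x.1, Finset.Ico x.2 (x.2 + K),
      Finset.Ico (x.2 - K) x.2]
    ![fun k => s((k, x.2), (k + 1, x.2)), fun k => s((k, x.2), (k + 1, x.2)),
      fun k => s((x.1, k), (x.1, k + 1)), fun k => s((x.1, k), (x.1, k + 1))]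
    (fun i j hij k hk l hl h => by
      fin_cases i <;> fin_cases j <;> simp at hij hk hl h <;> omega)
    (L := K + 1) (by positivity) (fun i => by fin_cases i <;> simp) hs
  refine le_trans (measure_mono ?_) h
  intro t ht i hi
  have := ht i hi
  fin_cases i <;> exact this

/-- `P(Z > s) ≤ (K G(s/K,∞))^4 = K^4 P(min of four > s/K)` and the layer-cake formula -/
theorem memLp_Zv (hG : Hyp G) (K : ℕ) : ∃ C > 0, ∀ x : V,
    MemLp (fun t => Zv K t x) 2 (iidLaw G) ∧ ∫ t, Zv K t x ^ 2 ∂iidLaw G ≤ C := by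
  have hL : (0 : ℝ) < K + 1 := by positivity
  have hm : Measurable fun x : Fin 4 → ℝ => |((K : ℝ) + 1) * ⨅ i, x i| :=
    (bmom_minf.const_mul _).abs
  obtain ⟨C, hC, H⟩ := bmom_mom (iidLaw G) (m := 2) (by norm_num)
    (fun s => ENNReal.ofReal (K + 1) ^ 4 *
      Measure.pi (fun _ : Fin 4 => G) {x | s < |((K : ℝ) + 1) * ⨅ i, x i|}) (by
      have h1 := lintegral_rpow_eq_lintegral_meas_lt_mul (Measure.pi fun _ : Fin 4 => G)
        (ae_of_all _ fun x => abs_nonneg _) hm.aemeasurable (p := (2 : ℕ)) (by norm_num)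
      have h2 : ∫⁻ x, ENNReal.ofReal (|((K : ℝ) + 1) * ⨅ i, x i| ^ ((2 : ℕ) : ℝ))
          ∂(Measure.pi fun _ : Fin 4 => G) < ⊤ := by
        simp only [Real.rpow_natCast, sq_abs, mul_pow,
          ENNReal.ofReal_mul (sq_nonneg ((K : ℝ) + 1))]
        rw [lintegral_const_mul' _ _ ENNReal.ofReal_ne_top]
        exact ENNReal.mul_lt_top ENNReal.ofReal_lt_top hG.mom
      rw [h1] at h2
      simp only [mul_assoc]
      rw [lintegral_const_mul' _ _ (ENNReal.pow_ne_top ENNReal.ofReal_ne_top)]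
      exact ENNReal.mul_lt_top (ENNReal.pow_lt_top ENNReal.ofReal_lt_top)
        (ENNReal.lt_top_of_mul_ne_top_right h2.ne (by simp)))
  refine ⟨C, hC, fun x => H _ (measurable_Zv K x)
    ((ae_nonneg G hG.nonneg).mono fun t ht => Zv_nonneg ht x) fun s hs => ?_⟩
  have h := bmom_seg_tail G K x Finset.univ hs
  rw [Finset.card_univ, Fintype.card_fin, mul_pow, bmom_four] at h
  refine le_trans (measure_mono ?_)
    (h.trans (mul_le_mul' le_rfl (measure_mono fun z hz => ?_)))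
  · intro t ht i _
    have ht' : s < Zv K t x := ht
    simp only [Zv, lt_min_iff] at ht'
    fin_cases i
    exacts [ht'.1.1, ht'.1.2, ht'.2.1, ht'.2.2]
  · have hz' : s / (K + 1) < ⨅ i, z i := hz
    rw [div_lt_iff₀' hL] at hz'
    exact hz'.trans_le (le_abs_self _)
/-- `TS_le_ZY` along a staircase -/
theorem memLp_TS (hG : Hyp G) : ∃ C > 0, ∃ K : ℕ, ∀ (S : Set V) (w : ℤ → V) (n : ℤ),
    PathIn Set.univ w 0 n → (∀ k, 0 ≤ k → k ≤ n → ball (w k) K ⊆ S) →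
      Conn S (w 0) (w n) ∧ MemLp (fun t => TS t S (w 0) (w n)) 2 (iidLaw G) ∧
        ∫ t, TS t S (w 0) (w n) ^ 2 ∂iidLaw G ≤ C * (1 + n) ^ 2 := by
  obtain ⟨CY, hCY, HY⟩ := memLp_Yv G hG (K := 5) (m := 2) (by norm_num)
  obtain ⟨CZ, hCZ, HZ⟩ := memLp_Zv G hG 5
  rw [Nat.cast_ofNat] at HY
  refine ⟨6 * CZ + 12 * CY, by positivity, 15, fun S w n hw hS => ?_⟩
  have hS' : ∀ k, 0 ≤ k → k ≤ n → ball (w k) (3 * (5 : ℕ)) ⊆ S := hS
  have hn : 0 ≤ n := hw.1
  have hn' : (0 : ℝ) ≤ n := by exact_mod_cast hn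
  have hc : ((Finset.Icc 0 n).card : ℝ) = 1 + n := by
    rw [Int.card_Icc, sub_zero, ← Int.cast_natCast, Int.toNat_of_nonneg (by omega)]
    push_cast
    ring
  have hg : MemLp (fun t => Zv 5 t (w 0) + Zv 5 t (w n) +
      2 * ∑ k ∈ Finset.Icc 0 n, Yv 5 t (w k)) 2 (iidLaw G) :=
    ((HZ _).1.add (HZ _).1).add ((memLp_finsetSum _ fun k _ => (HY (w k)).1).const_mul 2)
  have hle : ∀ᵐ t ∂iidLaw G, 0 ≤ TS t S (w 0) (w n) ∧ TS t S (w 0) (w n) ≤
      Zv 5 t (w 0) + Zv 5 t (w n) + 2 * ∑ k ∈ Finset.Icc 0 n, Yv 5 t (w k) :=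
    (ae_nonneg G hG.nonneg).mono fun t ht => ⟨TS_nonneg ht, (TS_le_ZY (by norm_num) ht hw hS').2⟩
  refine ⟨(TS_le_ZY (t := fun _ => 0) (by norm_num) (fun _ => le_rfl) hw hS').1,
    hg.mono' (measurable_TS _ _ _).aestronglyMeasurable
      (hle.mono fun t ht => by rw [Real.norm_of_nonneg ht.1]; exact ht.2), ?_⟩
  have i1 := ((HZ (w 0)).1.integrable_sq).const_mul 3
  have i2 := ((HZ (w n)).1.integrable_sq).const_mul 3
  have i0 : ∀ k ∈ Finset.Icc 0 n, Integrable (fun t => Yv 5 t (w k) ^ 2) (iidLaw G) :=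
    fun k _ => (HY (w k)).1.integrable_sq
  have i3 := (integrable_finsetSum _ i0).const_mul (12 * (1 + n : ℝ))
  have i12 : Integrable (fun t => 3 * Zv 5 t (w 0) ^ 2 + 3 * Zv 5 t (w n) ^ 2) (iidLaw G) :=
    i1.add i2
  calc ∫ t, TS t S (w 0) (w n) ^ 2 ∂iidLaw G
      ≤ ∫ t, (3 * Zv 5 t (w 0) ^ 2 + 3 * Zv 5 t (w n) ^ 2 +
          12 * (1 + n : ℝ) * ∑ k ∈ Finset.Icc 0 n, Yv 5 t (w k) ^ 2) ∂iidLaw G := by
        refine integral_mono_of_nonneg (ae_of_all _ fun t => sq_nonneg _) (i12.add i3)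
          (hle.mono fun t ht => ?_)
        have h1 := sq_sum_le_card_mul_sum_sq (s := Finset.Icc 0 n) (f := fun k => Yv 5 t (w k))
        rw [hc] at h1
        have h2 := pow_le_pow_left₀ ht.1 ht.2 2
        dsimp only
        nlinarith [sq_nonneg (Zv 5 t (w 0) - Zv 5 t (w n)),
          sq_nonneg (Zv 5 t (w 0) - 2 * ∑ k ∈ Finset.Icc 0 n, Yv 5 t (w k)),
          sq_nonneg (Zv 5 t (w n) - 2 * ∑ k ∈ Finset.Icc 0 n, Yv 5 t (w k))]
    _ ≤ 3 * CZ + 3 * CZ + 12 * (1 + n : ℝ) * ((1 + n : ℝ) * CY) := by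
        rw [integral_add i12 i3, integral_add i1 i2, integral_const_mul, integral_const_mul,
          integral_const_mul, integral_finsetSum _ i0]
        have h1 := Finset.sum_le_card_nsmul (Finset.Icc 0 n)
          (fun k => ∫ t, Yv 5 t (w k) ^ 2 ∂iidLaw G) CY fun k _ => (HY (w k)).2
        rw [nsmul_eq_mul, hc] at h1
        gcongr
        exacts [(HZ _).2, (HZ _).2]
    _ ≤ _ := by nlinarith [mul_nonneg hCZ.le hn', mul_nonneg hCZ.le (sq_nonneg (n : ℝ))]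
theorem bmom_l1 (z : V) : |z.1| + |z.2| ≤ 2 * nrm z := by
  have h1 : |z.1| ≤ nrm z := le_max_left _ _
  have h2 : |z.2| ≤ nrm z := le_max_right _ _
  omega
theorem memLp_T (hG : Hyp G) : ∃ C > 0, ∀ x y : V, MemLp (fun t => T t x y) 2 (iidLaw G) ∧
    ∫ t, T t x y ^ 2 ∂iidLaw G ≤ C * (1 + nrm (y - x)) ^ 2 := by
  obtain ⟨C, hC, K, H⟩ := memLp_TS G hG
  refine ⟨4 * C, by positivity, fun x y => ?_⟩
  obtain ⟨w, n, hw, -, rfl, rfl, hn, -⟩ := exists_staircase x y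
  obtain ⟨-, h1, h2⟩ := H Set.univ w n hw fun _ _ _ => Set.subset_univ _
  refine ⟨h1, h2.trans ?_⟩
  have h3 : n ≤ 2 * nrm (w n - w 0) := hn.trans_le (bmom_l1 (w n - w 0))
  have h4 : (n : ℝ) ≤ 2 * nrm (w n - w 0) := by exact_mod_cast h3
  have h5 : (0 : ℝ) ≤ n := by exact_mod_cast hw.1
  have h6 : (1 + n : ℝ) ^ 2 ≤ (2 * (1 + nrm (w n - w 0))) ^ 2 :=
    pow_le_pow_left₀ (by positivity) (by linarith) 2
  nlinarith
theorem integrable_T (hG : Hyp G) (x y : V) : Integrable (fun t => T t x y) (iidLaw G) := by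
  obtain ⟨C, -, H⟩ := memLp_T G hG
  exact (H x y).1.integrable (by norm_num)
/-- cheapest of the right, left and `i`-th segments -/
noncomputable def bmom_W (x : V) (i : Fin 4) (t : Env) : ℝ :=
  min (min (bmom_seg 12 x t 0) (bmom_seg 12 x t 1)) (bmom_seg 12 x t i)

theorem bmom_seg_meas (K : ℕ) (x : V) (i : Fin 4) : Measurable fun t => bmom_seg K x t i := by
  fin_cases i
  exacts [measurable_hseg _ _ _, measurable_hseg _ _ _, measurable_vseg _ _ _,
    measurable_vseg _ _ _]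

theorem bmom_W_nonneg {t : Env} (ht : ∀ e, 0 ≤ t e) (x : V) (i : Fin 4) : 0 ≤ bmom_W x i t := by
  have h : ∀ j, 0 ≤ bmom_seg 12 x t j := fun j => by
    have h1 : ∀ a b c, 0 ≤ hseg t a b c := fun _ _ _ => Finset.sum_nonneg fun _ _ => ht _
    have h2 : ∀ a b c, 0 ≤ vseg t a b c := fun _ _ _ => Finset.sum_nonneg fun _ _ => ht _
    fin_cases j
    exacts [h1 _ _ _, h1 _ _ _, h2 _ _ _, h2 _ _ _]
  exact le_min (le_min (h _) (h _)) (h _)

theorem bmom_W_int (hG : Hyp G) : ∃ C > 0, ∀ (x : V) (i : Fin 4), 2 ≤ i →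
    Integrable (bmom_W x i) (iidLaw G) ∧ ∫ t, bmom_W x i t ∂iidLaw G ≤ C := by
  obtain ⟨A, -, H⟩ := bmom_pow_tail G hG (L := ((12 : ℕ) : ℝ) + 1) (by positivity) 3
  obtain ⟨C, hC, H'⟩ := bmom_poly (iidLaw G) (m := 1) le_rfl (A := A) (γ := (3 : ℕ) / 2)
    (by norm_num)
  refine ⟨C, hC, fun x i hi => ?_⟩
  have h := H' (bmom_W x i) (((bmom_seg_meas _ _ _).min (bmom_seg_meas _ _ _)).min
    (bmom_seg_meas _ _ _)) ((ae_nonneg G hG.nonneg).mono fun t ht => bmom_W_nonneg ht x i)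
    fun s hs => by
      have h1 := bmom_seg_tail G 12 x {0, 1, i} hs
      have h2 : ({0, 1, i} : Finset (Fin 4)).card = 3 := by
        fin_cases i <;> first | rfl | exact absurd hi (by decide)
      rw [h2] at h1
      refine le_trans (measure_mono ?_) (h1.trans (H s hs))
      intro t ht j hj
      have ht' : s < bmom_W x i t := ht
      simp only [bmom_W, lt_min_iff] at ht'
      simp only [Finset.mem_insert, Finset.mem_singleton] at hj
      rcases hj with rfl | rfl | rfl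
      exacts [ht'.1.1, ht'.1.2, ht'.2]
  simp only [Nat.cast_one, pow_one, memLp_one_iff_integrable] at h
  exact h

theorem bmom_reach {t : Env} (ht : ∀ e, 0 ≤ t e) {a b : ℤ} {x : V} (hx : x ∈ rows a b) {c : ℤ}
    (hc1 : a + 9 ≤ c) (hc2 : c ≤ b - 9) (hc : |x.2 - c| ≤ 9) {N : Set V}
    (hN : IsHash 3 t (x.1, c) N) :
    ∃ z ∈ N, z ∈ rows a b ∧ TS t (rows a b) x z ≤ bmom_W x 2 t + bmom_W x 3 t := by
  obtain ⟨x1, x2⟩ := x
  obtain ⟨-, -, j1, j2, j3, j4, a1, b1, a2, b2, a3, b3, a4, b4, H⟩ := hN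
  have hx1 : a ≤ x2 := hx.1
  have hx2 : x2 ≤ b := hx.2
  simp only [Nat.cast_ofNat] at b1 b2 b3 b4 H hc
  have H0 := H 0 (by norm_num)
  have H1 := H (x2 - c) (by simpa using hc)
  simp only [add_zero, add_sub_cancel] at H0 H1
  rw [abs_le] at hc
  let P : ℝ → Prop := fun r => ∃ z ∈ N, z ∈ rows a b ∧ TS t (rows a b) (x1, x2) z ≤ r
  have hmin : ∀ r r', P r → P r' → P (min r r') := fun r r' h h' => min_rec' P h h'
  have hadd : ∀ r r', P r → r ≤ r' → P r' := fun r r' ⟨z, h1, h2, h3⟩ h => ⟨z, h1, h2, h3.trans h⟩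
  have hsub : ∀ {u v u' v' : ℤ} (e : ℤ → Sym2 V), u' ≤ u → v ≤ v' →
      ∑ k ∈ Finset.Ico u v, t (e k) ≤ ∑ k ∈ Finset.Ico u' v', t (e k) := fun e h1 h2 =>
    Finset.sum_le_sum_of_subset_of_nonneg (Finset.Ico_subset_Ico h1 h2) fun _ _ _ => ht _
  have hr : ∀ u v : ℤ, a ≤ v → v ≤ b → (u, v) ∈ rows a b := fun _ _ h1 h2 => ⟨h1, h2⟩
  have p0 : P (bmom_seg 12 (x1, x2) t 0) := ⟨(x1 + j3, x2), H1.2.2.1, ⟨hx1, hx2⟩,
    (TS_le_hseg ht (by omega) fun k _ _ => hr _ _ hx1 hx2).trans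
      (hsub _ le_rfl (by push_cast; omega))⟩
  have p1 : P (bmom_seg 12 (x1, x2) t 1) := ⟨(x1 - j4, x2), H1.2.2.2, ⟨hx1, hx2⟩,
    TS_comm.trans_le ((TS_le_hseg ht (by omega) fun k _ _ => hr _ _ hx1 hx2).trans
      (hsub _ (by push_cast; omega) le_rfl))⟩
  rcases le_total x2 c with h | h
  · have p2 : P (bmom_seg 12 (x1, x2) t 2) := ⟨(x1, c + j1), H0.1,
      hr _ _ (by omega) (by omega),
      (TS_le_vseg ht (by omega) fun k _ _ => hr _ _ (by omega) (by omega)).trans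
        (hsub _ le_rfl (by push_cast; omega))⟩
    exact hadd _ _ (hmin _ _ (hmin _ _ p0 p1) p2) (le_add_of_nonneg_right (bmom_W_nonneg ht _ _))
  · have p3 : P (bmom_seg 12 (x1, x2) t 3) := ⟨(x1, c - j2), H0.2.1,
      hr _ _ (by omega) (by omega),
      TS_comm.trans_le ((TS_le_vseg ht (by omega)
        fun k _ _ => hr _ _ (by omega) (by omega)).trans
        (hsub _ (by push_cast; omega) le_rfl))⟩
    exact hadd _ _ (hmin _ _ (hmin _ _ p0 p1) p3) (le_add_of_nonneg_left (bmom_W_nonneg ht _ _))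

/-- Points of a strip of height `≥ N0`.  From a point `x` within `3K` of the bottom row, three edge-disjoint
paths of length `≤ 8K` inside the strip (left-then-up..., straight up, right-then-up) reach the `#` of the
point `x'` at height `a + 3K` in the column of `x` (for `x` in the bottom row only three edges are available);
the minimum of three independent sums has tail `C s^{-3/2}` (`tail_G`), so it is integrable. -/
theorem integrable_TS_rows (hG : Hyp G) : ∃ C > 0, ∃ N0 : ℤ, ∀ a b : ℤ, N0 ≤ b - a → ∀ x ∈ rows a b,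
    ∀ y ∈ rows a b, Integrable (fun t => TS t (rows a b) x y) (iidLaw G) ∧
      ∫ t, TS t (rows a b) x y ∂iidLaw G ≤ C * (1 + nrm (y - x)) := by
  obtain ⟨CY, hCY, HY⟩ := memLp_Yv G hG (K := 3) (m := 1) (by norm_num)
  simp only [Nat.cast_one, pow_one, memLp_one_iff_integrable] at HY
  obtain ⟨CW, hCW, HW⟩ := bmom_W_int G hG
  refine ⟨4 * CW + 4 * CY, by positivity, 18, fun a b hab x hx y hy => ?_⟩
  have hx1 : a ≤ x.2 := hx.1
  have hx2 : x.2 ≤ b := hx.2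
  have hy1 : a ≤ y.2 := hy.1
  have hy2 : y.2 ≤ b := hy.2
  obtain ⟨c, d, c1, c2, c3, d1, d2, d3, hcd⟩ : ∃ c d : ℤ, a + 9 ≤ c ∧ c ≤ b - 9 ∧ |x.2 - c| ≤ 9 ∧
      a + 9 ≤ d ∧ d ≤ b - 9 ∧ |y.2 - d| ≤ 9 ∧ |d - c| ≤ |y.2 - x.2| := by
    refine ⟨max (a + 9) (min x.2 (b - 9)), max (a + 9) (min y.2 (b - 9)), by omega, by omega,
      abs_le.2 ⟨by omega, by omega⟩, by omega, by omega, abs_le.2 ⟨by omega, by omega⟩, ?_⟩
    have h1 := le_abs_self (y.2 - x.2)
    have h2 := neg_abs_le (y.2 - x.2)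
    exact abs_le.2 ⟨by omega, by omega⟩
  obtain ⟨w, n, hw, -, w0, wn, hn, hbox⟩ := exists_staircase (x.1, c) (y.1, d)
  have hS : ∀ k, 0 ≤ k → k ≤ n → ball (w k) (3 * (3 : ℕ)) ⊆ rows a b := fun k h1 h2 v hv => by
    obtain ⟨-, -, -, -, -, -, h3, h4⟩ := hbox k h1 h2
    have h5 : |v.2 - (w k).2| ≤ 9 := (le_max_right _ _).trans hv
    rw [abs_le] at h5
    dsimp only at h3 h4
    exact ⟨by omega, by omega⟩
  have hle : ∀ᵐ t ∂iidLaw G, 0 ≤ TS t (rows a b) x y ∧ TS t (rows a b) x y ≤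
      bmom_W x 2 t + bmom_W x 3 t + (bmom_W y 2 t + bmom_W y 3 t) +
        2 * ∑ k ∈ Finset.Icc 0 n, Yv 3 t (w k) :=
    (ae_nonneg G hG.nonneg).mono fun t ht => ⟨TS_nonneg ht, by
      obtain ⟨N, hN⟩ := exists_hash (K := 3) (by norm_num) ht (x.1, c)
      obtain ⟨N', hN'⟩ := exists_hash (K := 3) (by norm_num) ht (y.1, d)
      obtain ⟨z, z1, z2, z3⟩ := bmom_reach ht hx c1 c2 c3 hN
      obtain ⟨z', z1', z2', z3'⟩ := bmom_reach ht hy d1 d2 d3 hN'
      have h1 := (hash_chain (by norm_num) ht hw hS (w0 ▸ hN) (wn ▸ hN') z1 z1').2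
      have h2 := TS_triangle ht (conn_rows hx z2) (conn_rows z2 hy)
      have h3 := TS_triangle ht (conn_rows z2 z2') (conn_rows z2' hy)
      rw [TS_comm] at z3'
      linarith⟩
  have i1 : Integrable (fun t => bmom_W x 2 t + bmom_W x 3 t) (iidLaw G) :=
    (HW x 2 le_rfl).1.add (HW x 3 (by decide)).1
  have i2 : Integrable (fun t => bmom_W y 2 t + bmom_W y 3 t) (iidLaw G) :=
    (HW y 2 le_rfl).1.add (HW y 3 (by decide)).1
  have i0 : ∀ k ∈ Finset.Icc 0 n, Integrable (fun t => Yv 3 t (w k)) (iidLaw G) :=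
    fun k _ => (HY (w k)).1
  have i3 := (integrable_finsetSum _ i0).const_mul 2
  have i12 : Integrable (fun t => bmom_W x 2 t + bmom_W x 3 t + (bmom_W y 2 t + bmom_W y 3 t))
      (iidLaw G) := i1.add i2
  refine ⟨(i12.add i3).mono' (measurable_TS _ _ _).aestronglyMeasurable
    (hle.mono fun t ht => by rw [Real.norm_of_nonneg ht.1]; exact ht.2), ?_⟩
  refine (integral_mono_of_nonneg (hle.mono fun t ht => ht.1) (i12.add i3)
    (hle.mono fun t ht => ht.2)).trans ?_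
  have hc : ((Finset.Icc 0 n).card : ℝ) = 1 + n := by
    have := hw.1
    rw [Int.card_Icc, sub_zero, ← Int.cast_natCast, Int.toNat_of_nonneg (by omega)]
    push_cast
    ring
  have h1 := Finset.sum_le_card_nsmul (Finset.Icc 0 n)
    (fun k => ∫ t, Yv 3 t (w k) ∂iidLaw G) CY fun k _ => (HY (w k)).2
  rw [nsmul_eq_mul, hc] at h1
  have h2 : n ≤ 2 * nrm (y - x) := by
    have := bmom_l1 (y - x)
    simp only [Prod.fst_sub, Prod.snd_sub] at this hn
    omega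
  have h3 : (n : ℝ) ≤ 2 * nrm (y - x) := by exact_mod_cast h2
  have h4 : (0 : ℝ) ≤ nrm (y - x) := by exact_mod_cast nrm_nonneg (y - x)
  simp only [Pi.add_apply]
  rw [integral_add i12 i3, integral_add i1 i2,
    integral_add (HW x 2 le_rfl).1 (HW x 3 (by decide)).1,
    integral_add (HW y 2 le_rfl).1 (HW y 3 (by decide)).1, integral_const_mul,
    integral_finsetSum _ i0]
  nlinarith [(HW x 2 le_rfl).2, (HW x 3 (by decide)).2, (HW y 2 le_rfl).2, (HW y 3 (by decide)).2,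
    mul_nonneg hCW.le h4, mul_le_mul_of_nonneg_right h3 hCY.le]

end Crest.Agent.R151
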