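import Crest.Agent.R151.BProb

/-! R151 base: Peierls estimates for self-avoiding paths; regular environments are almost sure. -/

set_option autoImplicit false
open MeasureTheory ProbabilityTheory Crest.ProbabilityR.FirstPassage Filter Topology
open scoped ENNReal

namespace Crest.Agent.R151

variable (G : Measure ℝ) [IsProbabilityMeasure G]

theorem bpei_adj (x y : V) : Adj x y ↔ y - x ∈ ({(1, 0), (-1, 0), (0, 1), (0, -1)} : Finset V) := by
  rw [adj_iff]
  simp only [Finset.mem_insert, Finset.mem_singleton, Prod.ext_iff, Prod.fst_sub, Prod.snd_sub]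
  omega

/-- at most `4^n` nearest neighbour paths of length `n` from `x` -/
theorem exists_finset_paths (x : V) (n : ℕ) : ∃ F : Finset (ℤ → V), F.card ≤ 4 ^ n ∧
    (∀ q ∈ F, PathIn Set.univ q 0 n ∧ q 0 = x) ∧
    ∀ p, PathIn Set.univ p 0 n → p 0 = x → ∃ q ∈ F, ∀ k, 0 ≤ k → k ≤ n → q k = p k := by
  classical
  induction n with
  | zero =>
    refine ⟨{fun _ => x}, by simp, fun q hq => ?_, fun p _ p0 => ⟨_, Finset.mem_singleton_self _,
      fun k h1 h2 => ?_⟩⟩
    · rw [Finset.mem_singleton.1 hq]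
      exact ⟨⟨by simp, fun _ _ _ => trivial, fun k h1 h2 => by omega⟩, rfl⟩
    · obtain rfl : k = 0 := by omega
      exact p0.symm
  | succ n ih =>
    obtain ⟨F, h1, h2, h3⟩ := ih
    refine ⟨(F ×ˢ ({(1, 0), (-1, 0), (0, 1), (0, -1)} : Finset V)).image fun a =>
      Function.update a.1 ((n : ℤ) + 1) (a.1 n + a.2), ?_, fun q hq => ?_, fun p hp p0 => ?_⟩
    · refine Finset.card_image_le.trans ?_
      rw [Finset.card_product, pow_succ]
      exact Nat.mul_le_mul h1 Finset.card_le_four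
    · obtain ⟨⟨q', d⟩, ha, rfl⟩ := Finset.mem_image.1 hq
      obtain ⟨a1, a2⟩ := Finset.mem_product.1 ha
      obtain ⟨b1, b2⟩ := h2 q' a1
      refine ⟨⟨by omega, fun _ _ _ => trivial, fun k k1 k2 => ?_⟩, ?_⟩
      · rw [Function.update_of_ne (by omega)]
        rcases eq_or_ne k n with rfl | hk
        · rw [Function.update_self, bpei_adj, add_sub_cancel_left]
          exact a2
        · rw [Function.update_of_ne (by omega)]
          exact b1.2.2 k k1 (by omega)
      · rw [Function.update_of_ne (by omega)]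
        exact b2
    · obtain ⟨q, q1, q2⟩ := h3 p (hp.sub le_rfl (by omega) (by omega)) p0
      refine ⟨_, Finset.mem_image.2 ⟨(q, p (n + 1) - p n), Finset.mem_product.2
        ⟨q1, (bpei_adj _ _).1 (hp.2.2 n (by omega) (by omega))⟩, rfl⟩, fun k k1 k2 => ?_⟩
      rcases eq_or_ne k (n + 1) with rfl | hk
      · rw [Nat.cast_succ, Function.update_self]
        simp only
        rw [q2 n (by omega) le_rfl, add_sub_cancel]
      · rw [Function.update_of_ne (by omega)]
        exact q2 k k1 (by omega)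

open Classical in
/-- `4^n` paths, the edges of a self-avoiding path are independent, `chernoff_count` -/
theorem peierls_marked {η : ℝ} (hη : 0 < η) : ∃ p0 > 0, ∀ B : Set ℝ, MeasurableSet B → G.real B ≤ p0 →
    ∀ (x : V) (n : ℕ), (iidLaw G).real {t | ∃ p, PathIn Set.univ p 0 n ∧ Set.InjOn p (Set.Icc 0 n) ∧
      p 0 = x ∧ η * n ≤ (((Finset.Ico (0 : ℤ) n).filter fun k => t (edge p k) ∈ B).card : ℝ)} ≤
      Real.exp (-n) := by
  refine ⟨η * Real.exp (-1 - 3 / η), by positivity, fun B hB hGB x n => ?_⟩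
  rcases Nat.eq_zero_or_pos n with rfl | hn
  · simp
  have n0 : (0 : ℝ) < n := by exact_mod_cast hn
  obtain ⟨F, h1, -, h3⟩ := exists_finset_paths x n
  have m0 : 0 < ⌈η * n⌉₊ := Nat.ceil_pos.2 (by positivity)
  have m1 : η * n ≤ ⌈η * n⌉₊ := Nat.le_ceil _
  have hA : ∀ e : Sym2 V, MeasurableSet {t : Env | t e ∈ B} := fun e => measurable_pi_apply e hB
  have hind : iIndepSet (fun e : Sym2 V => {t : Env | t e ∈ B}) (iidLaw G) :=
    (iIndepSet_iff_meas_biInter hA).2 fun s =>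
      (iIndepFun_iff_measure_inter_preimage_eq_mul.1 (iIndepFun_eval G)) s (sets := fun _ => B)
        fun _ _ => hB
  have hq : ∀ q : ℤ → V, (iidLaw G).real {t | ⌈η * n⌉₊ ≤ (((Finset.Ico (0 : ℤ) n).image (edge q)).filter
      fun e => t ∈ {t : Env | t e ∈ B}).card} ≤ Real.exp (-3 * n) := fun q => by
    refine (chernoff_count (iidLaw G) _ _ hA hind (a := n * (η * Real.exp (-1 - 3 / η))) ?_ m0).trans ?_
    · refine (Finset.sum_le_card_nsmul _ _ (η * Real.exp (-1 - 3 / η)) fun e _ => ?_).trans ?_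
      · exact ((measurePreserving_eval G e).measureReal_preimage hB.nullMeasurableSet).trans_le hGB
      · rw [nsmul_eq_mul]
        refine mul_le_mul_of_nonneg_right ?_ (by positivity)
        exact_mod_cast Finset.card_image_le.trans (by simp)
    · have a1 : Real.exp 1 * (n * (η * Real.exp (-1 - 3 / η))) / ⌈η * n⌉₊ ≤ Real.exp (-(3 / η)) := by
        rw [div_le_iff₀ (by positivity), show -(3 / η) = 1 + (-1 - 3 / η) by ring, Real.exp_add]
        nlinarith [mul_le_mul_of_nonneg_left m1 (mul_pos (Real.exp_pos 1) (Real.exp_pos (-1 - 3 / η))).le]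
      refine (pow_le_pow_left₀ (by positivity) a1 _).trans ?_
      rw [← Real.exp_nat_mul]
      refine Real.exp_le_exp.2 ?_
      have a2 : 3 / η * (η * n) ≤ 3 / η * ⌈η * n⌉₊ := mul_le_mul_of_nonneg_left m1 (by positivity)
      rw [show 3 / η * (η * n) = 3 * n by field_simp] at a2
      linarith
  refine le_trans (measureReal_mono (s₂ := ⋃ q ∈ F, {t | ⌈η * n⌉₊ ≤
    (((Finset.Ico (0 : ℤ) n).image (edge q)).filter fun e => t ∈ {t : Env | t e ∈ B}).card})
    (fun t ⟨p, p1, p2, p3, p4⟩ => ?_) (measure_ne_top _ _)) ?_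
  · obtain ⟨q, q1, q2'⟩ := h3 p p1 p3
    have q2 : ∀ k : ℤ, 0 ≤ k → k ≤ n → q k = p k := fun k k1 k2 => by
      obtain ⟨k, rfl⟩ := Int.eq_ofNat_of_zero_le k1
      exact q2' k (Nat.zero_le _) (by omega)
    refine Set.mem_biUnion (x := q) q1 ((Nat.ceil_le.2 p4).trans
      (Finset.card_le_card_of_injOn (edge p) (fun k hk => ?_) fun a ha b hb e => ?_))
    · obtain ⟨k1, k2⟩ := Finset.mem_filter.1 hk
      have k3 := Finset.mem_Ico.1 k1
      refine Finset.mem_filter.2 ⟨Finset.mem_image.2 ⟨k, k1, ?_⟩, k2⟩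
      rw [edge, edge, q2 k k3.1 k3.2.le, q2 (k + 1) (by omega) (by omega)]
    · exact edge_injOn p2 (Finset.mem_Ico.1 (Finset.mem_filter.1 ha).1)
        (Finset.mem_Ico.1 (Finset.mem_filter.1 hb).1) e
  · refine (measureReal_biUnion_finset_le _ _).trans
      ((Finset.sum_le_card_nsmul _ _ _ fun q _ => hq q).trans ?_)
    rw [nsmul_eq_mul]
    have a1 : (4 : ℝ) ≤ Real.exp 2 := by
      have := Real.add_one_le_exp (1 : ℝ)
      rw [show (2 : ℝ) = 1 + 1 by norm_num, Real.exp_add]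
      nlinarith
    have a2 : (F.card : ℝ) ≤ Real.exp 2 ^ n :=
      le_trans (by exact_mod_cast h1) (pow_le_pow_left₀ (by norm_num) a1 n)
    refine (mul_le_mul_of_nonneg_right a2 (Real.exp_pos _).le).trans (le_of_eq ?_)
    rw [← Real.exp_nat_mul, ← Real.exp_add]
    congr 1
    ring

omit [IsProbabilityMeasure G] in
theorem bpei_Iic [NullSingletonClass G] (hG : G (Set.Iio 0) = 0) : G (Set.Iic 0) = 0 := by
  rw [← Set.Iio_union_right]
  exact measure_union_null hG (measure_singleton 0)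

theorem bpei_small [NullSingletonClass G] (hG : G (Set.Iio 0) = 0) {p0 : ℝ} (hp : 0 < p0) :
    ∃ a > 0, G.real (Set.Iio a) ≤ p0 := by
  have h := tendsto_measure_iInter_atTop (μ := G) (s := fun n : ℕ => Set.Iio (1 / ((n : ℝ) + 1)))
    (fun _ => measurableSet_Iio.nullMeasurableSet)
    (fun m n hmn => Set.Iio_subset_Iio (Nat.one_div_le_one_div hmn)) ⟨0, measure_ne_top _ _⟩
  have e : G (⋂ n : ℕ, Set.Iio (1 / ((n : ℝ) + 1))) = 0 := by
    refine measure_mono_null (fun s hs => ?_) (bpei_Iic G hG)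
    exact ge_of_tendsto' tendsto_one_div_add_atTop_nhds_zero_nat fun n =>
      le_of_lt (Set.mem_Iio.1 (Set.mem_iInter.1 hs n))
  rw [e] at h
  obtain ⟨n, hn⟩ := (h.eventually (gt_mem_nhds (ENNReal.ofReal_pos.2 hp))).exists
  exact ⟨_, Nat.one_div_pos_of_nat (n := n), ENNReal.toReal_le_of_le_ofReal hp.le hn.le⟩

theorem bpei_mono {A B : Set Env} {p : Env → Prop} (hp : ∀ᵐ t ∂iidLaw G, p t)
    (h : ∀ t, p t → t ∈ A → t ∈ B) : (iidLaw G).real A ≤ (iidLaw G).real B :=
  ENNReal.toReal_mono (measure_ne_top _ _) (measure_mono_ae (hp.mono h))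

/-- mark the edges with `t e < 2θ` -/
theorem path_cost_lower [NullSingletonClass G] (hG : G (Set.Iio 0) = 0) : ∃ θ > 0, ∀ (x : V) (n : ℕ),
    (iidLaw G).real {t | ∃ p, PathIn Set.univ p 0 n ∧ Set.InjOn p (Set.Icc 0 n) ∧ p 0 = x ∧
      cost t p 0 n < θ * n} ≤ Real.exp (-n) := by
  classical
  obtain ⟨p0, hp0, h⟩ := peierls_marked G (η := 1 / 2) (by norm_num)
  obtain ⟨a, ha, hGa⟩ := bpei_small G hG hp0
  refine ⟨a / 2, by positivity, fun x n => le_trans (bpei_mono G (ae_nonneg G hG) ?_)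
    (h _ measurableSet_Iio hGa x n)⟩
  rintro t ht ⟨p, p1, p2, p3, p4⟩
  refine ⟨p, p1, p2, p3, ?_⟩
  have h1 : ∑ _k ∈ Finset.Ico (0 : ℤ) n, a ≤
      ∑ k ∈ Finset.Ico (0 : ℤ) n, (t (edge p k) + if t (edge p k) ∈ Set.Iio a then a else 0) := by
    refine Finset.sum_le_sum fun k _ => ?_
    split_ifs with hk
    · linarith [ht (edge p k)]
    · simpa using hk
  rw [Finset.sum_add_distrib, ← Finset.sum_filter, Finset.sum_const, Finset.sum_const, nsmul_eq_mul,
    nsmul_eq_mul, Int.card_Ico, sub_zero, Int.toNat_natCast] at h1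
  have h2 : ∑ k ∈ Finset.Ico (0 : ℤ) n, t (edge p k) < a / 2 * n := p4
  refine le_of_mul_le_mul_right ?_ ha
  have key : ∀ c : ℝ, (n : ℝ) * a ≤ ∑ k ∈ Finset.Ico (0 : ℤ) n, t (edge p k) + c * a →
      1 / 2 * (n : ℝ) * a ≤ c * a := fun c hc => by linarith
  refine (key _ h1).trans (le_of_eq ?_)
  congr!

/-- a cheap self-avoiding path is short (its first `n` steps) -/
theorem long_path_cost_lower [NullSingletonClass G] (hG : G (Set.Iio 0) = 0) : ∃ θ > 0, ∀ (x : V) (n : ℕ),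
    (iidLaw G).real {t | ∃ p m, PathIn Set.univ p 0 m ∧ Set.InjOn p (Set.Icc 0 m) ∧ p 0 = x ∧
      (n : ℤ) ≤ m ∧ cost t p 0 m < θ * m} ≤ 2 * Real.exp (-n) := by
  obtain ⟨θ, hθ, h⟩ := path_cost_lower G hG
  refine ⟨θ, hθ, fun x n => ?_⟩
  have e1 : Real.exp (-1) ≤ 1 / 2 := by
    rw [Real.exp_neg, one_div]
    exact inv_anti₀ (by norm_num) (by linarith [Real.add_one_le_exp (1 : ℝ)])
  have hs : HasSum (fun j : ℕ => Real.exp (-n) * (1 / 2) ^ j) (Real.exp (-n) * 2) :=
    hasSum_geometric_two.mul_left _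
  refine ENNReal.toReal_le_of_le_ofReal (by positivity) (le_trans (measure_mono (t := ⋃ j : ℕ,
    {t | ∃ p, PathIn Set.univ p 0 (n + j : ℕ) ∧ Set.InjOn p (Set.Icc 0 (n + j : ℕ)) ∧ p 0 = x ∧
      cost t p 0 (n + j : ℕ) < θ * (n + j : ℕ)}) fun t ⟨p, m, p1, p2, p3, p4, p5⟩ => ?_)
    ((measure_iUnion_le _).trans ?_))
  · obtain ⟨j, hj⟩ : ∃ j : ℕ, m = ((n + j : ℕ) : ℤ) := ⟨(m - n).toNat, by omega⟩
    subst hj
    exact Set.mem_iUnion.2 ⟨j, p, p1, p2, p3, by exact_mod_cast p5⟩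
  · rw [mul_comm, ← hs.tsum_eq, ENNReal.ofReal_tsum_of_nonneg (fun _ => by positivity) hs.summable]
    refine ENNReal.tsum_le_tsum fun j => (ENNReal.le_ofReal_iff_toReal_le (measure_ne_top _ _)
      (by positivity)).2 ((h x (n + j)).trans ?_)
    rw [Nat.cast_add, neg_add, Real.exp_add, show -(j : ℝ) = j * (-1) by ring, Real.exp_nat_mul]
    gcongr

theorem T_lower_tail [NullSingletonClass G] (hG : G (Set.Iio 0) = 0) : ∃ θ > 0, ∀ (x : V) (n : ℕ),
    (iidLaw G).real {t | ∃ y, (n : ℤ) ≤ nrm (y - x) ∧ T t x y < θ * nrm (y - x)} ≤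
      2 * Real.exp (-n) := by
  obtain ⟨θ, hθ, h⟩ := long_path_cost_lower G hG
  refine ⟨θ, hθ, fun x n => le_trans (bpei_mono G (ae_nonneg G hG) fun t ht ⟨y, y1, y2⟩ => ?_) (h x n)⟩
  obtain ⟨p, m, p1, p2, p3, p4, p5⟩ := exists_path_lt ht (conn_univ x y) y2
  have a1 := p1.nrm_le
  rw [p3, p4, sub_zero] at a1
  refine ⟨p, m, p1, p2, p3, y1.trans a1, p5.trans_le (mul_le_mul_of_nonneg_left ?_ hθ.le)⟩
  exact_mod_cast a1

theorem bpei_ne [NullSingletonClass G] {A B : Finset (Sym2 V)} {e : Sym2 V} (hA : e ∈ A) (hB : e ∉ B) :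
    ∀ᵐ t ∂iidLaw G, ∑ e ∈ A, t e ≠ ∑ e ∈ B, t e := by
  classical
  have hm : MeasurableSet {t : Env | ∑ e ∈ A, t e = ∑ e ∈ B, t e} :=
    measurableSet_eq_fun (Finset.measurable_sum _ fun e _ => measurable_pi_apply e)
      (Finset.measurable_sum _ fun e _ => measurable_pi_apply e)
  have hΦ := measurePreserving_update G e
  rw [ae_iff]
  simp only [not_not]
  refine (hΦ.measure_preimage hm.nullMeasurableSet).symm.trans ?_
  rw [Measure.measure_prod_null (hΦ.measurable hm)]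
  refine Eventually.of_forall fun t => measure_mono_null (t := {∑ e ∈ B, t e - ∑ e ∈ A \ {e}, t e})
    (fun s hs => ?_) (measure_singleton _)
  have h1 : ∑ e' ∈ A, Function.update t e s e' = ∑ e' ∈ B, Function.update t e s e' := hs
  rw [Finset.sum_update_of_mem hA, Finset.sum_update_of_notMem hB] at h1
  exact eq_sub_of_add_eq h1

/-- `sum_ne`: an edge `e` in the symmetric difference, `measurePreserving_update`, no atoms;
`fin`: Borel-Cantelli with `T_lower_tail` -/
theorem ae_reg [NullSingletonClass G] (hG : G (Set.Iio 0) = 0) : ∀ᵐ t ∂iidLaw G, Reg t := by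
  have h1 : ∀ᵐ t ∂iidLaw G, ∀ e, 0 < t e := ae_all_iff.2 fun e => by
    rw [ae_iff]
    simp only [not_lt]
    exact ((measurePreserving_eval G e).measure_preimage
      (measurableSet_Iic (a := (0 : ℝ))).nullMeasurableSet).trans (bpei_Iic G hG)
  have h2 : ∀ᵐ t ∂iidLaw G, ∀ A B : Finset (Sym2 V), A ≠ B → ∑ e ∈ A, t e ≠ ∑ e ∈ B, t e :=
    ae_all_iff.2 fun A => ae_all_iff.2 fun B => by
      rcases eq_or_ne A B with rfl | hAB
      · simp
      by_cases h : A ⊆ B
      · obtain ⟨e, e1, e2⟩ := Finset.exists_of_ssubset (h.ssubset_of_ne hAB)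
        exact (bpei_ne G e1 e2).mono fun t ht _ => ht.symm
      · obtain ⟨e, e1, e2⟩ := Finset.not_subset.1 h
        exact (bpei_ne G e1 e2).mono fun t ht _ => ht
  obtain ⟨θ, hθ, h⟩ := T_lower_tail G hG
  have hs : Summable fun n : ℕ => 2 * Real.exp (-n) := by
    have := (Real.summable_exp_nat_mul_of_ge (c := -1) (by norm_num) (f := fun n => n)
      fun _ => le_rfl).mul_left 2
    simpa using this
  have h3 : ∀ᵐ t ∂iidLaw G, ∀ x : V, ∀ᶠ n : ℕ in atTop,
      t ∉ {t | ∃ y, (n : ℤ) ≤ nrm (y - x) ∧ T t x y < θ * nrm (y - x)} := ae_all_iff.2 fun x => by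
    refine ae_eventually_notMem (ne_top_of_le_ne_top hs.tsum_ofReal_ne_top
      (ENNReal.tsum_le_tsum fun n => ?_))
    exact (ENNReal.le_ofReal_iff_toReal_le (measure_ne_top _ _) (by positivity)).2 (h x n)
  filter_upwards [h1, h2, h3] with t a1 a2 a3
  refine ⟨a1, a2, fun x M => ?_⟩
  obtain ⟨n, n1, n2⟩ := ((a3 x).and
    (tendsto_natCast_atTop_atTop.eventually_gt_atTop (M / θ))).exists
  refine (ball_finite x n).subset fun y (hy : T t x y ≤ M) => ?_
  by_contra hb
  have b1 : (n : ℤ) ≤ nrm (y - x) := (not_le.1 hb).le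
  have b2 : (n : ℝ) ≤ nrm (y - x) := by exact_mod_cast b1
  refine n1 ⟨y, b1, ?_⟩
  have := (div_lt_iff₀ hθ).1 n2
  nlinarith

end Crest.Agent.R151
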