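import Crest.Agent.R151.BMom
import Crest.Agent.R151.BPeierls

/-! R151 base: the time constant is a symmetric norm. -/

set_option autoImplicit false
open MeasureTheory ProbabilityTheory Crest.ProbabilityR.FirstPassage Filter Topology
open scoped ENNReal

namespace Crest.Agent.R151

variable (G : Measure ℝ) [IsProbabilityMeasure G]

theorem bmu_act {φ : V → V} (hφ : IsAut φ) (x y : V) :
    ∫ t, T t (φ x) (φ y) ∂iidLaw G = ∫ t, T t x y ∂iidLaw G := by
  have h := measurePreserving_act G hφ.bij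
  have h2 := integral_map (μ := iidLaw G) h.measurable.aemeasurable
    (measurable_T x y).aestronglyMeasurable
  rw [h.map_eq] at h2
  rw [h2]
  simp only [T_act hφ]

theorem integral_T (x y : V) : ∫ t, T t x y ∂iidLaw G = mT G (y - x) := by
  have := bmu_act G (isAut_add x) 0 (y - x)
  simpa [mT] using this
theorem mT_nonneg (hG : Hyp G) (z : V) : 0 ≤ mT G z :=
  integral_nonneg_of_ae ((ae_nonneg G hG.nonneg).mono fun _ ht => T_nonneg ht)
theorem mT_zero (hG : Hyp G) : mT G 0 = 0 :=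
  integral_eq_zero_of_ae ((ae_nonneg G hG.nonneg).mono fun _ ht => T_self ht)
theorem mT_add_le (hG : Hyp G) (z w : V) : mT G (z + w) ≤ mT G z + mT G w := by
  have h := integral_T G z (z + w)
  rw [add_sub_cancel_left] at h
  rw [← h, mT, mT, ← integral_add (integrable_T G hG _ _) (integrable_T G hG _ _)]
  exact integral_mono_ae (integrable_T G hG _ _) ((integrable_T G hG _ _).add (integrable_T G hG _ _))
    ((ae_nonneg G hG.nonneg).mono fun _ ht => T_triangle ht)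
theorem mT_neg (z : V) : mT G (-z) = mT G z := by
  simpa [mT] using bmu_act G isAut_neg 0 z
theorem mT_reflX (z : V) : mT G (reflX z) = mT G z := by
  have := bmu_act G isAut_reflX 0 z
  rwa [show reflX 0 = 0 by simp [reflX]] at this
theorem mT_swap (z : V) : mT G z.swap = mT G z :=
  bmu_act G isAut_swap 0 z
theorem mT_le (hG : Hyp G) : ∃ C > 0, ∀ z : V, mT G z ≤ C * nrm z := by
  obtain ⟨C, hC, h⟩ := memLp_T G hG
  refine ⟨2 * √C, by positivity, fun z => ?_⟩
  rcases eq_or_ne z 0 with rfl | hz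
  · rw [mT_zero G hG, nrm_eq_zero.2 rfl]; simp
  have h1 : (1 : ℝ) ≤ nrm z := by
    have a1 := nrm_nonneg z
    have a2 : nrm z ≠ 0 := fun e => hz (nrm_eq_zero.1 e)
    exact_mod_cast (by omega : 1 ≤ nrm z)
  have h2 := (bprob_sq_le (h 0 z).1).trans (h 0 z).2
  rw [sub_zero] at h2
  refine (pow_le_pow_iff_left₀ (mT_nonneg G hG z) (by positivity) two_ne_zero).1 (h2.trans ?_)
  rw [mul_pow, mul_pow, Real.sq_sqrt hC.le]
  have : (1 + (nrm z : ℝ)) ^ 2 ≤ 2 ^ 2 * nrm z ^ 2 := by nlinarith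
  nlinarith
theorem mT_lip (hG : Hyp G) : ∃ C > 0, ∀ z w : V, |mT G z - mT G w| ≤ C * nrm (z - w) := by
  obtain ⟨C, hC, h⟩ := mT_le G hG
  refine ⟨C, hC, fun z w => abs_le.2 ⟨?_, ?_⟩⟩
  · have h1 := mT_add_le G hG z (w - z)
    have h2 := h (w - z)
    rw [add_sub_cancel] at h1
    rw [nrm_sub_comm] at h2
    linarith
  · have h1 := mT_add_le G hG w (z - w)
    have h2 := h (z - w)
    rw [add_sub_cancel] at h1
    linarith

theorem bmu_dist (z w : V) {a b : ℝ × ℝ} {r s : ℝ} (h1 : ‖toR z - a‖ ≤ r) (h2 : ‖toR w - b‖ ≤ s) :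
    (nrm (z - w) : ℝ) ≤ r + s + ‖a - b‖ := by
  rw [← norm_toR, toR_sub, show toR z - toR w = (toR z - a) - (toR w - b) + (a - b) by abel]
  linarith [norm_add_le (toR z - a - (toR w - b)) (a - b), norm_sub_le (toR z - a) (toR w - b)]

theorem bmu_add (hG : Hyp G) : ∃ C > 0, ∀ v w : ℝ × ℝ,
    mT G (fl (v + w)) ≤ mT G (fl v) + mT G (fl w) + C := by
  obtain ⟨C, hC, h⟩ := mT_lip G hG
  refine ⟨C * 3, by positivity, fun v w => ?_⟩
  have h1 := (abs_le.1 (h (fl (v + w)) (fl v + fl w))).2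
  have h2 : ‖toR (fl v + fl w) - (v + w)‖ ≤ 2 := by
    rw [toR_add, show toR (fl v) + toR (fl w) - (v + w) = (toR (fl v) - v) + (toR (fl w) - w) by abel]
    linarith [norm_add_le (toR (fl v) - v) (toR (fl w) - w), norm_toR_fl_sub v, norm_toR_fl_sub w]
  have h3 := bmu_dist _ _ (norm_toR_fl_sub (v + w)) h2
  rw [sub_self, norm_zero] at h3
  nlinarith [mT_add_le G hG (fl v) (fl w)]

/-- `a n = mT (fl (n v)) + 2C` is subadditive (`Subadditive.tendsto_lim`) -/
theorem tendsto_mu (hG : Hyp G) (v : ℝ × ℝ) :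
    Tendsto (fun n : ℕ => mT G (fl ((n : ℝ) • v)) / n) atTop (𝓝 (mu G v)) := by
  obtain ⟨C, hC, h⟩ := bmu_add G hG
  have hs : Subadditive fun n : ℕ => mT G (fl ((n : ℝ) • v)) + C := fun m n => by
    have := h ((m : ℝ) • v) ((n : ℝ) • v)
    simp only [Nat.cast_add, add_smul]
    linarith
  have h1 := hs.tendsto_lim ⟨0, by
    rintro _ ⟨n, rfl⟩
    have := mT_nonneg G hG (fl ((n : ℝ) • v))
    positivity⟩
  have h2 := h1.sub (tendsto_const_div_atTop_nhds_zero_nat C)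
  refine tendsto_nhds_limUnder ⟨_, h2.congr fun n => ?_⟩
  ring

theorem tendsto_mu_real (hG : Hyp G) (v : ℝ × ℝ) :
    Tendsto (fun s : ℝ => mT G (fl (s • v)) / s) atTop (𝓝 (mu G v)) := by
  obtain ⟨C, hC, h⟩ := mT_lip G hG
  have h1 := ((tendsto_mu G hG v).comp (tendsto_nat_floor_atTop (α := ℝ))).mul
    (tendsto_nat_floor_div_atTop (R := ℝ))
  rw [mul_one] at h1
  have h2 : Tendsto (fun s : ℝ => (mT G (fl (s • v)) - mT G (fl ((⌊s⌋₊ : ℝ) • v))) / s) atTop (𝓝 0) := by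
    have h3 : Tendsto (fun s : ℝ => C * (1 + 1 + ‖v‖) / s) atTop (𝓝 0) :=
      tendsto_const_nhds.div_atTop tendsto_id
    refine squeeze_zero_norm' ?_ h3
    filter_upwards [eventually_gt_atTop 0] with s hs
    rw [norm_div, Real.norm_of_nonneg hs.le, Real.norm_eq_abs]
    refine div_le_div_of_nonneg_right ((h _ _).trans (mul_le_mul_of_nonneg_left ?_ hC.le)) hs.le
    refine (bmu_dist _ _ (norm_toR_fl_sub _) (norm_toR_fl_sub _)).trans (add_le_add le_rfl ?_)
    rw [← sub_smul, norm_smul, Real.norm_of_nonneg (sub_nonneg.2 (Nat.floor_le hs.le))]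
    refine mul_le_of_le_one_left (norm_nonneg _) ?_
    linarith [Nat.lt_floor_add_one s]
  have h4 := h1.add h2
  rw [add_zero] at h4
  refine h4.congr' ?_
  filter_upwards [eventually_ge_atTop 1] with s hs
  have : (⌊s⌋₊ : ℝ) ≠ 0 := by
    have := Nat.floor_pos.2 hs
    positivity
  simp only [Function.comp]
  field_simp
  ring

theorem bmu_le (hG : Hyp G) {v : ℝ × ℝ} {a : ℕ → ℝ} {A : ℝ} (C : ℝ)
    (ha : Tendsto (fun n : ℕ => a n / n) atTop (𝓝 A)) (h : ∀ n : ℕ, mT G (fl ((n : ℝ) • v)) ≤ a n + C) :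
    mu G v ≤ A := by
  have h1 := ha.add (tendsto_const_div_atTop_nhds_zero_nat C)
  rw [add_zero] at h1
  refine le_of_tendsto_of_tendsto' (tendsto_mu G hG v) h1 fun n => ?_
  rw [← add_div]
  exact div_le_div_of_nonneg_right (h n) (Nat.cast_nonneg n)

theorem bmu_lin (A : ℝ) : Tendsto (fun n : ℕ => (n : ℝ) * A / n) atTop (𝓝 A) := by
  refine tendsto_const_nhds.congr' ?_
  filter_upwards [eventually_gt_atTop 0] with n hn
  have : (n : ℝ) ≠ 0 := by positivity
  field_simp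

theorem mu_le_mT (hG : Hyp G) (z : V) : mu G (toR z) ≤ mT G z := by
  refine bmu_le G hG 0 (bmu_lin (mT G z)) fun n => ?_
  have e : fl ((n : ℝ) • toR z) = n • z := by
    ext
    · simp only [fl, toR, Prod.smul_mk, smul_eq_mul, Prod.smul_fst, nsmul_eq_mul]
      exact_mod_cast Int.floor_intCast (R := ℝ) ((n : ℤ) * z.1)
    · simp only [fl, toR, Prod.smul_mk, smul_eq_mul, Prod.smul_snd, nsmul_eq_mul]
      exact_mod_cast Int.floor_intCast (R := ℝ) ((n : ℤ) * z.2)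
  rw [e, add_zero]
  clear e
  induction n with
  | zero => simp [mT_zero G hG]
  | succ n ih =>
    rw [succ_nsmul]
    push_cast
    linarith [mT_add_le G hG (n • z) z]

theorem bmu_nonneg (hG : Hyp G) (v : ℝ × ℝ) : 0 ≤ mu G v :=
  ge_of_tendsto' (tendsto_mu G hG v) fun n => div_nonneg (mT_nonneg G hG _) (Nat.cast_nonneg n)

theorem bmu_add_le (hG : Hyp G) (v w : ℝ × ℝ) : mu G (v + w) ≤ mu G v + mu G w := by
  obtain ⟨C, hC, h⟩ := bmu_add G hG
  refine bmu_le G hG (a := fun n => mT G (fl ((n : ℝ) • v)) + mT G (fl ((n : ℝ) • w))) C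
    (((tendsto_mu G hG v).add (tendsto_mu G hG w)).congr fun n => by ring) fun n => ?_
  rw [smul_add]
  exact h _ _

theorem bmu_upper (hG : Hyp G) : ∃ C > 0, ∀ v, mu G v ≤ C * ‖v‖ := by
  obtain ⟨C, hC, h⟩ := mT_le G hG
  refine ⟨C, hC, fun v => bmu_le G hG C (bmu_lin _) fun n => (h _).trans ?_⟩
  have h1 := bmu_dist (fl ((n : ℝ) • v)) 0 (b := 0) (s := 0) (norm_toR_fl_sub _) (by simp [toR])
  rw [sub_zero, sub_zero, norm_smul, Real.norm_of_nonneg (Nat.cast_nonneg n)] at h1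
  nlinarith

theorem bmu_pos_smul (hG : Hyp G) {c : ℝ} (hc : 0 < c) (v : ℝ × ℝ) : mu G (c • v) = c * mu G v := by
  have h1 := ((tendsto_mu_real G hG v).comp (tendsto_id.atTop_mul_const hc)).const_mul c
  refine tendsto_nhds_unique (tendsto_mu_real G hG (c • v)) (h1.congr' ?_)
  filter_upwards [eventually_gt_atTop 0] with s hs
  simp only [Function.comp, id, smul_smul]
  field_simp

theorem bmu_sym (hG : Hyp G) {φ : V → V} {ψ : ℝ × ℝ → ℝ × ℝ} (h1 : ∀ z, mT G (φ z) = mT G z)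
    (h2 : ∀ z v, ‖toR (φ z) - ψ v‖ = ‖toR z - v‖) (h3 : ∀ (c : ℝ) v, c • ψ v = ψ (c • v))
    (h4 : ∀ v, ψ (ψ v) = v) (v : ℝ × ℝ) : mu G (ψ v) = mu G v := by
  obtain ⟨C, hC, h⟩ := mT_lip G hG
  have key : ∀ v, mu G (ψ v) ≤ mu G v := fun v => by
    refine bmu_le G hG (C * 2) (tendsto_mu G hG v) fun n => ?_
    have a1 := (abs_le.1 (h (fl ((n : ℝ) • ψ v)) (φ (fl ((n : ℝ) • v))))).2
    have a2 := bmu_dist _ _ (norm_toR_fl_sub ((n : ℝ) • ψ v))
      ((h2 (fl ((n : ℝ) • v)) ((n : ℝ) • v)).trans_le (norm_toR_fl_sub _))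
    rw [← h3, sub_self, norm_zero] at a2
    rw [h1] at a1
    nlinarith
  refine le_antisymm (key v) ?_
  have := key (ψ v)
  rwa [h4] at this

theorem bmu_lower [NullSingletonClass G] (hG : Hyp G) :
    ∃ c > 0, ∀ z : V, c * nrm z ≤ mT G z + 2 * c := by
  obtain ⟨θ, hθ, h⟩ := T_lower_tail G hG.nonneg
  refine ⟨θ / 2, by positivity, fun z => ?_⟩
  have h0 := mT_nonneg G hG z
  rcases le_or_gt (nrm z) 2 with hz | hz
  · have : (nrm z : ℝ) ≤ 2 := by exact_mod_cast hz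
    nlinarith
  have hz' : (2 : ℝ) ≤ nrm z := by exact_mod_cast hz.le
  have h1 := mul_meas_ge_le_integral_of_nonneg (μ := iidLaw G) (f := fun t => T t 0 z)
    ((ae_nonneg G hG.nonneg).mono fun _ ht => T_nonneg ht) (integrable_T G hG _ _) (θ * nrm z)
  have h2 : (iidLaw G).real {t | θ * nrm z ≤ T t 0 z}ᶜ ≤ 2 * Real.exp (-(2 : ℕ)) := by
    refine le_trans (measureReal_mono (fun t ht => ?_) (measure_ne_top _ _)) (h 0 2)
    exact ⟨z, by rw [sub_zero]; exact_mod_cast hz.le, by rw [sub_zero]; exact not_le.1 ht⟩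
  rw [probReal_compl_eq_one_sub (measurableSet_le measurable_const (measurable_T 0 z))] at h2
  have h3 : Real.exp (-(2 : ℕ)) ≤ 1 / 4 := by
    rw [Real.exp_neg, one_div]
    refine inv_anti₀ (by norm_num) ?_
    have := Real.add_one_le_exp (1 : ℝ)
    rw [show ((2 : ℕ) : ℝ) = 1 + 1 by norm_num, Real.exp_add]
    nlinarith
  have h4 : 1 / 2 ≤ (iidLaw G).real {t : Environment | θ * nrm z ≤ T t 0 z} := by
    have key : ∀ p q : ℝ, 1 - p ≤ 2 * q → q ≤ 1 / 4 → 1 / 2 ≤ p := fun p q hp hq => by linarith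
    exact key _ _ h2 h3
  have h5 : 0 ≤ θ * nrm z := by positivity
  change _ ≤ mT G z at h1
  nlinarith

/-- positivity from `T_lower_tail` -/
theorem symNorm_mu [NullSingletonClass G] (hG : Hyp G) : SymNorm (mu G) := by
  have hneg : ∀ v, mu G (-v) = mu G v :=
    bmu_sym G hG (φ := fun z => -z) (ψ := fun v => -v) (mT_neg G)
      (fun z v => by rw [toR_neg, ← norm_neg]; congr 1; abel) (fun c v => by simp) (fun v => by simp)
  refine ⟨bmu_add_le G hG, fun c v => ?_, ?_, bmu_upper G hG, fun v => ?_, fun v => ?_⟩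
  · rcases lt_trichotomy c 0 with hc | rfl | hc
    · rw [← hneg, ← neg_smul, bmu_pos_smul G hG (neg_pos.2 hc), abs_of_neg hc]
    · obtain ⟨C, -, h⟩ := bmu_upper G hG
      have h1 := h 0
      have h2 := bmu_nonneg G hG 0
      simp only [norm_zero, mul_zero] at h1
      simp only [zero_smul, abs_zero, zero_mul]
      linarith
    · rw [bmu_pos_smul G hG hc, abs_of_pos hc]
  · obtain ⟨c, hc, h⟩ := bmu_lower G hG
    refine ⟨c, hc, fun v => ?_⟩
    have h1 := (tendsto_mu G hG v).add (tendsto_const_div_atTop_nhds_zero_nat (3 * c))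
    rw [add_zero] at h1
    refine le_of_tendsto_of_tendsto' (bmu_lin _) h1 fun n => ?_
    rw [← add_div]
    refine div_le_div_of_nonneg_right ?_ (Nat.cast_nonneg n)
    have a1 := h (fl ((n : ℝ) • v))
    have a2 := norm_sub_norm_le ((n : ℝ) • v) (toR (fl ((n : ℝ) • v)))
    rw [norm_sub_rev, norm_toR, norm_smul, Real.norm_of_nonneg (Nat.cast_nonneg n)] at a2
    have a3 := norm_toR_fl_sub ((n : ℝ) • v)
    nlinarith
  · exact bmu_sym G hG (φ := Prod.swap) (ψ := fun v => (v.2, v.1)) (mT_swap G)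
      (fun z v => by simp [toR, Prod.norm_def, max_comm]) (fun c v => by simp) (fun v => rfl) v
  · exact bmu_sym G hG (φ := reflX) (ψ := fun v => (-v.1, v.2)) (mT_reflX G)
      (fun z v => by
        simp only [toR, reflX, Prod.norm_def, Int.cast_neg, Prod.fst_sub, Prod.snd_sub]
        rw [← norm_neg]
        congr 2
        ring) (fun c v => by simp) (fun v => by simp) v

/-- compactness of the unit square's boundary and Lipschitz bounds -/
theorem mT_le_mu (hG : Hyp G) {ε : ℝ} (hε : 0 < ε) :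
    ∃ C : ℝ, ∀ z : V, mT G z ≤ mu G (toR z) + ε * nrm z + C := by
  obtain ⟨C, hC, h⟩ := mT_lip G hG
  obtain ⟨C1, hC1, h1⟩ := mT_le G hG
  obtain ⟨C2, hC2, h2⟩ := bmu_upper G hG
  obtain ⟨J, hJ⟩ := exists_nat_ge ((C + C2 + 1) / ε)
  have hJ' : C + C2 + 1 ≤ J * ε := (div_le_iff₀ hε).1 hJ
  have J0 : (0 : ℝ) < J := by
    by_contra hh
    nlinarith [not_lt.1 hh]
  have hev : ∀ᶠ s : ℝ in atTop, ∀ a ∈ ball 0 (J + 1), mT G (fl (s • toR a)) / s < mu G (toR a) + 1 :=
    (eventually_all_finite (ball_finite 0 (J + 1))).2 fun a _ =>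
      (tendsto_mu_real G hG (toR a)).eventually (gt_mem_nhds (by linarith))
  obtain ⟨s0, hs0⟩ := eventually_atTop.1 (hev.and (eventually_gt_atTop 0))
  have s00 : 0 < s0 := (hs0 s0 le_rfl).2
  refine ⟨C + C1 * (J * s0), fun z => ?_⟩
  have n0 : (0 : ℝ) ≤ nrm z := by exact_mod_cast nrm_nonneg z
  have m0 := bmu_nonneg G hG (toR z)
  obtain ⟨s, hs⟩ : ∃ s : ℝ, s = nrm z / J := ⟨_, rfl⟩
  have e : (nrm z : ℝ) = J * s := by rw [hs]; field_simp
  rcases lt_or_ge s s0 with hlt | hge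
  · have a1 := h1 z
    have a2 : C1 * (J * s) ≤ C1 * (J * s0) := by gcongr
    rw [e] at a1
    nlinarith [mul_nonneg hε.le n0]
  obtain ⟨b1, b2⟩ := hs0 s hge
  have c1 := norm_toR_fl_sub (s⁻¹ • toR z)
  set a := fl (s⁻¹ • toR z) with ha
  have c2 : a ∈ ball 0 (J + 1) := by
    change nrm (a - 0) ≤ _
    have d1 := bmu_dist a 0 (b := 0) (s := 0) c1 (by simp [toR])
    rw [sub_zero (s⁻¹ • toR z), norm_smul, norm_toR, e, Real.norm_of_nonneg (inv_pos.2 b2).le,
      show s⁻¹ * (J * s) = J by field_simp] at d1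
    exact_mod_cast (by linarith : (nrm (a - 0) : ℝ) ≤ J + 1)
  have c3 := (div_lt_iff₀ b2).1 (b1 a c2)
  have c4 : ‖s • toR a - toR z‖ ≤ s := by
    rw [show s • toR a - toR z = s • (toR a - s⁻¹ • toR z) by
      rw [smul_sub, smul_inv_smul₀ b2.ne'], norm_smul, Real.norm_of_nonneg b2.le]
    exact mul_le_of_le_one_right b2.le c1
  have c5 := (abs_le.1 (h (fl (s • toR a)) z)).1
  have c6 := bmu_dist (fl (s • toR a)) z (b := toR z) (s := 0) (norm_toR_fl_sub _) (by simp)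
  have c7 := bmu_add_le G hG (toR z) (s • toR a - toR z)
  rw [add_sub_cancel, bmu_pos_smul G hG b2] at c7
  have c8 := (h2 _).trans (mul_le_mul_of_nonneg_left c4 hC2.le)
  have c9 : C * (nrm (fl (s • toR a) - z) : ℝ) ≤ C * (1 + s) :=
    mul_le_mul_of_nonneg_left (by linarith) hC.le
  rw [e]
  nlinarith [mul_le_mul_of_nonneg_left hJ' b2.le, mul_pos hC1 (mul_pos J0 s00)]

variable {μ : ℝ × ℝ → ℝ}
theorem SymNorm.zero (h : SymNorm μ) : μ 0 = 0 := by
  simpa using h.smul 0 0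
theorem SymNorm.nonneg (h : SymNorm μ) (v : ℝ × ℝ) : 0 ≤ μ v := by
  obtain ⟨c, hc, h1⟩ := h.lower
  exact le_trans (by positivity) (h1 v)
theorem SymNorm.neg (h : SymNorm μ) (v : ℝ × ℝ) : μ (-v) = μ v := by
  simpa using h.smul (-1) v
theorem SymNorm.reflY (h : SymNorm μ) (v : ℝ × ℝ) : μ (v.1, -v.2) = μ v := by
  rw [← h.neg, ← h.refl v]
  simp
theorem SymNorm.convexOn (h : SymNorm μ) : ConvexOn ℝ Set.univ μ := by
  refine ⟨convex_univ, fun x _ y _ a b ha hb _ => (h.add_le _ _).trans ?_⟩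
  rw [h.smul, h.smul, abs_of_nonneg ha, abs_of_nonneg hb, smul_eq_mul, smul_eq_mul]
theorem SymNorm.lip (h : SymNorm μ) : ∃ C > 0, ∀ v w, |μ v - μ w| ≤ C * ‖v - w‖ := by
  obtain ⟨C, hC, h1⟩ := h.upper
  refine ⟨C, hC, fun v w => abs_le.2 ⟨?_, ?_⟩⟩
  · have a1 := h.add_le v (w - v)
    have a2 := h1 (w - v)
    rw [add_sub_cancel] at a1
    rw [norm_sub_rev] at a2
    linarith
  · have a1 := h.add_le w (v - w)
    have a2 := h1 (v - w)
    rw [add_sub_cancel] at a1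
    linarith
theorem SymNorm.continuous (h : SymNorm μ) : Continuous μ := by
  obtain ⟨C, hC, h1⟩ := h.lip
  refine (LipschitzWith.of_dist_le_mul (K := ⟨C, hC.le⟩) fun v w => ?_).continuous
  rw [Real.dist_eq, dist_eq_norm]
  exact h1 v w
/-- a supporting linear functional at every point -/
theorem SymNorm.exists_support (h : SymNorm μ) (v : ℝ × ℝ) : ∃ ρ : ℝ × ℝ,
    ρ.1 * v.1 + ρ.2 * v.2 = μ v ∧ ∀ w : ℝ × ℝ, ρ.1 * w.1 + ρ.2 * w.2 ≤ μ w := by
  rcases eq_or_ne v 0 with rfl | hv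
  · exact ⟨0, by simp [h.zero], fun w => by simpa using h.nonneg w⟩
  obtain ⟨g, g1, g2⟩ := exists_extension_of_le_sublinear (LinearPMap.mkSpanSingleton v (μ v) hv) μ
    (fun c hc x => by rw [h.smul, abs_of_pos hc]) h.add_le (by
      rintro ⟨x, hx⟩
      obtain ⟨c, rfl⟩ := Submodule.mem_span_singleton.1 hx
      rw [LinearPMap.mkSpanSingleton'_apply]
      change c * μ v ≤ μ (c • v)
      rw [h.smul]
      exact mul_le_mul_of_nonneg_right (le_abs_self c) (h.nonneg v))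
  have e : ∀ w : ℝ × ℝ, g (1, 0) * w.1 + g (0, 1) * w.2 = g w := fun w => by
    have : w = w.1 • ((1, 0) : ℝ × ℝ) + w.2 • ((0, 1) : ℝ × ℝ) := by simp
    conv_rhs => rw [this, map_add, map_smul, map_smul]
    simp [mul_comm]
  refine ⟨(g (1, 0), g (0, 1)), ?_, fun w => (e w).trans_le (g2 w)⟩
  rw [e]
  exact (g1 ⟨v, Submodule.mem_span_singleton_self v⟩).trans (LinearPMap.mkSpanSingleton_apply _ _ hv _)

end Crest.Agent.R151
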