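import Crest.Agent.R151.BCross
import Crest.Agent.R151.BMeas

/-! R151 base: the bypass network (deterministic part).  The `#` of `x` is the union of four cheapest
segments realising `Yv K t x` (a `Fin K`-infimum is attained, `K ≥ 1`). -/

set_option autoImplicit false
open MeasureTheory ProbabilityTheory Crest.ProbabilityR.FirstPassage Filter Topology
open scoped ENNReal

namespace Crest.Agent.R151

variable {K : ℕ} {t : Env} {S : Set V}

theorem bnet_hseg_nonneg (ht : ∀ e, 0 ≤ t e) (a b y : ℤ) : 0 ≤ hseg t a b y :=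
  Finset.sum_nonneg fun _ _ => ht _

theorem bnet_vseg_nonneg (ht : ∀ e, 0 ≤ t e) (x c d : ℤ) : 0 ≤ vseg t x c d :=
  Finset.sum_nonneg fun _ _ => ht _

theorem bnet_hseg_le (ht : ∀ e, 0 ≤ t e) {a b u v : ℤ} (y : ℤ) (h1 : a ≤ u) (h2 : v ≤ b) :
    hseg t u v y ≤ hseg t a b y :=
  Finset.sum_le_sum_of_subset_of_nonneg (Finset.Ico_subset_Ico h1 h2) fun _ _ _ => ht _

theorem bnet_vseg_le (ht : ∀ e, 0 ≤ t e) {a b u v : ℤ} (x : ℤ) (h1 : a ≤ u) (h2 : v ≤ b) :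
    vseg t x u v ≤ vseg t x a b :=
  Finset.sum_le_sum_of_subset_of_nonneg (Finset.Ico_subset_Ico h1 h2) fun _ _ _ => ht _

theorem bnet_hseg_shift (v : V) (a b y : ℤ) :
    hseg (shift v t) a b y = hseg t (a + v.1) (b + v.1) (y + v.2) := by
  unfold hseg
  rw [← Finset.sum_Ico_add' (fun k => t s((k, y + v.2), (k + 1, y + v.2))) a b v.1]
  refine Finset.sum_congr rfl fun k _ => ?_
  rw [shift_apply]
  have h1 : ((k, y) : V) + v = (k + v.1, y + v.2) := rfl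
  have h2 : ((k + 1, y) : V) + v = (k + v.1 + 1, y + v.2) := by
    ext
    · simp only [Prod.fst_add]; ring
    · simp only [Prod.snd_add]
  rw [h1, h2]

theorem bnet_vseg_shift (v : V) (x c d : ℤ) :
    vseg (shift v t) x c d = vseg t (x + v.1) (c + v.2) (d + v.2) := by
  unfold vseg
  rw [← Finset.sum_Ico_add' (fun k => t s((x + v.1, k), (x + v.1, k + 1))) c d v.2]
  refine Finset.sum_congr rfl fun k _ => ?_
  rw [shift_apply]
  have h1 : ((x, k) : V) + v = (x + v.1, k + v.2) := rfl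
  have h2 : ((x, k + 1) : V) + v = (x + v.1, k + v.2 + 1) := by
    ext
    · simp only [Prod.fst_add]
    · simp only [Prod.snd_add]; ring
  rw [h1, h2]

theorem bnet_hseg_congr {t' : Env} (h : ∀ e ∈ edgesIn S, t e = t' e) {a b y : ℤ}
    (hS : ∀ k, a ≤ k → k ≤ b → (k, y) ∈ S) : hseg t a b y = hseg t' a b y := by
  unfold hseg
  refine Finset.sum_congr rfl fun k hk => h _ ?_
  rw [Finset.mem_Ico] at hk
  intro v hv
  rcases Sym2.mem_iff.1 hv with rfl | rfl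
  · exact hS _ hk.1 hk.2.le
  · exact hS _ (by omega) (by omega)

theorem bnet_vseg_congr {t' : Env} (h : ∀ e ∈ edgesIn S, t e = t' e) {x c d : ℤ}
    (hS : ∀ k, c ≤ k → k ≤ d → (x, k) ∈ S) : vseg t x c d = vseg t' x c d := by
  unfold vseg
  refine Finset.sum_congr rfl fun k hk => h _ ?_
  rw [Finset.mem_Ico] at hk
  intro v hv
  rcases Sym2.mem_iff.1 hv with rfl | rfl
  · exact hS _ hk.1 hk.2.le
  · exact hS _ (by omega) (by omega)

theorem bnet_mem {x v : V} {r : ℤ} (h1 : x.1 - r ≤ v.1) (h2 : v.1 ≤ x.1 + r) (h3 : x.2 - r ≤ v.2)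
    (h4 : v.2 ≤ x.2 + r) (h5 : v.1 ≠ x.1 ∨ v.2 ≠ x.2) : v ∈ ball x r \ {x} := by
  refine ⟨bpath_mem_ball.2 ⟨⟨h1, h2⟩, h3, h4⟩, ?_⟩
  rintro rfl
  simp at h5

theorem Yv_nonneg (ht : ∀ e, 0 ≤ t e) (x : V) : 0 ≤ Yv K t x := by
  unfold Yv
  refine add_nonneg (add_nonneg (add_nonneg ?_ ?_) ?_) ?_
  · exact Real.iInf_nonneg fun _ => bnet_hseg_nonneg ht _ _ _
  · exact Real.iInf_nonneg fun _ => bnet_hseg_nonneg ht _ _ _
  · exact Real.iInf_nonneg fun _ => bnet_vseg_nonneg ht _ _ _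
  · exact Real.iInf_nonneg fun _ => bnet_vseg_nonneg ht _ _ _

theorem Zv_nonneg (ht : ∀ e, 0 ≤ t e) (x : V) : 0 ≤ Zv K t x := by
  unfold Zv
  exact le_min (le_min (bnet_hseg_nonneg ht _ _ _) (bnet_hseg_nonneg ht _ _ _))
    (le_min (bnet_vseg_nonneg ht _ _ _) (bnet_vseg_nonneg ht _ _ _))

theorem measurable_Yv (K : ℕ) (x : V) : Measurable fun t => Yv K t x := by
  unfold Yv
  refine Measurable.add (Measurable.add (Measurable.add ?_ ?_) ?_) ?_
  · exact Measurable.iInf fun _ => measurable_hseg _ _ _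
  · exact Measurable.iInf fun _ => measurable_hseg _ _ _
  · exact Measurable.iInf fun _ => measurable_vseg _ _ _
  · exact Measurable.iInf fun _ => measurable_vseg _ _ _

theorem measurable_Zv (K : ℕ) (x : V) : Measurable fun t => Zv K t x := by
  unfold Zv
  exact ((measurable_hseg _ _ _).min (measurable_hseg _ _ _)).min
    ((measurable_vseg _ _ _).min (measurable_vseg _ _ _))

theorem dependsOnly_Yv (K : ℕ) (x : V) :
    DependsOnly (fun t => Yv K t x) (edgesIn (ball x (3 * K) \ {x})) := by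
  intro t t' h
  have hj : ∀ j : Fin K, (0 : ℤ) ≤ ((j : ℕ) : ℤ) ∧ ((j : ℕ) : ℤ) < K := fun j =>
    ⟨by positivity, by exact_mod_cast j.2⟩
  show Yv K t x = Yv K t' x
  unfold Yv
  congr 1
  congr 1
  congr 1
  · refine iInf_congr fun j => bnet_hseg_congr h fun k h1 h2 => ?_
    have := hj j
    apply bnet_mem <;> dsimp only <;> omega
  · refine iInf_congr fun j => bnet_hseg_congr h fun k h1 h2 => ?_
    have := hj j
    apply bnet_mem <;> dsimp only <;> omega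
  · refine iInf_congr fun j => bnet_vseg_congr h fun k h1 h2 => ?_
    have := hj j
    apply bnet_mem <;> dsimp only <;> omega
  · refine iInf_congr fun j => bnet_vseg_congr h fun k h1 h2 => ?_
    have := hj j
    apply bnet_mem <;> dsimp only <;> omega

theorem dependsOnly_Zv (K : ℕ) (x : V) : DependsOnly (fun t => Zv K t x) (edgesIn (ball x K)) := by
  intro t t' h
  show Zv K t x = Zv K t' x
  unfold Zv
  congr 1
  · congr 1
    · refine bnet_hseg_congr h fun k h1 h2 => bpath_mem_ball.2 ?_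
      dsimp only; omega
    · refine bnet_hseg_congr h fun k h1 h2 => bpath_mem_ball.2 ?_
      dsimp only; omega
  · congr 1
    · refine bnet_vseg_congr h fun k h1 h2 => bpath_mem_ball.2 ?_
      dsimp only; omega
    · refine bnet_vseg_congr h fun k h1 h2 => bpath_mem_ball.2 ?_
      dsimp only; omega

theorem Yv_shift (v x : V) : Yv K (shift v t) x = Yv K t (x + v) := by
  unfold Yv
  simp only [bnet_hseg_shift, bnet_vseg_shift, Prod.fst_add, Prod.snd_add]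
  congr 1
  congr 1
  congr 1
  · refine iInf_congr fun j => ?_
    congr 1 <;> ring
  · refine iInf_congr fun j => ?_
    congr 1 <;> ring
  · refine iInf_congr fun j => ?_
    congr 1 <;> ring
  · refine iInf_congr fun j => ?_
    congr 1 <;> ring

theorem Zv_shift (v x : V) : Zv K (shift v t) x = Zv K t (x + v) := by
  unfold Zv
  simp only [bnet_hseg_shift, bnet_vseg_shift, Prod.fst_add, Prod.snd_add]
  congr 1
  · congr 1
    · congr 1; ring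
    · congr 1; ring
  · congr 1
    · congr 1; ring
    · congr 1; ring


/-- `N` is a `#` of `x`: a set containing four full segments, any two of its points are joined inside
`N` at cost `≤ Yv` -/
def IsHash (K : ℕ) (t : Env) (x : V) (N : Set V) : Prop :=
  N ⊆ ball x (3 * K) \ {x} ∧ (∀ a ∈ N, ∀ b ∈ N, Conn N a b ∧ TS t N a b ≤ Yv K t x) ∧
    ∃ j1 j2 j3 j4 : ℤ, 1 ≤ j1 ∧ j1 ≤ K ∧ 1 ≤ j2 ∧ j2 ≤ K ∧ 1 ≤ j3 ∧ j3 ≤ K ∧ 1 ≤ j4 ∧ j4 ≤ K ∧
      ∀ s : ℤ, |s| ≤ 3 * K → (x.1 + s, x.2 + j1) ∈ N ∧ (x.1 + s, x.2 - j2) ∈ N ∧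
        (x.1 + j3, x.2 + s) ∈ N ∧ (x.1 - j4, x.2 + s) ∈ N

theorem bnet_trans (ht : ∀ e, 0 ≤ t e) {a b c : V} {r s : ℝ} (h : Conn S a b ∧ TS t S a b ≤ r)
    (h' : Conn S b c ∧ TS t S b c ≤ s) : Conn S a c ∧ TS t S a c ≤ r + s :=
  ⟨h.1.trans h'.1, (TS_triangle ht h.1 h'.1).trans (add_le_add h.2 h'.2)⟩

theorem bnet_symm {a b : V} {r : ℝ} (h : Conn S a b ∧ TS t S a b ≤ r) :
    Conn S b a ∧ TS t S b a ≤ r :=
  ⟨h.1.symm, by rw [TS_comm]; exact h.2⟩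

theorem bnet_le {a b : V} {r s : ℝ} (h : Conn S a b ∧ TS t S a b ≤ r) (hr : r ≤ s) :
    Conn S a b ∧ TS t S a b ≤ s :=
  ⟨h.1, h.2.trans hr⟩

theorem bnet_mono (ht : ∀ e, 0 ≤ t e) {S' : Set V} (hS : S ⊆ S') {a b : V} {r : ℝ}
    (h : Conn S a b ∧ TS t S a b ≤ r) : Conn S' a b ∧ TS t S' a b ≤ r :=
  ⟨h.1.mono hS, (TS_anti ht hS h.1).trans h.2⟩

theorem bnet_h (ht : ∀ e, 0 ≤ t e) {a b y : ℤ} (hS : ∀ k, a ≤ k → k ≤ b → (k, y) ∈ S) (u v : ℤ)
    (h1 : a ≤ u) (h2 : u ≤ b) (h3 : a ≤ v) (h4 : v ≤ b) :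
    Conn S (u, y) (v, y) ∧ TS t S (u, y) (v, y) ≤ hseg t a b y := by
  have key : ∀ u v : ℤ, a ≤ u → u ≤ v → v ≤ b →
      Conn S (u, y) (v, y) ∧ TS t S (u, y) (v, y) ≤ hseg t a b y := by
    intro u v h1 h2 h3
    have hm : ∀ k, u ≤ k → k ≤ v → (k, y) ∈ S := fun k a b => hS k (by omega) (by omega)
    exact ⟨(pathIn_hseg h2 hm).conn, (TS_le_hseg ht h2 hm).trans (bnet_hseg_le ht y h1 h3)⟩
  rcases le_total u v with h | h
  · exact key u v h1 h h4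
  · exact bnet_symm (key v u h3 h h2)

theorem bnet_v (ht : ∀ e, 0 ≤ t e) {a b x : ℤ} (hS : ∀ k, a ≤ k → k ≤ b → (x, k) ∈ S) (u v : ℤ)
    (h1 : a ≤ u) (h2 : u ≤ b) (h3 : a ≤ v) (h4 : v ≤ b) :
    Conn S (x, u) (x, v) ∧ TS t S (x, u) (x, v) ≤ vseg t x a b := by
  have key : ∀ u v : ℤ, a ≤ u → u ≤ v → v ≤ b →
      Conn S (x, u) (x, v) ∧ TS t S (x, u) (x, v) ≤ vseg t x a b := by
    intro u v h1 h2 h3
    have hm : ∀ k, u ≤ k → k ≤ v → (x, k) ∈ S := fun k a b => hS k (by omega) (by omega)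
    exact ⟨(pathIn_vseg h2 hm).conn, (TS_le_vseg ht h2 hm).trans (bnet_vseg_le ht x h1 h3)⟩
  rcases le_total u v with h | h
  · exact key u v h1 h h4
  · exact bnet_symm (key v u h3 h h2)

/-- the union of two horizontal and two vertical segments -/
def bnet_N (a b c d y1 y2 x1 x2 : ℤ) : Set V :=
  {v | (a ≤ v.1 ∧ v.1 ≤ b ∧ (v.2 = y1 ∨ v.2 = y2)) ∨ (c ≤ v.2 ∧ v.2 ≤ d ∧ (v.1 = x1 ∨ v.1 = x2))}

theorem bnet_join (ht : ∀ e, 0 ≤ t e) {a b c d y1 y2 x1 x2 : ℤ} (hy1 : c ≤ y1 ∧ y1 ≤ d)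
    (hy2 : c ≤ y2 ∧ y2 ≤ d) (hx1 : a ≤ x1 ∧ x1 ≤ b) (hx2 : a ≤ x2 ∧ x2 ≤ b) :
    ∀ p ∈ bnet_N a b c d y1 y2 x1 x2, ∀ q ∈ bnet_N a b c d y1 y2 x1 x2,
      Conn (bnet_N a b c d y1 y2 x1 x2) p q ∧ TS t (bnet_N a b c d y1 y2 x1 x2) p q ≤
        hseg t a b y1 + hseg t a b y2 + vseg t x1 c d + vseg t x2 c d := by
  have H1 := bnet_h (S := bnet_N a b c d y1 y2 x1 x2) ht (a := a) (b := b) (y := y1)
    fun k h1 h2 => Or.inl ⟨h1, h2, Or.inl rfl⟩
  have H2 := bnet_h (S := bnet_N a b c d y1 y2 x1 x2) ht (a := a) (b := b) (y := y2)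
    fun k h1 h2 => Or.inl ⟨h1, h2, Or.inr rfl⟩
  have V1 := bnet_v (S := bnet_N a b c d y1 y2 x1 x2) ht (a := c) (b := d) (x := x1)
    fun k h1 h2 => Or.inr ⟨h1, h2, Or.inl rfl⟩
  have V2 := bnet_v (S := bnet_N a b c d y1 y2 x1 x2) ht (a := c) (b := d) (x := x2)
    fun k h1 h2 => Or.inr ⟨h1, h2, Or.inr rfl⟩
  have n1 := bnet_hseg_nonneg ht a b y1
  have n2 := bnet_hseg_nonneg ht a b y2
  have n3 := bnet_vseg_nonneg ht x1 c d
  have n4 := bnet_vseg_nonneg ht x2 c d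
  obtain ⟨hy1, hy1'⟩ := hy1
  obtain ⟨hy2, hy2'⟩ := hy2
  obtain ⟨hx1, hx1'⟩ := hx1
  obtain ⟨hx2, hx2'⟩ := hx2
  rintro ⟨p1, p2⟩ hp ⟨q1, q2⟩ hq
  simp only [bnet_N, Set.mem_ofPred_eq] at hp hq
  rcases hp with ⟨hp, hp', rfl | rfl⟩ | ⟨hp, hp', rfl | rfl⟩ <;>
    rcases hq with ⟨hq, hq', rfl | rfl⟩ | ⟨hq, hq', rfl | rfl⟩
  · exact bnet_le (H1 _ _ hp hp' hq hq') (by linarith)
  · exact bnet_le (bnet_trans ht (bnet_trans ht (H1 _ _ hp hp' hx1 hx1') (V1 _ _ hy1 hy1' hy2 hy2'))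
      (H2 _ _ hx1 hx1' hq hq')) (by linarith)
  · exact bnet_le (bnet_trans ht (H1 _ _ hp hp' hx1 hx1') (V1 _ _ hy1 hy1' hq hq')) (by linarith)
  · exact bnet_le (bnet_trans ht (H1 _ _ hp hp' hx2 hx2') (V2 _ _ hy1 hy1' hq hq')) (by linarith)
  · exact bnet_le (bnet_trans ht (bnet_trans ht (H2 _ _ hp hp' hx1 hx1') (V1 _ _ hy2 hy2' hy1 hy1'))
      (H1 _ _ hx1 hx1' hq hq')) (by linarith)
  · exact bnet_le (H2 _ _ hp hp' hq hq') (by linarith)
  · exact bnet_le (bnet_trans ht (H2 _ _ hp hp' hx1 hx1') (V1 _ _ hy2 hy2' hq hq')) (by linarith)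
  · exact bnet_le (bnet_trans ht (H2 _ _ hp hp' hx2 hx2') (V2 _ _ hy2 hy2' hq hq')) (by linarith)
  · exact bnet_le (bnet_trans ht (V1 _ _ hp hp' hy1 hy1') (H1 _ _ hx1 hx1' hq hq')) (by linarith)
  · exact bnet_le (bnet_trans ht (V1 _ _ hp hp' hy2 hy2') (H2 _ _ hx1 hx1' hq hq')) (by linarith)
  · exact bnet_le (V1 _ _ hp hp' hq hq') (by linarith)
  · exact bnet_le (bnet_trans ht (bnet_trans ht (V1 _ _ hp hp' hy1 hy1') (H1 _ _ hx1 hx1' hx2 hx2'))
      (V2 _ _ hy1 hy1' hq hq')) (by linarith)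
  · exact bnet_le (bnet_trans ht (V2 _ _ hp hp' hy1 hy1') (H1 _ _ hx2 hx2' hq hq')) (by linarith)
  · exact bnet_le (bnet_trans ht (V2 _ _ hp hp' hy2 hy2') (H2 _ _ hx2 hx2' hq hq')) (by linarith)
  · exact bnet_le (bnet_trans ht (bnet_trans ht (V2 _ _ hp hp' hy1 hy1') (H1 _ _ hx2 hx2' hx1 hx1'))
      (V1 _ _ hy1 hy1' hq hq')) (by linarith)
  · exact bnet_le (V2 _ _ hp hp' hq hq') (by linarith)

theorem bnet_attain (hK : 1 ≤ K) (f : ℤ → ℝ) :
    ∃ j : ℤ, 1 ≤ j ∧ j ≤ K ∧ (⨅ l : Fin K, f (((l : ℕ) : ℤ) + 1)) = f j := by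
  have : Nonempty (Fin K) := ⟨⟨0, hK⟩⟩
  obtain ⟨l, hl⟩ := exists_eq_ciInf_of_finite (f := fun l : Fin K => f (((l : ℕ) : ℤ) + 1))
  have := l.2
  exact ⟨((l : ℕ) : ℤ) + 1, by omega, by omega, hl.symm⟩

theorem exists_hash (hK : 1 ≤ K) (ht : ∀ e, 0 ≤ t e) (x : V) : ∃ N, IsHash K t x N := by
  obtain ⟨j1, h1, h1', e1⟩ := bnet_attain hK fun j => hseg t (x.1 - 3 * K) (x.1 + 3 * K) (x.2 + j)
  obtain ⟨j2, h2, h2', e2⟩ := bnet_attain hK fun j => hseg t (x.1 - 3 * K) (x.1 + 3 * K) (x.2 - j)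
  obtain ⟨j3, h3, h3', e3⟩ := bnet_attain hK fun j => vseg t (x.1 + j) (x.2 - 3 * K) (x.2 + 3 * K)
  obtain ⟨j4, h4, h4', e4⟩ := bnet_attain hK fun j => vseg t (x.1 - j) (x.2 - 3 * K) (x.2 + 3 * K)
  refine ⟨bnet_N (x.1 - 3 * K) (x.1 + 3 * K) (x.2 - 3 * K) (x.2 + 3 * K) (x.2 + j1) (x.2 - j2)
    (x.1 + j3) (x.1 - j4), ?_, ?_, j1, j2, j3, j4, h1, h1', h2, h2', h3, h3', h4, h4', ?_⟩
  · intro v hv
    simp only [bnet_N, Set.mem_ofPred_eq] at hv
    apply bnet_mem <;> omega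
  · unfold Yv
    rw [e1, e2, e3, e4]
    apply bnet_join ht <;> omega
  · intro s hs
    rw [abs_le] at hs
    refine ⟨Or.inl ⟨?_, ?_, Or.inl rfl⟩, Or.inl ⟨?_, ?_, Or.inr rfl⟩, Or.inr ⟨?_, ?_, Or.inl rfl⟩,
      Or.inr ⟨?_, ?_, Or.inr rfl⟩⟩ <;> dsimp only <;> omega

theorem IsHash.inter_nonempty {x y : V} {N N' : Set V} (h : IsHash K t x N) (h' : IsHash K t y N')
    (hxy : nrm (y - x) ≤ K) : (N ∩ N').Nonempty := by
  obtain ⟨-, -, j1, j2, j3, j4, h1, h1', -, -, -, -, -, -, hN⟩ := h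
  obtain ⟨-, -, l1, l2, l3, l4, -, -, -, -, h3, h3', -, -, hN'⟩ := h'
  have hb : y ∈ ball x K := hxy
  rw [bpath_mem_ball] at hb
  have a1 := (hN (y.1 + l3 - x.1) (abs_le.2 ⟨by omega, by omega⟩)).1
  have a2 := (hN' (x.2 + j1 - y.2) (abs_le.2 ⟨by omega, by omega⟩)).2.2.1
  refine ⟨(y.1 + l3, x.2 + j1), ?_, ?_⟩
  · convert a1 using 2; ring
  · convert a2 using 2; ring

/-- a path from `x` to the outside of `ball x K` meets the `#` (it leaves the rectangle bounded by it) -/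
theorem IsHash.meets {x : V} {N : Set V} (h : IsHash K t x N) {p : ℤ → V} {i j : ℤ}
    (hp : PathIn S p i j) (hi : p i = x) (hj : (K : ℤ) ≤ nrm (p j - x)) :
    ∃ k, i < k ∧ k ≤ j ∧ p k ∈ N := by
  obtain ⟨-, -, j1, j2, j3, j4, h1, h1', h2, h2', h3, h3', h4, h4', hN⟩ := h
  have hg : Lip1 fun v : V => max (max (v.2 - (x.2 + j1)) ((x.2 - j2) - v.2))
      (max (v.1 - (x.1 + j3)) ((x.1 - j4) - v.1)) := by
    intro u v huv
    rw [adj_iff] at huv
    dsimp only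
    omega
  have hj' : (K : ℤ) ≤ max |(p j).1 - x.1| |(p j).2 - x.2| := hj
  obtain ⟨k, hk1, hk2, hk, -⟩ := hp.exists_first hg (c := 0) (by rw [hi]; omega) (by
    rcases abs_cases ((p j).1 - x.1) with h | h <;> rcases abs_cases ((p j).2 - x.2) with h' | h' <;>
      omega)
  refine ⟨k, ?_, hk2, ?_⟩
  · rcases hk1.lt_or_eq with h | h
    · exact h
    · subst h
      rw [hi] at hk
      omega
  · have a1 := hN ((p k).1 - x.1) (abs_le.2 ⟨by omega, by omega⟩)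
    have a2 := hN ((p k).2 - x.2) (abs_le.2 ⟨by omega, by omega⟩)
    have hc : (p k).2 = x.2 + j1 ∨ (p k).2 = x.2 - j2 ∨ (p k).1 = x.1 + j3 ∨ (p k).1 = x.1 - j4 := by
      omega
    rcases hc with hc | hc | hc | hc
    · have : p k = (x.1 + ((p k).1 - x.1), x.2 + j1) := Prod.ext (by dsimp only; omega) hc
      rw [this]; exact a1.1
    · have : p k = (x.1 + ((p k).1 - x.1), x.2 - j2) := Prod.ext (by dsimp only; omega) hc
      rw [this]; exact a1.2.1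
    · have : p k = (x.1 + j3, x.2 + ((p k).2 - x.2)) := Prod.ext hc (by dsimp only; omega)
      rw [this]; exact a2.2.2.1
    · have : p k = (x.1 - j4, x.2 + ((p k).2 - x.2)) := Prod.ext hc (by dsimp only; omega)
      rw [this]; exact a2.2.2.2

theorem IsHash.reach (ht : ∀ e, 0 ≤ t e) {x : V} {N : Set V} (h : IsHash K t x N) :
    ∃ a ∈ N, a ∈ ball x K ∧ TS t (ball x K) x a ≤ Zv K t x := by
  obtain ⟨-, -, j1, j2, j3, j4, h1, h1', h2, h2', h3, h3', h4, h4', hN⟩ := h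
  obtain ⟨x1, x2⟩ := x
  obtain ⟨a1, a2, a3, a4⟩ := hN 0 (by simp)
  simp only [add_zero] at a1 a2 a3 a4
  unfold Zv
  dsimp only
  rcases min_choice (min (hseg t x1 (x1 + K) x2) (hseg t (x1 - K) x1 x2))
    (min (vseg t x1 x2 (x2 + K)) (vseg t x1 (x2 - K) x2)) with h | h <;> rw [h]
  · rcases min_choice (hseg t x1 (x1 + K) x2) (hseg t (x1 - K) x1 x2) with h | h <;> rw [h]
    · refine ⟨_, a3, bpath_mem_ball.2 (by dsimp only; omega), (bnet_h ht (fun k _ _ => ?_) _ _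
        (by omega) (by omega) (by omega) (by omega)).2⟩
      exact bpath_mem_ball.2 (by dsimp only; omega)
    · refine ⟨_, a4, bpath_mem_ball.2 (by dsimp only; omega), (bnet_h ht (fun k _ _ => ?_) _ _
        (by omega) (by omega) (by omega) (by omega)).2⟩
      exact bpath_mem_ball.2 (by dsimp only; omega)
  · rcases min_choice (vseg t x1 x2 (x2 + K)) (vseg t x1 (x2 - K) x2) with h | h <;> rw [h]
    · refine ⟨_, a1, bpath_mem_ball.2 (by dsimp only; omega), (bnet_v ht (fun k _ _ => ?_) _ _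
        (by omega) (by omega) (by omega) (by omega)).2⟩
      exact bpath_mem_ball.2 (by dsimp only; omega)
    · refine ⟨_, a2, bpath_mem_ball.2 (by dsimp only; omega), (bnet_v ht (fun k _ _ => ?_) _ _
        (by omega) (by omega) (by omega) (by omega)).2⟩
      exact bpath_mem_ball.2 (by dsimp only; omega)

/-- bypass of a vertex in the middle of a path -/
theorem bypass (hK : 1 ≤ K) (ht : ∀ e, 0 ≤ t e) {p : ℤ → V} {i j k : ℤ} (hp : PathIn S p i j)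
    (hik : i ≤ k) (hkj : k ≤ j) (hi : (K : ℤ) ≤ nrm (p i - p k)) (hj : (K : ℤ) ≤ nrm (p j - p k)) :
    ∃ i' j', i ≤ i' ∧ i' < k ∧ k < j' ∧ j' ≤ j ∧ Conn (ball (p k) (3 * K) \ {p k}) (p i') (p j') ∧
      TS t (ball (p k) (3 * K) \ {p k}) (p i') (p j') ≤ Yv K t (p k) := by
  obtain ⟨N, hN⟩ := exists_hash hK ht (p k)
  obtain ⟨j', a1, a2, a3⟩ := hN.meets (hp.sub hik hkj le_rfl) rfl hj
  obtain ⟨l, b1, b2, b3⟩ := hN.meets (hp.sub le_rfl hik hkj).rev (by simp) (by simpa using hi)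
  exact ⟨-l, j', by omega, by omega, a1, a2, bnet_mono ht hN.1 (hN.2.1 _ b3 _ a3)⟩

/-- chain of `#`s along a guiding path `w` -/
theorem hash_chain (hK : 1 ≤ K) (ht : ∀ e, 0 ≤ t e) {w : ℤ → V} {i j : ℤ} (hw : PathIn Set.univ w i j)
    (hS : ∀ k, i ≤ k → k ≤ j → ball (w k) (3 * K) ⊆ S) {N N' : Set V} (hN : IsHash K t (w i) N)
    (hN' : IsHash K t (w j) N') {a b : V} (ha : a ∈ N) (hb : b ∈ N') :
    Conn S a b ∧ TS t S a b ≤ 2 * ∑ k ∈ Finset.Icc i j, Yv K t (w k) := by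
  have hsub : ∀ k, i ≤ k → k ≤ j → ∀ M, IsHash K t (w k) M → M ⊆ S := fun k h1 h2 M hM =>
    hM.1.trans (Set.sdiff_subset.trans (hS k h1 h2))
  have hij := hw.1
  have key : ∀ m, i ≤ m → m ≤ j → ∀ M, IsHash K t (w m) M → ∀ b ∈ M,
      Conn S a b ∧ TS t S a b ≤ 2 * ∑ k ∈ Finset.Icc i m, Yv K t (w k) := by
    intro m hm
    induction m, hm using Int.leInduction with
    | base =>
      intro _ M hM b hb
      obtain ⟨c, hc, hc'⟩ := hN.inter_nonempty hM (by simp [nrm])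
      refine bnet_le (bnet_trans ht (bnet_mono ht (hsub i le_rfl hij N hN) (hN.2.1 a ha c hc))
        (bnet_mono ht (hsub i le_rfl hij M hM) (hM.2.1 c hc' b hb))) ?_
      rw [Finset.Icc_self, Finset.sum_singleton]
      linarith
    | succ m hm ih =>
      intro hmj M hM b hb
      obtain ⟨M', hM'⟩ := exists_hash hK ht (w m)
      have hadj := adj_nrm (hw.2.2 m hm (by omega))
      obtain ⟨c, hc, hc'⟩ := hM'.inter_nonempty hM (by omega)
      refine bnet_le (bnet_trans ht (ih (by omega) M' hM' c hc)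
        (bnet_mono ht (hsub (m + 1) (by omega) hmj M hM) (hM.2.1 c hc' b hb))) ?_
      have e : Finset.Icc i (m + 1) = insert (m + 1) (Finset.Icc i m) := by
        ext k
        simp only [Finset.mem_Icc, Finset.mem_insert]
        omega
      rw [e, Finset.sum_insert (by simp)]
      have := Yv_nonneg (K := K) ht (w (m + 1))
      linarith
  exact key j hij le_rfl N' hN' b hb

theorem TS_le_ZY (hK : 1 ≤ K) (ht : ∀ e, 0 ≤ t e) {w : ℤ → V} {i j : ℤ} (hw : PathIn Set.univ w i j)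
    (hS : ∀ k, i ≤ k → k ≤ j → ball (w k) (3 * K) ⊆ S) :
    Conn S (w i) (w j) ∧ TS t S (w i) (w j) ≤
      Zv K t (w i) + Zv K t (w j) + 2 * ∑ k ∈ Finset.Icc i j, Yv K t (w k) := by
  have hij := hw.1
  obtain ⟨N, hN⟩ := exists_hash hK ht (w i)
  obtain ⟨N', hN'⟩ := exists_hash hK ht (w j)
  have hb : ∀ x : V, ball x K ⊆ ball x (3 * K) := fun x v hv => by
    rw [bpath_mem_ball] at hv ⊢
    omega
  have h0 : ∀ x : V, x ∈ ball x K := fun x => by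
    rw [bpath_mem_ball]
    omega
  obtain ⟨a, ha, ha', ha''⟩ := hN.reach ht
  obtain ⟨b, hb1, hb', hb''⟩ := hN'.reach ht
  have e1 := bnet_mono ht ((hb _).trans (hS i le_rfl hij)) ⟨conn_ball (h0 _) ha', ha''⟩
  have e2 := bnet_mono ht ((hb _).trans (hS j hij le_rfl)) ⟨conn_ball (h0 _) hb', hb''⟩
  refine bnet_le (bnet_trans ht (bnet_trans ht e1 (hash_chain hK ht hw hS hN hN' ha hb1))
    (bnet_symm e2)) ?_
  linarith


end Crest.Agent.R151
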