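import Crest.Agent.R151.Defs

/-! R151 base: deterministic path API. -/

set_option autoImplicit false
open MeasureTheory ProbabilityTheory Crest.ProbabilityR.FirstPassage Filter Topology
open scoped ENNReal

namespace Crest.Agent.R151

variable {S S' : Set V} {p q : ℤ → V} {i j k i' j' : ℤ} {t t' : Env}

theorem adj_iff (x y : V) : Adj x y ↔
    (x.1 = y.1 ∧ (y.2 = x.2 + 1 ∨ x.2 = y.2 + 1)) ∨ (x.2 = y.2 ∧ (y.1 = x.1 + 1 ∨ x.1 = y.1 + 1)) := by
  simp only [Adj, squareLattice, SimpleGraph.fromRel_adj, ne_eq, Prod.ext_iff]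
  omega

theorem nrm_nonneg (x : V) : 0 ≤ nrm x := by
  exact le_max_of_le_left (abs_nonneg _)
theorem nrm_add_le (x y : V) : nrm (x + y) ≤ nrm x + nrm y := by
  simp only [nrm, Prod.fst_add, Prod.snd_add, abs_eq_max_neg]
  omega
theorem nrm_neg (x : V) : nrm (-x) = nrm x := by
  simp only [nrm, Prod.fst_neg, Prod.snd_neg, abs_neg]
theorem nrm_sub_comm (x y : V) : nrm (x - y) = nrm (y - x) := by
  rw [← nrm_neg, neg_sub]
theorem nrm_eq_zero {x : V} : nrm x = 0 ↔ x = 0 := by
  simp only [nrm, Prod.ext_iff, Prod.fst_zero, Prod.snd_zero, abs_eq_max_neg]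
  omega
theorem norm_toR (x : V) : ‖toR x‖ = (nrm x : ℝ) := by
  simp only [toR, nrm, Prod.norm_def, Real.norm_eq_abs, Int.cast_max, Int.cast_abs]
theorem toR_add (x y : V) : toR (x + y) = toR x + toR y := by
  simp [toR]
theorem toR_sub (x y : V) : toR (x - y) = toR x - toR y := by
  simp [toR]
theorem toR_neg (x : V) : toR (-x) = -toR x := by
  simp [toR]
theorem norm_toR_fl_sub (v : ℝ × ℝ) : ‖toR (fl v) - v‖ ≤ 1 := by
  have h : ∀ a : ℝ, |(⌊a⌋ : ℝ) - a| ≤ 1 := fun a =>
    abs_le.2 ⟨by linarith [Int.lt_floor_add_one a], by linarith [Int.floor_le a]⟩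
  exact max_le (h v.1) (h v.2)
theorem bpath_mem_ball {x v : V} {r : ℤ} : v ∈ ball x r ↔
    (x.1 - r ≤ v.1 ∧ v.1 ≤ x.1 + r) ∧ (x.2 - r ≤ v.2 ∧ v.2 ≤ x.2 + r) := by
  simp only [ball, nrm, Set.mem_ofPred_eq, Prod.fst_sub, Prod.snd_sub, abs_eq_max_neg]
  omega
theorem ball_finite (x : V) (r : ℤ) : (ball x r).Finite := by
  exact ((Set.finite_Icc (x.1 - r) (x.1 + r)).prod (Set.finite_Icc (x.2 - r) (x.2 + r))).subset
    fun v hv => bpath_mem_ball.1 hv
theorem box_finite (a b c d : ℤ) : (box a b c d).Finite := by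
  exact ((Set.finite_Icc a b).prod (Set.finite_Icc c d)).subset
    fun v hv => ⟨⟨hv.1, hv.2.1⟩, hv.2.2⟩
theorem ncard_ball_le (x : V) (r : ℕ) : (ball x r).ncard ≤ (2 * r + 1) ^ 2 := by
  have h : ball x r = ↑(Finset.Icc (x.1 - r) (x.1 + r) ×ˢ Finset.Icc (x.2 - r) (x.2 + r)) := by
    ext v
    simp only [bpath_mem_ball, Finset.mem_coe, Finset.mem_product, Finset.mem_Icc]
  have h2 : ∀ a : ℤ, (Finset.Icc (a - r) (a + r)).card = 2 * r + 1 := fun a => by
    rw [Int.card_Icc]
    omega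
  rw [h, Set.ncard_coe_finset, Finset.card_product, h2, h2, sq]
theorem edgesIn_finite (h : S.Finite) : (edgesIn S).Finite := by
  refine ((h.prod h).image fun p : V × V => s(p.1, p.2)).subset fun e he => ?_
  induction e using Sym2.ind with
  | _ a b => exact ⟨(a, b), ⟨he a (Sym2.mem_mk_left a b), he b (Sym2.mem_mk_right a b)⟩, rfl⟩
theorem disjoint_edgesIn (h : Disjoint S S') : Disjoint (edgesIn S) (edgesIn S') := by
  refine Set.disjoint_left.2 fun e he he' => ?_
  induction e using Sym2.ind with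
  | _ a b => exact Set.disjoint_left.1 h (he a (Sym2.mem_mk_left a b)) (he' a (Sym2.mem_mk_left a b))
theorem adj_nrm {x y : V} (h : Adj x y) : nrm (y - x) = 1 := by
  rw [adj_iff] at h
  simp only [nrm, Prod.fst_sub, Prod.snd_sub, abs_eq_max_neg]
  omega

theorem PathIn.mono (h : PathIn S p i j) (hS : S ⊆ S') : PathIn S' p i j := by
  exact ⟨h.1, fun k h1 h2 => hS (h.2.1 k h1 h2), h.2.2⟩
theorem PathIn.sub (h : PathIn S p i j) (h1 : i ≤ i') (h2 : i' ≤ j') (h3 : j' ≤ j) :
    PathIn S p i' j' := by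
  exact ⟨h2, fun k a b => h.2.1 k (by omega) (by omega), fun k a b => h.2.2 k (by omega) (by omega)⟩
theorem PathIn.restrict (h : PathIn S p i j) (hS : ∀ k, i ≤ k → k ≤ j → p k ∈ S') :
    PathIn S' p i j := by
  exact ⟨h.1, hS, h.2.2⟩
theorem PathIn.congr (h : PathIn S p i j) (hq : ∀ k, i ≤ k → k ≤ j → q k = p k) :
    PathIn S q i j := by
  refine ⟨h.1, fun k a b => hq k a b ▸ h.2.1 k a b, fun k a b => ?_⟩
  rw [hq k a b.le, hq (k + 1) (by omega) (by omega)]
  exact h.2.2 k a b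
theorem PathIn.trans (h : PathIn S p i j) (h' : PathIn S p j k) : PathIn S p i k := by
  refine ⟨h.1.trans h'.1, fun l a b => ?_, fun l a b => ?_⟩
  · rcases le_total l j with c | c
    exacts [h.2.1 l a c, h'.2.1 l c b]
  · rcases lt_or_ge l j with c | c
    exacts [h.2.2 l a c, h'.2.2 l c b]
theorem PathIn.edge_mem (h : PathIn S p i j) (h1 : i ≤ k) (h2 : k < j) : edge p k ∈ edgesIn S := by
  intro v hv
  rcases Sym2.mem_iff.1 hv with rfl | rfl
  exacts [h.2.1 k h1 h2.le, h.2.1 (k + 1) (by omega) (by omega)]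
theorem PathIn.nrm_le (h : PathIn S p i j) : nrm (p j - p i) ≤ j - i := by
  have key : ∀ l, i ≤ l → l ≤ j → nrm (p l - p i) ≤ l - i := by
    intro l hl
    induction l, hl using Int.le_induction with
    | base => intro _; rw [sub_self, sub_self]; exact (nrm_eq_zero.2 rfl).le
    | succ l hl ih =>
      intro h2
      have h3 := nrm_add_le (p (l + 1) - p l) (p l - p i)
      rw [sub_add_sub_cancel, adj_nrm (h.2.2 l hl (by omega))] at h3
      have := ih (by omega)
      omega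
  exact key j h.1 le_rfl
/-- index translation -/
theorem PathIn.reindex (h : PathIn S p i j) (c : ℤ) :
    PathIn S (fun k => p (k + c)) (i - c) (j - c) := by
  refine ⟨by have := h.1; omega, fun k a b => h.2.1 _ (by omega) (by omega), fun k a b => ?_⟩
  have := h.2.2 (k + c) (by omega) (by omega)
  rwa [add_right_comm] at this
theorem PathIn.rev (h : PathIn S p i j) : PathIn S (fun k => p (-k)) (-j) (-i) := by
  refine ⟨by have := h.1; omega, fun k a b => h.2.1 _ (by omega) (by omega), fun k a b => ?_⟩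
  have := (h.2.2 (-(k + 1)) (by omega) (by omega)).symm
  rwa [show -(k + 1) + 1 = -k by ring] at this
theorem PathIn.map {φ : V → V} (hφ : IsAut φ) (h : PathIn S p i j) :
    PathIn (φ '' S) (fun k => φ (p k)) i j := by
  exact ⟨h.1, fun k a b => ⟨_, h.2.1 k a b, rfl⟩, fun k a b => (hφ.adj _ _).2 (h.2.2 k a b)⟩

theorem cost_self : cost t p i i = 0 := by
  simp [cost]
theorem cost_add (h1 : i ≤ j) (h2 : j ≤ k) : cost t p i k = cost t p i j + cost t p j k := by
  rw [cost, cost, cost, ← Finset.sum_union (Finset.Ico_disjoint_Ico_consecutive i j k),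
    Finset.Ico_union_Ico_eq_Ico h1 h2]
theorem cost_succ (h : i ≤ j) : cost t p i (j + 1) = cost t p i j + t (edge p j) := by
  have : Finset.Ico j (j + 1) = {j} := by
    ext l
    simp only [Finset.mem_Ico, Finset.mem_singleton]
    omega
  rw [cost_add h (by omega : j ≤ j + 1), cost.eq_1 t p j, this, Finset.sum_singleton]
theorem cost_nonneg (ht : ∀ e, 0 ≤ t e) : 0 ≤ cost t p i j := by
  exact Finset.sum_nonneg fun _ _ => ht _
theorem cost_sub_le (ht : ∀ e, 0 ≤ t e) (h1 : i ≤ i') (h3 : j' ≤ j) :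
    cost t p i' j' ≤ cost t p i j := by
  exact Finset.sum_le_sum_of_subset_of_nonneg (Finset.Ico_subset_Ico h1 h3) fun _ _ _ => ht _
theorem cost_mono_env (h : ∀ k, i ≤ k → k < j → t (edge p k) ≤ t' (edge p k)) :
    cost t p i j ≤ cost t' p i j := by
  exact Finset.sum_le_sum fun k hk => h k (Finset.mem_Ico.1 hk).1 (Finset.mem_Ico.1 hk).2
theorem cost_congr_env (h : ∀ k, i ≤ k → k < j → t (edge p k) = t' (edge p k)) :
    cost t p i j = cost t' p i j := by
  exact Finset.sum_congr rfl fun k hk => h k (Finset.mem_Ico.1 hk).1 (Finset.mem_Ico.1 hk).2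
theorem cost_congr (hq : ∀ k, i ≤ k → k ≤ j → q k = p k) : cost t q i j = cost t p i j := by
  refine Finset.sum_congr rfl fun k hk => ?_
  have := Finset.mem_Ico.1 hk
  rw [edge, edge, hq k this.1 this.2.le, hq (k + 1) (by omega) (by omega)]
theorem cost_reindex (c : ℤ) : cost t (fun k => p (k + c)) (i - c) (j - c) = cost t p i j := by
  refine Finset.sum_nbij' (fun k => k + c) (fun k => k - c) (fun k hk => ?_) (fun k hk => ?_)
    (fun k _ => by ring) (fun k _ => by ring) fun k _ => ?_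
  · simp only [Finset.mem_Ico] at hk ⊢
    omega
  · simp only [Finset.mem_Ico] at hk ⊢
    omega
  · simp only [edge, add_right_comm k 1 c]
theorem cost_rev : cost t (fun k => p (-k)) (-j) (-i) = cost t p i j := by
  refine Finset.sum_nbij' (fun k => -(k + 1)) (fun k => -(k + 1)) (fun k hk => ?_) (fun k hk => ?_)
    (fun k _ => by ring) (fun k _ => by ring) fun k _ => ?_
  · simp only [Finset.mem_Ico] at hk ⊢
    omega
  · simp only [Finset.mem_Ico] at hk ⊢
    omega
  · simp only [edge, show -(k + 1) + 1 = -k by ring]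
    rw [Sym2.eq_swap]
theorem cost_act (φ : V → V) : cost (act φ t) p i j = cost t (fun k => φ (p k)) i j := by
  rfl

/-- concatenation: follow `p` up to index `j`, then `q` from index `i'` on -/
def glue (p : ℤ → V) (j : ℤ) (q : ℤ → V) (i' : ℤ) : ℤ → V :=
  fun k => if k ≤ j then p k else q (k - j + i')

theorem glue_of_le (h : k ≤ j) : glue p j q i' k = p k := by
  exact if_pos h
theorem glue_of_ge (hpq : p j = q i') (h : j ≤ k) : glue p j q i' k = q (k - j + i') := by
  rcases h.eq_or_lt with rfl | h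
  · rw [glue_of_le le_rfl, hpq, sub_self, zero_add]
  · exact if_neg (not_le.2 h)
theorem PathIn.glue (h : PathIn S p i j) (h' : PathIn S q i' j') (hpq : p j = q i') :
    PathIn S (glue p j q i') i (j + (j' - i')) := by
  refine PathIn.trans (j := j) (h.congr fun k _ b => glue_of_le b) ?_
  have h1 := h'.reindex (i' - j)
  rw [show i' - (i' - j) = j by ring, show j' - (i' - j) = j + (j' - i') by ring] at h1
  refine h1.congr fun k a _ => ?_
  rw [glue_of_ge hpq a]
  congr 1
  ring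
theorem cost_glue (h : i ≤ j) (h' : i' ≤ j') (hpq : p j = q i') :
    cost t (glue p j q i') i (j + (j' - i')) = cost t p i j + cost t q i' j' := by
  rw [cost_add h (by omega : j ≤ j + (j' - i')), cost_congr fun k _ b => glue_of_le b,
    ← cost_reindex (p := q) (i' - j), show i' - (i' - j) = j by ring,
    show j' - (i' - j) = j + (j' - i') by ring]
  congr 1
  refine cost_congr fun k a _ => ?_
  rw [glue_of_ge hpq a]
  congr 1
  ring

/-- `g` changes by at most one along lattice edges -/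
def Lip1 (g : V → ℤ) : Prop := ∀ x y, Adj x y → g y ≤ g x + 1
theorem lip1_fst : Lip1 fun v => v.1 := by
  intro x y h
  rw [adj_iff] at h
  dsimp only
  omega
theorem lip1_snd : Lip1 fun v => v.2 := by
  intro x y h
  rw [adj_iff] at h
  dsimp only
  omega
theorem lip1_neg_fst : Lip1 fun v => -v.1 := by
  intro x y h
  rw [adj_iff] at h
  dsimp only
  omega
theorem lip1_neg_snd : Lip1 fun v => -v.2 := by
  intro x y h
  rw [adj_iff] at h
  dsimp only
  omega
theorem lip1_nrm (x : V) : Lip1 fun v => nrm (v - x) := by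
  intro u v h
  have h1 := nrm_add_le (v - u) (u - x)
  rw [sub_add_sub_cancel, adj_nrm h] at h1
  dsimp only
  omega

/-- first visit to the level `c` -/
theorem PathIn.exists_first {g : V → ℤ} (hg : Lip1 g) (h : PathIn S p i j) {c : ℤ}
    (hi : g (p i) ≤ c) (hj : c ≤ g (p j)) :
    ∃ k, i ≤ k ∧ k ≤ j ∧ g (p k) = c ∧ ∀ l, i ≤ l → l < k → g (p l) < c := by
  obtain ⟨k, ⟨h1, h2, h3⟩, h4⟩ := Int.exists_least_of_bdd (P := fun k => i ≤ k ∧ k ≤ j ∧ c ≤ g (p k))
    ⟨i, fun z hz => hz.1⟩ ⟨j, h.1, le_rfl, hj⟩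
  have h5 : ∀ l, i ≤ l → l < k → g (p l) < c := fun l a b => by
    by_contra hc
    have := h4 l ⟨a, by omega, not_lt.1 hc⟩
    omega
  refine ⟨k, h1, h2, le_antisymm ?_ h3, h5⟩
  rcases h1.eq_or_lt with rfl | h1
  · exact hi
  · have h6 := hg _ _ (h.2.2 (k - 1) (by omega) (by omega))
    rw [sub_add_cancel] at h6
    have := h5 (k - 1) (by omega) (by omega)
    omega
/-- last visit to the level `c` -/
theorem PathIn.exists_last {g : V → ℤ} (hg : Lip1 g) (h : PathIn S p i j) {c : ℤ}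
    (hi : g (p i) ≤ c) (hj : c ≤ g (p j)) :
    ∃ k, i ≤ k ∧ k ≤ j ∧ g (p k) = c ∧ ∀ l, k < l → l ≤ j → c < g (p l) := by
  obtain ⟨k, ⟨h1, h2, h3⟩, h4⟩ := Int.exists_greatest_of_bdd
    (P := fun k => i ≤ k ∧ k ≤ j ∧ g (p k) ≤ c) ⟨j, fun z hz => hz.2.1⟩ ⟨i, le_rfl, h.1, hi⟩
  have h5 : ∀ l, k < l → l ≤ j → c < g (p l) := fun l a b => by
    by_contra hc
    have := h4 l ⟨by omega, b, not_lt.1 hc⟩
    omega
  refine ⟨k, h1, h2, le_antisymm h3 ?_, h5⟩
  rcases h2.eq_or_lt with rfl | h2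
  · exact hj
  · have h6 := hg _ _ (h.2.2 k h1 h2)
    have := h5 (k + 1) (by omega) (by omega)
    omega
/-- the crossing of the rows `a..b`: `j'` is the first visit to row `b`, `i'` the last visit to row `a`
before it -/
theorem PathIn.exists_crossing (h : PathIn S p i j) {a b : ℤ} (hi : (p i).2 ≤ a) (hab : a ≤ b)
    (hj : b ≤ (p j).2) :
    ∃ i' j', i ≤ i' ∧ i' ≤ j' ∧ j' ≤ j ∧ (p i').2 = a ∧ (p j').2 = b ∧ PathIn (S ∩ rows a b) p i' j' ∧
      (∀ l, i ≤ l → l < j' → (p l).2 < b) ∧ (∀ l, i' < l → l ≤ j' → a < (p l).2) := by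
  obtain ⟨j', a1, a2, a3, a4⟩ := h.exists_first lip1_snd (hi.trans hab) hj
  obtain ⟨i', b1, b2, b3, b4⟩ := (h.sub le_rfl a1 a2).exists_last lip1_snd hi (hab.trans a3.ge)
  refine ⟨i', j', b1, b2, a2, b3, a3, (h.sub b1 b2 a2).restrict fun k c1 c2 =>
    ⟨h.2.1 k (by omega) (by omega), ?_, ?_⟩, a4, b4⟩
  · rcases c1.eq_or_lt with rfl | c1
    exacts [b3.ge, (b4 k c1 c2).le]
  · rcases c2.eq_or_lt with rfl | c2
    exacts [a3.le, (a4 k (by omega) c2).le]

theorem edge_injOn (h : Set.InjOn p (Set.Icc i j)) : Set.InjOn (edge p) (Set.Ico i j) := by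
  intro k hk l hl e
  rcases Sym2.eq_iff.1 e with ⟨e1, -⟩ | ⟨e1, e2⟩
  · exact h ⟨hk.1, hk.2.le⟩ ⟨hl.1, hl.2.le⟩ e1
  · have h1 := h ⟨hk.1, hk.2.le⟩ ⟨by have := hl.1; omega, by have := hl.2; omega⟩ e1
    have h2 := h ⟨by have := hk.1; omega, by have := hk.2; omega⟩ ⟨hl.1, hl.2.le⟩ e2
    omega
theorem cost_eq_sum_image (h : Set.InjOn p (Set.Icc i j)) :
    cost t p i j = ∑ e ∈ (Finset.Ico i j).image (edge p), t e := by
  rw [Finset.sum_image (by simpa only [Finset.coe_Ico] using edge_injOn h)]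
  rfl
/-- loop erasure (induction on `j - i`: cut out a loop) -/
theorem PathIn.exists_injOn (h : PathIn S p i j) :
    ∃ q n, PathIn S q 0 n ∧ Set.InjOn q (Set.Icc 0 n) ∧ q 0 = p i ∧ q n = p j ∧ n ≤ j - i ∧
      (∀ k, 0 ≤ k → k ≤ n → ∃ l, i ≤ l ∧ l ≤ j ∧ q k = p l) ∧
      (∀ k, 0 ≤ k → k < n → ∃ l, i ≤ l ∧ l < j ∧ edge q k = edge p l) ∧
      ∀ t : Env, (∀ e, 0 ≤ t e) → cost t q 0 n ≤ cost t p i j := by
  induction hm : (j - i).toNat using Nat.strong_induction_on generalizing p j with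
  | _ m ih =>
  by_cases hinj : Set.InjOn p (Set.Icc i j)
  · have h1 := h.reindex i
    rw [sub_self] at h1
    refine ⟨fun k => p (k + i), j - i, h1, fun a ha b hb e => ?_, by simp, by simp, le_rfl,
      fun k a b => ⟨k + i, by omega, by omega, rfl⟩,
      fun k a b => ⟨k + i, by omega, by omega, by simp only [edge, add_right_comm k 1 i]⟩,
      fun t _ => ?_⟩
    · have := hinj (x₁ := a + i) (x₂ := b + i) ⟨by have := ha.1; omega, by have := ha.2; omega⟩
        ⟨by have := hb.1; omega, by have := hb.2; omega⟩ e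
      omega
    · rw [← cost_reindex (p := p) i, sub_self]
  · obtain ⟨a, b, a1, hab, b2, e⟩ : ∃ a b, i ≤ a ∧ a < b ∧ b ≤ j ∧ p a = p b := by
      simp only [Set.InjOn, not_forall] at hinj
      obtain ⟨a, ha, b, hb, e, hne⟩ := hinj
      rcases lt_or_gt_of_ne hne with c | c
      exacts [⟨a, b, ha.1, c, hb.2, e⟩, ⟨b, a, hb.1, c, ha.2, e.symm⟩]
    have h1 := (h.sub le_rfl a1 (by omega)).glue (h.sub (by omega) b2 le_rfl) e
    obtain ⟨q, n, q1, q2, q3, q4, q5, q6, q7, q8⟩ := ih _ (by omega) h1 rfl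
    refine ⟨q, n, q1, q2, q3.trans (glue_of_le a1), q4.trans ?_, by omega, fun k c1 c2 => ?_,
      fun k c1 c2 => ?_, fun t ht => (q8 t ht).trans ?_⟩
    · rw [glue_of_ge e (by omega)]
      congr 1
      ring
    · obtain ⟨l, l1, l2, l3⟩ := q6 k c1 c2
      rcases le_total l a with c | c
      · exact ⟨l, l1, by omega, l3.trans (glue_of_le c)⟩
      · exact ⟨l - a + b, by omega, by omega, l3.trans (glue_of_ge e c)⟩
    · obtain ⟨l, l1, l2, l3⟩ := q7 k c1 c2
      rcases lt_or_ge l a with c | c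
      · refine ⟨l, l1, by omega, l3.trans ?_⟩
        rw [edge, edge, glue_of_le c.le, glue_of_le (by omega)]
      · refine ⟨l - a + b, by omega, by omega, l3.trans ?_⟩
        rw [edge, edge, glue_of_ge e c, glue_of_ge e (by omega),
          show l + 1 - a + b = l - a + b + 1 by ring]
    · rw [cost_glue a1 b2 e, cost_add a1 (by omega : a ≤ j), cost_add hab.le b2]
      linarith [cost_nonneg (p := p) (i := a) (j := b) ht]
/-- two self-avoiding paths with the same start and the same set of edges coincide -/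
theorem eq_of_edges_eq (hp : PathIn S p i j) (hq : PathIn S' q i' j')
    (ip : Set.InjOn p (Set.Icc i j)) (iq : Set.InjOn q (Set.Icc i' j')) (h0 : p i = q i')
    (he : (Finset.Ico i j).image (edge p) = (Finset.Ico i' j').image (edge q)) :
    j - i = j' - i' ∧ ∀ k, 0 ≤ k → k ≤ j - i → p (i + k) = q (i' + k) := by
  have hn : j - i = j' - i' := by
    have h1 := congrArg Finset.card he
    rw [Finset.card_image_of_injOn (by simpa only [Finset.coe_Ico] using edge_injOn ip),
      Finset.card_image_of_injOn (by simpa only [Finset.coe_Ico] using edge_injOn iq),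
      Int.card_Ico, Int.card_Ico] at h1
    have := hp.1
    have := hq.1
    omega
  refine ⟨hn, ?_⟩
  have key : ∀ k, 0 ≤ k → k ≤ j - i → ∀ l, 0 ≤ l → l ≤ k → p (i + l) = q (i' + l) := by
    intro k hk
    induction k, hk using Int.le_induction with
    | base =>
      intro _ l a b
      obtain rfl : l = 0 := by omega
      simpa using h0
    | succ k hk ih =>
      intro h2 l a b
      replace ih := ih (by omega)
      rcases b.eq_or_lt with rfl | b
      · have h3 : edge p (i + k) ∈ (Finset.Ico i' j').image (edge q) :=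
          he ▸ Finset.mem_image_of_mem _ (Finset.mem_Ico.2 ⟨by omega, by omega⟩)
        obtain ⟨m, hm, e⟩ := Finset.mem_image.1 h3
        rw [Finset.mem_Ico] at hm
        rcases Sym2.eq_iff.1 e with ⟨e1, e2⟩ | ⟨e1, e2⟩
        · have h4 := iq ⟨hm.1, hm.2.le⟩ ⟨by omega, by omega⟩ (e1.trans (ih k hk le_rfl))
          rw [← add_assoc, ← add_assoc, ← e2, h4]
        · have h4 := iq ⟨by omega, by omega⟩ ⟨by omega, by omega⟩ (e2.trans (ih k hk le_rfl))
          have h5 := ih (k - 1) (by omega) (by omega)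
          rw [show i' + (k - 1) = m by omega, e1] at h5
          have := ip ⟨by omega, by omega⟩ ⟨by omega, by omega⟩ h5
          omega
      · exact ih l a (by omega)
  exact fun k a b => key k a b k a le_rfl

/-- straight segments -/
theorem pathIn_hseg {a b y : ℤ} (hab : a ≤ b) (h : ∀ k, a ≤ k → k ≤ b → (k, y) ∈ S) :
    PathIn S (fun k => (k, y)) a b := by
  exact ⟨hab, h, fun k _ _ => (adj_iff _ _).2 (Or.inr ⟨rfl, Or.inl rfl⟩)⟩
theorem pathIn_vseg {x c d : ℤ} (hcd : c ≤ d) (h : ∀ k, c ≤ k → k ≤ d → (x, k) ∈ S) :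
    PathIn S (fun k => (x, k)) c d := by
  exact ⟨hcd, h, fun k _ _ => (adj_iff _ _).2 (Or.inl ⟨rfl, Or.inl rfl⟩)⟩
theorem cost_hseg (a b y : ℤ) : cost t (fun k => (k, y)) a b = hseg t a b y := by
  rfl
theorem cost_vseg (x c d : ℤ) : cost t (fun k => (x, k)) c d = vseg t x c d := by
  rfl
theorem bpath_sign (d : ℤ) : ∃ σ : ℤ, (σ = 1 ∨ σ = -1) ∧ d = σ * |d| := by
  rcases le_total 0 d with h | h
  · exact ⟨1, Or.inl rfl, by rw [abs_of_nonneg h, one_mul]⟩
  · exact ⟨-1, Or.inr rfl, by rw [abs_of_nonpos h]; ring⟩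

/-- the number of horizontal steps among the first `k` steps -/
theorem bpath_stair {a b : ℤ} (ha : 0 ≤ a) (hb : 0 ≤ b) : ∃ u : ℤ → ℤ, u 0 = 0 ∧ u (a + b) = a ∧
    (∀ k, u (k + 1) = u k ∨ u (k + 1) = u k + 1) ∧ ∀ k, 0 ≤ k → k ≤ a + b →
      0 ≤ u k ∧ u k ≤ a ∧ 0 ≤ k - u k ∧ k - u k ≤ b ∧ ∃ s : ℝ, 0 ≤ s ∧ s ≤ 1 ∧
        |(u k : ℝ) - s * a| ≤ 1 ∧ |(k - u k : ℝ) - s * b| ≤ 1 := by
  rcases (add_nonneg ha hb).eq_or_lt with hn | hn
  · obtain rfl : a = 0 := by omega
    obtain rfl : b = 0 := by omega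
    refine ⟨fun _ => 0, rfl, rfl, fun _ => Or.inl rfl, fun k h1 h2 => ?_⟩
    obtain rfl : k = 0 := by omega
    exact ⟨le_rfl, le_rfl, le_rfl, le_rfl, 0, le_rfl, zero_le_one, by simp, by simp⟩
  have h1 : ∀ k : ℤ, (a + b) * (k * a / (a + b)) ≤ k * a := fun k => Int.mul_ediv_self_le hn.ne'
  have h2 : ∀ k : ℤ, k * a < (a + b) * (k * a / (a + b)) + (a + b) := fun k =>
    Int.lt_mul_ediv_self_add hn
  refine ⟨fun k => k * a / (a + b), by simp, Int.mul_ediv_cancel_left _ hn.ne', fun k => ?_,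
    fun k k1 k2 => ?_⟩
  · have a1 := h1 k
    have a2 := h2 k
    have a3 := h1 (k + 1)
    have a4 := h2 (k + 1)
    beta_reduce
    generalize k * a / (a + b) = u at *
    generalize (k + 1) * a / (a + b) = u' at *
    have b1 : u' < u + 2 := by nlinarith
    have b2 : u < u' + 1 := by nlinarith
    omega
  · have a1 := h1 k
    have a2 := h2 k
    beta_reduce
    generalize k * a / (a + b) = u at *
    have b1 : -1 < u := by nlinarith
    have b2 : u ≤ a := by nlinarith
    have b3 : u ≤ k := by nlinarith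
    have b4 : k - u < b + 1 := by nlinarith
    have hn' : (0 : ℝ) < a + b := by exact_mod_cast hn
    have c1 : ((a : ℝ) + b) * u ≤ k * a := by exact_mod_cast a1
    have c2 : (k : ℝ) * a < (a + b) * u + (a + b) := by exact_mod_cast a2
    have c3 : (u : ℝ) ≤ k / (a + b) * a := by
      rw [div_mul_eq_mul_div, le_div_iff₀ hn']
      linarith
    have c4 : (k : ℝ) / (a + b) * a ≤ u + 1 := by
      rw [div_mul_eq_mul_div, div_le_iff₀ hn']
      linarith
    have c5 : (k : ℝ) / (a + b) * b = k - k / (a + b) * a := by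
      field_simp
      ring
    refine ⟨by omega, b2, by omega, by omega, k / (a + b),
      div_nonneg (by exact_mod_cast k1) hn'.le, (div_le_one hn').2 (by exact_mod_cast k2),
      abs_le.2 ⟨by linarith, by linarith⟩, abs_le.2 ⟨by linarith, by linarith⟩⟩

/-- a monotone staircase from `x` to `y` that stays within distance `2` of the chord -/
theorem exists_staircase (x y : V) : ∃ w : ℤ → V, ∃ n : ℤ, PathIn Set.univ w 0 n ∧
    Set.InjOn w (Set.Icc 0 n) ∧ w 0 = x ∧ w n = y ∧ n = |y.1 - x.1| + |y.2 - x.2| ∧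
    ∀ k, 0 ≤ k → k ≤ n → ∃ s : ℝ, 0 ≤ s ∧ s ≤ 1 ∧ ‖toR (w k) - (toR x + s • (toR y - toR x))‖ ≤ 2 ∧
      w k ∈ box (min x.1 y.1) (max x.1 y.1) (min x.2 y.2) (max x.2 y.2) := by
  obtain ⟨σ, hσ, e1⟩ := bpath_sign (y.1 - x.1)
  obtain ⟨τ, hτ, e2⟩ := bpath_sign (y.2 - x.2)
  obtain ⟨u, u0, un, us, ub⟩ := bpath_stair (abs_nonneg (y.1 - x.1)) (abs_nonneg (y.2 - x.2))
  have ha := abs_nonneg (y.1 - x.1)
  have hb := abs_nonneg (y.2 - x.2)
  generalize |y.1 - x.1| = a at *
  generalize |y.2 - x.2| = b at *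
  refine ⟨fun k => (x.1 + σ * u k, x.2 + τ * (k - u k)), a + b,
    ⟨by omega, fun _ _ _ => Set.mem_univ _, fun k _ _ => ?_⟩, fun k _ l _ e => ?_, by simp [u0],
    Prod.ext ?_ ?_, rfl, fun k k1 k2 => ?_⟩
  · rw [adj_iff]
    have := us k
    dsimp only
    rcases hσ with rfl | rfl <;> rcases hτ with rfl | rfl <;> omega
  · simp only [Prod.mk.injEq] at e
    rcases hσ with rfl | rfl <;> rcases hτ with rfl | rfl <;> omega
  · dsimp only
    rw [un]
    omega
  · dsimp only
    rw [un, add_sub_cancel_left]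
    omega
  · obtain ⟨b1, b2, b3, b4, s, s0, s1, s2, s3⟩ := ub k k1 k2
    have f1 : (y.1 : ℝ) - x.1 = σ * a := by exact_mod_cast e1
    have f2 : (y.2 : ℝ) - x.2 = τ * b := by exact_mod_cast e2
    rw [abs_le] at s2 s3
    refine ⟨s, s0, s1, ?_, ?_⟩
    · simp only [toR, Prod.norm_def, Prod.fst_sub, Prod.snd_sub, Prod.fst_add, Prod.snd_add,
        Prod.smul_fst, Prod.smul_snd, smul_eq_mul, Real.norm_eq_abs, f1, f2, max_le_iff, abs_le]
      push_cast
      rcases hσ with rfl | rfl <;> rcases hτ with rfl | rfl <;> push_cast <;>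
        exact ⟨⟨by linarith, by linarith⟩, by linarith, by linarith⟩
    · simp only [box, Set.mem_ofPred_eq]
      rcases hσ with rfl | rfl <;> rcases hτ with rfl | rfl <;> omega

end Crest.Agent.R151
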