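import Crest.Agent.R151.Defs

/-! R151 base: projections of Borel sets are universally measurable. -/

set_option autoImplicit false
open MeasureTheory ProbabilityTheory Crest.ProbabilityR.FirstPassage Filter Topology
open scoped ENNReal

namespace Crest.Agent.R151

theorem bproj_inner {Ω : Type} [TopologicalSpace Ω] [PolishSpace Ω] [MeasurableSpace Ω]
    [BorelSpace Ω] (μ : Measure Ω) [IsFiniteMeasure μ] {f : (ℕ → ℕ) → Ω} (hf : Continuous f) {c : ℝ≥0∞}
    (hc : c < μ (Set.range f)) : ∃ B ⊆ Set.range f, MeasurableSet B ∧ c ≤ μ B := by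
  let _ := TopologicalSpace.upgradeIsCompletelyMetrizable Ω
  have step : ∀ (T : Set (ℕ → ℕ)) (k : ℕ), ∃ m : ℕ, c < μ (f '' T) → c < μ (f '' (T ∩ {σ | σ k ≤ m})) := by
    intro T k
    by_cases h : c < μ (f '' T)
    · have e : f '' T = ⋃ m : ℕ, f '' (T ∩ {σ | σ k ≤ m}) := by
        rw [← Set.image_iUnion, ← Set.inter_iUnion]
        congr 1
        refine (Set.inter_eq_left.2 fun σ _ => Set.mem_iUnion.2 ⟨σ k, ?_⟩).symm
        exact le_refl (σ k)
      have hm : Monotone fun m : ℕ => f '' (T ∩ {σ | σ k ≤ m}) := fun a b hab =>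
        Set.image_mono (Set.inter_subset_inter_right _ fun σ (hσ : σ k ≤ a) => hσ.trans hab)
      rw [e, hm.measure_iUnion] at h
      obtain ⟨m, hm⟩ := lt_iSup_iff.1 h
      exact ⟨m, fun _ => hm⟩
    · exact ⟨0, fun h' => absurd h' h⟩
  choose g hg using step
  let T : ℕ → Set (ℕ → ℕ) := fun k => Nat.rec Set.univ (fun k S => S ∩ {σ | σ k ≤ g S k}) k
  have hT : ∀ k, T (k + 1) = T k ∩ {σ | σ k ≤ g (T k) k} := fun _ => rfl
  have hTc : ∀ k, c < μ (f '' T k) := by
    intro k
    induction k with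
    | zero => simpa [T] using hc
    | succ k ih => exact hg _ _ ih
  have hanti : Antitone T := antitone_nat_of_succ_le fun k => by rw [hT]; exact Set.inter_subset_left
  have hmem : ∀ k, ∀ σ ∈ T k, ∀ i < k, σ i ≤ g (T i) i := fun k σ hσ i hi =>
    ((hT i) ▸ hanti (Nat.succ_le_of_lt hi) hσ : σ ∈ T i ∩ {σ | σ i ≤ g (T i) i}).2
  have hK : IsCompact (Set.univ.pi fun i => Set.Iic (g (T i) i)) :=
    isCompact_univ_pi fun i => (Set.finite_Iic _).isCompact
  refine ⟨⋂ k, closure (f '' T k), fun x hx => ?_,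
    MeasurableSet.iInter fun k => isClosed_closure.measurableSet, ?_⟩
  · have h1 : ∀ k : ℕ, ∃ σ ∈ T k, dist x (f σ) < 1 / ((k : ℝ) + 1) := by
      intro k
      obtain ⟨_, ⟨σ, hσ, rfl⟩, h⟩ := Metric.mem_closure_iff.1 (Set.mem_iInter.1 hx k) _
        (Nat.one_div_pos_of_nat (α := ℝ) (n := k))
      exact ⟨σ, hσ, h⟩
    choose σ hσ hd using h1
    obtain ⟨τ, -, φ, hφ, hτ⟩ := hK.tendsto_subseq (x := fun k i => min (σ k i) (g (T i) i))
      fun k i _ => Set.mem_Iic.2 (min_le_right _ _)
    have h2 : Tendsto (fun k => σ (φ k)) atTop (𝓝 τ) := by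
      rw [tendsto_pi_nhds] at hτ ⊢
      intro i
      refine (hτ i).congr' ?_
      filter_upwards [eventually_gt_atTop i] with k hk
      exact min_eq_left (hmem _ _ (hσ _) i (hk.trans_le (hφ.id_le k)))
    have h3 : Tendsto (fun k => f (σ k)) atTop (𝓝 x) := by
      rw [tendsto_iff_dist_tendsto_zero]
      refine squeeze_zero (fun _ => dist_nonneg) (fun k => ?_) tendsto_one_div_add_atTop_nhds_zero_nat
      rw [dist_comm]; exact (hd k).le
    exact ⟨τ, tendsto_nhds_unique ((hf.tendsto τ).comp h2) (h3.comp hφ.tendsto_atTop)⟩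
  · have ha : Antitone fun k => closure (f '' T k) := fun a b hab => closure_mono (Set.image_mono (hanti hab))
    rw [ha.measure_iInter (fun k => isClosed_closure.measurableSet.nullMeasurableSet) ⟨0, measure_ne_top _ _⟩]
    exact le_iInf fun k => (hTc k).le.trans (measure_mono subset_closure)

/-- Analytic sets are null-measurable.  Write `A = range f`, `f : (ℕ → ℕ) → Ω` continuous (for a finer
Polish topology; `A = ∅` is trivial).  For `ε > 0` choose `n 0, n 1, …` recursively with
`μ (f '' {σ | ∀ i ≤ k, σ i ≤ n i}) > μ A - ε` (continuity of the outer measure from below,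
`measure_iUnion_eq_iSup`/`Monotone.measure_iUnion`, valid for arbitrary sets).  `K = {σ | ∀ i, σ i ≤ n i}` is compact
and `f '' K = ⋂ k, closure (f '' …)`, so `μ (f '' K) ≥ μ A - ε`.  Hence `A` contains a σ-compact set of measure `μ A`,
which is a.e. equal to `toMeasurable μ A`. -/
theorem AnalyticSet.nullMeas {Ω : Type} [TopologicalSpace Ω] [PolishSpace Ω] [MeasurableSpace Ω]
    [BorelSpace Ω] (μ : Measure Ω) [IsFiniteMeasure μ] {A : Set Ω} (hA : AnalyticSet A) :
    NullMeasurableSet A μ := by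
  rw [MeasureTheory.AnalyticSet] at hA
  rcases hA with rfl | ⟨f, hf, rfl⟩
  · exact MeasurableSet.empty.nullMeasurableSet
  rcases eq_or_lt_of_le (zero_le : 0 ≤ μ (Set.range f)) with h0 | h0
  · exact NullMeasurableSet.of_null h0.symm
  obtain ⟨u, -, hu, hlim⟩ := exists_seq_strictMono_tendsto' h0
  choose B hB hBm hBc using fun n => bproj_inner μ hf (hu n).2
  have h1 : ⋃ n, B n ⊆ Set.range f := Set.iUnion_subset hB
  have h2 : MeasurableSet (⋃ n, B n) := MeasurableSet.iUnion hBm
  have h3 : μ (Set.range f) ≤ μ (⋃ n, B n) :=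
    le_of_tendsto' hlim fun n => (hBc n).trans (measure_mono (Set.subset_iUnion B n))
  have h4 : μ (toMeasurable μ (Set.range f) \ ⋃ n, B n) = 0 := by
    rw [measure_sdiff (h1.trans (subset_toMeasurable _ _)) h2.nullMeasurableSet (measure_ne_top _ _),
      measure_toMeasurable]
    exact tsub_eq_zero_of_le h3
  rw [← Set.union_sdiff_cancel h1]
  exact h2.nullMeasurableSet.union (NullMeasurableSet.of_null
    (measure_mono_null (Set.sdiff_subset_sdiff_left (subset_toMeasurable _ _)) h4))

/-- (`upgrade` the standard Borel spaces to Polish ones, `MeasurableSet.analyticSet`, `AnalyticSet.image_of_continuous`) -/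
theorem nullMeas_proj {Ω Y : Type} [MeasurableSpace Ω] [StandardBorelSpace Ω] [MeasurableSpace Y]
    [StandardBorelSpace Y] (μ : Measure Ω) [IsFiniteMeasure μ] {A : Set (Ω × Y)}
    (hA : MeasurableSet A) : NullMeasurableSet {x | ∃ y, (x, y) ∈ A} μ := by
  let _ := upgradeStandardBorel Ω
  let _ := upgradeStandardBorel Y
  have h := AnalyticSet.nullMeas μ (hA.analyticSet.image_of_continuous continuous_fst)
  convert h using 1
  ext x
  simp

/-- Fubini for a null-measurable set with null sections -/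
theorem measure_eq_zero_of_sections {Ω Y : Type} [MeasurableSpace Ω] [MeasurableSpace Y]
    (μ : Measure Ω) (ν : Measure Y) [IsFiniteMeasure μ] [IsFiniteMeasure ν] {A : Set (Ω × Y)}
    (hA : NullMeasurableSet A (μ.prod ν)) (h : ∀ᵐ x ∂μ, ν {y | (x, y) ∈ A} = 0) :
    μ.prod ν A = 0 := by
  obtain ⟨B, hBA, hB, he⟩ := hA.exists_measurable_subset_ae_eq
  rw [← measure_congr he, Measure.measure_prod_null hB]
  filter_upwards [h] with x hx
  exact measure_mono_null (fun y hy => hBA hy) hx

example : StandardBorelSpace Env := inferInstance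
example : StandardBorelSpace ((ℤ → V) × ℝ) := inferInstance

end Crest.Agent.R151
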