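import Crest.Agent.R151.BLowLD

/-! R151 base: almost sure shape theorem for all pairs, identification of the time constant, Gamma laws. -/

set_option autoImplicit false
open MeasureTheory ProbabilityTheory Crest.ProbabilityR.FirstPassage Filter Topology
open scoped ENNReal

namespace Crest.Agent.R151

variable (G : Measure ℝ) [IsProbabilityMeasure G] [NullSingletonClass G]

theorem bsh_bc {Ω : Type} [MeasurableSpace Ω] (μ : Measure Ω) [IsFiniteMeasure μ] (A : ℕ → Set Ω)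
    {a : ℕ → ℝ} (ha : ∀ n, μ.real (A n) ≤ a n) (hs : Summable a) :
    ∀ᵐ t ∂μ, ∀ᶠ n in atTop, t ∉ A n := by
  have h0 : ∀ i, 0 ≤ a i := fun i => measureReal_nonneg.trans (ha i)
  refine ae_eventually_notMem (ne_top_of_le_ne_top (b := ENNReal.ofReal (∑' i, a i)) ENNReal.ofReal_ne_top ?_)
  rw [ENNReal.ofReal_tsum_of_nonneg h0 hs]
  exact ENNReal.tsum_le_tsum fun i => (ENNReal.le_ofReal_iff_toReal_le (measure_ne_top _ _) (h0 i)).2 (ha i)

theorem bsh_scale (r : ℝ) (n0 : ℕ) : ∃ n, n0 ≤ n ∧ r ≤ 2 ^ n ∧ (2 : ℝ) ^ n ≤ 2 * max r 0 + 2 ^ n0 := by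
  have hm : 0 ≤ max r 0 := le_max_right _ _
  by_cases h : r ≤ 2 ^ n0
  · exact ⟨n0, le_rfl, h, by linarith⟩
  · push Not at h
    have h1 : (1 : ℝ) ≤ 2 ^ n0 := one_le_pow₀ one_le_two
    obtain ⟨k, hk1, hk2⟩ := exists_nat_pow_near (h1.trans h.le) (one_lt_two (α := ℝ))
    refine ⟨k + 1, ?_, hk2.le, ?_⟩
    · exact ((pow_lt_pow_iff_right₀ (one_lt_two (α := ℝ))).1 (h.trans hk2)).le
    · have := le_max_left r 0
      rw [pow_succ]
      linarith

theorem bsh_lower1 (hG : Hyp G) {ε : ℝ} (hε : 0 < ε) : ∀ᵐ t ∂iidLaw G, ∃ r0 : ℝ, ∀ x y : V,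
    (1 - ε) * mu G (toR (y - x)) - ε * nrm x - r0 ≤ T t x y := by
  obtain ⟨C, hC, c, hc, h⟩ := lowLD_from G hG hε
  have hs := lld_summable (a := c * ε) (by positivity)
  have hs1 : Summable fun n : ℕ => Real.exp (-c * n) :=
    Real.summable_exp_nat_mul_of_ge (by linarith) fun _ => le_rfl
  have key := bsh_bc (iidLaw G) (fun n : ℕ => ⋃ x : V,
      {t | ∃ y, T t x y < (1 - ε) * mu G (toR (y - x)) - (ε * nrm x + n)})
    (a := fun n : ℕ => (C * ∑' z : V, Real.exp (-(c * ε) * nrm z)) * Real.exp (-c * n)) (fun n => ?_)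
    (hs1.mul_left _)
  · filter_upwards [key] with t ht
    obtain ⟨n, hn⟩ := ht.exists
    refine ⟨n, fun x y => ?_⟩
    simp only [Set.mem_iUnion, Set.mem_ofPred_eq, not_exists, not_lt] at hn
    linarith [hn x y]
  · refine (lld_union _ _ (a := fun x : V => C * Real.exp (-(c * ε) * nrm x) * Real.exp (-c * n))
      (fun x => ?_) ((hs.mul_left C).mul_right _)).trans (le_of_eq ?_)
    · have hx : (0 : ℝ) ≤ nrm x := by exact_mod_cast nrm_nonneg x
      refine (h x (ε * nrm x + n) (by positivity)).trans (le_of_eq ?_)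
      rw [mul_assoc, ← Real.exp_add]
      congr 2
      ring
    · rw [tsum_mul_right, tsum_mul_left]

theorem bsh_lower (hG : Hyp G) : ∀ᵐ t ∂iidLaw G, ∀ ε > (0 : ℝ), ∃ r0 : ℝ, ∀ x y : V,
    (1 - ε) * mu G (toR (y - x)) - ε * nrm x - r0 ≤ T t x y := by
  have h := ae_all_iff.2 fun m : ℕ => bsh_lower1 G hG (Nat.one_div_pos_of_nat (n := m))
  filter_upwards [h] with t ht ε hε
  obtain ⟨m, hm⟩ := exists_nat_one_div_lt hε
  obtain ⟨r0, hr⟩ := ht m
  refine ⟨r0, fun x y => le_trans ?_ (hr x y)⟩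
  have h1 := (symNorm_mu G hG).nonneg (toR (y - x))
  have hx : (0 : ℝ) ≤ nrm x := by exact_mod_cast nrm_nonneg x
  nlinarith [mul_le_mul_of_nonneg_right hm.le h1, mul_le_mul_of_nonneg_right hm.le hx]

/-- Borel-Cantelli for the net pairs at the scales `2^n` -/
theorem bsh_net (hG : Hyp G) (J : ℕ) : ∀ᵐ t ∂iidLaw G, ∀ᶠ n : ℕ in atTop, ∀ a b : V,
    nrm a ≤ J + 2 → nrm b ≤ J + 2 → a ≠ b → T t ((2 ^ n : ℤ) • a) ((2 ^ n : ℤ) • b) ≤
      mu G (toR ((2 ^ n : ℤ) • b - (2 ^ n : ℤ) • a)) +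
        1 / (J + 1) * nrm ((2 ^ n : ℤ) • b - (2 ^ n : ℤ) • a) := by
  obtain ⟨C, hC, h⟩ := upper_tail G hG (Nat.one_div_pos_of_nat (n := J))
  have h1 : ∀ a b : V, ∀ᵐ t ∂iidLaw G, ∀ᶠ n : ℕ in atTop, a ≠ b → T t ((2 ^ n : ℤ) • a) ((2 ^ n : ℤ) • b) ≤
      mu G (toR ((2 ^ n : ℤ) • b - (2 ^ n : ℤ) • a)) +
        1 / (J + 1) * nrm ((2 ^ n : ℤ) • b - (2 ^ n : ℤ) • a) := fun a b => by
    by_cases hab : a = b
    · exact Eventually.of_forall fun t => Eventually.of_forall fun n h => absurd hab h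
    have key := bsh_bc (iidLaw G) (fun n : ℕ => {t | mu G (toR ((2 ^ n : ℤ) • b - (2 ^ n : ℤ) • a)) +
        1 / (J + 1) * nrm ((2 ^ n : ℤ) • b - (2 ^ n : ℤ) • a) < T t ((2 ^ n : ℤ) • a) ((2 ^ n : ℤ) • b)})
      (a := fun n : ℕ => C * (1 / 2) ^ n) (fun n => ?_) (summable_geometric_two.mul_left C)
    · filter_upwards [key] with t ht
      filter_upwards [ht] with n hn _
      exact not_lt.1 hn
    · have h2 : (0 : ℤ) < 2 ^ n := by positivity
      have h3 : 1 ≤ nrm (b - a) := by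
        have := nrm_nonneg (b - a)
        have : nrm (b - a) ≠ 0 := fun h => hab (sub_eq_zero.1 (nrm_eq_zero.1 h)).symm
        omega
      have h4 : (2 : ℝ) ^ n ≤ nrm ((2 ^ n : ℤ) • b - (2 ^ n : ℤ) • a) := by
        rw [← smul_sub, lld_nrm_smul h2.le]
        exact_mod_cast le_mul_of_one_le_right h2.le h3
      refine (h _ _ fun e => ?_).trans ?_
      · rw [e, sub_self, nrm_eq_zero.2 rfl] at h4
        simp only [Int.cast_zero] at h4
        exact absurd h4 (not_le.2 (by positivity))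
      · rw [one_div, inv_pow, ← div_eq_mul_inv]
        exact div_le_div_of_nonneg_left hC.le (by positivity) h4
  filter_upwards [ae_all_iff.2 fun a => ae_all_iff.2 (h1 a)] with t ht
  have hF := ball_finite 0 (J + 2)
  filter_upwards [(eventually_all_finite hF).2 fun a _ => (eventually_all_finite hF).2 fun b _ => ht a b]
    with n hn a b ha hb
  exact hn a (by simpa [ball] using ha) b (by simpa [ball] using hb)

theorem bsh_upper (hG : Hyp G) : ∀ᵐ t ∂iidLaw G, ∀ ε > (0 : ℝ), ∃ r0 : ℝ, ∀ x y : V,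
    T t x y ≤ mu G (toR (y - x)) + ε * (nrm x + nrm y) + r0 := by
  have hμ := symNorm_mu G hG
  obtain ⟨C, hC, h2⟩ := hμ.upper
  obtain ⟨Cn, hCn, hnear⟩ := ae_T_le_near G hG
  filter_upwards [ae_all_iff.2 (bsh_net G hG), hnear, ae_nonneg G hG.nonneg] with t hnet hn ht ε hε
  obtain ⟨K, hK⟩ : ∃ K, K = 2 * Cn + C + 4 := ⟨_, rfl⟩
  have K0 : 0 < K := by rw [hK]; positivity
  obtain ⟨J, hJ⟩ := exists_nat_one_div_lt (show 0 < ε / (2 * K) by positivity)
  have J0 : (0 : ℝ) < J + 1 := by positivity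
  obtain ⟨n0, hn0⟩ := eventually_atTop.1 (hnet J)
  obtain ⟨r0, hr0⟩ := hn (1 / (J + 1)) (by positivity) (by rw [div_le_one J0]; linarith)
  refine ⟨K * 2 ^ n0 + 2 * r0, fun x y => ?_⟩
  have hx : (0 : ℝ) ≤ nrm x := by exact_mod_cast nrm_nonneg x
  have hy : (0 : ℝ) ≤ nrm y := by exact_mod_cast nrm_nonneg y
  obtain ⟨n, n1, n2, n3⟩ := bsh_scale (((nrm x : ℝ) + nrm y) / (J + 1)) n0
  rw [max_eq_left (by positivity)] at n3
  rw [div_le_iff₀ J0] at n2
  have hp := hn0 n n1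
  obtain ⟨L, hL⟩ : ∃ L : ℤ, L = 2 ^ n := ⟨_, rfl⟩
  have hL' : (2 : ℝ) ^ n = L := by rw [hL]; push_cast; rfl
  rw [← hL] at hp
  rw [hL'] at n2 n3
  have L0 : (0 : ℤ) < L := by rw [hL]; positivity
  have L1 : (0 : ℝ) < L := by exact_mod_cast L0
  have hcell : ∀ v : V, (nrm v : ℝ) ≤ L * (J + 1) → nrm (lldCell L v) ≤ J + 2 := fun v hv => by
    have hv' : nrm v ≤ L * (J + 1) := by exact_mod_cast hv
    have c1 := lld_tri 0 v (L • lldCell L v)
    have c2 := lld_cell_near L0 v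
    rw [sub_zero, sub_zero, lld_nrm_smul L0.le, nrm_sub_comm] at c1
    by_contra c3
    nlinarith
  have hmove : ∀ v : V, (nrm v : ℝ) ≤ L * (J + 1) → T t v (L • lldCell L v) ≤ Cn * L + r0 := fun v hv => by
    have e : 1 / ((J : ℝ) + 1) * (L * (J + 1)) = L := by field_simp
    have := hr0 v (L • lldCell L v) (L * (J + 1)) hv (by
      rw [e, nrm_sub_comm]; exact_mod_cast (lld_cell_near L0 v).le)
    rwa [mul_assoc, e] at this
  have c1 := hmove x (by linarith)
  have c2 := hmove y (by linarith)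
  have a1 := hcell x (by linarith)
  have a2 := hcell y (by linarith)
  have c3 : T t (L • lldCell L x) (L • lldCell L y) ≤
      mu G (toR (L • lldCell L y - L • lldCell L x)) + 4 * L := by
    by_cases hab : lldCell L x = lldCell L y
    · rw [hab, T_self ht]
      have := hμ.nonneg (toR (L • lldCell L y - L • lldCell L y))
      positivity
    refine (hp _ _ a1 a2 hab).trans (add_le_add le_rfl ?_)
    rw [← smul_sub, lld_nrm_smul L0.le, one_div, inv_mul_le_iff₀ J0]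
    have b1 := lld_tri (lldCell L x) 0 (lldCell L y)
    rw [zero_sub, sub_zero, nrm_neg] at b1
    have b2 : (nrm (lldCell L y - lldCell L x) : ℝ) ≤ 2 * J + 4 := by
      exact_mod_cast (show nrm (lldCell L y - lldCell L x) ≤ 2 * J + 4 by linarith)
    push_cast
    nlinarith [mul_le_mul_of_nonneg_left b2 L1.le, mul_nonneg L1.le (Nat.cast_nonneg (α := ℝ) J)]
  have c4 := T_triangle (x := x) (y := L • lldCell L x) (z := y) ht
  have c5 := T_triangle (x := L • lldCell L x) (y := L • lldCell L y) (z := y) ht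
  rw [T_comm (x := L • lldCell L y) (y := y)] at c5
  have c6 := hμ.add_le (toR (y - x)) (toR (x - L • lldCell L x - (y - L • lldCell L y)))
  rw [← toR_add, show y - x + (x - L • lldCell L x - (y - L • lldCell L y)) =
    L • lldCell L y - L • lldCell L x by abel] at c6
  have c7 := h2 (toR (x - L • lldCell L x - (y - L • lldCell L y)))
  have c8 : (nrm (x - L • lldCell L x - (y - L • lldCell L y)) : ℝ) ≤ L := by
    exact_mod_cast (lld_cell_diff L0 x y).le
  rw [norm_toR] at c7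
  have c9 : T t x y ≤ mu G (toR (y - x)) + K * L + 2 * r0 := by
    rw [hK]
    nlinarith [mul_le_mul_of_nonneg_left c8 hC.le]
  have d1 : 2 * K * (1 / (J + 1)) ≤ ε := by
    rw [lt_div_iff₀ (by positivity)] at hJ
    linarith
  have d2 : K * L ≤ 2 * K * (1 / (J + 1)) * (nrm x + nrm y) + K * 2 ^ n0 := by
    refine (mul_le_mul_of_nonneg_left n3 K0.le).trans (le_of_eq ?_)
    ring
  nlinarith [mul_le_mul_of_nonneg_right d1 (add_nonneg hx hy)]

/-- lower half: `lowLD_from` with `s = ε |x|`, Borel-Cantelli; upper half: at scale `2^n` a net of spacing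
`ε 2^n`, `upper_tail` for the `O(ε^-4)` net pairs (summable), `ae_T_le_near` -/
theorem ae_shape (hG : Hyp G) : ∀ᵐ t ∂iidLaw G, ∀ ε > (0 : ℝ), ∃ r0 : ℝ, ∀ x y : V,
    |T t x y - mu G (toR (y - x))| ≤ ε * (nrm x + nrm y) + r0 := by
  have hμ := symNorm_mu G hG
  obtain ⟨C, hC, h2⟩ := hμ.upper
  filter_upwards [bsh_lower G hG, bsh_upper G hG] with t h1 h3 ε hε
  obtain ⟨r1, hr1⟩ := h1 (ε / (C + 1)) (by positivity)
  obtain ⟨r2, hr2⟩ := h3 ε hε
  refine ⟨max r1 r2, fun x y => abs_le.2 ⟨?_, by linarith [hr2 x y, le_max_right r1 r2]⟩⟩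
  have hx : (0 : ℝ) ≤ nrm x := by exact_mod_cast nrm_nonneg x
  have hy : (0 : ℝ) ≤ nrm y := by exact_mod_cast nrm_nonneg y
  have c1 := h2 (toR (y - x))
  have b1 := lld_tri x 0 y
  rw [zero_sub, sub_zero, nrm_neg] at b1
  have b2 : (nrm (y - x) : ℝ) ≤ nrm x + nrm y := by exact_mod_cast b1
  rw [norm_toR] at c1
  obtain ⟨δ, hδ⟩ : ∃ δ, δ = ε / (C + 1) := ⟨_, rfl⟩
  have δ0 : 0 < δ := by rw [hδ]; positivity
  have δ1 : ε = δ * (C + 1) := by rw [hδ]; field_simp
  have c2 := hr1 x y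
  rw [← hδ] at c2
  have c3 : mu G (toR (y - x)) ≤ C * (nrm x + nrm y) := c1.trans (mul_le_mul_of_nonneg_left b2 hC.le)
  rw [δ1]
  nlinarith [mul_le_mul_of_nonneg_left c3 δ0.le, mul_nonneg δ0.le hy, le_max_left r1 r2]

/-- sharper lower half -/
theorem ae_shape_lower (hG : Hyp G) : ∀ᵐ t ∂iidLaw G, ∀ ε > (0 : ℝ), ∃ r0 : ℝ, ∀ x y : V,
    (1 - ε) * mu G (toR (y - x)) - ε * nrm x - r0 ≤ T t x y := bsh_lower G hG

theorem mu_unique (hG : Hyp G) (μ : ℝ × ℝ → ℝ)
    (hμ : ∀ v : ℝ × ℝ, ∀ᵐ t ∂(iidLaw G),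
      Filter.Tendsto (fun s : ℝ => passageTime t (0, 0) (⌊s * v.1⌋, ⌊s * v.2⌋) / s)
        Filter.atTop (nhds (μ v))) : μ = mu G := by
  funext v
  have hs := symNorm_mu G hG
  obtain ⟨C, hC, hlip⟩ := hs.lip
  obtain ⟨t, ht1, ht2⟩ := ((hμ v).and (ae_shape G hG)).exists
  refine tendsto_nhds_unique ht1 (Metric.tendsto_nhds.2 fun ε hε => ?_)
  have hv := norm_nonneg v
  obtain ⟨δ, hδ⟩ : ∃ δ, δ = ε / (2 * (‖v‖ + 1)) := ⟨_, rfl⟩
  have δ0 : 0 < δ := by rw [hδ]; positivity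
  have δ1 : ε = δ * (2 * (‖v‖ + 1)) := by rw [hδ]; field_simp
  obtain ⟨r0, hr0⟩ := ht2 δ δ0
  filter_upwards [eventually_gt_atTop 0, eventually_gt_atTop ((δ + r0 + C) / δ)] with s s0 s1
  rw [div_lt_iff₀ δ0] at s1
  have e1 : passageTime t (0, 0) (⌊s * v.1⌋, ⌊s * v.2⌋) = T t 0 (fl (s • v)) := (T_eq_passageTime _ _ _).symm
  have c1 := hr0 0 (fl (s • v))
  rw [sub_zero, nrm_eq_zero.2 rfl, Int.cast_zero, zero_add, ← norm_toR] at c1
  have c2 := norm_toR_fl_sub (s • v)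
  have c3 := hlip (toR (fl (s • v))) (s • v)
  rw [hs.smul, abs_of_pos s0] at c3
  have c4 : ‖toR (fl (s • v))‖ ≤ s * ‖v‖ + 1 := by
    have := norm_sub_norm_le (toR (fl (s • v))) (s • v)
    rw [norm_smul, Real.norm_of_nonneg s0.le] at this
    linarith
  have c5 := abs_sub_le (T t 0 (fl (s • v))) (mu G (toR (fl (s • v)))) (s * mu G v)
  rw [e1, Real.dist_eq, show T t 0 (fl (s • v)) / s - mu G v = (T t 0 (fl (s • v)) - s * mu G v) / s by
    field_simp, abs_div, abs_of_pos s0, div_lt_iff₀ s0, δ1]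
  nlinarith [mul_le_mul_of_nonneg_left c4 δ0.le, mul_le_mul_of_nonneg_left c2 hC.le,
    mul_nonneg (mul_pos δ0 s0).le hv, mul_pos δ0 s0]

theorem gamma_nullSingleton (κ r : ℝ) : NullSingletonClass (gammaMeasure κ r) := by
  unfold gammaMeasure
  infer_instance
theorem gamma_integrable_pow {κ r : ℝ} (hκ : 0 < κ) (hr : 0 < r) (m : ℕ) :
    Integrable (fun s : ℝ => |s| ^ m) (gammaMeasure κ r) := by
  unfold gammaMeasure
  rw [integrable_withDensity_iff (f := gammaPDF κ r) (measurable_gammaPDFReal κ r).ennreal_ofReal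
    (Eventually.of_forall fun _ => ENNReal.ofReal_lt_top)]
  have h1 := (integrableOn_rpow_mul_exp_neg_mul_rpow (s := κ - 1 + m) (p := 1) (b := r)
    (by linarith [Nat.cast_nonneg (α := ℝ) m]) one_pos hr).const_mul (r ^ κ / Real.Gamma κ)
  refine ((integrable_indicator_iff measurableSet_Ioi).2 h1).congr ?_
  filter_upwards [Measure.ae_ne volume 0] with s hs
  rw [gammaPDF, ENNReal.toReal_ofReal (gammaPDFReal_nonneg hκ hr s), gammaPDFReal]
  rcases lt_or_gt_of_ne hs with h | h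
  · rw [Set.indicator_of_notMem (by simpa using h.le), if_neg (not_le.2 h), mul_zero]
  · rw [Set.indicator_of_mem (by simpa using h), if_pos h.le, abs_of_pos h, Real.rpow_add h, Real.rpow_natCast,
      Real.rpow_one, neg_mul]
    ring
theorem gamma_hyp {κ r : ℝ} (hκ : 0 < κ) (hr : 0 < r) : Hyp (gammaMeasure κ r) := by
  have := isProbabilityMeasure_gammaMeasure hκ hr
  refine ⟨?_, ?_⟩
  · rw [gammaMeasure, withDensity_apply _ measurableSet_Iio]
    exact lintegral_gammaPDF_of_nonpos le_rfl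
  · have h : Integrable (fun x : Fin 4 → ℝ => ∑ i, |x i| ^ 2) (Measure.pi fun _ : Fin 4 => gammaMeasure κ r) :=
      integrable_finsetSum _ fun i _ =>
        integrable_comp_eval (μ := fun _ : Fin 4 => gammaMeasure κ r) (i := i) (gamma_integrable_pow hκ hr 2)
    refine lt_of_le_of_lt (lintegral_mono fun x => ENNReal.ofReal_le_ofReal ?_) h.lintegral_lt_top
    obtain ⟨i, hi⟩ := exists_eq_ciInf_of_finite (f := x)
    rw [← hi, ← sq_abs]
    exact Finset.single_le_sum (f := fun i => |x i| ^ 2) (fun _ _ => by positivity) (Finset.mem_univ i)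

end Crest.Agent.R151
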