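import Crest.Agent.R151.BPath

/-! R151 base: restricted passage times, symmetries. -/

set_option autoImplicit false
open MeasureTheory ProbabilityTheory Crest.ProbabilityR.FirstPassage Filter Topology
open scoped ENNReal

namespace Crest.Agent.R151

variable {S S' : Set V} {p q : ℤ → V} {i j : ℤ} {t t' : Env} {x y z : V}

theorem bts_const (h : x ∈ S) : PathIn S (fun _ => x) 0 0 :=
  ⟨le_rfl, fun _ _ _ => h, fun _ h1 h2 => absurd h2 (not_lt.2 h1)⟩
theorem Conn.refl (h : x ∈ S) : Conn S x x := by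
  exact ⟨_, 0, 0, bts_const h, rfl, rfl⟩
theorem Conn.symm (h : Conn S x y) : Conn S y x := by
  obtain ⟨p, i, j, hp, rfl, rfl⟩ := h
  exact ⟨_, _, _, hp.rev, by simp, by simp⟩
theorem Conn.trans (h : Conn S x y) (h' : Conn S y z) : Conn S x z := by
  obtain ⟨p, i, j, hp, rfl, rfl⟩ := h
  obtain ⟨q, i', j', hq, e, rfl⟩ := h'
  refine ⟨_, _, _, hp.glue hq e.symm, glue_of_le hp.1, ?_⟩
  rw [glue_of_ge e.symm (by have := hq.1; omega)]
  congr 1
  ring
theorem Conn.mono (h : Conn S x y) (hS : S ⊆ S') : Conn S' x y := by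
  obtain ⟨p, i, j, hp, h1, h2⟩ := h
  exact ⟨p, i, j, hp.mono hS, h1, h2⟩
theorem PathIn.conn (h : PathIn S p i j) : Conn S (p i) (p j) := by
  exact ⟨p, i, j, h, rfl, rfl⟩
theorem bts_conn (h : ∀ v : V, min x.1 y.1 ≤ v.1 → v.1 ≤ max x.1 y.1 → min x.2 y.2 ≤ v.2 →
    v.2 ≤ max x.2 y.2 → v ∈ S) : Conn S x y := by
  obtain ⟨w, n, hw, -, h0, hn, -, hb⟩ := exists_staircase x y
  refine ⟨w, 0, n, hw.restrict fun k h1 h2 => ?_, h0, hn⟩
  obtain ⟨-, -, -, -, a, b, c, d⟩ := hb k h1 h2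
  exact h _ a b c d
theorem conn_univ (x y : V) : Conn Set.univ x y := by
  exact bts_conn fun _ _ _ _ _ => Set.mem_univ _
theorem conn_box {a b c d : ℤ} (hx : x ∈ box a b c d) (hy : y ∈ box a b c d) :
    Conn (box a b c d) x y := by
  refine bts_conn fun v _ _ _ _ => ?_
  simp only [box, Set.mem_ofPred_eq] at *
  omega
theorem conn_rows {a b : ℤ} (hx : x ∈ rows a b) (hy : y ∈ rows a b) : Conn (rows a b) x y := by
  refine bts_conn fun v _ _ _ _ => ?_
  simp only [rows, Set.mem_ofPred_eq] at *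
  omega
theorem conn_upper {a : ℤ} (hx : x ∈ upper a) (hy : y ∈ upper a) : Conn (upper a) x y := by
  refine bts_conn fun v _ _ _ _ => ?_
  simp only [upper, Set.mem_ofPred_eq] at *
  omega
theorem conn_lower {b : ℤ} (hx : x ∈ lower b) (hy : y ∈ lower b) : Conn (lower b) x y := by
  refine bts_conn fun v _ _ _ _ => ?_
  simp only [lower, Set.mem_ofPred_eq] at *
  omega
theorem conn_ball {c : V} {r : ℤ} (hx : x ∈ ball c r) (hy : y ∈ ball c r) : Conn (ball c r) x y := by
  refine bts_conn fun v _ _ _ _ => ?_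
  rw [bpath_mem_ball] at *
  omega

theorem TS_nonneg (ht : ∀ e, 0 ≤ t e) : 0 ≤ TS t S x y := by
  refine Real.sInf_nonneg ?_
  rintro _ ⟨p, i, j, -, -, -, rfl⟩
  exact cost_nonneg ht
theorem TS_le_cost (ht : ∀ e, 0 ≤ t e) (h : PathIn S p i j) : TS t S (p i) (p j) ≤ cost t p i j := by
  refine csInf_le ⟨0, ?_⟩ ⟨p, i, j, h, rfl, rfl, rfl⟩
  rintro _ ⟨p, i, j, -, -, -, rfl⟩
  exact cost_nonneg ht
theorem le_TS (hc : Conn S x y) {c : ℝ}
    (h : ∀ p i j, PathIn S p i j → p i = x → p j = y → c ≤ cost t p i j) : c ≤ TS t S x y := by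
  obtain ⟨p, i, j, hp, h1, h2⟩ := hc
  refine le_csInf ⟨_, p, i, j, hp, h1, h2, rfl⟩ ?_
  rintro _ ⟨p, i, j, hp, h1, h2, rfl⟩
  exact h p i j hp h1 h2
/-- it is enough to look at self-avoiding paths on `0..n` -/
theorem le_TS_injOn (ht : ∀ e, 0 ≤ t e) (hc : Conn S x y) {c : ℝ}
    (h : ∀ p n, PathIn S p 0 n → Set.InjOn p (Set.Icc 0 n) → p 0 = x → p n = y → c ≤ cost t p 0 n) :
    c ≤ TS t S x y := by
  refine le_TS hc fun p i j hp h1 h2 => ?_
  obtain ⟨q, n, q1, q2, q3, q4, -, -, -, q8⟩ := hp.exists_injOn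
  exact (h q n q1 q2 (q3.trans h1) (q4.trans h2)).trans (q8 t ht)
theorem exists_path_lt (ht : ∀ e, 0 ≤ t e) (hc : Conn S x y) {c : ℝ} (h : TS t S x y < c) :
    ∃ p n, PathIn S p 0 n ∧ Set.InjOn p (Set.Icc 0 n) ∧ p 0 = x ∧ p n = y ∧ cost t p 0 n < c := by
  by_contra hn
  refine absurd h (not_lt.2 (le_TS_injOn ht hc fun p n h1 h2 h3 h4 => not_lt.1 fun h5 => ?_))
  exact hn ⟨p, n, h1, h2, h3, h4, h5⟩
theorem bts_not_conn (t : Env) (h : ¬ Conn S x y) : TS t S x y = 0 := by
  have : {c | ∃ p i j, PathIn S p i j ∧ p i = x ∧ p j = y ∧ c = cost t p i j} = ∅ :=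
    Set.eq_empty_of_forall_notMem fun c ⟨p, i, j, h1, h2, h3, _⟩ => h ⟨p, i, j, h1, h2, h3⟩
  rw [TS, this, Real.sInf_empty]
theorem TS_self (ht : ∀ e, 0 ≤ t e) : TS t S x x = 0 := by
  by_cases hx : x ∈ S
  · exact le_antisymm ((TS_le_cost ht (bts_const hx)).trans_eq cost_self) (TS_nonneg ht)
  · exact bts_not_conn t fun ⟨p, i, j, h1, h2, _⟩ => hx (h2 ▸ h1.2.1 i le_rfl h1.1)
theorem TS_comm : TS t S x y = TS t S y x := by
  have key : ∀ x y c, (∃ p i j, PathIn S p i j ∧ p i = x ∧ p j = y ∧ c = cost t p i j) →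
      ∃ p i j, PathIn S p i j ∧ p i = y ∧ p j = x ∧ c = cost t p i j := by
    rintro _ _ _ ⟨p, i, j, hp, rfl, rfl, rfl⟩
    exact ⟨_, _, _, hp.rev, by simp, by simp, cost_rev.symm⟩
  unfold TS
  congr 1
  ext c
  exact ⟨key x y c, key y x c⟩
theorem TS_triangle (ht : ∀ e, 0 ≤ t e) (h : Conn S x y) (h' : Conn S y z) :
    TS t S x z ≤ TS t S x y + TS t S y z := by
  rw [← sub_le_iff_le_add]
  refine le_TS h fun p i j hp h1 h2 => ?_
  rw [sub_le_comm]
  refine le_TS h' fun q i' j' hq h3 h4 => ?_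
  have e : p j = q i' := h2.trans h3.symm
  have h5 := TS_le_cost ht (hp.glue hq e)
  rw [cost_glue hp.1 hq.1 e, glue_of_le hp.1, glue_of_ge e (by have := hq.1; omega),
    show j + (j' - i') - j + i' = j' by ring, h1, h4] at h5
  linarith
theorem TS_anti (ht : ∀ e, 0 ≤ t e) (hS : S ⊆ S') (h : Conn S x y) : TS t S' x y ≤ TS t S x y := by
  refine le_TS h fun p i j hp h1 h2 => ?_
  rw [← h1, ← h2]
  exact TS_le_cost ht (hp.mono hS)
theorem T_le_TS (ht : ∀ e, 0 ≤ t e) (h : Conn S x y) : T t x y ≤ TS t S x y := by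
  exact TS_anti ht (Set.subset_univ _) h
theorem TS_mono_env (ht : ∀ e, 0 ≤ t e) (h : ∀ e, t e ≤ t' e) : TS t S x y ≤ TS t' S x y := by
  by_cases hc : Conn S x y
  · refine le_TS hc fun p i j hp h1 h2 => ?_
    rw [← h1, ← h2]
    exact (TS_le_cost ht hp).trans (cost_mono_env fun k _ _ => h _)
  · rw [bts_not_conn t hc, bts_not_conn t' hc]
theorem bts_dep (S : Set V) (x y : V) :
    DependsOnly (fun t => TS t S x y) (edgesIn S ∩ squareLattice.edgeSet) := by
  intro t t' h
  have key : ∀ p i j, PathIn S p i j → cost t p i j = cost t' p i j := fun p i j hp =>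
    cost_congr_env fun k h1 h2 => h _ ⟨hp.edge_mem h1 h2, hp.2.2 k h1 h2⟩
  unfold TS
  dsimp only
  congr 1
  ext c
  constructor
  · rintro ⟨p, i, j, hp, h1, h2, rfl⟩
    exact ⟨p, i, j, hp, h1, h2, key p i j hp⟩
  · rintro ⟨p, i, j, hp, h1, h2, rfl⟩
    exact ⟨p, i, j, hp, h1, h2, (key p i j hp).symm⟩
theorem dependsOnly_TS (S : Set V) (x y : V) : DependsOnly (fun t => TS t S x y) (edgesIn S) := by
  exact fun t t' h => bts_dep S x y t t' fun e he => h e he.1
/-- only lattice edges are read -/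
theorem dependsOnly_TS' (S : Set V) (x y : V) :
    DependsOnly (fun t => TS t S x y) (edgesIn S ∩ squareLattice.edgeSet) := by
  exact bts_dep S x y
theorem bts_sub_le (ht : ∀ e, 0 ≤ t e) (ht' : ∀ e, 0 ≤ t' e) (U : Finset (Sym2 V))
    (h : ∀ e, e ∉ U → t e = t' e) : TS t S x y - TS t' S x y ≤ ∑ e ∈ U, |t e - t' e| := by
  by_cases hc : Conn S x y
  · rw [sub_le_comm]
    refine le_TS_injOn ht' hc fun p n hp hi h1 h2 => ?_
    have h3 := TS_le_cost ht hp
    rw [h1, h2, cost_eq_sum_image hi] at h3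
    rw [cost_eq_sum_image hi]
    generalize (Finset.Ico 0 n).image (edge p) = E at *
    have h4 : ∑ e ∈ E, t e - ∑ e ∈ E, t' e ≤ ∑ e ∈ E ∪ U, |t e - t' e| := by
      rw [← Finset.sum_sub_distrib]
      exact (Finset.sum_le_sum fun e _ => le_abs_self _).trans
        (Finset.sum_le_sum_of_subset_of_nonneg Finset.subset_union_left fun _ _ _ => abs_nonneg _)
    rw [← Finset.sum_subset Finset.subset_union_right
      fun e _ he => by rw [h e he, sub_self, abs_zero]] at h4
    linarith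
  · rw [bts_not_conn t hc, bts_not_conn t' hc, sub_self]
    exact Finset.sum_nonneg fun _ _ => abs_nonneg _
/-- changing finitely many weights -/
theorem abs_TS_sub_le (ht : ∀ e, 0 ≤ t e) (ht' : ∀ e, 0 ≤ t' e) (U : Finset (Sym2 V))
    (h : ∀ e, e ∉ U → t e = t' e) : |TS t S x y - TS t' S x y| ≤ ∑ e ∈ U, |t e - t' e| := by
  refine abs_sub_le_iff.2 ⟨bts_sub_le ht ht' U h, ?_⟩
  simpa only [abs_sub_comm] using bts_sub_le (S := S) (x := x) (y := y) ht' ht U
    fun e he => (h e he).symm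
/-- concavity in the environment -/
theorem TS_concave (ht : ∀ e, 0 ≤ t e) (ht' : ∀ e, 0 ≤ t' e) {a b : ℝ} (ha : 0 ≤ a) (hb : 0 ≤ b) :
    a * TS t S x y + b * TS t' S x y ≤ TS (fun e => a * t e + b * t' e) S x y := by
  by_cases hc : Conn S x y
  · refine le_TS hc fun p i j hp h1 h2 => ?_
    rw [← h1, ← h2]
    refine (add_le_add (mul_le_mul_of_nonneg_left (TS_le_cost ht hp) ha)
      (mul_le_mul_of_nonneg_left (TS_le_cost ht' hp) hb)).trans_eq ?_
    simp only [cost, Finset.mul_sum, Finset.sum_add_distrib]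
  · simp only [bts_not_conn _ hc, mul_zero, add_zero, le_refl]
theorem bts_ev (h : PathIn S p i j) (c : V) : ∀ᶠ n : ℕ in atTop, PathIn (S ∩ ball c n) p i j := by
  filter_upwards [eventually_ge_atTop (j - i + nrm (p i - c)).toNat] with n hn
  refine h.restrict fun k h1 h2 => ⟨h.2.1 k h1 h2, ?_⟩
  have h3 := nrm_add_le (p k - p i) (p i - c)
  rw [sub_add_sub_cancel] at h3
  have h4 := (h.sub le_rfl h1 h2).nrm_le
  show nrm (p k - c) ≤ n
  omega
/-- exhaustion -/
theorem tendsto_TS_inter_ball (ht : ∀ e, 0 ≤ t e) (h : Conn S x y) (c : V) :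
    Tendsto (fun n : ℕ => TS t (S ∩ ball c n) x y) atTop (𝓝 (TS t S x y)) := by
  refine tendsto_order.2 ⟨fun a ha => ?_, fun a ha => ?_⟩
  · obtain ⟨p, i, j, hp, rfl, rfl⟩ := h
    filter_upwards [bts_ev hp c] with n hn
    exact ha.trans_le (TS_anti ht Set.inter_subset_left hn.conn)
  · obtain ⟨p, n, hp, -, rfl, rfl, h3⟩ := exists_path_lt ht h ha
    filter_upwards [bts_ev hp c] with n hn
    exact (TS_le_cost ht hn).trans_lt h3
theorem eventually_conn_inter_ball (h : Conn S x y) (c : V) :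
    ∀ᶠ n : ℕ in atTop, Conn (S ∩ ball c n) x y := by
  obtain ⟨p, i, j, hp, rfl, rfl⟩ := h
  exact (bts_ev hp c).mono fun n hn => hn.conn

theorem T_nonneg (ht : ∀ e, 0 ≤ t e) : 0 ≤ T t x y := by
  exact TS_nonneg ht
theorem T_self (ht : ∀ e, 0 ≤ t e) : T t x x = 0 := by
  exact TS_self ht
theorem T_comm : T t x y = T t y x := by
  exact TS_comm
theorem T_triangle (ht : ∀ e, 0 ≤ t e) : T t x z ≤ T t x y + T t y z := by
  exact TS_triangle ht (conn_univ _ _) (conn_univ _ _)
theorem T_le_cost (ht : ∀ e, 0 ≤ t e) (h : PathIn S p i j) : T t (p i) (p j) ≤ cost t p i j := by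
  exact TS_le_cost ht (h.mono (Set.subset_univ _))
theorem bts_edge (hx : x ∈ S) (hy : y ∈ S) (h : Adj x y) :
    PathIn S (fun k => if k ≤ 0 then x else y) 0 1 := by
  refine ⟨zero_le_one, fun k _ _ => ?_, fun k h1 h2 => ?_⟩
  · dsimp only
    split_ifs
    exacts [hx, hy]
  · obtain rfl : k = 0 := by omega
    simpa using h
theorem bts_edge_cost (t : Env) (x y : V) :
    cost t (fun k => if k ≤ 0 then x else y) 0 1 = t s(x, y) := by
  have := cost_succ (t := t) (p := fun k => if k ≤ 0 then x else y) (le_refl 0)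
  rw [zero_add, cost_self, zero_add] at this
  rw [this]
  simp [edge]
theorem TS_le_edge (ht : ∀ e, 0 ≤ t e) (hx : x ∈ S) (hy : y ∈ S) (h : Adj x y) :
    TS t S x y ≤ t s(x, y) := by
  have := TS_le_cost ht (bts_edge hx hy h)
  rw [bts_edge_cost] at this
  simpa using this
theorem TS_le_hseg (ht : ∀ e, 0 ≤ t e) {a b c : ℤ} (hab : a ≤ b)
    (h : ∀ k, a ≤ k → k ≤ b → (k, c) ∈ S) : TS t S (a, c) (b, c) ≤ hseg t a b c := by
  exact TS_le_cost ht (pathIn_hseg hab h)
theorem TS_le_vseg (ht : ∀ e, 0 ≤ t e) {a c d : ℤ} (hcd : c ≤ d)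
    (h : ∀ k, c ≤ k → k ≤ d → (a, k) ∈ S) : TS t S (a, c) (a, d) ≤ vseg t a c d := by
  exact TS_le_cost ht (pathIn_vseg hcd h)

theorem bts_of_walk (t : Env) (w : squareLattice.Walk x y) :
    ∃ p i j, PathIn Set.univ p i j ∧ p i = x ∧ p j = y ∧ walkCost t w = cost t p i j := by
  induction w with
  | nil => exact ⟨_, 0, 0, bts_const (Set.mem_univ _), rfl, rfl, cost_self.symm⟩
  | @cons u v _ h w ih =>
    obtain ⟨q, i, j, hq, rfl, rfl, h3⟩ := ih
    have e : (fun k : ℤ => if k ≤ 0 then u else q i) 1 = q i := if_neg (by norm_num)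
    refine ⟨_, _, _, (bts_edge (Set.mem_univ _) (Set.mem_univ _) h).glue hq e,
      (glue_of_le zero_le_one).trans (by simp), ?_, ?_⟩
    · rw [glue_of_ge (p := fun k : ℤ => if k ≤ 0 then u else q i) (j := 1) e
        (by have := hq.1; omega)]
      congr 1
      ring
    · rw [cost_glue (p := fun k : ℤ => if k ≤ 0 then u else q i) zero_le_one hq.1 e,
        bts_edge_cost, ← h3]
      simp [walkCost]
theorem bts_to_walk (t : Env) (h : PathIn S p i j) :
    ∃ w : squareLattice.Walk (p i) (p j), walkCost t w = cost t p i j := by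
  have key : ∀ l, i ≤ l → l ≤ j →
      ∃ w : squareLattice.Walk (p i) (p l), walkCost t w = cost t p i l := by
    intro l hl
    induction l, hl using Int.leInduction with
    | base => exact fun _ => ⟨.nil, cost_self.symm⟩
    | succ l hl ih =>
      intro h2
      obtain ⟨w, hw⟩ := ih (by omega)
      refine ⟨w.concat (h.2.2 l hl (by omega)), ?_⟩
      rw [cost_succ hl, ← hw]
      simp [walkCost, edge]
  exact key j h.1 le_rfl
/-- the two families of costs (walks / indexed paths) have the same set of values -/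
theorem T_eq_passageTime (t : Env) (x y : V) : T t x y = passageTime t x y := by
  unfold T TS passageTime iInf
  congr 1
  ext c
  constructor
  · rintro ⟨p, i, j, hp, rfl, rfl, rfl⟩
    exact bts_to_walk t hp
  · rintro ⟨w, rfl⟩
    exact bts_of_walk t w
theorem isBigeodesic_iff (ht : ∀ e, 0 ≤ t e) (v : ℤ → V) :
    IsBigeodesic t v ↔ ∀ i j, i ≤ j → IsGeo t Set.univ v i j := by
  constructor
  · rintro ⟨h1, h2, h3⟩ i j hij
    refine ⟨⟨hij, fun _ _ _ => Set.mem_univ _, fun k _ _ => h2 k⟩, h1.injOn, ?_⟩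
    rcases hij.eq_or_lt with rfl | hij
    · rw [cost_self, TS_self ht]
    · exact (h3 i j hij).trans (T_eq_passageTime t _ _).symm
  · intro h
    refine ⟨fun a b e => (h (min a b) (max a b) min_le_max).2.1
      ⟨min_le_left _ _, le_max_left _ _⟩ ⟨min_le_right _ _, le_max_right _ _⟩ e,
      fun i => (h i (i + 1) (by omega)).1.2.2 i le_rfl (by omega), fun i j hij => ?_⟩
    exact (h i j hij.le).2.2.trans (T_eq_passageTime t _ _)

theorem isAut_add (v : V) : IsAut fun x => x + v := by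
  refine ⟨(Equiv.addRight v).bijective, fun x y => ?_⟩
  simp only [adj_iff, Prod.fst_add, Prod.snd_add]
  omega
theorem isAut_neg : IsAut fun x : V => -x := by
  refine ⟨(Equiv.neg V).bijective, fun x y => ?_⟩
  simp only [adj_iff, Prod.fst_neg, Prod.snd_neg]
  omega
theorem isAut_sub (v : V) : IsAut fun x : V => v - x := by
  refine ⟨(Equiv.subLeft v).bijective, fun x y => ?_⟩
  simp only [adj_iff, Prod.fst_sub, Prod.snd_sub]
  omega
theorem isAut_reflX : IsAut reflX := by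
  refine ⟨Function.Involutive.bijective fun x => by simp [reflX], fun x y => ?_⟩
  simp only [adj_iff, reflX]
  omega
theorem isAut_reflY : IsAut reflY := by
  refine ⟨Function.Involutive.bijective fun x => by simp [reflY], fun x y => ?_⟩
  simp only [adj_iff, reflY]
  omega
theorem isAut_swap : IsAut (Prod.swap : V → V) := by
  refine ⟨Prod.swap_bijective, fun x y => ?_⟩
  simp only [adj_iff, Prod.fst_swap, Prod.snd_swap]
  omega
theorem IsAut.comp {φ ψ : V → V} (h : IsAut φ) (h' : IsAut ψ) : IsAut (φ ∘ ψ) := by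
  exact ⟨h.bij.comp h'.bij, fun x y => (h.adj _ _).trans (h'.adj _ _)⟩
theorem act_comp (φ ψ : V → V) (t : Env) : act ψ (act φ t) = act (φ ∘ ψ) t := by
  funext e
  induction e using Sym2.ind with
  | _ a b => rfl
theorem shift_apply (v x y : V) (t : Env) : shift v t s(x, y) = t s(x + v, y + v) := by
  rfl
theorem shift_shift (v w : V) (t : Env) : shift w (shift v t) = shift (v + w) t := by
  funext e
  induction e using Sym2.ind with
  | _ a b => simp only [shift_apply, add_assoc, add_comm w v]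
theorem shift_zero (t : Env) : shift 0 t = t := by
  funext e
  induction e using Sym2.ind with
  | _ a b => simp only [shift_apply, add_zero]
theorem Conn.map {φ : V → V} (hφ : IsAut φ) (h : Conn S x y) : Conn (φ '' S) (φ x) (φ y) := by
  obtain ⟨p, i, j, hp, rfl, rfl⟩ := h
  exact ⟨_, i, j, hp.map hφ, rfl, rfl⟩
theorem bts_pull {φ : V → V} (hφ : IsAut φ) (h : PathIn (φ '' S) (fun k => φ (p k)) i j) :
    PathIn S p i j :=
  ⟨h.1, fun k a b => (hφ.bij.1.mem_set_image).1 (h.2.1 k a b),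
    fun k a b => (hφ.adj _ _).1 (h.2.2 k a b)⟩
theorem TS_act {φ : V → V} (hφ : IsAut φ) : TS (act φ t) S x y = TS t (φ '' S) (φ x) (φ y) := by
  unfold TS
  congr 1
  ext c
  constructor
  · rintro ⟨p, i, j, hp, rfl, rfl, rfl⟩
    exact ⟨_, i, j, hp.map hφ, rfl, rfl, cost_act φ⟩
  · rintro ⟨q, i, j, hq, h1, h2, rfl⟩
    choose p hp using fun k => hφ.bij.2 (q k)
    obtain rfl : q = fun k => φ (p k) := funext fun k => (hp k).symm
    exact ⟨p, i, j, bts_pull hφ hq, hφ.bij.1 h1, hφ.bij.1 h2, (cost_act φ).symm⟩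
theorem T_act {φ : V → V} (hφ : IsAut φ) : T (act φ t) x y = T t (φ x) (φ y) := by
  rw [T, TS_act hφ, Set.image_univ_of_surjective hφ.bij.2, T]
theorem T_shift (v : V) : T (shift v t) x y = T t (x + v) (y + v) := by
  exact T_act (isAut_add v)
theorem TS_shift_rows (v : V) (a b : ℤ) :
    TS (shift v t) (rows a b) x y = TS t (rows (a + v.2) (b + v.2)) (x + v) (y + v) := by
  rw [shift, TS_act (isAut_add v)]
  congr 1
  ext z
  simp only [Set.image_add_right, Set.mem_preimage, rows, Set.mem_ofPred_eq, Prod.snd_add,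
    Prod.snd_neg]
  omega
theorem TS_shift_box (v : V) (a b c d : ℤ) : TS (shift v t) (box a b c d) x y =
    TS t (box (a + v.1) (b + v.1) (c + v.2) (d + v.2)) (x + v) (y + v) := by
  rw [shift, TS_act (isAut_add v)]
  congr 1
  ext z
  simp only [Set.image_add_right, Set.mem_preimage, box, Set.mem_ofPred_eq, Prod.snd_add,
    Prod.snd_neg, Prod.fst_add, Prod.fst_neg]
  omega
theorem isGeo_act {φ : V → V} (hφ : IsAut φ) :
    IsGeo (act φ t) S p i j ↔ IsGeo t (φ '' S) (fun k => φ (p k)) i j := by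
  unfold IsGeo
  rw [cost_act, TS_act hφ]
  exact ⟨fun h => ⟨h.1.map hφ, fun a ha b hb e => h.2.1 ha hb (hφ.bij.1 e), h.2.2⟩,
    fun h => ⟨bts_pull hφ h.1, fun a ha b hb e => h.2.1 ha hb (congrArg φ e), h.2.2⟩⟩
theorem Reg.act {φ : V → V} (hφ : IsAut φ) (h : Reg t) : Reg (act φ t) := by
  refine ⟨fun e => h.pos _, fun A B hAB e => ?_, fun x M => ?_⟩
  · refine h.sum_ne (A.map ⟨Sym2.map φ, Sym2.map.injective hφ.bij.1⟩)
      (B.map ⟨Sym2.map φ, Sym2.map.injective hφ.bij.1⟩)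
      (fun e' => hAB (Finset.map_injective _ e')) ?_
    rw [Finset.sum_map, Finset.sum_map]
    exact e
  · simp only [T_act hφ]
    exact (h.fin (φ x) M).preimage hφ.bij.1.injOn

end Crest.Agent.R151
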