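import Crest.Agent.R151.BMeas

/-! R151 base: lowering one weight, tilting a finite set of weights. -/

set_option autoImplicit false
open MeasureTheory ProbabilityTheory Crest.ProbabilityR.FirstPassage Filter Topology
open scoped ENNReal

namespace Crest.Agent.R151

variable (G : Measure ℝ) [IsProbabilityMeasure G]

theorem exists_quantile [NullSingletonClass G] (hG : G (Set.Iio 0) = 0) {η : ℝ} (hη : 0 < η) :
    ∃ q δ : ℝ, 0 < δ ∧ δ < q ∧ G.real (Set.Iio q) ≤ η ∧ 0 < G.real (Set.Ico 0 (q - δ)) := by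
  have hc : ∀ M : ℝ, ContinuousOn (fun b => G.real (Set.Iio b)) (Set.Icc 0 M) := fun M => by
    have h := IntegrableOn.continuousOn_Iic_primitive_Iio (μ := G) (f := fun _ => (1 : ℝ)) (a₀ := M)
      (integrable_const _).integrableOn
    simp only [integral_const, MeasurableSet.univ, measureReal_restrict_apply, Set.univ_inter,
      smul_eq_mul, mul_one] at h
    exact h.mono fun x hx => hx.2
  have h0 : G.real (Set.Iio 0) = 0 := by simp [Measure.real, hG]
  have hlim : Tendsto (fun b => G.real (Set.Iio b)) atTop (𝓝 1) := by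
    have h := (ENNReal.tendsto_toReal (measure_ne_top G Set.univ)).comp (tendsto_measure_Iic_atTop G)
    simp only [measure_univ, ENNReal.toReal_one] at h
    refine h.congr fun b => ?_
    simp only [Function.comp_apply, Measure.real, measure_congr (Iio_ae_eq_Iic (μ := G) (a := b))]
  obtain ⟨M, hM, hM0⟩ := ((hlim.eventually (lt_mem_nhds (show (1 / 2 : ℝ) < 1 by norm_num))).and
    (eventually_ge_atTop 0)).exists
  set η' := min η (1 / 2) with hη'
  have hη0 : 0 < η' := lt_min hη (by norm_num)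
  have hη1 : η' ≤ 1 / 2 := min_le_right _ _
  obtain ⟨q, hq, hqe⟩ := intermediate_value_Icc hM0 (hc M) (show η' ∈ _ from ⟨by
    simp only [h0]; exact hη0.le, by linarith⟩)
  obtain ⟨q1, hq1, hq1e⟩ := intermediate_value_Icc hM0 (hc M) (show η' / 2 ∈ _ from ⟨by
    simp only [h0]; positivity, by linarith⟩)
  simp only at hqe hq1e
  have hmono : ∀ a b : ℝ, a ≤ b → G.real (Set.Iio a) ≤ G.real (Set.Iio b) := fun a b hab =>
    measureReal_mono (Set.Iio_subset_Iio hab)
  have h1 : q1 < q := by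
    by_contra h
    have := hmono _ _ (not_lt.1 h)
    linarith
  have h2 : 0 < q1 := by
    by_contra h
    have := hmono _ _ (not_lt.1 h)
    linarith
  refine ⟨q, q - q1, by linarith, by linarith, hqe.le.trans (min_le_left _ _), ?_⟩
  have h3 : G.real (Set.Iio q1) ≤ G.real (Set.Iio 0) + G.real (Set.Ico 0 q1) := by
    refine le_trans (measureReal_mono ?_) (measureReal_union_le _ _)
    intro x hx
    by_cases h : x < 0
    · exact Or.inl h
    · exact Or.inr ⟨not_lt.1 h, hx⟩
  rw [sub_sub_cancel]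
  linarith

open Classical in
theorem BTilt_upd (e : Sym2 V) {u : Env → ℝ≥0∞} (hu : AEMeasurable u (iidLaw G)) :
    ∫⁻ t, u t ∂iidLaw G = ∫⁻ t, ∫⁻ a, u (Function.update t e a) ∂G ∂iidLaw G := by
  have hp := measurePreserving_update G e
  have h1 : ∫⁻ t, u t ∂iidLaw G =
      ∫⁻ x, u (Function.update x.1 e x.2) ∂(iidLaw G).prod G := by
    conv_lhs => rw [← hp.map_eq]
    exact lintegral_map' (by rw [hp.map_eq]; exact hu) hp.measurable.aemeasurable
  rw [h1]
  exact lintegral_prod _ (hu.comp_quasiMeasurePreserving hp.quasiMeasurePreserving)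

open Classical in
/-- `measurePreserving_update` -/
theorem lower_one_lintegral (e : Sym2 V) {B : Set ℝ} (hB : MeasurableSet B) {f g : Env → ℝ≥0∞}
    (hf : AEMeasurable f (iidLaw G)) (hg : AEMeasurable g (iidLaw G))
    (h : ∀ t, ∀ a ∈ B, f t ≤ g (Function.update t e a)) :
    G B * ∫⁻ t, f t ∂iidLaw G ≤ ∫⁻ t in {t | t e ∈ B}, g t ∂iidLaw G := by
  have hBe : MeasurableSet {t : Env | t e ∈ B} := measurable_pi_apply e hB
  rw [← lintegral_indicator hBe, BTilt_upd G e (hg.indicator hBe), mul_comm,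
    ← lintegral_mul_const'' _ hf]
  refine lintegral_mono fun t => ?_
  have h1 : f t * G B = ∫⁻ a, B.indicator (fun _ => f t) a ∂G := by
    rw [lintegral_indicator_const hB]
  rw [h1]
  refine lintegral_mono fun a => ?_
  by_cases ha : a ∈ B
  · rw [Set.indicator_of_mem ha, Set.indicator_of_mem (by simpa using ha)]
    exact h t a ha
  · rw [Set.indicator_of_notMem ha]
    exact zero_le

open Classical in
theorem lower_one (e : Sym2 V) {B : Set ℝ} (hB : MeasurableSet B) {A A' : Set Env}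
    (hA : NullMeasurableSet A (iidLaw G)) (hA' : NullMeasurableSet A' (iidLaw G))
    (h : ∀ t ∈ A, ∀ a ∈ B, Function.update t e a ∈ A') : G B * iidLaw G A ≤ iidLaw G A' := by
  have h1 := lower_one_lintegral G e hB (f := A.indicator 1) (g := A'.indicator 1)
    (aemeasurable_const.indicator₀ hA) (aemeasurable_const.indicator₀ hA') fun t a ha => by
      by_cases ht : t ∈ A
      · rw [Set.indicator_of_mem ht, Set.indicator_of_mem (h t ht a ha)]
        exact le_rfl
      · rw [Set.indicator_of_notMem ht]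
        exact zero_le
  rw [lintegral_indicator_one₀ hA] at h1
  refine h1.trans ((setLIntegral_le_lintegral _ _).trans ?_)
  rw [lintegral_indicator_one₀ hA']

/-- expectation over the `ϑ`-random subset of `S` -/
noncomputable def BTilt_E (S : Finset (Sym2 V)) (ϑ : ℝ) (f : Finset (Sym2 V) → ℝ) : ℝ :=
  ∑ C ∈ S.powerset, ϑ ^ C.card * (1 - ϑ) ^ (S.card - C.card) * f C

open Classical in
theorem BTilt_coin (S : Finset (Sym2 V)) (ϑ : ℝ) (P : Finset (Sym2 V) → Prop) :
    coinProb S ϑ P = BTilt_E S ϑ fun C => if P C then 1 else 0 := by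
  unfold coinProb BTilt_E
  refine Finset.sum_congr rfl fun C _ => ?_
  by_cases h : P C <;> simp [h]

theorem BTilt_E_empty (ϑ : ℝ) (f : Finset (Sym2 V) → ℝ) : BTilt_E ∅ ϑ f = f ∅ := by
  simp [BTilt_E]

theorem BTilt_E_insert {S : Finset (Sym2 V)} {e : Sym2 V} (he : e ∉ S) (ϑ : ℝ)
    (f : Finset (Sym2 V) → ℝ) :
    BTilt_E (insert e S) ϑ f = BTilt_E S ϑ fun C => (1 - ϑ) * f C + ϑ * f (insert e C) := by
  unfold BTilt_E
  rw [Finset.sum_powerset_insert he, ← Finset.sum_add_distrib]
  refine Finset.sum_congr rfl fun C hC => ?_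
  have hC' := Finset.mem_powerset.1 hC
  have heC : e ∉ C := fun h => he (hC' h)
  have hle := Finset.card_le_card hC'
  rw [Finset.card_insert_of_notMem he, Finset.card_insert_of_notMem heC,
    show S.card + 1 - C.card = (S.card - C.card) + 1 by omega,
    show S.card + 1 - (C.card + 1) = S.card - C.card by omega]
  ring

theorem BTilt_E_congr {S : Finset (Sym2 V)} {ϑ : ℝ} {f g : Finset (Sym2 V) → ℝ}
    (h : ∀ C ⊆ S, f C = g C) : BTilt_E S ϑ f = BTilt_E S ϑ g :=
  Finset.sum_congr rfl fun C hC => by rw [h C (Finset.mem_powerset.1 hC)]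

theorem BTilt_E_mono {S : Finset (Sym2 V)} {ϑ : ℝ} (h0 : 0 ≤ ϑ) (h1 : ϑ ≤ 1)
    {f g : Finset (Sym2 V) → ℝ} (h : ∀ C ⊆ S, f C ≤ g C) : BTilt_E S ϑ f ≤ BTilt_E S ϑ g :=
  Finset.sum_le_sum fun C hC => mul_le_mul_of_nonneg_left (h C (Finset.mem_powerset.1 hC))
    (mul_nonneg (pow_nonneg h0 _) (pow_nonneg (sub_nonneg.2 h1) _))

theorem BTilt_E_const (S : Finset (Sym2 V)) (ϑ c : ℝ) : BTilt_E S ϑ (fun _ => c) = c := by
  induction S using Finset.induction_on with
  | empty => exact BTilt_E_empty _ _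
  | insert e S he ih =>
    rw [BTilt_E_insert he, BTilt_E_congr (g := fun _ => c) fun C _ => by ring, ih]

theorem BTilt_E_lin (S : Finset (Sym2 V)) (ϑ a b : ℝ) (f : Finset (Sym2 V) → ℝ) :
    BTilt_E S ϑ (fun C => a + b * f C) = a + b * BTilt_E S ϑ f := by
  conv_rhs => rw [← BTilt_E_const S ϑ a]
  unfold BTilt_E
  rw [Finset.mul_sum, ← Finset.sum_add_distrib]
  exact Finset.sum_congr rfl fun C _ => by ring

theorem BTilt_E_sum (S : Finset (Sym2 V)) (ϑ : ℝ) {ι : Type} (I : Finset ι)
    (f : ι → Finset (Sym2 V) → ℝ) :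
    BTilt_E S ϑ (fun C => ∑ i ∈ I, f i C) = ∑ i ∈ I, BTilt_E S ϑ (f i) := by
  unfold BTilt_E
  simp only [Finset.mul_sum]
  exact Finset.sum_comm

theorem BTilt_E_var (S : Finset (Sym2 V)) (ϑ : ℝ) (D : Finset (Sym2 V)) :
    BTilt_E S ϑ (fun C => (((C ∩ D).card : ℝ) - ϑ * (S ∩ D).card) ^ 2) =
      ϑ * (1 - ϑ) * (S ∩ D).card := by
  induction S using Finset.induction_on with
  | empty => simp [BTilt_E_empty]
  | insert e S he ih =>
    rw [BTilt_E_insert he]
    by_cases hD : e ∈ D
    · have h1 : ∀ C : Finset (Sym2 V), e ∉ C →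
          (((insert e C) ∩ D).card : ℝ) = (C ∩ D).card + 1 := fun C hC => by
        rw [Finset.insert_inter_of_mem hD, Finset.card_insert_of_notMem
          fun h => hC (Finset.mem_inter.1 h).1]
        push_cast
        ring
      rw [BTilt_E_congr (g := fun C => ϑ * (1 - ϑ) +
        1 * (((C ∩ D).card : ℝ) - ϑ * (S ∩ D).card) ^ 2) fun C hC => by
          rw [h1 S he, h1 C fun h => he (hC h)]
          ring, BTilt_E_lin, ih, h1 S he]
      ring
    · simp only [Finset.insert_inter_of_notMem hD]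
      rw [← ih]
      exact BTilt_E_congr fun C _ => by ring

theorem BTilt_E_disj (S : Finset (Sym2 V)) (ϑ : ℝ) (D : Finset (Sym2 V)) :
    BTilt_E S ϑ (fun C => if Disjoint C D then 1 else 0) = (1 - ϑ) ^ (S ∩ D).card := by
  induction S using Finset.induction_on with
  | empty => simp [BTilt_E_empty]
  | insert e S he ih =>
    rw [BTilt_E_insert he]
    by_cases hD : e ∈ D
    · rw [Finset.insert_inter_of_mem hD, Finset.card_insert_of_notMem
        (fun h => he (Finset.mem_inter.1 h).1), pow_succ', ← ih, ← zero_add (_ * BTilt_E _ _ _),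
        ← BTilt_E_lin]
      refine BTilt_E_congr fun C _ => ?_
      have : ¬ Disjoint (insert e C) D := by simp [Finset.disjoint_insert_left, hD]
      simp [this]
    · rw [Finset.insert_inter_of_notMem hD, ← ih]
      refine BTilt_E_congr fun C _ => ?_
      simp only [Finset.disjoint_insert_left, hD, not_false_eq_true, true_and]
      ring

open Classical in
/-- the one-edge lowering operator -/
noncomputable def BTilt_L (G : Measure ℝ) (q ϑ : ℝ) (B : Set ℝ) (e : Sym2 V) (f : Env → ℝ≥0∞)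
    (t : Env) : ℝ≥0∞ :=
  ENNReal.ofReal (1 - ϑ) * f t + ENNReal.ofReal ϑ *
    (if q ≤ t e then (G B)⁻¹ * ∫⁻ a in B, f (Function.update t e a) ∂G else f t)

/-- its density -/
noncomputable def BTilt_g (G : Measure ℝ) (q ϑ : ℝ) (B : Set ℝ) (x : ℝ) : ℝ≥0∞ :=
  ENNReal.ofReal (1 - ϑ) + ENNReal.ofReal ϑ *
    ((Set.Iio q).indicator 1 x + B.indicator (fun _ => (G B)⁻¹ * G (Set.Ici q)) x)

theorem BTilt_g_meas (q ϑ : ℝ) {B : Set ℝ} (hB : MeasurableSet B) : Measurable (BTilt_g G q ϑ B) := by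
  have h1 : Measurable ((Set.Iio q).indicator (1 : ℝ → ℝ≥0∞)) :=
    measurable_one.indicator measurableSet_Iio
  have h2 : Measurable (B.indicator fun _ : ℝ => (G B)⁻¹ * G (Set.Ici q)) :=
    measurable_const.indicator hB
  exact ((h1.add h2).const_mul _).const_add _

open Classical in
theorem BTilt_Phi_meas (B : Set ℝ) (e : Sym2 V) {f : Env → ℝ≥0∞} (hf : Measurable f) :
    Measurable fun t : Env => ∫⁻ a in B, f (Function.update t e a) ∂G :=
  Measurable.lintegral_prod_right (f := fun (t : Env) (a : ℝ) => f (Function.update t e a))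
    (hf.comp measurable_update')

theorem BTilt_L_meas (q ϑ : ℝ) (B : Set ℝ) (e : Sym2 V) {f : Env → ℝ≥0∞} (hf : Measurable f) :
    Measurable (BTilt_L G q ϑ B e f) := by
  refine (measurable_const.mul hf).add (measurable_const.mul (Measurable.ite ?_ ?_ hf))
  · exact measurableSet_le measurable_const (measurable_pi_apply e)
  · exact measurable_const.mul (BTilt_Phi_meas G B e hf)

open Classical in
theorem BTilt_upd2 (e : Sym2 V) {u : Env → ℝ≥0∞} (hu : Measurable u)
    (h : ∀ t a, u (Function.update t e a) = u t) {k : ℝ → ℝ≥0∞} (hk : Measurable k) :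
    ∫⁻ t, k (t e) * u t ∂iidLaw G = (∫⁻ a, k a ∂G) * ∫⁻ t, u t ∂iidLaw G := by
  rw [BTilt_upd G e (u := fun t => k (t e) * u t)
      ((hk.comp (measurable_pi_apply e)).mul hu).aemeasurable,
    ← lintegral_const_mul _ hu]
  refine lintegral_congr fun t => ?_
  simp only [Function.update_self, h]
  exact lintegral_mul_const _ hk

open Classical in
theorem BTilt_L_int (q ϑ : ℝ) {B : Set ℝ} (hB : MeasurableSet B) (e : Sym2 V) {f : Env → ℝ≥0∞}
    (hf : Measurable f) :
    ∫⁻ t, BTilt_L G q ϑ B e f t ∂iidLaw G = ∫⁻ t, BTilt_g G q ϑ B (t e) * f t ∂iidLaw G := by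
  have hΦ := BTilt_Phi_meas G B e hf
  have he : Measurable fun t : Env => t e := measurable_pi_apply e
  have h1 : ∀ t, BTilt_L G q ϑ B e f t = (ENNReal.ofReal (1 - ϑ) * f t + ENNReal.ofReal ϑ *
      ((Set.Iio q).indicator 1 (t e) * f t)) + ENNReal.ofReal ϑ *
      ((Set.Ici q).indicator (fun _ => (G B)⁻¹) (t e) *
        ∫⁻ a in B, f (Function.update t e a) ∂G) := fun t => by
    unfold BTilt_L
    by_cases h : q ≤ t e
    · rw [if_pos h, Set.indicator_of_notMem (by simpa using h), Set.indicator_of_mem (by simpa using h)]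
      simp
    · rw [if_neg h, Set.indicator_of_mem (by simpa using h), Set.indicator_of_notMem (by simpa using h)]
      simp
  have h2 : ∀ t, BTilt_g G q ϑ B (t e) * f t = (ENNReal.ofReal (1 - ϑ) * f t + ENNReal.ofReal ϑ *
      ((Set.Iio q).indicator 1 (t e) * f t)) + ENNReal.ofReal ϑ * (((G B)⁻¹ * G (Set.Ici q)) *
        ({t : Env | t e ∈ B}.indicator f t)) := fun t => by
    unfold BTilt_g
    by_cases h : t e ∈ B
    · rw [Set.indicator_of_mem h, Set.indicator_of_mem (s := {t : Env | t e ∈ B}) h]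
      ring
    · rw [Set.indicator_of_notMem h, Set.indicator_of_notMem (s := {t : Env | t e ∈ B}) h]
      ring
  have hm : Measurable fun t : Env => ENNReal.ofReal (1 - ϑ) * f t + ENNReal.ofReal ϑ *
      ((Set.Iio q).indicator 1 (t e) * f t) :=
    (measurable_const.mul hf).add (measurable_const.mul
      (((measurable_const.indicator measurableSet_Iio).comp he).mul hf))
  have hBe : MeasurableSet {t : Env | t e ∈ B} := he hB
  simp only [h1, h2]
  rw [lintegral_add_left hm, lintegral_add_left hm,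
    lintegral_const_mul' _ _ ENNReal.ofReal_ne_top, lintegral_const_mul' _ _ ENNReal.ofReal_ne_top,
    BTilt_upd2 G e hΦ (fun t a => by simp only [Function.update_idem])
      (measurable_const.indicator measurableSet_Ici),
    lintegral_indicator_const measurableSet_Ici, lintegral_const_mul _ (hf.indicator hBe),
    BTilt_upd G e (hf.indicator hBe).aemeasurable]
  congr 3
  refine lintegral_congr fun t => ?_
  rw [← lintegral_indicator hB]
  refine lintegral_congr fun a => ?_
  by_cases h : a ∈ B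
  · rw [Set.indicator_of_mem h, Set.indicator_of_mem (by simpa using h)]
  · rw [Set.indicator_of_notMem h, Set.indicator_of_notMem (by simpa using h)]

open Classical in
theorem BTilt_L_mul (q ϑ : ℝ) (B : Set ℝ) (e : Sym2 V) {f u : Env → ℝ≥0∞} (hf : Measurable f)
    (h : ∀ t a, u (Function.update t e a) = u t) (t : Env) :
    u t * BTilt_L G q ϑ B e f t = BTilt_L G q ϑ B e (fun t => u t * f t) t := by
  unfold BTilt_L
  simp only [h]
  rw [lintegral_const_mul _ (f := fun a => f (Function.update t e a))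
    (hf.comp (measurable_update t))]
  split_ifs <;> ring

open Classical in
theorem BTilt_main {q ϑ : ℝ} (h0 : 0 ≤ ϑ) (h1 : ϑ ≤ 1) {B : Set ℝ} (hB : MeasurableSet B)
    (hp : G B ≠ 0) (S : Finset (Sym2 V)) : ∀ f : Env → ℝ≥0∞, Measurable f → ∃ F : Env → ℝ≥0∞,
      Measurable F ∧ ∫⁻ t, F t ∂iidLaw G = ∫⁻ t, (∏ e ∈ S, BTilt_g G q ϑ B (t e)) * f t ∂iidLaw G ∧
      ∀ (t : Env) (φ : Finset (Sym2 V) → ℝ), (∀ C ⊆ S, ∀ a : Sym2 V → ℝ, (∀ e, a e ∈ B) →
        ENNReal.ofReal (φ C) ≤ f (lowerOn q C a t)) → ENNReal.ofReal (BTilt_E S ϑ φ) ≤ F t := by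
  induction S using Finset.induction_on with
  | empty =>
    intro f hf
    refine ⟨f, hf, by simp, fun t φ h => ?_⟩
    obtain ⟨b, hb⟩ := nonempty_of_measure_ne_zero hp
    have h2 := h ∅ (Finset.Subset.refl _) (fun _ => b) fun _ => hb
    have h3 : lowerOn q ∅ (fun _ => b) t = t := by
      funext e
      simp [lowerOn]
    rwa [BTilt_E_empty, ← h3]
  | insert e S he ih =>
    intro f hf
    obtain ⟨F, hF, hI, hle⟩ := ih (BTilt_L G q ϑ B e f) (BTilt_L_meas G q ϑ B e hf)
    have hu : Measurable fun t : Env => ∏ e ∈ S, BTilt_g G q ϑ B (t e) :=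
      Finset.measurable_prod _ fun e _ => (BTilt_g_meas G q ϑ hB).comp (measurable_pi_apply e)
    refine ⟨F, hF, ?_, fun t φ h => ?_⟩
    · rw [hI]
      have h2 := BTilt_L_mul G q ϑ B e hf (u := fun t : Env => ∏ e ∈ S, BTilt_g G q ϑ B (t e))
        fun t a => Finset.prod_congr rfl fun e' he' => by
          rw [Function.update_of_ne (ne_of_mem_of_not_mem he' he)]
      simp only [h2]
      rw [BTilt_L_int G q ϑ hB e (f := fun t => (∏ e ∈ S, BTilt_g G q ϑ B (t e)) * f t) (hu.mul hf)]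
      refine lintegral_congr fun t => ?_
      rw [Finset.prod_insert he, mul_assoc]
    · rw [BTilt_E_insert he]
      refine hle t _ fun C hC a ha => ?_
      have heC : e ∉ C := fun h => he (hC h)
      have hte : lowerOn q C a t e = t e := by simp [lowerOn, heC]
      refine ENNReal.ofReal_add_le.trans ?_
      rw [ENNReal.ofReal_mul (sub_nonneg.2 h1), ENNReal.ofReal_mul h0]
      unfold BTilt_L
      refine add_le_add (mul_le_mul_right (h C (hC.trans (Finset.subset_insert _ _)) a ha) _)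
        (mul_le_mul_right ?_ _)
      have hC' : insert e C ⊆ insert e S := Finset.insert_subset_insert _ hC
      rw [hte]
      split_ifs with hq
      · have h3 : ∀ b ∈ B, ENNReal.ofReal (φ (insert e C)) ≤
            f (Function.update (lowerOn q C a t) e b) := fun b hb => by
          have h4 := h _ hC' (Function.update a e b) fun e' => by
            by_cases h5 : e' = e
            · subst h5
              simpa using hb
            · rw [Function.update_of_ne h5]
              exact ha e'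
          convert h4 using 2
          funext e'
          by_cases h5 : e' = e
          · subst h5
            simp [lowerOn, hq]
          · simp [lowerOn, h5]
        have h6 : ENNReal.ofReal (φ (insert e C)) * G B ≤
            ∫⁻ b in B, f (Function.update (lowerOn q C a t) e b) ∂G := by
          rw [← setLIntegral_const]
          exact setLIntegral_mono' hB h3
        refine le_trans (le_of_eq ?_) (mul_le_mul_right h6 _)
        rw [mul_comm, mul_assoc, ENNReal.mul_inv_cancel hp (measure_ne_top _ _), mul_one]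
      · refine (h _ hC' a ha).trans (le_of_eq ?_)
        congr 1
        funext e'
        by_cases h5 : e' = e
        · subst h5
          simp [lowerOn, hq]
        · simp [lowerOn, h5]

theorem BTilt_prod (S : Finset (Sym2 V)) {k : ℝ → ℝ≥0∞} (hk : Measurable k) :
    ∫⁻ t, ∏ e ∈ S, k (t e) ∂iidLaw G = (∫⁻ a, k a ∂G) ^ S.card := by
  induction S using Finset.induction_on with
  | empty => simp
  | insert e S he ih =>
    simp only [Finset.prod_insert he]
    rw [BTilt_upd2 G e (u := fun t : Env => ∏ e ∈ S, k (t e))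
      (Finset.measurable_prod _ fun e _ => hk.comp (measurable_pi_apply e))
      (fun t a => Finset.prod_congr rfl fun e' he' => by
        rw [Function.update_of_ne (ne_of_mem_of_not_mem he' he)]) hk, ih,
      Finset.card_insert_of_notMem he, pow_succ']

theorem BTilt_sq {q ϑ : ℝ} (h0 : 0 ≤ ϑ) (h1 : ϑ ≤ 1) {B : Set ℝ} (hB : MeasurableSet B)
    (hp : 0 < G.real B) (hq : B ⊆ Set.Iio q) :
    ∫⁻ a, BTilt_g G q ϑ B a ^ 2 ∂G ≤ ENNReal.ofReal (Real.exp (2 * ϑ ^ 2 / G.real B)) := by
  set p := G.real B with hpd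
  set r := G.real (Set.Ici q) with hr
  have hr0 : 0 ≤ r := measureReal_nonneg
  have hr1 : r ≤ 1 := measureReal_le_one
  have hp1 : p ≤ 1 := measureReal_le_one
  have hc : (G B)⁻¹ * G (Set.Ici q) = ENNReal.ofReal (r / p) := by
    rw [ENNReal.ofReal_div_of_pos hp, hr, hpd, ofReal_measureReal, ofReal_measureReal, mul_comm,
      div_eq_mul_inv]
  have hrp : 0 ≤ r / p := by positivity
  let u : ℝ → ℝ := fun a => 1 + (Set.Ici q).indicator (fun _ => ϑ ^ 2 - 2 * ϑ) a +
    B.indicator (fun _ => 2 * ϑ * (r / p) + (ϑ * (r / p)) ^ 2) a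
  have hu : ∀ a, 0 ≤ u a ∧ BTilt_g G q ϑ B a ^ 2 = ENNReal.ofReal (u a) := fun a => by
    unfold BTilt_g
    rw [hc]
    by_cases ha : a ∈ B
    · have ha' := hq ha
      have e1 : u a = (1 - ϑ + ϑ * (1 + r / p)) ^ 2 := by
        simp only [u, Set.indicator_of_mem ha,
          Set.indicator_of_notMem (show a ∉ Set.Ici q by simpa using ha')]
        ring
      refine ⟨by rw [e1]; positivity, ?_⟩
      rw [e1, Set.indicator_of_mem ha, Set.indicator_of_mem ha',
        ENNReal.ofReal_pow (by have := sub_nonneg.2 h1; positivity),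
        ENNReal.ofReal_add (sub_nonneg.2 h1) (by positivity), ENNReal.ofReal_mul h0,
        ENNReal.ofReal_add zero_le_one hrp]
      simp
    · by_cases ha' : a ∈ Set.Iio q
      · have e1 : u a = (1 - ϑ + ϑ) ^ 2 := by
          simp only [u, Set.indicator_of_notMem ha,
            Set.indicator_of_notMem (show a ∉ Set.Ici q by simpa using ha')]
          ring
        refine ⟨by rw [e1]; positivity, ?_⟩
        rw [e1, Set.indicator_of_notMem ha, Set.indicator_of_mem ha',
          ENNReal.ofReal_pow (by linarith), ENNReal.ofReal_add (sub_nonneg.2 h1) h0]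
        simp
      · have e1 : u a = (1 - ϑ) ^ 2 := by
          simp only [u, Set.indicator_of_notMem ha,
            Set.indicator_of_mem (show a ∈ Set.Ici q by simpa using ha')]
          ring
        refine ⟨by rw [e1]; positivity, ?_⟩
        rw [e1, Set.indicator_of_notMem ha, Set.indicator_of_notMem ha',
          ENNReal.ofReal_pow (sub_nonneg.2 h1)]
        simp
  have i1 : Integrable (fun a => (Set.Ici q).indicator (fun _ => ϑ ^ 2 - 2 * ϑ) a) G :=
    (integrable_const _).indicator measurableSet_Ici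
  have i2 : Integrable (fun a => B.indicator (fun _ => 2 * ϑ * (r / p) + (ϑ * (r / p)) ^ 2) a) G :=
    (integrable_const _).indicator hB
  have i3 : Integrable (fun a => (1 : ℝ) + (Set.Ici q).indicator (fun _ => ϑ ^ 2 - 2 * ϑ) a) G :=
    (integrable_const _).add i1
  simp only [fun a => (hu a).2]
  rw [← ofReal_integral_eq_lintegral_ofReal (f := u) (i3.add i2) (ae_of_all _ fun a => (hu a).1)]
  refine ENNReal.ofReal_le_ofReal (le_trans ?_ (Real.add_one_le_exp _))
  simp only [u]
  rw [integral_add i3 i2, integral_add (integrable_const _) i1,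
    integral_indicator_const _ measurableSet_Ici, integral_indicator_const _ hB]
  simp only [integral_const, probReal_univ, smul_eq_mul, ← hr, ← hpd]
  have e2 : p * (2 * ϑ * (r / p) + (ϑ * (r / p)) ^ 2) = 2 * ϑ * r + ϑ ^ 2 * r ^ 2 / p := by
    field_simp
  have e3 : ϑ ^ 2 * r ^ 2 / p ≤ ϑ ^ 2 / p :=
    div_le_div_of_nonneg_right (mul_le_of_le_one_right (sq_nonneg _) (pow_le_one₀ hr0 hr1)) hp.le
  have e4 : ϑ ^ 2 * r ≤ ϑ ^ 2 / p :=
    (mul_le_of_le_one_right (sq_nonneg _) hr1).trans (le_div_self (sq_nonneg _) hp hp1)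
  have e5 : 2 * ϑ ^ 2 / p = ϑ ^ 2 / p + ϑ ^ 2 / p := by ring
  rw [e2, e5]
  linarith

/-- Let `B0 = Ico 0 (q-δ)`, `p' = G B0`.  Replace, independently for `e ∈ S` with probability `ϑ`, a weight `≥ q` by a
fresh sample of `G` conditioned on `B0`.  The new weight has density `g = 1 - ϑ 1{≥ q} + ϑ G(Ici q)/p' 1_{B0}`, `∫ g² dG ≤ 1 + 2ϑ²/p'`.
One way without new spaces: induction on `S` for the operator
`L_e f (t) = (1-ϑ) f t + ϑ (if q ≤ t e then ∫_{B0} f (update t e a) dG/p' else f t)`, `∫ L_e f = ∫ f g(t e)`; so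
`∫ (Π L_e) 1_B = ∫ 1_B Π g(t e) ≤ √(P B) √(Π ∫ g²)`, and pointwise `(Π L_e) 1_B (t) ≥ coinProb …`.
(Replace `B` by a measurable superset of the same measure.) -/
theorem tilt {q δ ϑ c : ℝ} (hδ : 0 < δ) (hp : 0 < G.real (Set.Ico 0 (q - δ))) (S : Finset (Sym2 V))
    (h0 : 0 ≤ ϑ) (h1 : ϑ ≤ 1) (hS : S.card * ϑ ^ 2 ≤ G.real (Set.Ico 0 (q - δ))) (hc : 0 ≤ c)
    {A B : Set Env} (hA : NullMeasurableSet A (iidLaw G))
    (h : ∀ t ∈ A, c ≤ coinProb S ϑ fun C => ∀ a : Sym2 V → ℝ, (∀ e, a e ∈ Set.Ico 0 (q - δ)) →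
      lowerOn q C a t ∈ B) :
    (c * (iidLaw G).real A) ^ 2 ≤ Real.exp 2 * (iidLaw G).real B := by
  classical
  have hB0 : MeasurableSet (Set.Ico 0 (q - δ)) := measurableSet_Ico
  have hp' : G (Set.Ico 0 (q - δ)) ≠ 0 := fun h => by simp [Measure.real, h] at hp
  have hB' : MeasurableSet (toMeasurable (iidLaw G) B) := measurableSet_toMeasurable _ _
  obtain ⟨F, hF, hI, hle⟩ := BTilt_main G (q := q) h0 h1 hB0 hp' S
    ((toMeasurable (iidLaw G) B).indicator 1) (measurable_const.indicator hB')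
  have hg := BTilt_g_meas G q ϑ hB0
  have hu : Measurable fun t : Env => ∏ e ∈ S, BTilt_g G q ϑ (Set.Ico 0 (q - δ)) (t e) :=
    Finset.measurable_prod _ fun e _ => hg.comp (measurable_pi_apply e)
  have h2 : ENNReal.ofReal c * iidLaw G A ≤ ∫⁻ t, F t ∂iidLaw G := by
    rw [← setLIntegral_const]
    refine le_trans (setLIntegral_mono hF fun t ht => ?_) (setLIntegral_le_lintegral _ _)
    refine (ENNReal.ofReal_le_ofReal (h t ht)).trans ?_
    rw [BTilt_coin]
    refine hle t _ fun C _ a ha => ?_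
    split_ifs with hC
    · rw [Set.indicator_of_mem (subset_toMeasurable _ _ (hC a ha))]
      simp
    · simp
  have h3 := ENNReal.lintegral_mul_le_Lp_mul_Lq (iidLaw G) Real.HolderConjugate.two_two
    hu.aemeasurable (measurable_const.indicator hB' (f := (1 : Env → ℝ≥0∞))).aemeasurable
  have h4 : ∫⁻ t, (∏ e ∈ S, BTilt_g G q ϑ (Set.Ico 0 (q - δ)) (t e)) ^ (2 : ℝ) ∂iidLaw G ≤
      ENNReal.ofReal (Real.exp 2) := by
    simp only [ENNReal.rpow_two, ← Finset.prod_pow]
    rw [BTilt_prod G S (hg.pow_const 2)]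
    refine (pow_le_pow_left' (BTilt_sq G h0 h1 hB0 hp fun x hx =>
      lt_trans hx.2 (by linarith)) _).trans ?_
    rw [← ENNReal.ofReal_pow (Real.exp_pos _).le, ← Real.exp_nat_mul]
    refine ENNReal.ofReal_le_ofReal (Real.exp_le_exp.2 ?_)
    rw [← mul_div_assoc, div_le_iff₀ hp]
    linarith
  have h5 : ∫⁻ t, ((toMeasurable (iidLaw G) B).indicator (1 : Env → ℝ≥0∞) t) ^ (2 : ℝ) ∂iidLaw G =
      iidLaw G B := by
    rw [← measure_toMeasurable B, ← lintegral_indicator_one hB']
    refine lintegral_congr fun t => ?_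
    by_cases ht : t ∈ toMeasurable (iidLaw G) B <;> simp [ht]
  rw [h5] at h3
  have h6 : ENNReal.ofReal c * iidLaw G A ≤
      (ENNReal.ofReal (Real.exp 2) * iidLaw G B) ^ (1 / 2 : ℝ) := by
    rw [ENNReal.mul_rpow_of_nonneg _ _ (by norm_num)]
    refine h2.trans (hI.le.trans (h3.trans ?_))
    gcongr
  have h7 : (ENNReal.ofReal c * iidLaw G A) ^ 2 ≤ ENNReal.ofReal (Real.exp 2) * iidLaw G B := by
    refine (pow_le_pow_left' h6 2).trans (le_of_eq ?_)
    rw [← ENNReal.rpow_two, ← ENNReal.rpow_mul]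
    norm_num
  have h8 := ENNReal.toReal_mono (ENNReal.mul_ne_top ENNReal.ofReal_ne_top (measure_ne_top _ _)) h7
  rwa [ENNReal.toReal_pow, ENNReal.toReal_mul, ENNReal.toReal_mul, ENNReal.toReal_ofReal hc,
    ENNReal.toReal_ofReal (Real.exp_pos _).le] at h8

variable {S : Finset (Sym2 V)} {ϑ : ℝ}
theorem coinProb_true : coinProb S ϑ (fun _ => True) = 1 := by
  rw [BTilt_coin]
  simp only [if_true]
  exact BTilt_E_const _ _ _
theorem coinProb_nonneg (h0 : 0 ≤ ϑ) (h1 : ϑ ≤ 1) (P : Finset (Sym2 V) → Prop) :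
    0 ≤ coinProb S ϑ P := by
  rw [BTilt_coin]
  refine (BTilt_E_const S ϑ 0).symm.le.trans (BTilt_E_mono h0 h1 fun C _ => ?_)
  split_ifs <;> norm_num
theorem coinProb_mono (h0 : 0 ≤ ϑ) (h1 : ϑ ≤ 1) {P Q : Finset (Sym2 V) → Prop}
    (h : ∀ C ⊆ S, P C → Q C) : coinProb S ϑ P ≤ coinProb S ϑ Q := by
  rw [BTilt_coin, BTilt_coin]
  refine BTilt_E_mono h0 h1 fun C hC => ?_
  by_cases hP : P C
  · rw [if_pos hP, if_pos (h C hC hP)]
  · rw [if_neg hP]
    split_ifs <;> norm_num
theorem coinProb_not (P : Finset (Sym2 V) → Prop) :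
    coinProb S ϑ (fun C => ¬ P C) = 1 - coinProb S ϑ P := by
  rw [BTilt_coin, BTilt_coin, sub_eq_add_neg, ← neg_one_mul, ← BTilt_E_lin]
  refine BTilt_E_congr fun C _ => ?_
  by_cases hP : P C <;> simp [hP]
open Classical in
theorem coinProb_disjoint {D : Finset (Sym2 V)} (hD : D ⊆ S) :
    coinProb S ϑ (fun C => Disjoint C D) = (1 - ϑ) ^ D.card := by
  have h := BTilt_E_disj S ϑ D
  rw [Finset.inter_eq_right.2 hD] at h
  rw [BTilt_coin, ← h]
  refine BTilt_E_congr fun C _ => ?_
  congr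
open Classical in
/-- Chebyshev for the binomial variable `|C ∩ D|` -/
theorem coinProb_card_inter (h0 : 0 < ϑ) (h1 : ϑ ≤ 1) {D : Finset (Sym2 V)} (hD : D ⊆ S)
    (hne : D.Nonempty) :
    1 - 4 / (D.card * ϑ) ≤ coinProb S ϑ fun C => D.card * ϑ / 2 ≤ ((C ∩ D).card : ℝ) := by
  have hm : (0 : ℝ) < D.card := by exact_mod_cast hne.card_pos
  have hv := BTilt_E_var S ϑ D
  rw [Finset.inter_eq_right.2 hD] at hv
  have hpos : 0 < (D.card : ℝ) * ϑ := mul_pos hm h0
  have key : BTilt_E S ϑ (fun C => 1 + (-4 / (D.card * ϑ) ^ 2) *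
      (((C ∩ D).card : ℝ) - ϑ * D.card) ^ 2) ≤
      coinProb S ϑ fun C => D.card * ϑ / 2 ≤ ((C ∩ D).card : ℝ) := by
    rw [BTilt_coin]
    refine BTilt_E_mono h0.le h1 fun C _ => ?_
    have hc : ∀ {E : Finset (Sym2 V)}, E = C ∩ D → (E.card : ℝ) = ((C ∩ D).card : ℝ) :=
      fun h => by rw [h]
    split_ifs with h
    · have : 0 ≤ 4 / ((D.card : ℝ) * ϑ) ^ 2 * (((C ∩ D).card : ℝ) - ϑ * D.card) ^ 2 := by
        positivity
      rw [neg_div]
      linarith
    · have h2 : ((C ∩ D).card : ℝ) < D.card * ϑ / 2 := by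
        rw [not_le] at h
        convert h
      have h3 : ((D.card : ℝ) * ϑ) ^ 2 ≤ 4 * (((C ∩ D).card : ℝ) - ϑ * D.card) ^ 2 := by
        nlinarith
      have h4 : 1 ≤ 4 / ((D.card : ℝ) * ϑ) ^ 2 * (((C ∩ D).card : ℝ) - ϑ * D.card) ^ 2 := by
        rw [div_mul_eq_mul_div, le_div_iff₀ (by positivity)]
        linarith
      rw [neg_div]
      linarith
  refine le_trans ?_ key
  rw [BTilt_E_lin, hv]
  have h5 : -4 / ((D.card : ℝ) * ϑ) ^ 2 * (ϑ * (1 - ϑ) * D.card) =
      -(4 / (D.card * ϑ)) + 4 / (D.card * ϑ) * ϑ := by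
    field_simp
    ring
  rw [h5]
  have : 0 ≤ 4 / ((D.card : ℝ) * ϑ) * ϑ := by positivity
  linarith
open Classical in
/-- Markov for the number of failures -/
theorem coinProb_majority (h0 : 0 ≤ ϑ) (h1 : ϑ ≤ 1) {ι : Type} (I : Finset ι)
    (P : ι → Finset (Sym2 V) → Prop) {η : ℝ} (hη : 0 ≤ η) (h : ∀ i ∈ I, 1 - η ≤ coinProb S ϑ (P i)) :
    1 - 2 * η ≤ coinProb S ϑ fun C => (I.card : ℝ) ≤ 2 * (I.filter fun i => P i C).card := by
  rcases I.eq_empty_or_nonempty with rfl | hne
  · have : coinProb S ϑ (fun C => (((∅ : Finset ι).card : ℝ)) ≤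
        2 * (((∅ : Finset ι).filter fun i => P i C).card : ℝ)) = coinProb S ϑ fun _ => True := by
      congr 1
      funext C
      simp
    rw [this, coinProb_true]
    linarith
  have hm : (0 : ℝ) < I.card := by exact_mod_cast hne.card_pos
  have key : BTilt_E S ϑ (fun C => -1 + (2 / I.card) * ∑ i ∈ I, (if P i C then (1 : ℝ) else 0)) ≤
      coinProb S ϑ fun C => (I.card : ℝ) ≤ 2 * (I.filter fun i => P i C).card := by
    rw [BTilt_coin]
    refine BTilt_E_mono h0 h1 fun C _ => ?_
    rw [Finset.sum_boole]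
    have hle : ((I.filter fun i => P i C).card : ℝ) ≤ I.card := by
      exact_mod_cast Finset.card_filter_le _ _
    split_ifs with h
    · have : 2 / (I.card : ℝ) * (I.filter fun i => P i C).card ≤ 2 := by
        rw [div_mul_eq_mul_div, div_le_iff₀ hm]
        linarith
      linarith
    · have : 2 / (I.card : ℝ) * (I.filter fun i => P i C).card ≤ 1 := by
        rw [div_mul_eq_mul_div, div_le_iff₀ hm]
        linarith [not_le.1 h]
      linarith
  refine le_trans ?_ key
  rw [BTilt_E_lin, BTilt_E_sum]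
  have h2 : (I.card : ℝ) * (1 - η) ≤ ∑ i ∈ I, BTilt_E S ϑ fun C => if P i C then (1 : ℝ) else 0 := by
    rw [← nsmul_eq_mul, ← Finset.sum_const]
    exact Finset.sum_le_sum fun i hi => (h i hi).trans (BTilt_coin S ϑ (P i)).le
  have h3 := mul_le_mul_of_nonneg_left h2 (show 0 ≤ 2 / (I.card : ℝ) by positivity)
  have h4 : 2 / (I.card : ℝ) * (I.card * (1 - η)) = 2 * (1 - η) := by field_simp
  linarith

theorem lowerOn_le {q δ : ℝ} (hδ : 0 < δ) {C : Finset (Sym2 V)} {a : Sym2 V → ℝ} {t : Env}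
    (ha : ∀ e, a e ∈ Set.Ico 0 (q - δ)) (e : Sym2 V) : lowerOn q C a t e ≤ t e := by
  unfold lowerOn
  split_ifs with h
  · linarith [(ha e).2, h.2]
  · exact le_rfl
open Classical in
/-- gain of a self-avoiding path -/
theorem cost_lowerOn_le {q δ : ℝ} (hδ : 0 < δ) {C : Finset (Sym2 V)} {a : Sym2 V → ℝ} {t : Env}
    (ha : ∀ e, a e ∈ Set.Ico 0 (q - δ)) (p : ℤ → V) (i j : ℤ) :
    cost (lowerOn q C a t) p i j ≤ cost t p i j -
      δ * (((Finset.Ico i j).image (edge p)).filter fun e => e ∈ C ∧ q ≤ t e).card := by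
  have h1 : ∀ e, lowerOn q C a t e ≤ t e - δ * (if e ∈ C ∧ q ≤ t e then 1 else 0) := fun e => by
    unfold lowerOn
    split_ifs with h
    · linarith [(ha e).2, h.2]
    · simp
  have h2 : ((((Finset.Ico i j).image (edge p)).filter fun e => e ∈ C ∧ q ≤ t e).card : ℝ) ≤
      ∑ k ∈ Finset.Ico i j, (if edge p k ∈ C ∧ q ≤ t (edge p k) then (1 : ℝ) else 0) := by
    rw [Finset.sum_boole, Finset.filter_image]
    exact_mod_cast Finset.card_image_le
  have h3 : cost (lowerOn q C a t) p i j ≤ ∑ k ∈ Finset.Ico i j,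
      (t (edge p k) - δ * (if edge p k ∈ C ∧ q ≤ t (edge p k) then (1 : ℝ) else 0)) :=
    Finset.sum_le_sum fun k _ => h1 _
  rw [Finset.sum_sub_distrib, ← Finset.mul_sum] at h3
  have h4 := mul_le_mul_of_nonneg_left h2 hδ.le
  unfold cost at h3 ⊢
  linarith

end Crest.Agent.R151
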