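import Crest.Agent.R151.BMu

/-! R151 base: upper bounds (means in strips, upper tail). -/

set_option autoImplicit false
open MeasureTheory ProbabilityTheory Crest.ProbabilityR.FirstPassage Filter Topology
open scoped ENNReal

namespace Crest.Agent.R151

variable (G : Measure ℝ) [IsProbabilityMeasure G] [NullSingletonClass G]

omit [IsProbabilityMeasure G] [NullSingletonClass G] in
theorem BUpper_ball_image (x : V) (r : ℤ) : (fun v : V => v + x) '' ball 0 r = ball x r := by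
  ext v
  simp only [ball, Set.mem_image, Set.mem_ofPred_eq, sub_zero]
  constructor
  · rintro ⟨u, hu, rfl⟩
    simpa using hu
  · intro h
    exact ⟨v - x, h, by simp⟩

omit [NullSingletonClass G] in
theorem BUpper_L2 (hG : Hyp G) : ∃ C > 0, ∃ K : ℕ, ∀ (r : ℕ) (R : ℤ) (x w : V), nrm w ≤ r →
    (r : ℤ) + K ≤ R → MemLp (fun t => TS t (ball x R) x (x + w)) 2 (iidLaw G) ∧
      ∫ t, TS t (ball x R) x (x + w) ^ 2 ∂iidLaw G ≤ C * (1 + 2 * r) ^ 2 := by
  obtain ⟨C, hC, K, h⟩ := memLp_TS G hG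
  refine ⟨C, hC, K, fun r R x w hw hR => ?_⟩
  obtain ⟨p, n, hp, -, h0, hn, hlen, hch⟩ := exists_staircase x (x + w)
  have hw1 : |w.1| ≤ r := le_trans (le_max_left _ _) hw
  have hw2 : |w.2| ≤ r := le_trans (le_max_right _ _) hw
  have hsub : ∀ k, 0 ≤ k → k ≤ n → ball (p k) K ⊆ ball x R := by
    intro k hk0 hkn v hv
    obtain ⟨s, -, -, -, hb⟩ := hch k hk0 hkn
    have h1 : nrm (p k - x) ≤ r := by
      simp only [box, Set.mem_ofPred_eq, Prod.fst_add, Prod.snd_add] at hb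
      simp only [nrm, Prod.fst_sub, Prod.snd_sub, max_le_iff, abs_le] at hw1 hw2 ⊢
      omega
    have h2 := nrm_add_le (v - p k) (p k - x)
    have h3 : v - p k + (p k - x) = v - x := by abel
    rw [h3] at h2
    simp only [ball, Set.mem_ofPred_eq] at hv ⊢
    omega
  obtain ⟨-, h2, h3⟩ := h (ball x R) p n hp hsub
  rw [h0, hn] at h2 h3
  refine ⟨h2, h3.trans ?_⟩
  have hn0 : (0 : ℤ) ≤ n := hp.1
  have hn1 : n ≤ 2 * r := by
    simp only [Prod.fst_add, Prod.snd_add, add_sub_cancel_left] at hlen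
    omega
  have hn0' : (0 : ℝ) ≤ n := by exact_mod_cast hn0
  have hn1' : (n : ℝ) ≤ 2 * r := by exact_mod_cast hn1
  gcongr

omit [NullSingletonClass G] in
theorem BUpper_tendsto (hG : Hyp G) (w : V) :
    Tendsto (fun n : ℕ => ∫ t, TS t (ball 0 n) 0 w ∂iidLaw G) atTop (𝓝 (mT G w)) := by
  obtain ⟨C, -, K, h⟩ := BUpper_L2 G hG
  set r : ℕ := (nrm w).toNat with hr
  have hwr : nrm w ≤ r := by rw [hr]; exact Int.self_le_toNat _
  have h1 := (h r ((r : ℤ) + K) 0 w hwr le_rfl).1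
  rw [zero_add] at h1
  have hc : Conn (ball 0 ((r : ℤ) + K)) 0 w := by
    refine conn_ball ?_ ?_
    · simp only [ball, Set.mem_ofPred_eq, sub_zero, nrm]; simp; positivity
    · simp only [ball, Set.mem_ofPred_eq, sub_zero]; omega
  unfold mT
  refine tendsto_integral_filter_of_dominated_convergence
    (fun t => TS t (ball 0 ((r : ℤ) + K)) 0 w) ?_ ?_ (h1.integrable one_le_two) ?_
  · exact Eventually.of_forall fun n => (measurable_TS _ _ _).aestronglyMeasurable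
  · filter_upwards [eventually_ge_atTop (r + K)] with n hn
    filter_upwards [ae_nonneg G hG.nonneg] with t ht
    rw [Real.norm_eq_abs, abs_of_nonneg (TS_nonneg ht)]
    refine TS_anti ht ?_ hc
    intro v hv
    simp only [ball, Set.mem_ofPred_eq] at hv ⊢
    have : ((r + K : ℕ) : ℤ) ≤ n := by exact_mod_cast hn
    push_cast at this
    omega
  · filter_upwards [ae_nonneg G hG.nonneg] with t ht
    have := tendsto_TS_inter_ball (S := Set.univ) ht (conn_univ 0 w) 0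
    simp only [Set.univ_inter] at this
    exact this

omit [NullSingletonClass G] in
theorem BUpper_stat (R : ℤ) (x w : V) :
    ∫ t, TS t (ball x R) x (x + w) ∂iidLaw G = ∫ t, TS t (ball 0 R) 0 w ∂iidLaw G := by
  have h1 : ∀ t : Env, TS t (ball x R) x (x + w) = TS (shift x t) (ball 0 R) 0 w := by
    intro t
    unfold shift
    rw [TS_act (isAut_add x), BUpper_ball_image, zero_add, add_comm w x]
  simp_rw [h1]
  have hm := measurePreserving_shift G x
  have := integral_map (μ := iidLaw G) (φ := shift x) (measurable_shift x).aemeasurable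
    (f := fun t => TS t (ball 0 R) 0 w) (measurable_TS _ _ _).aestronglyMeasurable
  rw [← this, hm.map_eq]

omit [NullSingletonClass G] in
theorem BUpper_block (hG : Hyp G) {ε : ℝ} (hε : 0 < ε) (ℓ0 : ℕ) : ∃ ℓ R : ℕ, ℓ0 ≤ ℓ ∧ 1 ≤ ℓ ∧ 3 * ℓ ≤ R ∧
    ∃ M : ℝ, ∀ x w : V,
    nrm w ≤ 3 * ℓ → MemLp (fun t => TS t (ball x R) x (x + w)) 2 (iidLaw G) ∧
      ∫ t, TS t (ball x R) x (x + w) ^ 2 ∂iidLaw G ≤ M ∧
      ∫ t, TS t (ball x R) x (x + w) ∂iidLaw G ≤ mu G (toR w) + ε * ℓ := by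
  obtain ⟨C, hC, K, hL2⟩ := BUpper_L2 G hG
  obtain ⟨C0, hC0⟩ := mT_le_mu G hG (ε := ε / 6) (by positivity)
  obtain ⟨ℓ1, hℓ1⟩ := exists_nat_ge (2 * (C0 + 1) / ε)
  set ℓ : ℕ := ℓ1 + ℓ0 + 1 with hℓ
  have hℓε : C0 + 1 ≤ ε * ℓ / 2 := by
    have h1 : (ℓ1 : ℝ) ≤ ℓ := by rw [hℓ]; push_cast; linarith [Nat.cast_nonneg (α := ℝ) ℓ0]
    have h2 : 2 * (C0 + 1) ≤ ε * ℓ1 := by
      rw [div_le_iff₀ hε] at hℓ1; linarith
    nlinarith
  have hev : ∀ᶠ n : ℕ in atTop, ∀ w ∈ ball 0 (3 * ℓ),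
      ∫ t, TS t (ball 0 n) 0 w ∂iidLaw G ≤ mT G w + 1 := by
    rw [Filter.eventually_all_finite (ball_finite _ _)]
    intro w _
    exact (BUpper_tendsto G hG w).eventually (ge_mem_nhds (by linarith))
  obtain ⟨R, hR1, hR2⟩ := (hev.and (eventually_ge_atTop (3 * ℓ + K))).exists
  refine ⟨ℓ, R, by omega, by omega, by omega, C * (1 + 2 * ((3 * ℓ : ℕ) : ℝ)) ^ 2, fun x w hw => ?_⟩
  have hw' : nrm w ≤ ((3 * ℓ : ℕ) : ℤ) := by push_cast; exact hw
  have hR2' : ((3 * ℓ : ℕ) : ℤ) + K ≤ R := by exact_mod_cast hR2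
  obtain ⟨h1, h2⟩ := hL2 (3 * ℓ) R x w hw' hR2'
  refine ⟨h1, h2, ?_⟩
  rw [BUpper_stat]
  have h3 := hR1 w (by simpa only [ball, Set.mem_ofPred_eq, sub_zero] using hw)
  have h4 := hC0 w
  have h5 : ((nrm w : ℤ) : ℝ) ≤ 3 * ℓ := by exact_mod_cast hw
  nlinarith

/-- fixed-scale building block: `tendsto_TS_inter_ball` and dominated convergence (`memLp_TS`) for the
finitely many `w` with `ℓ ≤ nrm w ≤ 3ℓ` -/
theorem exists_block (hG : Hyp G) {ε : ℝ} (hε : 0 < ε) : ∃ ℓ R : ℕ, 1 ≤ ℓ ∧ 3 * ℓ ≤ R ∧ ∃ M : ℝ, ∀ x w : V,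
    nrm w ≤ 3 * ℓ → MemLp (fun t => TS t (ball x R) x (x + w)) 2 (iidLaw G) ∧
      ∫ t, TS t (ball x R) x (x + w) ^ 2 ∂iidLaw G ≤ M ∧
      ∫ t, TS t (ball x R) x (x + w) ∂iidLaw G ≤ mu G (toR w) + ε * ℓ := by
  obtain ⟨ℓ, R, -, h1, h2, h3⟩ := BUpper_block G hG hε 0
  exact ⟨ℓ, R, h1, h2, h3⟩

theorem BUpper_fl_toR (x : V) : fl (toR x) = x := by
  simp [fl, toR]

/-- a chain of lattice points along the chord with steps of size about `ℓ` -/
theorem exists_chain (ℓ : ℕ) (hℓ : 1 ≤ ℓ) (x y : V) : ∃ (n : ℕ) (z : ℕ → V), z 0 = x ∧ z n = y ∧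
    (n : ℝ) ≤ nrm (y - x) / ℓ + 1 ∧ (∀ k < n, nrm (z (k + 1) - z k) ≤ 3 * ℓ ∧
      ‖toR (z (k + 1) - z k) - (1 / n : ℝ) • toR (y - x)‖ ≤ 2) ∧
    (∀ k ≤ n, ‖toR (z k) - (toR x + (k / n : ℝ) • toR (y - x))‖ ≤ 1) := by
  have hD0 : (0 : ℝ) ≤ nrm (y - x) := by exact_mod_cast nrm_nonneg _
  have hℓ' : (1 : ℝ) ≤ ℓ := by exact_mod_cast hℓ
  set D : ℝ := ((nrm (y - x) : ℤ) : ℝ) with hD
  set n : ℕ := ⌊D / ℓ⌋₊ + 1 with hn
  have hn1 : (n : ℝ) ≤ D / ℓ + 1 := by
    rw [hn]; push_cast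
    have := Nat.floor_le (a := D / ℓ) (by positivity)
    linarith
  have hn2 : D / ℓ ≤ n := by
    rw [hn]; push_cast
    exact (Nat.lt_floor_add_one _).le
  have hn0 : (0 : ℝ) < n := by rw [hn]; positivity
  have hch : ∀ k : ℕ, ‖toR (fl (toR x + (k / n : ℝ) • toR (y - x))) -
      (toR x + (k / n : ℝ) • toR (y - x))‖ ≤ 1 := fun k => norm_toR_fl_sub _
  refine ⟨n, fun k => fl (toR x + (k / n : ℝ) • toR (y - x)), ?_, ?_, hn1, fun k _ => ?_,
    fun k _ => hch k⟩
  · simp [BUpper_fl_toR]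
  · simp only
    rw [div_self hn0.ne', one_smul, ← toR_add, add_sub_cancel, BUpper_fl_toR]
  · have h2 : ‖toR (fl (toR x + (((k + 1 : ℕ) : ℝ) / n : ℝ) • toR (y - x)) -
        fl (toR x + (k / n : ℝ) • toR (y - x))) - (1 / n : ℝ) • toR (y - x)‖ ≤ 2 := by
      have e : toR (fl (toR x + (((k + 1 : ℕ) : ℝ) / n : ℝ) • toR (y - x)) -
        fl (toR x + (k / n : ℝ) • toR (y - x))) - (1 / n : ℝ) • toR (y - x) =
          (toR (fl (toR x + (((k + 1 : ℕ) : ℝ) / n : ℝ) • toR (y - x))) -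
            (toR x + (((k + 1 : ℕ) : ℝ) / n : ℝ) • toR (y - x))) -
          (toR (fl (toR x + (k / n : ℝ) • toR (y - x))) -
            (toR x + (k / n : ℝ) • toR (y - x))) := by
        rw [toR_sub]
        push_cast
        rw [add_div, add_smul]
        abel
      rw [e]
      have := norm_sub_le (toR (fl (toR x + (((k + 1 : ℕ) : ℝ) / n : ℝ) • toR (y - x))) -
            (toR x + (((k + 1 : ℕ) : ℝ) / n : ℝ) • toR (y - x)))
          (toR (fl (toR x + (k / n : ℝ) • toR (y - x))) -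
            (toR x + (k / n : ℝ) • toR (y - x)))
      linarith [hch k, hch (k + 1)]
    refine ⟨?_, h2⟩
    set w := fl (toR x + (((k + 1 : ℕ) : ℝ) / n : ℝ) • toR (y - x)) -
        fl (toR x + (k / n : ℝ) • toR (y - x)) with hw
    have h3 : ‖(1 / n : ℝ) • toR (y - x)‖ ≤ ℓ := by
      rw [norm_smul, norm_toR, ← hD, Real.norm_eq_abs, abs_of_pos (by positivity)]
      rw [div_le_iff₀ (by linarith)] at hn2
      rw [one_div, inv_mul_le_iff₀ hn0]
      exact hn2
    have h4 := norm_add_le (toR w - (1 / n : ℝ) • toR (y - x)) ((1 / n : ℝ) • toR (y - x))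
    rw [sub_add_cancel, norm_toR] at h4
    have h5 : ((nrm w : ℤ) : ℝ) ≤ 3 * ℓ := by linarith
    exact_mod_cast h5

theorem BUpper_var {Ω : Type} [MeasurableSpace Ω] (μ : Measure Ω) [IsProbabilityMeasure μ] (n m : ℕ)
    (X : ℕ → Ω → ℝ) {M : ℝ} (hM0 : 0 ≤ M) (h2 : ∀ k < n, MemLp (X k) 2 μ)
    (hM : ∀ k < n, ∫ ω, X k ω ^ 2 ∂μ ≤ M)
    (hi : ∀ j k, k < n → j + m < k → IndepFun (X j) (X k) μ) :
    Var[fun ω => ∑ k ∈ Finset.range n, X k ω; μ] ≤ n * ((2 * m + 1) * M) := by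
  rw [variance_fun_sum' fun i hi => h2 i (Finset.mem_range.1 hi)]
  have hv : ∀ k < n, Var[X k; μ] ≤ M := fun k hk =>
    (variance_le_expectation_sq (h2 k hk).1).trans (hM k hk)
  have hc : ∀ j < n, ∀ k < n, cov[X j, X k; μ] ≤ if k ∈ Finset.Icc (j - m) (j + m) then M else 0 := by
    intro j hj k hk
    split_ifs with h
    · have h1 := variance_sub (h2 j hj) (h2 k hk)
      have h3 := variance_nonneg (X j - X k) μ
      linarith [hv j hj, hv k hk]
    · rw [Finset.mem_Icc] at h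
      by_cases hjk : j + m < k
      · exact ((hi j k hk hjk).covariance_eq_zero (h2 j hj) (h2 k hk)).le
      · have hkj : k + m < j := by omega
        rw [covariance_comm]
        exact ((hi k j hj hkj).covariance_eq_zero (h2 k hk) (h2 j hj)).le
  have hs : ∀ j ∈ Finset.range n, ∑ k ∈ Finset.range n, cov[X j, X k; μ] ≤ (2 * m + 1) * M := by
    intro j hj
    refine (Finset.sum_le_sum fun k hk =>
      hc j (Finset.mem_range.1 hj) k (Finset.mem_range.1 hk)).trans ?_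
    rw [Finset.sum_ite_mem, Finset.sum_const, nsmul_eq_mul]
    have h1 : (Finset.range n ∩ Finset.Icc (j - m) (j + m)).card ≤ 2 * m + 1 := by
      refine (Finset.card_le_card Finset.inter_subset_right).trans ?_
      rw [Nat.card_Icc]; omega
    have h1' : ((Finset.range n ∩ Finset.Icc (j - m) (j + m)).card : ℝ) ≤ 2 * m + 1 := by
      exact_mod_cast h1
    gcongr
  refine (Finset.sum_le_sum hs).trans ?_
  rw [Finset.sum_const, Finset.card_range, nsmul_eq_mul]

theorem BUpper_tri {t : Env} (ht : ∀ e, 0 ≤ t e) {A : Set V} {R : ℤ} (z : ℕ → V) (n : ℕ)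
    (h0 : z 0 ∈ A) (hA : ∀ k < n, ball (z k) R ⊆ A) (hs : ∀ k < n, nrm (z (k + 1) - z k) ≤ R) :
    Conn A (z 0) (z n) ∧
      TS t A (z 0) (z n) ≤ ∑ k ∈ Finset.range n, TS t (ball (z k) R) (z k) (z (k + 1)) := by
  induction n with
  | zero => exact ⟨Conn.refl h0, by simp [TS_self ht]⟩
  | succ n ih =>
    obtain ⟨h1, h2⟩ := ih (fun k hk => hA k (by omega)) (fun k hk => hs k (by omega))
    have hR : 0 ≤ R := (nrm_nonneg _).trans (hs n (by omega))
    have hc : Conn (ball (z n) R) (z n) (z (n + 1)) := by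
      refine conn_ball ?_ (hs n (by omega))
      simp only [ball, Set.mem_ofPred_eq, sub_self]
      rw [nrm_eq_zero.2 rfl]; exact hR
    have hc' := hc.mono (hA n (by omega))
    refine ⟨h1.trans hc', ?_⟩
    rw [Finset.sum_range_succ]
    have h3 := TS_triangle ht h1 hc'
    have h4 := TS_anti ht (hA n (by omega)) hc
    linarith

/-- the sum of the blocks along a chain -/
theorem BUpper_sum (hG : Hyp G) {ε : ℝ} (hε : 0 < ε) : ∃ R : ℕ, ∃ C > 0, ∀ x y : V, ∃ S : Env → ℝ,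
    MemLp S 2 (iidLaw G) ∧ ∫ t, S t ∂iidLaw G ≤ mu G (toR (y - x)) + ε * nrm (y - x) + C ∧
    Var[S; iidLaw G] ≤ C * (1 + nrm (y - x)) ∧
    ∀ A : Set V, (∀ (s : ℝ) (v : V), 0 ≤ s → s ≤ 1 → ‖toR v - (toR x + s • toR (y - x))‖ ≤ R → v ∈ A) →
      ∀ t : Env, (∀ e, 0 ≤ t e) → Conn A x y ∧ TS t A x y ≤ S t := by
  have hN := symNorm_mu G hG
  obtain ⟨L, hL, hlip⟩ := hN.lip
  obtain ⟨ℓ0, hℓ0⟩ := exists_nat_ge (4 * L / ε)
  obtain ⟨ℓ, R, hℓ1, hℓ2, hR, M, hB⟩ := BUpper_block G hG (ε := ε / 2) (by positivity) ℓ0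
  have hM0 : 0 ≤ M := le_trans (integral_nonneg fun t => sq_nonneg _)
    (hB 0 0 (by rw [nrm_eq_zero.2 rfl]; positivity)).2.1
  have hℓ' : (1 : ℝ) ≤ ℓ := by exact_mod_cast hℓ2
  have hLℓ : 2 * L ≤ ε / 2 * ℓ := by
    have h1 : (ℓ0 : ℝ) ≤ ℓ := by exact_mod_cast hℓ1
    rw [div_le_iff₀ hε] at hℓ0
    nlinarith
  refine ⟨R + 1, ε * ℓ + (2 * ((4 * R + 4 : ℕ) : ℝ) + 1) * M, by positivity, fun x y => ?_⟩
  obtain ⟨n, z, hz0, hzn, hn, hstep, hch⟩ := exists_chain ℓ hℓ2 x y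
  have hD0 : (0 : ℝ) ≤ nrm (y - x) := by exact_mod_cast nrm_nonneg _
  have hB' : ∀ k < n, MemLp (fun t => TS t (ball (z k) R) (z k) (z (k + 1))) 2 (iidLaw G) ∧
      ∫ t, TS t (ball (z k) R) (z k) (z (k + 1)) ^ 2 ∂iidLaw G ≤ M ∧
      ∫ t, TS t (ball (z k) R) (z k) (z (k + 1)) ∂iidLaw G ≤
        mu G (toR (z (k + 1) - z k)) + ε / 2 * ℓ := by
    intro k hk
    have := hB (z k) (z (k + 1) - z k) (hstep k hk).1
    rwa [add_sub_cancel] at this
  have hnD : (n : ℝ) ≤ 1 + nrm (y - x) := by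
    have : ((nrm (y - x) : ℤ) : ℝ) / ℓ ≤ nrm (y - x) := div_le_self hD0 hℓ'
    linarith
  refine ⟨fun t => ∑ k ∈ Finset.range n, TS t (ball (z k) R) (z k) (z (k + 1)), ?_, ?_, ?_, ?_⟩
  · exact memLp_finsetSum _ fun k hk => (hB' k (Finset.mem_range.1 hk)).1
  · rw [integral_finsetSum _ fun k hk => (hB' k (Finset.mem_range.1 hk)).1.integrable one_le_two]
    have h1 : ∀ k ∈ Finset.range n, ∫ t, TS t (ball (z k) R) (z k) (z (k + 1)) ∂iidLaw G ≤
        (1 / n : ℝ) * mu G (toR (y - x)) + ε * ℓ := by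
      intro k hk
      have hk' := Finset.mem_range.1 hk
      have h2 := (hB' k hk').2.2
      have h3 := hlip (toR (z (k + 1) - z k)) ((1 / n : ℝ) • toR (y - x))
      have h4 := (hstep k hk').2
      rw [hN.smul, abs_of_nonneg (by positivity : (0 : ℝ) ≤ 1 / n)] at h3
      have h5 := (abs_le.1 h3).2
      nlinarith
    refine (Finset.sum_le_sum h1).trans ?_
    rw [Finset.sum_const, Finset.card_range, nsmul_eq_mul]
    have h2 : (n : ℝ) * (1 / n) ≤ 1 := by
      rcases Nat.eq_zero_or_pos n with h | h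
      · simp [h]
      · have : (0 : ℝ) < n := by exact_mod_cast h
        rw [mul_one_div_cancel this.ne']
    have h3 := hN.nonneg (toR (y - x))
    have h4 : (n : ℝ) * ℓ ≤ nrm (y - x) + ℓ := by
      have := mul_le_mul_of_nonneg_right hn (by linarith : (0 : ℝ) ≤ ℓ)
      rwa [add_mul, div_mul_cancel₀ _ (by linarith), one_mul] at this
    have h5 : (0 : ℝ) ≤ (2 * ((4 * R + 4 : ℕ) : ℝ) + 1) * M := by positivity
    nlinarith
  · refine (BUpper_var (iidLaw G) n (4 * R + 4)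
      (fun k t => TS t (ball (z k) R) (z k) (z (k + 1))) hM0 (fun k hk => (hB' k hk).1)
      (fun k hk => (hB' k hk).2.1) ?_).trans ?_
    · intro j k hk hjk
      refine indepFun_of_dependsOnly G (measurable_TS _ _ _) (measurable_TS _ _ _)
        (dependsOnly_TS _ _ _) (dependsOnly_TS _ _ _) (disjoint_edgesIn ?_)
      rw [Set.disjoint_left]
      intro v hv1 hv2
      simp only [ball, Set.mem_ofPred_eq] at hv1 hv2
      have h1 := nrm_add_le (v - z j) (z k - v)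
      rw [nrm_sub_comm (z k) v] at h1
      have e1 : v - z j + (z k - v) = z k - z j := by abel
      rw [e1] at h1
      have h2 : ((nrm (z k - z j) : ℤ) : ℝ) ≤ 2 * R := by exact_mod_cast (by omega : nrm (z k - z j) ≤ 2 * R)
      have h3 := hch j (by omega)
      have h4 := hch k hk.le
      have hn0 : (0 : ℝ) < n := by exact_mod_cast (by omega : 0 < n)
      have hn2 : (2 : ℝ) ≤ n := by exact_mod_cast (by omega : 2 ≤ n)
      have hjk' : (j : ℝ) + (4 * R + 4) < k := by exact_mod_cast hjk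
      have e2 : (((k : ℝ) - j) / n) • toR (y - x) = toR (z k - z j) -
          (toR (z k) - (toR x + (k / n : ℝ) • toR (y - x))) +
          (toR (z j) - (toR x + (j / n : ℝ) • toR (y - x))) := by
        rw [toR_sub (z k), sub_div, sub_smul]; abel
      have h5 : ‖(((k : ℝ) - j) / n) • toR (y - x)‖ ≤ 2 * R + 2 := by
        rw [e2]
        refine (norm_add_le _ _).trans ?_
        have := norm_sub_le (toR (z k - z j)) (toR (z k) - (toR x + (k / n : ℝ) • toR (y - x)))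
        rw [norm_toR] at this
        linarith
      rw [norm_smul, norm_toR, Real.norm_eq_abs, abs_of_nonneg (div_nonneg (by linarith [Nat.cast_nonneg (α := ℝ) R]) hn0.le),
        div_mul_eq_mul_div, div_le_iff₀ hn0] at h5
      have hR0 : (0 : ℝ) ≤ R := Nat.cast_nonneg _
      nlinarith
    · have h5 : (0 : ℝ) ≤ (2 * ((4 * R + 4 : ℕ) : ℝ) + 1) * M := by positivity
      have h6 : (0 : ℝ) ≤ ε * ℓ := by positivity
      nlinarith
  · intro A hA t ht
    have hball : ∀ k ≤ n, ball (z k) R ⊆ A := by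
      intro k hk v hv
      refine hA (k / n) v (by positivity) (div_le_one_of_le₀ (by exact_mod_cast hk) (by positivity)) ?_
      have h1 := hch k hk
      have h2 : ((nrm (v - z k) : ℤ) : ℝ) ≤ R := by exact_mod_cast hv
      have e : toR v - (toR x + (k / n : ℝ) • toR (y - x)) =
          toR (v - z k) + (toR (z k) - (toR x + (k / n : ℝ) • toR (y - x))) := by
        rw [toR_sub v]; abel
      rw [e]
      refine (norm_add_le _ _).trans ?_
      rw [norm_toR]; push_cast; linarith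
    have := BUpper_tri ht (A := A) (R := R) z n
      (hball 0 (Nat.zero_le _) (by simp only [ball, Set.mem_ofPred_eq, sub_self]; rw [nrm_eq_zero.2 rfl]; positivity))
      (fun k hk => hball k hk.le) (fun k hk => (hstep k hk).1.trans (by exact_mod_cast hR))
    rwa [hz0, hzn] at this

/-- Sum of the blocks along the chain: mean `≤ mu + ε' |z|`, variance `≤ C |z|` (finite range
dependence; consecutive chain points are `≥ ℓ/3` apart when `|y - x| ≥ ℓ`), Chebyshev. -/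
theorem upper_tail (hG : Hyp G) {ε : ℝ} (hε : 0 < ε) : ∃ C > 0, ∀ x y : V, x ≠ y →
    (iidLaw G).real {t | mu G (toR (y - x)) + ε * nrm (y - x) < T t x y} ≤ C / nrm (y - x) := by
  obtain ⟨R, C, hC, h⟩ := BUpper_sum G hG (ε := ε / 2) (by positivity)
  refine ⟨4 * C / ε + 32 * C / ε ^ 2, by positivity, fun x y hxy => ?_⟩
  have hD1 : (1 : ℝ) ≤ nrm (y - x) := by
    have h1 := nrm_nonneg (y - x)
    have h2 : nrm (y - x) ≠ 0 := fun h => hxy (sub_eq_zero.1 (nrm_eq_zero.1 h)).symm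
    exact_mod_cast (by omega : 1 ≤ nrm (y - x))
  obtain ⟨S, hS, hm, hv, hT⟩ := h x y
  set D : ℝ := ((nrm (y - x) : ℤ) : ℝ) with hD
  have hD0 : 0 < D := by linarith
  by_cases hs : D ≤ 4 * C / ε
  · refine measureReal_le_one.trans ?_
    rw [le_div_iff₀ hD0]
    have : 0 ≤ 32 * C / ε ^ 2 := by positivity
    linarith
  · have hs' : C ≤ ε * D / 4 := by
      rw [not_le, div_lt_iff₀ hε] at hs
      linarith
    have h1 := meas_ge_le_variance_div_sq hS (c := ε * D / 4) (by positivity)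
    have h2 : iidLaw G {t | mu G (toR (y - x)) + ε * D < T t x y} ≤
        iidLaw G {t | ε * D / 4 ≤ |S t - ∫ t, S t ∂iidLaw G|} := by
      refine measure_mono_ae ?_
      filter_upwards [ae_nonneg G hG.nonneg] with t ht h3
      have h4 : T t x y ≤ S t := (hT Set.univ (fun _ _ _ _ _ => Set.mem_univ _) t ht).2
      have h3' : mu G (toR (y - x)) + ε * D < T t x y := h3
      show ε * D / 4 ≤ |S t - ∫ t, S t ∂iidLaw G|
      refine le_trans ?_ (le_abs_self _)
      linarith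
    have hv0 := variance_nonneg S (iidLaw G)
    have h3 := ENNReal.toReal_le_of_le_ofReal (by positivity) (h2.trans h1)
    refine le_trans h3 ?_
    have h4 : Var[S; iidLaw G] / (ε * D / 4) ^ 2 ≤ 32 * C / ε ^ 2 / D := by
      rw [div_le_div_iff₀ (by positivity) hD0]
      have e : 32 * C / ε ^ 2 * (ε * D / 4) ^ 2 = 2 * C * D * D := by field_simp; ring
      rw [e]
      have : Var[S; iidLaw G] ≤ 2 * C * D := by nlinarith
      gcongr
    refine h4.trans ?_
    gcongr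
    have : 0 ≤ 4 * C / ε := by positivity
    linarith

/-- `E (T - mu)⁺ ≤ ε|z| + C` from the chain (Cauchy-Schwarz), and `E T ≥ mu` -/
theorem L1_conv (hG : Hyp G) {ε : ℝ} (hε : 0 < ε) : ∃ C : ℝ, ∀ x y : V,
    ∫ t, |T t x y - mu G (toR (y - x))| ∂iidLaw G ≤ ε * nrm (y - x) + C := by
  obtain ⟨R, C, hC, h⟩ := BUpper_sum G hG (ε := ε / 4) (by positivity)
  refine ⟨2 * C + ε / 2 + 2 * C / ε, fun x y => ?_⟩
  obtain ⟨S, hS, hm, hv, hT⟩ := h x y
  have hD0 : (0 : ℝ) ≤ nrm (y - x) := by exact_mod_cast nrm_nonneg _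
  set D : ℝ := ((nrm (y - x) : ℤ) : ℝ) with hD
  set m := mu G (toR (y - x)) with hmm
  set E := ∫ t, S t ∂iidLaw G with hE
  have hiT := integrable_T G hG x y
  have hi2 : Integrable (fun t => (S t - E) ^ 2) (iidLaw G) :=
    (hS.sub (memLp_const E)).integrable_sq
  have hET : m ≤ ∫ t, T t x y ∂iidLaw G := by
    rw [integral_T]; exact mu_le_mT G hG _
  have hpt : ∀ᵐ t ∂iidLaw G, |T t x y - m| ≤
      (ε / (2 * C) * (S t - E) ^ 2 + (2 * C / ε + 2 * (ε / 4 * D + C) + m)) - T t x y := by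
    filter_upwards [ae_nonneg G hG.nonneg] with t ht
    have h4 : T t x y ≤ S t := (hT Set.univ (fun _ _ _ _ _ => Set.mem_univ _) t ht).2
    have h5 : 2 * (S t - E) ≤ ε / (2 * C) * (S t - E) ^ 2 + 2 * C / ε := by
      have e : ε / (2 * C) * (S t - E) ^ 2 + 2 * C / ε - 2 * (S t - E) =
          ε / (2 * C) * (S t - E - 2 * C / ε) ^ 2 := by field_simp; ring
      have : 0 ≤ ε / (2 * C) * (S t - E - 2 * C / ε) ^ 2 := by positivity
      linarith
    have h6 : 0 ≤ ε / (2 * C) * (S t - E) ^ 2 + 2 * C / ε := by positivity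
    have h7 : 0 ≤ ε / 4 * D + C := by positivity
    rw [abs_le]
    constructor <;> linarith
  have hI : Integrable (fun t => ε / (2 * C) * (S t - E) ^ 2 +
      (2 * C / ε + 2 * (ε / 4 * D + C) + m)) (iidLaw G) := (hi2.const_mul _).add (integrable_const _)
  have hI' : Integrable (fun t => (ε / (2 * C) * (S t - E) ^ 2 +
      (2 * C / ε + 2 * (ε / 4 * D + C) + m)) - T t x y) (iidLaw G) := hI.sub hiT
  have hI'' : Integrable (fun t => |T t x y - m|) (iidLaw G) := (hiT.sub (integrable_const m)).abs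
  refine (integral_mono_ae hI'' hI' hpt).trans ?_
  rw [integral_sub hI hiT, integral_add (hi2.const_mul _) (integrable_const _), integral_const_mul,
    ← variance_eq_integral hS.1.aemeasurable]
  simp only [integral_const, probReal_univ, smul_eq_mul, one_mul]
  have h8 : ε / (2 * C) * Var[S; iidLaw G] ≤ ε / 2 * (1 + D) := by
    have : ε / (2 * C) * (C * (1 + D)) = ε / 2 * (1 + D) := by field_simp
    rw [← this]; gcongr
  linarith

/-- chain from `(0,R)` to `(u,N-R)` and `integrable_TS_rows` at the two ends -/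
theorem strip_mean (hG : Hyp G) (K : ℝ) {ε : ℝ} (hε : 0 < ε) : ∀ᶠ N : ℕ in atTop, ∀ u : ℤ,
    (|u| : ℝ) ≤ K * N → Integrable (fun t => TS t (rows 0 N) (0, 0) (u, N)) (iidLaw G) ∧
      mu G (u, N) ≤ ∫ t, TS t (rows 0 N) (0, 0) (u, N) ∂iidLaw G ∧
      ∫ t, TS t (rows 0 N) (0, 0) (u, N) ∂iidLaw G ≤ mu G (u, N) + ε * N := by
  have hN := symNorm_mu G hG
  obtain ⟨L, hL, hlip⟩ := hN.lip
  obtain ⟨C1, hC1, N0, hrows⟩ := integrable_TS_rows G hG
  obtain ⟨R, C, hC, h⟩ := BUpper_sum G hG (ε := ε / (2 * (|K| + 1))) (by positivity)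
  have hev : ∀ᶠ N : ℕ in atTop, 2 * (2 * C1 * (1 + R) + 2 * L * R + C) / ε ≤ N :=
    tendsto_natCast_atTop_atTop.eventually (eventually_ge_atTop _)
  filter_upwards [hev, eventually_ge_atTop (2 * R), eventually_ge_atTop N0.toNat] with N hN1 hN2 hN3 u hu
  have hN3' : N0 ≤ (N : ℤ) - 0 := by omega
  have m0 : ((0, 0) : V) ∈ rows 0 N := by simp [rows]
  have m1 : ((0, (R : ℤ)) : V) ∈ rows 0 N := by simp only [rows, Set.mem_ofPred_eq]; omega
  have m2 : ((u, (N : ℤ) - R) : V) ∈ rows 0 N := by simp only [rows, Set.mem_ofPred_eq]; omega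
  have m3 : ((u, (N : ℤ)) : V) ∈ rows 0 N := by simp only [rows, Set.mem_ofPred_eq]; omega
  obtain ⟨hI, -⟩ := hrows 0 N hN3' _ m0 _ m3
  obtain ⟨hI1, hE1⟩ := hrows 0 N hN3' _ m0 _ m1
  obtain ⟨hI2, hE2⟩ := hrows 0 N hN3' _ m2 _ m3
  refine ⟨hI, ?_, ?_⟩
  · have h1 := mu_le_mT G hG (u, N)
    have h2 := integral_T G (0, 0) (u, N)
    have e : ((u, (N : ℤ)) : V) - ((0, 0) : V) = ((u, (N : ℤ)) : V) := by simp
    rw [e] at h2
    have e' : toR (u, (N : ℤ)) = ((u : ℝ), (N : ℝ)) := by simp [toR]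
    rw [e', ← h2] at h1
    refine h1.trans (integral_mono_ae (integrable_T G hG _ _) hI ?_)
    filter_upwards [ae_nonneg G hG.nonneg] with t ht
    exact T_le_TS ht (conn_rows m0 m3)
  · obtain ⟨S, hS, hm, -, hT⟩ := h (0, R) (u, N - R)
    have hN2' : (2 * R : ℝ) ≤ N := by exact_mod_cast hN2
    have hA : ∀ (s : ℝ) (v : V), 0 ≤ s → s ≤ 1 → ‖toR v - (toR ((0, (R : ℤ)) : V) +
        s • toR (((u, (N : ℤ) - R) : V) - (0, (R : ℤ))))‖ ≤ R → v ∈ rows 0 N := by
      intro s v hs0 hs1 hv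
      have h1 := (norm_snd_le _).trans hv
      simp only [toR, Prod.snd_sub, Prod.snd_add, Prod.smul_snd, smul_eq_mul, Real.norm_eq_abs,
        abs_le] at h1
      push_cast at h1
      have h2 : (0 : ℝ) ≤ v.2 := by nlinarith [h1.1]
      have h3 : (v.2 : ℝ) ≤ N := by nlinarith [h1.2]
      exact ⟨by exact_mod_cast h2, by exact_mod_cast h3⟩
    have hpt : ∀ᵐ t ∂iidLaw G, TS t (rows 0 N) (0, 0) (u, N) ≤
        TS t (rows 0 N) (0, 0) (0, R) + S t + TS t (rows 0 N) (u, N - R) (u, N) := by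
      filter_upwards [ae_nonneg G hG.nonneg] with t ht
      have h1 := (hT _ hA t ht).2
      have h2 := TS_triangle ht (conn_rows m0 m1) (conn_rows m1 m3)
      have h3 := TS_triangle ht (conn_rows m1 m2) (conn_rows m2 m3)
      linarith
    have hSI := hS.integrable one_le_two
    have hI3 : Integrable (fun t => TS t (rows 0 N) (0, 0) (0, R) + S t) (iidLaw G) := hI1.add hSI
    have hI4 : Integrable (fun t => TS t (rows 0 N) (0, 0) (0, R) + S t +
      TS t (rows 0 N) (u, N - R) (u, N)) (iidLaw G) := hI3.add hI2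
    refine (integral_mono_ae hI hI4 hpt).trans ?_
    rw [integral_add hI3 hI2, integral_add hI1 hSI]
    have e1 : nrm (((0, (R : ℤ)) : V) - (0, 0)) = R := by simp [nrm]
    have e2 : nrm (((u, (N : ℤ)) : V) - (u, (N : ℤ) - R)) = R := by simp [nrm]
    rw [e1] at hE1
    rw [e2] at hE2
    have h4 := hlip (toR (((u, (N : ℤ) - R) : V) - (0, (R : ℤ)))) ((u : ℝ), (N : ℝ))
    have e3 : ‖toR (((u, (N : ℤ) - R) : V) - (0, (R : ℤ))) - ((u : ℝ), (N : ℝ))‖ = 2 * R := by
      simp only [toR, Prod.fst_sub, Prod.snd_sub, Prod.norm_def, Real.norm_eq_abs]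
      push_cast
      have : (N : ℝ) - R - R - N = -(2 * R) := by ring
      rw [this, abs_neg, abs_of_nonneg (by positivity : (0 : ℝ) ≤ 2 * R)]
      simp
    rw [e3] at h4
    have h5 : ((nrm (((u, (N : ℤ) - R) : V) - (0, (R : ℤ))) : ℤ) : ℝ) ≤ (|K| + 1) * N := by
      have hN0 : (0 : ℝ) ≤ N := Nat.cast_nonneg _
      have hR0 : (0 : ℝ) ≤ R := Nat.cast_nonneg _
      have hK := abs_nonneg K
      have hK' := le_abs_self K
      simp only [nrm, Prod.fst_sub, Prod.snd_sub, sub_zero]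
      push_cast at hu ⊢
      refine max_le (by nlinarith) ?_
      rw [abs_of_nonneg (by linarith)]
      nlinarith
    have h6 : ε / (2 * (|K| + 1)) * ((nrm (((u, (N : ℤ) - R) : V) - (0, (R : ℤ))) : ℤ) : ℝ) ≤
        ε / 2 * N := by
      have : ε / (2 * (|K| + 1)) * ((|K| + 1) * N) = ε / 2 * N := by field_simp
      rw [← this]; gcongr
    rw [div_le_iff₀ hε] at hN1
    have h7 := (abs_le.1 h4).2
    push_cast at hE1 hE2
    nlinarith

end Crest.Agent.R151
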