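import Crest.Agent.R151.BMu

/-! R151 base: variance bounds.

`var_T`: apply `efron_stein` to `TS t (ball x n) x y` and let `n → ∞` (dominated convergence; or work in the ball throughout and
bound the length of its geodesic).  If `e` is not on the geodesic `γ` (`exists_geoSel`), raising or lowering `t e` does not increase the
passage time beyond `cost γ`, so the positive part vanishes.  If `e = edge γ k` with `γ k` at distance `≥ K` from `x` and `y`, `bypass` (reroute between the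
last visit to the `#` before and the first after, avoiding the vertex `γ k`, hence `e`) gives `(…)⁺ ≤ Yv K t (γ k)`; the `O(K²)` edges near `x` or `y` contribute
`O(1)` (`TS_le_ZY` in the new environment from `x` to the `#` of radius `3K`...).  Finally
`E Σ_k Y(γ k)² ≤ Σ_j 2^{j+1} E[1{|γ| ≥ 2^j} max_{ball 2^{j+1}} Y²]`, Hölder, `P(|γ| ≥ L) ≤ C|z|²/L² + 2e^{-L}` (`memLp_T`, `long_path_cost_lower`) and
`E max Y^{2q} ≤ C L²` with `K` large. -/

set_option autoImplicit false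
open MeasureTheory ProbabilityTheory Crest.ProbabilityR.FirstPassage Filter Topology
open scoped ENNReal

namespace Crest.Agent.R151

variable (G : Measure ℝ) [IsProbabilityMeasure G] [NullSingletonClass G]

theorem BVar_ofReal_le {α : Type} [MeasurableSpace α] (μ : Measure α) {h : α → ℝ}
    (h0 : ∀ a, 0 ≤ h a) : ENNReal.ofReal (∫ a, h a ∂μ) ≤ ∫⁻ a, ENNReal.ofReal (h a) ∂μ := by
  have h1 := enorm_integral_le_lintegral_enorm (μ := μ) h
  rw [Real.enorm_eq_ofReal (integral_nonneg h0)] at h1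
  simpa only [Real.enorm_eq_ofReal (h0 _)] using h1

theorem BVar_two {α : Type} [MeasurableSpace α] (μ : Measure α) [IsProbabilityMeasure μ]
    {g h : α → ℝ} (hg : MemLp g 2 μ) (hh : MemLp h 2 μ) :
    ENNReal.ofReal Var[g; μ] ≤ 2 * ENNReal.ofReal Var[h; μ] +
      2 * ∫⁻ a, ENNReal.ofReal ((h a - g a) ^ 2) ∂μ := by
  have i1 : Integrable (fun a => (h a - ∫ b, h b ∂μ) ^ 2) μ :=
    (hh.sub (memLp_const _)).integrable_sq
  have i2 : Integrable (fun a => (h a - g a) ^ 2) μ := (hh.sub hg).integrable_sq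
  have i3 : Integrable (fun a => (g a - ∫ b, h b ∂μ) ^ 2) μ :=
    (hg.sub (memLp_const _)).integrable_sq
  have h1 : Var[g; μ] ≤ 2 * Var[h; μ] + 2 * ∫ a, (h a - g a) ^ 2 ∂μ := by
    rw [← variance_sub_const hg.1 (∫ b, h b ∂μ), variance_eq_integral hh.1.aemeasurable,
      ← integral_const_mul, ← integral_const_mul, ← integral_add (i1.const_mul 2) (i2.const_mul 2)]
    refine (variance_le_expectation_sq (hg.1.sub aestronglyMeasurable_const)).trans ?_
    refine integral_mono i3 ((i1.const_mul 2).add (i2.const_mul 2)) fun a => ?_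
    change (g a - ∫ b, h b ∂μ) ^ 2 ≤ _
    nlinarith [sq_nonneg ((h a - ∫ b, h b ∂μ) + (h a - g a))]
  refine (ENNReal.ofReal_le_ofReal h1).trans (ENNReal.ofReal_add_le.trans ?_)
  rw [ENNReal.ofReal_mul zero_le_two, ENNReal.ofReal_mul zero_le_two, ENNReal.ofReal_ofNat,
    ofReal_integral_eq_lintegral_ofReal i2 (ae_of_all _ fun a => sq_nonneg _)]

open Classical in
/-- the Efron-Stein term of the pair `e` -/
noncomputable def BVar_D (G : Measure ℝ) (f : Env → ℝ) (e : Sym2 V) (t : Env) : ℝ≥0∞ :=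
  ∫⁻ s, ENNReal.ofReal ((max (f (Function.update t e s) - f t) 0) ^ 2) ∂G

omit [NullSingletonClass G] in
theorem BVar_D_meas {f : Env → ℝ} (hf : Measurable f) (e : Sym2 V) : Measurable (BVar_D G f e) := by
  classical
  refine Measurable.lintegral_prod_right (f := fun (t : Env) (s : ℝ) =>
    ENNReal.ofReal ((max (f (Function.update t e s) - f t) 0) ^ 2)) ?_
  exact ((((hf.comp measurable_update').sub (hf.comp measurable_fst)).max
    measurable_const).pow_const 2).ennreal_ofReal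

omit [NullSingletonClass G] in
/-- Efron-Stein for a function that is close to one reading finitely many weights -/
theorem BVar_es (U : Finset (Sym2 V)) {f g : Env → ℝ} (hf : Measurable f) (hg : Measurable g)
    (hf2 : MemLp f 2 (iidLaw G)) (hg2 : MemLp g 2 (iidLaw G)) (hU : DependsOnly g U) :
    ENNReal.ofReal Var[f; iidLaw G] ≤ 4 * ∫⁻ t, ∑ e ∈ U, BVar_D G f e t ∂iidLaw G +
      6 * ∫⁻ t, ENNReal.ofReal ((f t - g t) ^ 2) ∂iidLaw G := by
  classical
  obtain ⟨pw, hp, hin, hout⟩ : ∃ pw : Env × Env → Env,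
      MeasurePreserving pw ((iidLaw G).prod (iidLaw G)) (iidLaw G) ∧
      (∀ x, ∀ e ∈ U, pw x e = x.2 e) ∧ ∀ x, ∀ e ∉ U, pw x e = x.1 e :=
    ⟨_, measurePreserving_piecewise G (U : Set (Sym2 V)),
      fun x e he => by simp [he], fun x e he => by simp [he]⟩
  have hD : Measurable fun t => ∑ e ∈ U, BVar_D G f e t :=
    Finset.measurable_sum _ fun e _ => BVar_D_meas G hf e
  have hd : Measurable fun t => ENNReal.ofReal ((f t - g t) ^ 2) :=
    ((hf.sub hg).pow_const 2).ennreal_ofReal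
  have hm : ∀ t', Measurable fun t => pw (t', t) := fun t' =>
    hp.measurable.comp measurable_prodMk_left
  have h1 : ∀ᵐ t' ∂iidLaw G, MemLp (fun t => f (pw (t', t))) 2 (iidLaw G) := by
    filter_upwards [(hf2.comp_measurePreserving hp).integrable_sq.prod_right_ae] with t' h
    exact (memLp_two_iff_integrable_sq (hf.comp (hm t')).aestronglyMeasurable).2 h
  have hΨ : Measurable fun t => 2 * ∑ e ∈ U, BVar_D G f e t + 2 * ENNReal.ofReal ((f t - g t) ^ 2) :=
    (hD.const_mul 2).add (hd.const_mul 2)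
  have h2 : ∀ᵐ t' ∂iidLaw G, ENNReal.ofReal Var[g; iidLaw G] ≤ ∫⁻ t, (2 * ∑ e ∈ U,
      BVar_D G f e (pw (t', t)) + 2 * ENNReal.ofReal ((f (pw (t', t)) - g (pw (t', t))) ^ 2))
        ∂iidLaw G := by
    filter_upwards [h1] with t' h
    have hes := efron_stein G U (fun t => f (pw (t', t))) (hf.comp (hm t')) h fun t s hts => by
      refine congrArg f (funext fun e => ?_)
      by_cases he : e ∈ U
      · simp only [hin _ _ he, hts e he]
      · simp only [hout _ _ he]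
    refine (BVar_two (iidLaw G) hg2 h).trans ?_
    have hD' : Measurable fun t => ∑ e ∈ U, BVar_D G f e (pw (t', t)) := hD.comp (hm t')
    have hd' : Measurable fun t => ENNReal.ofReal ((f (pw (t', t)) - g (pw (t', t))) ^ 2) :=
      hd.comp (hm t')
    rw [lintegral_add_left (hD'.const_mul 2), lintegral_const_mul _ hD', lintegral_const_mul _ hd']
    refine add_le_add (mul_le_mul_right ?_ _) (le_of_eq ?_)
    · refine (ENNReal.ofReal_le_ofReal hes).trans ?_
      rw [ENNReal.ofReal_sum_of_nonneg fun e _ =>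
        integral_nonneg fun t => integral_nonneg fun s => sq_nonneg _]
      refine le_trans (Finset.sum_le_sum fun e he => ?_)
        (lintegral_finsetSum U fun e _ => (BVar_D_meas G hf e).comp (hm t')).ge
      refine (BVar_ofReal_le _ fun t => integral_nonneg fun s => sq_nonneg _).trans
        (lintegral_mono fun t => (BVar_ofReal_le _ fun s => sq_nonneg _).trans (le_of_eq ?_))
      refine lintegral_congr fun s => ?_
      congr 5
      funext e'
      by_cases h' : e' = e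
      · subst h'
        simp [hin _ _ he]
      · by_cases he' : e' ∈ U
        · simp only [hin _ _ he', Function.update_of_ne h']
        · simp only [hout _ _ he', Function.update_of_ne h']
    · congr 1
      refine lintegral_congr fun t => ?_
      rw [hU (pw (t', t)) t fun e he => hin _ _ he]
  have h3 : ENNReal.ofReal Var[g; iidLaw G] ≤ 2 * ∫⁻ t, ∑ e ∈ U, BVar_D G f e t ∂iidLaw G +
      2 * ∫⁻ t, ENNReal.ofReal ((f t - g t) ^ 2) ∂iidLaw G := by
    have h4 := lintegral_mono_ae h2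
    rw [lintegral_const, measure_univ, mul_one] at h4
    refine h4.trans (le_of_eq ?_)
    rw [← lintegral_const_mul _ hD, ← lintegral_const_mul _ hd,
      ← lintegral_add_left (hD.const_mul 2), ← hp.lintegral_comp hΨ]
    exact (lintegral_prod _ (hΨ.comp hp.measurable).aemeasurable).symm
  refine (BVar_two (iidLaw G) hf2 hg2).trans ?_
  have h5 : ∫⁻ t, ENNReal.ofReal ((g t - f t) ^ 2) ∂iidLaw G =
      ∫⁻ t, ENNReal.ofReal ((f t - g t) ^ 2) ∂iidLaw G :=
    lintegral_congr fun t => by rw [← neg_sub, neg_sq]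
  rw [h5]
  refine (add_le_add (mul_le_mul_right h3 2) le_rfl).trans (le_of_eq ?_)
  ring

/-- the finite ball -/
noncomputable def BVar_B (K : ℕ) (c : V) : Finset V := (ball_finite c K).toFinset

theorem BVar_B_mem {K : ℕ} {c z : V} : z ∈ BVar_B K c ↔ nrm (z - c) ≤ K := by
  simp [BVar_B, ball]

theorem BVar_B_card (K : ℕ) (c : V) : (BVar_B K c).card ≤ (2 * K + 1) ^ 2 := by
  have h := ncard_ball_le c K
  rwa [Set.ncard_eq_toFinset_card _ (ball_finite c K)] at h

/-- the pairs near `c` -/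
noncomputable def BVar_N (K : ℕ) (c : V) : Finset (Sym2 V) :=
  (BVar_B K c ×ˢ BVar_B K c).image fun p => s(p.1, p.2)

theorem BVar_N_card (K : ℕ) (c : V) : (BVar_N K c).card ≤ (2 * K + 1) ^ 4 := by
  refine Finset.card_image_le.trans ?_
  rw [Finset.card_product]
  refine (Nat.mul_le_mul (BVar_B_card K c) (BVar_B_card K c)).trans (le_of_eq ?_)
  ring

/-- sum of squared passage times near `c` -/
noncomputable def BVar_W (K : ℕ) (c : V) (t : Env) : ℝ := ∑ z ∈ BVar_B K c, T t c z ^ 2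

theorem BVar_W_nonneg (K : ℕ) (c : V) (t : Env) : 0 ≤ BVar_W K c t :=
  Finset.sum_nonneg fun _ _ => sq_nonneg _

theorem BVar_sq {a b : ℝ} (hb : 0 ≤ b) (h : a ≤ b) : (max a 0) ^ 2 ≤ b ^ 2 :=
  pow_le_pow_left₀ (le_max_right _ _) (max_le h hb) 2

open Classical in
theorem BVar_pt {K : ℕ} (hK : 1 ≤ K) {t : Env} (ht : ∀ e, 0 ≤ t e) {p : ℤ → V} {n : ℤ}
    (hp : IsGeo t Set.univ p 0 n) (e : Sym2 V) {s : ℝ} (hs : 0 ≤ s) :
    (max (T (Function.update t e s) (p 0) (p n) - T t (p 0) (p n)) 0) ^ 2 ≤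
      (∑ k ∈ Finset.Ico 0 n, if e = edge p k then Yv K t (p k) ^ 2 else 0) +
      ((if e ∈ BVar_N K (p 0) then BVar_W K (p 0) (Function.update t e s) else 0) +
      (if e ∈ BVar_N K (p n) then BVar_W K (p n) (Function.update t e s) else 0)) := by
  set t' := Function.update t e s with ht'd
  have ht' : ∀ e', 0 ≤ t' e' := fun e' => by
    by_cases h : e' = e
    · subst h
      simpa [ht'd] using hs
    · simpa [ht'd, h] using ht e'
  have hT : cost t p 0 n = T t (p 0) (p n) := hp.2.2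
  have n1 : 0 ≤ ∑ k ∈ Finset.Ico 0 n, if e = edge p k then Yv K t (p k) ^ 2 else 0 :=
    Finset.sum_nonneg fun k _ => by split_ifs <;> positivity
  have n2 : ∀ c, 0 ≤ if e ∈ BVar_N K c then BVar_W K c t' else 0 := fun c => by
    split_ifs
    exacts [BVar_W_nonneg _ _ _, le_rfl]
  by_cases he : ∃ k, 0 ≤ k ∧ k < n ∧ e = edge p k
  swap
  · have h1 : T t' (p 0) (p n) ≤ T t (p 0) (p n) := by
      refine (T_le_cost ht' hp.1).trans (le_of_eq ?_)
      rw [← hT]
      exact cost_congr_env fun k h1 h2 =>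
        Function.update_of_ne (fun h => he ⟨k, h1, h2, h.symm⟩) _ _
    refine (BVar_sq le_rfl (sub_nonpos.2 h1)).trans ?_
    have := n2 (p 0)
    have := n2 (p n)
    linarith
  obtain ⟨k, hk0, hkn, hek⟩ := he
  have hne : ∀ l, 0 ≤ l → l < n → l ≠ k → t' (edge p l) = t (edge p l) := fun l h1 h2 h3 =>
    Function.update_of_ne (fun h => h3 (edge_injOn hp.2.1 ⟨h1, h2⟩ ⟨hk0, hkn⟩ (h.trans hek))) _ _
  have hl : ∀ i, 0 ≤ i → i ≤ k → T t' (p 0) (p i) ≤ cost t p 0 i := fun i h1 h2 =>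
    (T_le_cost ht' (hp.1.sub le_rfl h1 (by omega))).trans
      (cost_congr_env fun l h3 h4 => hne l h3 (by omega) (by omega)).le
  have hr : ∀ j, k < j → j ≤ n → T t' (p j) (p n) ≤ cost t p j n := fun j h1 h2 =>
    (T_le_cost ht' (hp.1.sub (by omega) h2 le_rfl)).trans
      (cost_congr_env fun l h3 h4 => hne l (by omega) h4 (by omega)).le
  have key : ∀ i j, 0 ≤ i → i ≤ k → k < j → j ≤ n →
      T t' (p 0) (p n) - T t (p 0) (p n) ≤ T t' (p i) (p j) := fun i j h1 h2 h3 h4 => by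
    have a1 := hl i h1 h2
    have a2 := hr j h3 h4
    have a3 : T t' (p 0) (p n) ≤ T t' (p 0) (p i) + T t' (p i) (p n) := T_triangle ht'
    have a4 : T t' (p i) (p n) ≤ T t' (p i) (p j) + T t' (p j) (p n) := T_triangle ht'
    have a5 : cost t p 0 n = cost t p 0 i + cost t p i n := cost_add h1 (by omega)
    have a6 : cost t p j n ≤ cost t p i n := cost_sub_le ht (by omega) le_rfl
    linarith
  have hadj : nrm (p (k + 1) - p k) = 1 := adj_nrm (hp.1.2.2 k hk0 hkn)
  have near : ∀ c, nrm (c - p k) < K → p k ∈ BVar_B K c ∧ p (k + 1) ∈ BVar_B K c ∧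
      e ∈ BVar_N K c := fun c hc => by
    rw [nrm_sub_comm] at hc
    have b1 : p k ∈ BVar_B K c := BVar_B_mem.2 hc.le
    have b2 : p (k + 1) ∈ BVar_B K c := by
      have := nrm_add_le (p (k + 1) - p k) (p k - c)
      rw [sub_add_sub_cancel] at this
      exact BVar_B_mem.2 (by omega)
    exact ⟨b1, b2, Finset.mem_image.2 ⟨(p k, p (k + 1)), Finset.mem_product.2 ⟨b1, b2⟩, hek.symm⟩⟩
  by_cases hx : nrm (p 0 - p k) < K
  · obtain ⟨-, b2, b3⟩ := near _ hx
    refine (BVar_sq (T_nonneg ht') (key 0 (k + 1) le_rfl hk0 (by omega) (by omega))).trans ?_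
    have a1 : T t' (p 0) (p (k + 1)) ^ 2 ≤ BVar_W K (p 0) t' :=
      Finset.single_le_sum (f := fun z => T t' (p 0) z ^ 2) (fun _ _ => sq_nonneg _) b2
    have := n2 (p n)
    rw [if_pos b3]
    linarith
  by_cases hy : nrm (p n - p k) < K
  · obtain ⟨b1, -, b3⟩ := near _ hy
    refine (BVar_sq (T_nonneg ht') (key k n hk0 le_rfl hkn le_rfl)).trans ?_
    have a1 : T t' (p n) (p k) ^ 2 ≤ BVar_W K (p n) t' :=
      Finset.single_le_sum (f := fun z => T t' (p n) z ^ 2) (fun _ _ => sq_nonneg _) b1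
    have := n2 (p 0)
    rw [if_pos b3, T_comm]
    linarith
  obtain ⟨i, j, h1, h2, h3, h4, hc, hY⟩ := bypass hK ht hp.1 hk0 hkn.le (not_lt.1 hx) (not_lt.1 hy)
  have a0 : TS t' (ball (p k) (3 * K) \ {p k}) (p i) (p j) =
      TS t (ball (p k) (3 * K) \ {p k}) (p i) (p j) :=
    dependsOnly_TS _ _ _ t' t fun e' he' => Function.update_of_ne (fun h => by
      subst h
      exact (he' (p k) (by rw [hek]; exact Sym2.mem_mk_left _ _)).2 rfl) _ _
  have a1 : T t' (p i) (p j) ≤ Yv K t (p k) := (T_le_TS ht' hc).trans (a0.le.trans hY)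
  refine (BVar_sq (Yv_nonneg ht _) ((key i j h1 h2.le h3 h4).trans a1)).trans ?_
  have a2 : (if e = edge p k then Yv K t (p k) ^ 2 else 0) ≤
      ∑ k ∈ Finset.Ico 0 n, if e = edge p k then Yv K t (p k) ^ 2 else 0 :=
    Finset.single_le_sum (f := fun k => if e = edge p k then Yv K t (p k) ^ 2 else 0)
      (fun k _ => by split_ifs <;> positivity) (Finset.mem_Ico.2 ⟨hk0, hkn⟩)
  rw [if_pos hek] at a2
  have := n2 (p 0)
  have := n2 (p n)
  linarith

open Classical in
/-- contribution of the pairs near `c` -/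
noncomputable def BVar_Z (G : Measure ℝ) (K : ℕ) (c : V) (t : Env) : ℝ≥0∞ :=
  ∑ e ∈ BVar_N K c, ∫⁻ s, ENNReal.ofReal (BVar_W K c (Function.update t e s)) ∂G

theorem BVar_W_meas (K : ℕ) (c : V) : Measurable fun t => ENNReal.ofReal (BVar_W K c t) :=
  (Finset.measurable_sum _ fun z _ => (measurable_T c z).pow_const 2).ennreal_ofReal

omit [NullSingletonClass G] in
theorem BVar_Z_int (hG : Hyp G) (K : ℕ) : ∃ M : ℝ≥0∞, M ≠ ⊤ ∧ ∀ c,
    Measurable (BVar_Z G K c) ∧ ∫⁻ t, BVar_Z G K c t ∂iidLaw G ≤ M := by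
  classical
  obtain ⟨C, hC, h⟩ := memLp_T G hG
  refine ⟨((2 * K + 1) ^ 4 : ℕ) * ENNReal.ofReal (((2 * K + 1) ^ 2 : ℕ) * (C * (1 + K) ^ 2)),
    ENNReal.mul_ne_top (ENNReal.natCast_ne_top _) ENNReal.ofReal_ne_top, fun c => ?_⟩
  have hm : ∀ e, Measurable fun t : Env =>
      ∫⁻ s, ENNReal.ofReal (BVar_W K c (Function.update t e s)) ∂G := fun e =>
    Measurable.lintegral_prod_right (f := fun (t : Env) (s : ℝ) =>
      ENNReal.ofReal (BVar_W K c (Function.update t e s)))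
      ((BVar_W_meas K c).comp measurable_update')
  have hW : ∫⁻ t, ENNReal.ofReal (BVar_W K c t) ∂iidLaw G ≤
      ENNReal.ofReal (((2 * K + 1) ^ 2 : ℕ) * (C * (1 + K) ^ 2)) := by
    have hi : ∀ z ∈ BVar_B K c, Integrable (fun t => T t c z ^ 2) (iidLaw G) :=
      fun z _ => (h c z).1.integrable_sq
    rw [← ofReal_integral_eq_lintegral_ofReal (f := BVar_W K c) (integrable_finsetSum _ hi)
      (ae_of_all _ (BVar_W_nonneg K c))]
    refine ENNReal.ofReal_le_ofReal ?_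
    unfold BVar_W
    rw [integral_finsetSum _ hi]
    refine (Finset.sum_le_card_nsmul _ _ (C * (1 + K) ^ 2) fun z hz => (h c z).2.trans ?_).trans ?_
    · have h1 : (nrm (z - c) : ℝ) ≤ K := by exact_mod_cast BVar_B_mem.1 hz
      have h2 : (0 : ℝ) ≤ nrm (z - c) := by exact_mod_cast nrm_nonneg _
      gcongr
    · rw [nsmul_eq_mul]
      gcongr
      exact BVar_B_card K c
  refine ⟨Finset.measurable_sum _ fun e _ => hm e, ?_⟩
  unfold BVar_Z
  rw [lintegral_finsetSum _ fun e _ => hm e]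
  refine (Finset.sum_le_card_nsmul _ _ _ fun e _ => le_trans (le_of_eq ?_) hW).trans ?_
  · have hp := measurePreserving_update G e
    rw [← hp.lintegral_comp (BVar_W_meas K c)]
    exact (lintegral_prod _ ((BVar_W_meas K c).comp hp.measurable).aemeasurable).symm
  · rw [nsmul_eq_mul]
    gcongr
    exact BVar_N_card K c

omit [NullSingletonClass G] in
theorem BVar_sumD (hG : G (Set.Iio 0) = 0) {K : ℕ} (hK : 1 ≤ K) {t : Env} (ht : ∀ e, 0 ≤ t e)
    {p : ℤ → V} {n : ℤ} (hp : IsGeo t Set.univ p 0 n) (U : Finset (Sym2 V)) :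
    ∑ e ∈ U, BVar_D G (fun t => T t (p 0) (p n)) e t ≤
      ENNReal.ofReal (∑ k ∈ Finset.Ico 0 n, Yv K t (p k) ^ 2) +
        (BVar_Z G K (p 0) t + BVar_Z G K (p n) t) := by
  classical
  have hs : ∀ᵐ s ∂G, 0 ≤ s := by
    rw [ae_iff]
    simp only [not_le]
    exact hG
  let X : V → Sym2 V → ℝ≥0∞ := fun c e => if e ∈ BVar_N K c then
    ∫⁻ s, ENNReal.ofReal (BVar_W K c (Function.update t e s)) ∂G else 0
  have hX : ∀ c, ∑ e ∈ U, X c e ≤ BVar_Z G K c t := fun c => by
    simp only [X]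
    rw [Finset.sum_ite_mem]
    exact Finset.sum_le_sum_of_subset Finset.inter_subset_right
  have hX2 : ∀ c e, ∫⁻ s, ENNReal.ofReal (if e ∈ BVar_N K c then
      BVar_W K c (Function.update t e s) else 0) ∂G = X c e := fun c e => by
    simp only [X]
    split_ifs <;> simp
  have hXm : ∀ c e, Measurable fun s => ENNReal.ofReal (if e ∈ BVar_N K c then
      BVar_W K c (Function.update t e s) else 0) := fun c e => by
    split_ifs
    · exact (BVar_W_meas K c).comp (measurable_update t)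
    · exact measurable_const
  have h1 : ∀ e ∈ U, BVar_D G (fun t => T t (p 0) (p n)) e t ≤
      ENNReal.ofReal (∑ k ∈ Finset.Ico 0 n, if e = edge p k then Yv K t (p k) ^ 2 else 0) +
        (X (p 0) e + X (p n) e) := fun e _ => by
    rw [← hX2, ← hX2, ← lintegral_add_left (hXm _ _), ← mul_one (ENNReal.ofReal (∑ k ∈ _, _)),
      ← measure_univ (μ := G), ← lintegral_const, ← lintegral_add_left measurable_const]
    refine lintegral_mono_ae ?_
    filter_upwards [hs] with s hs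
    exact (ENNReal.ofReal_le_ofReal (BVar_pt hK ht hp e hs)).trans (ENNReal.ofReal_add_le.trans
      (add_le_add le_rfl ENNReal.ofReal_add_le))
  refine (Finset.sum_le_sum h1).trans ?_
  rw [Finset.sum_add_distrib, Finset.sum_add_distrib]
  refine add_le_add ?_ (add_le_add (hX _) (hX _))
  rw [← ENNReal.ofReal_sum_of_nonneg fun e _ => Finset.sum_nonneg fun k _ => by
    split_ifs <;> positivity]
  refine ENNReal.ofReal_le_ofReal ?_
  rw [Finset.sum_comm]
  refine Finset.sum_le_sum fun k _ => ?_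
  rw [Finset.sum_ite_eq']
  split_ifs
  exacts [le_rfl, sq_nonneg _]

theorem BVar_trunc {y a : ℝ} (ha : 1 ≤ a) : y ^ 2 ≤ a ^ (1 / 10 : ℝ) + y ^ 82 / a ^ 4 := by
  set l := a ^ (1 / 10 : ℝ) with hl
  have hl0 : 0 < l := Real.rpow_pos_of_pos (by linarith) _
  have h4 : a ^ 4 = l ^ 40 := by
    rw [hl, ← Real.rpow_natCast, ← Real.rpow_natCast, ← Real.rpow_mul (by linarith)]
    norm_num
  have h82 : 0 ≤ y ^ 82 / a ^ 4 := by positivity
  by_cases h : y ^ 2 ≤ l
  · linarith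
  · have h1 : l ^ 40 ≤ (y ^ 2) ^ 40 := pow_le_pow_left₀ hl0.le (not_le.1 h).le _
    have h2 : y ^ 2 ≤ y ^ 82 / a ^ 4 := by
      rw [h4, le_div_iff₀ (by positivity), show y ^ 82 = y ^ 2 * (y ^ 2) ^ 40 by ring]
      exact mul_le_mul_of_nonneg_left h1 (sq_nonneg _)
    linarith

theorem BVar_rpow {u a : ℝ} (ha : 1 ≤ a) (hu : 0 ≤ u) :
    u ^ (11 / 10 : ℝ) ≤ a ^ (11 / 10 : ℝ) + a ^ (11 / 10 : ℝ) / a ^ 2 * u ^ 2 := by
  have ha0 : 0 < a := by linarith
  have h0 : 0 ≤ a ^ (11 / 10 : ℝ) := by positivity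
  by_cases h : u ≤ a
  · have := Real.rpow_le_rpow hu h (show (0 : ℝ) ≤ 11 / 10 by norm_num)
    have : 0 ≤ a ^ (11 / 10 : ℝ) / a ^ 2 * u ^ 2 := by positivity
    linarith
  · have hu0 : 0 < u := by linarith
    have e : ∀ x : ℝ, 0 < x → x ^ (11 / 10 : ℝ) = x ^ (-(9 / 10) : ℝ) * x ^ 2 := fun x hx => by
      rw [← Real.rpow_two, ← Real.rpow_add hx]
      norm_num
    have h1 : u ^ (-(9 / 10) : ℝ) ≤ a ^ (-(9 / 10) : ℝ) :=
      Real.rpow_le_rpow_of_nonpos ha0 (not_le.1 h).le (by norm_num)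
    have h2 : a ^ (11 / 10 : ℝ) / a ^ 2 = a ^ (-(9 / 10) : ℝ) := by
      rw [e a ha0]
      field_simp
    have h3 := mul_le_mul_of_nonneg_right h1 (sq_nonneg u)
    rw [h2, e u hu0]
    linarith

theorem BVar_tsum : ∑' v : V, ENNReal.ofReal (1 / (1 + (nrm v : ℝ)) ^ 4) ≠ ⊤ := by
  have hs : Summable fun a : ℤ => 1 / (1 + |(a : ℝ)|) ^ 2 := by
    have h : Summable fun a : ℕ => 1 / (1 + (a : ℝ)) ^ 2 := by
      have := (summable_nat_add_iff 1).2 (Real.summable_one_div_nat_pow.2 one_lt_two)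
      simpa [add_comm] using this
    refine Summable.of_nat_of_neg ?_ ?_ <;> simpa using h
  have h1 : ∑' a : ℤ, ENNReal.ofReal (1 / (1 + |(a : ℝ)|) ^ 2) ≠ ⊤ := by
    rw [← ENNReal.ofReal_tsum_of_nonneg (fun a => by positivity) hs]
    exact ENNReal.ofReal_ne_top
  refine ne_top_of_le_ne_top (ENNReal.mul_ne_top h1 h1) ?_
  rw [← ENNReal.tsum_mul_right]
  simp only [← ENNReal.tsum_mul_left]
  rw [← ENNReal.tsum_prod]
  refine ENNReal.tsum_le_tsum fun v => ?_
  rw [← ENNReal.ofReal_mul (by positivity)]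
  refine ENNReal.ofReal_le_ofReal ?_
  have a1 : |(v.1 : ℝ)| ≤ nrm v := by exact_mod_cast le_max_left |v.1| |v.2|
  have a2 : |(v.2 : ℝ)| ≤ nrm v := by exact_mod_cast le_max_right |v.1| |v.2|
  rw [one_div_mul_one_div, show (1 + (nrm v : ℝ)) ^ 4 = (1 + nrm v) ^ 2 * (1 + nrm v) ^ 2 by ring]
  gcongr

omit [NullSingletonClass G] in
theorem BVar_Ysum (hG : Hyp G) : ∃ K : ℕ, 1 ≤ K ∧ ∃ M : ℝ≥0∞, M ≠ ⊤ ∧ ∀ x, ∃ H : Env → ℝ≥0∞,
    Measurable H ∧ ∫⁻ t, H t ∂iidLaw G ≤ M ∧ ∀ (t : Env) (p : ℤ → V) (n : ℤ),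
      PathIn Set.univ p 0 n → Set.InjOn p (Set.Icc 0 n) → p 0 = x →
      ENNReal.ofReal (∑ k ∈ Finset.Ico 0 n, Yv K t (p k) ^ 2) ≤
        ENNReal.ofReal ((1 + (n : ℝ)) ^ (11 / 10 : ℝ)) + H t := by
  classical
  obtain ⟨C, hC, h⟩ := memLp_Yv G hG (K := 165) (m := 82) (by norm_num)
  refine ⟨165, by norm_num, ENNReal.ofReal C * ∑' v : V, ENNReal.ofReal (1 / (1 + (nrm v : ℝ)) ^ 4),
    ENNReal.mul_ne_top ENNReal.ofReal_ne_top BVar_tsum, fun x => ?_⟩
  have hm : ∀ v : V, Measurable fun t =>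
      ENNReal.ofReal (Yv 165 t (v + x) ^ 82 / (1 + (nrm v : ℝ)) ^ 4) := fun v =>
    (((measurable_Yv _ _).pow_const _).div_const _).ennreal_ofReal
  refine ⟨fun t => ∑' v : V, ENNReal.ofReal (Yv 165 t (v + x) ^ 82 / (1 + (nrm v : ℝ)) ^ 4),
    Measurable.tsum hm, ?_, fun t p n hp hi h0 => ?_⟩
  · rw [lintegral_tsum fun v => (hm v).aemeasurable, ← ENNReal.tsum_mul_left]
    refine ENNReal.tsum_le_tsum fun v => ?_
    have hi : Integrable (fun t => Yv 165 t (v + x) ^ 82) (iidLaw G) := by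
      have := (h (v + x)).1.integrable_norm_pow (by norm_num)
      simpa only [Real.norm_eq_abs, Even.pow_abs (show Even 82 by decide)] using this
    rw [← ofReal_integral_eq_lintegral_ofReal (hi.div_const _) (ae_of_all _ fun t => by positivity),
      ← ENNReal.ofReal_mul hC.le, integral_div, mul_one_div]
    exact ENNReal.ofReal_le_ofReal (div_le_div_of_nonneg_right (h _).2 (by positivity))
  · have hn : (0 : ℝ) ≤ n := by exact_mod_cast hp.1
    have h1 : ∑ k ∈ Finset.Ico 0 n, Yv 165 t (p k) ^ 2 ≤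
        ∑ k ∈ Finset.Ico 0 n, ((1 + (n : ℝ)) ^ (1 / 10 : ℝ) +
          Yv 165 t (p k - x + x) ^ 82 / (1 + (nrm (p k - x) : ℝ)) ^ 4) := by
      refine Finset.sum_le_sum fun k hk => ?_
      obtain ⟨hk0, hkn⟩ := Finset.mem_Ico.1 hk
      have a1 : (0 : ℝ) ≤ nrm (p k - x) := by exact_mod_cast nrm_nonneg _
      have a2 : (nrm (p k - x) : ℝ) ≤ n := by
        have := (hp.sub le_rfl hk0 hkn.le).nrm_le
        rw [h0] at this
        exact_mod_cast (show nrm (p k - x) ≤ n by omega)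
      rw [sub_add_cancel]
      refine (BVar_trunc (a := 1 + nrm (p k - x)) (by linarith)).trans ?_
      gcongr
    rw [Finset.sum_add_distrib, Finset.sum_const, Int.card_Ico, nsmul_eq_mul] at h1
    refine (ENNReal.ofReal_le_ofReal h1).trans (ENNReal.ofReal_add_le.trans (add_le_add ?_ ?_))
    · refine ENNReal.ofReal_le_ofReal ?_
      have a1 : (((n - 0).toNat : ℕ) : ℝ) = n := by
        rw [sub_zero]
        exact_mod_cast Int.toNat_of_nonneg hp.1
      rw [a1, show (11 / 10 : ℝ) = 1 + 1 / 10 by norm_num, Real.rpow_add (by linarith),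
        Real.rpow_one]
      gcongr
      linarith
    · rw [ENNReal.ofReal_sum_of_nonneg fun k _ => by positivity,
        ← Finset.sum_image (s := Finset.Ico 0 n) (g := fun k => p k - x) (f := fun v : V =>
          ENNReal.ofReal (Yv 165 t (v + x) ^ 82 / (1 + (nrm v : ℝ)) ^ 4))]
      · exact ENNReal.sum_le_tsum _
      · intro a ha b hb hab
        simp only [Finset.coe_Ico, Set.mem_Ico] at ha hb
        exact hi ⟨ha.1, ha.2.le⟩ ⟨hb.1, hb.2.le⟩ (sub_left_injective hab)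

theorem BVar_len (hG : G (Set.Iio 0) = 0) : ∃ θ > 0, ∃ M : ℝ≥0∞, M ≠ ⊤ ∧ ∀ x, ∃ H : Env → ℝ≥0∞,
    Measurable H ∧ ∫⁻ t, H t ∂iidLaw G ≤ M ∧ ∀ (t : Env) (p : ℤ → V) (n : ℤ),
      PathIn Set.univ p 0 n → Set.InjOn p (Set.Icc 0 n) → p 0 = x →
      ENNReal.ofReal ((n : ℝ) ^ 2) ≤ ENNReal.ofReal ((cost t p 0 n / θ) ^ 2) + H t := by
  obtain ⟨θ, hθ, h⟩ := path_cost_lower G hG
  refine ⟨θ, hθ, ENNReal.ofReal (∑' m : ℕ, (m : ℝ) ^ 2 * Real.exp (-1 * m)), ENNReal.ofReal_ne_top,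
    fun x => ?_⟩
  let A : ℕ → Set Env := fun n => toMeasurable (iidLaw G) {t | ∃ p, PathIn Set.univ p 0 n ∧
    Set.InjOn p (Set.Icc 0 n) ∧ p 0 = x ∧ cost t p 0 n < θ * n}
  have hA : ∀ n, MeasurableSet (A n) := fun n => measurableSet_toMeasurable _ _
  have hm : ∀ m : ℕ, Measurable ((A m).indicator fun _ => ENNReal.ofReal ((m : ℝ) ^ 2)) :=
    fun m => measurable_const.indicator (hA m)
  refine ⟨fun t => ∑' m : ℕ, (A m).indicator (fun _ => ENNReal.ofReal ((m : ℝ) ^ 2)) t,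
    Measurable.tsum hm, ?_, fun t p n hp hi h0 => ?_⟩
  · rw [lintegral_tsum fun m => (hm m).aemeasurable, ENNReal.ofReal_tsum_of_nonneg
      (fun m => by positivity) (Real.summable_pow_mul_exp_neg_nat_mul 2 one_pos)]
    refine ENNReal.tsum_le_tsum fun m => ?_
    rw [lintegral_indicator_const (hA m), ENNReal.ofReal_mul (sq_nonneg _), measure_toMeasurable,
      ← ofReal_measureReal, neg_one_mul]
    exact mul_le_mul_right (ENNReal.ofReal_le_ofReal (h x m)) _
  · lift n to ℕ using hp.1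
    by_cases hc : cost t p 0 n < θ * n
    · refine le_add_left (le_trans (le_of_eq ?_) (ENNReal.le_tsum n))
      have hAn : t ∈ A n := subset_toMeasurable _ _ ⟨p, hp, hi, h0, hc⟩
      rw [Set.indicator_of_mem hAn, Int.cast_natCast]
    · refine le_add_right (ENNReal.ofReal_le_ofReal (pow_le_pow_left₀ (by positivity) ?_ 2))
      rw [le_div_iff₀ hθ, Int.cast_natCast, mul_comm]
      exact not_lt.1 hc

theorem BVar_ES (hG : Hyp G) : ∃ M : ℝ≥0∞, M ≠ ⊤ ∧ ∀ (x y : V) (U : Finset (Sym2 V)),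
    ∫⁻ t, ∑ e ∈ U, BVar_D G (fun t => T t x y) e t ∂iidLaw G ≤
      M * ENNReal.ofReal ((1 + (nrm (y - x) : ℝ)) ^ (11 / 10 : ℝ)) := by
  obtain ⟨K, hK, M1, hM1, h1⟩ := BVar_Ysum G hG
  obtain ⟨θ, hθ, M2, hM2, h2⟩ := BVar_len G hG.nonneg
  obtain ⟨M3, hM3, h3⟩ := BVar_Z_int G hG K
  obtain ⟨C, hC, h4⟩ := memLp_T G hG
  refine ⟨3 + 2 * ENNReal.ofReal (C / θ ^ 2) + 2 * M2 + M1 + 2 * M3, by finiteness,
    fun x y U => ?_⟩
  obtain ⟨H1, m1, i1, p1⟩ := h1 x
  obtain ⟨H2, m2, i2, p2⟩ := h2 x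
  set a : ℝ := 1 + nrm (y - x) with ha
  have ha1 : 1 ≤ a := by
    have : (0 : ℝ) ≤ nrm (y - x) := by exact_mod_cast nrm_nonneg _
    linarith
  have hA1 : 1 ≤ a ^ (11 / 10 : ℝ) := Real.one_le_rpow ha1 (by norm_num)
  set A := a ^ (11 / 10 : ℝ) with hA
  have hb : 0 ≤ A / a ^ 2 := by positivity
  have hbA : ENNReal.ofReal (A / a ^ 2) ≤ ENNReal.ofReal A :=
    ENNReal.ofReal_le_ofReal (div_le_self (by linarith) (one_le_pow₀ ha1))
  have h1A : 1 ≤ ENNReal.ofReal A := ENNReal.one_le_ofReal.2 hA1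
  have mT : Measurable fun t => ENNReal.ofReal ((T t x y / θ) ^ 2) :=
    (((measurable_T x y).div_const θ).pow_const 2).ennreal_ofReal
  have iT : ∫⁻ t, ENNReal.ofReal ((T t x y / θ) ^ 2) ∂iidLaw G ≤
      ENNReal.ofReal (C / θ ^ 2 * a ^ 2) := by
    simp only [div_pow]
    rw [← ofReal_integral_eq_lintegral_ofReal ((h4 x y).1.integrable_sq.div_const _)
      (ae_of_all _ fun t => by positivity), integral_div, div_mul_eq_mul_div]
    exact ENNReal.ofReal_le_ofReal (div_le_div_of_nonneg_right (h4 x y).2 (by positivity))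
  have key : ∀ᵐ t ∂iidLaw G, ∑ e ∈ U, BVar_D G (fun t => T t x y) e t ≤
      (ENNReal.ofReal A + 2 * ENNReal.ofReal (A / a ^ 2)) + (2 * ENNReal.ofReal (A / a ^ 2) *
        (ENNReal.ofReal ((T t x y / θ) ^ 2) + H2 t) +
        (H1 t + (BVar_Z G K x t + BVar_Z G K y t))) := by
    filter_upwards [ae_reg G hG.nonneg] with t ht
    obtain ⟨p, n, hp, rfl, rfl⟩ := exists_geo ht (conn_univ x y)
    have hn : (0 : ℝ) ≤ n := by exact_mod_cast hp.1.1
    have b1 := p1 t p n hp.1 hp.2.1 rfl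
    have b2 := p2 t p n hp.1 hp.2.1 rfl
    rw [show cost t p 0 n = T t (p 0) (p n) from hp.2.2] at b2
    have b3 : (1 + (n : ℝ)) ^ (11 / 10 : ℝ) ≤ A + 2 * (A / a ^ 2) + 2 * (A / a ^ 2) * (n : ℝ) ^ 2 := by
      have c1 := BVar_rpow (u := 1 + n) ha1 (by linarith)
      have c2 : (1 + (n : ℝ)) ^ 2 ≤ 2 + 2 * (n : ℝ) ^ 2 := by nlinarith [sq_nonneg ((n : ℝ) - 1)]
      have c3 := mul_le_mul_of_nonneg_left c2 hb
      linarith
    have b4 : ENNReal.ofReal ((1 + (n : ℝ)) ^ (11 / 10 : ℝ)) ≤ ENNReal.ofReal A +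
        2 * ENNReal.ofReal (A / a ^ 2) + 2 * ENNReal.ofReal (A / a ^ 2) *
          ENNReal.ofReal ((n : ℝ) ^ 2) := by
      refine (ENNReal.ofReal_le_ofReal b3).trans (ENNReal.ofReal_add_le.trans ?_)
      rw [ENNReal.ofReal_mul (by positivity), ENNReal.ofReal_add (by linarith) (by positivity),
        ENNReal.ofReal_mul zero_le_two, ENNReal.ofReal_ofNat]
    refine (BVar_sumD G hG.nonneg hK ht.nonneg hp U).trans ?_
    refine (add_le_add (b1.trans (add_le_add (b4.trans (add_le_add le_rfl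
      (mul_le_mul_right b2 _))) le_rfl)) le_rfl).trans (le_of_eq ?_)
    ring
  refine (lintegral_mono_ae key).trans ?_
  have mT2 : Measurable fun t => ENNReal.ofReal ((T t x y / θ) ^ 2) + H2 t := mT.add m2
  rw [lintegral_add_left measurable_const, lintegral_add_left (mT2.const_mul _),
    lintegral_const_mul _ mT2, lintegral_add_left mT, lintegral_add_left m1,
    lintegral_add_left (h3 x).1, lintegral_const, measure_univ, mul_one]
  have c1 : ENNReal.ofReal (A / a ^ 2) * ENNReal.ofReal (C / θ ^ 2 * a ^ 2) =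
      ENNReal.ofReal (C / θ ^ 2) * ENNReal.ofReal A := by
    rw [← ENNReal.ofReal_mul hb, ← ENNReal.ofReal_mul (by positivity)]
    congr 1
    field_simp
  have c2 : ∀ M : ℝ≥0∞, M ≤ M * ENNReal.ofReal A := fun M => le_mul_of_one_le_right zero_le h1A
  calc _ ≤ (ENNReal.ofReal A + 2 * ENNReal.ofReal A) + (2 * ENNReal.ofReal (A / a ^ 2) *
        (ENNReal.ofReal (C / θ ^ 2 * a ^ 2) + M2) + (M1 + (M3 + M3))) := by
        gcongr
        exacts [(h3 x).2, (h3 y).2]
    _ = (ENNReal.ofReal A + 2 * ENNReal.ofReal A) + (2 * (ENNReal.ofReal (C / θ ^ 2) *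
        ENNReal.ofReal A) + 2 * ENNReal.ofReal (A / a ^ 2) * M2 + (M1 + (M3 + M3))) := by
        rw [← c1]
        ring
    _ ≤ (ENNReal.ofReal A + 2 * ENNReal.ofReal A) + (2 * (ENNReal.ofReal (C / θ ^ 2) *
        ENNReal.ofReal A) + 2 * ENNReal.ofReal A * M2 + (M1 * ENNReal.ofReal A +
          (M3 * ENNReal.ofReal A + M3 * ENNReal.ofReal A))) := by
        gcongr <;> exact c2 _
    _ = _ := by ring

omit [NullSingletonClass G] in
theorem BVar_approx (hG : Hyp G) (x y : V) :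
    (∀ᶠ n : ℕ in atTop, MemLp (fun t => TS t (Set.univ ∩ ball x n) x y) 2 (iidLaw G)) ∧
    Tendsto (fun n : ℕ => ∫⁻ t, ENNReal.ofReal ((T t x y - TS t (Set.univ ∩ ball x n) x y) ^ 2)
      ∂iidLaw G) atTop (𝓝 0) := by
  obtain ⟨C, hC, K, h⟩ := memLp_TS G hG
  obtain ⟨w, m, hw, -, rfl, rfl, -, -⟩ := exists_staircase x y
  lift m to ℕ using hw.1
  have h1 : ∀ n : ℕ, m + K ≤ n → Conn (Set.univ ∩ ball (w 0) n) (w 0) (w m) ∧
      MemLp (fun t => TS t (Set.univ ∩ ball (w 0) n) (w 0) (w m)) 2 (iidLaw G) := fun n hn => by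
    have := h (Set.univ ∩ ball (w 0) n) w m hw fun k hk0 hk z hz => ⟨trivial, by
      have a1 := (hw.sub le_rfl hk0 hk).nrm_le
      have a2 := nrm_add_le (z - w k) (w k - w 0)
      rw [sub_add_sub_cancel] at a2
      have a3 : nrm (z - w k) ≤ K := hz
      change nrm (z - w 0) ≤ n
      omega⟩
    exact ⟨this.1, this.2.1⟩
  refine ⟨(eventually_ge_atTop (m + K)).mono fun n hn => (h1 n hn).2, ?_⟩
  have h2 := tendsto_lintegral_filter_of_dominated_convergence (μ := iidLaw G) (l := atTop)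
    (F := fun (n : ℕ) t => ENNReal.ofReal ((T t (w 0) (w m) -
      TS t (Set.univ ∩ ball (w 0) n) (w 0) (w m)) ^ 2)) (f := fun _ => 0)
    (fun t => ENNReal.ofReal (TS t (Set.univ ∩ ball (w 0) ((m + K : ℕ) : ℤ)) (w 0) (w m) ^ 2))
    (Eventually.of_forall fun n =>
      (((measurable_T _ _).sub (measurable_TS _ _ _)).pow_const 2).ennreal_ofReal) ?_ ?_ ?_
  · simpa using h2
  · filter_upwards [eventually_ge_atTop (m + K)] with n hn
    filter_upwards [ae_nonneg G hG.nonneg] with t ht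
    refine ENNReal.ofReal_le_ofReal ?_
    have a1 : T t (w 0) (w m) ≤ TS t (Set.univ ∩ ball (w 0) n) (w 0) (w m) :=
      T_le_TS ht (h1 n hn).1
    have a2 : TS t (Set.univ ∩ ball (w 0) n) (w 0) (w m) ≤
        TS t (Set.univ ∩ ball (w 0) ((m + K : ℕ) : ℤ)) (w 0) (w m) :=
      TS_anti ht (fun z hz => ⟨trivial, le_trans (b := ((m + K : ℕ) : ℤ)) hz.2
        (Int.ofNat_le.2 hn)⟩) (h1 _ le_rfl).1
    have a3 : 0 ≤ T t (w 0) (w m) := T_nonneg ht
    exact sq_le_sq' (by linarith) (by linarith)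
  · rw [← ofReal_integral_eq_lintegral_ofReal (h1 _ le_rfl).2.integrable_sq
      (ae_of_all _ fun t => sq_nonneg _)]
    exact ENNReal.ofReal_ne_top
  · filter_upwards [ae_nonneg G hG.nonneg] with t ht
    have a1 := ((tendsto_TS_inter_ball ht (conn_univ (w 0) (w m)) (w 0)).const_sub
      (T t (w 0) (w m))).pow 2
    have a2 := ENNReal.tendsto_ofReal a1
    simpa [T] using a2

theorem var_T (hG : Hyp G) : ∃ C > 0, ∀ x y : V,
    Var[fun t => T t x y; iidLaw G] ≤ C * (1 + (nrm (y - x) : ℝ)) ^ (11 / 10 : ℝ) := by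
  obtain ⟨M, hM, h⟩ := BVar_ES G hG
  obtain ⟨C, -, h4⟩ := memLp_T G hG
  refine ⟨(4 * M).toReal + 1, by positivity, fun x y => ?_⟩
  obtain ⟨h1, h2⟩ := BVar_approx G hG x y
  set A := (1 + (nrm (y - x) : ℝ)) ^ (11 / 10 : ℝ) with hA
  have hA0 : 0 ≤ A := by
    have : (0 : ℝ) ≤ nrm (y - x) := by exact_mod_cast nrm_nonneg _
    positivity
  have h3 : ENNReal.ofReal Var[fun t => T t x y; iidLaw G] ≤ 4 * (M * ENNReal.ofReal A) + 6 * 0 := by
    refine ge_of_tendsto ((ENNReal.Tendsto.const_mul h2 (Or.inr (by norm_num))).const_add _) ?_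
    filter_upwards [h1] with n hn
    have hf : (edgesIn (Set.univ ∩ ball x n)).Finite :=
      edgesIn_finite ((ball_finite x n).inter_of_right _)
    refine (BVar_es G hf.toFinset (measurable_T x y) (measurable_TS _ x y) (h4 x y).1 hn ?_).trans ?_
    · rw [hf.coe_toFinset]
      exact dependsOnly_TS _ x y
    · exact add_le_add (mul_le_mul_right (h x y _) _) le_rfl
  rw [mul_zero, add_zero, ← mul_assoc] at h3
  have h5 := ENNReal.toReal_mono (by finiteness) h3
  rw [ENNReal.toReal_ofReal (variance_nonneg _ _), ENNReal.toReal_mul,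
    ENNReal.toReal_ofReal hA0] at h5
  linarith

/-- Chebyshev and `mu_le_mT` -/
theorem moderate_lower (hG : Hyp G) : ∃ C > 0, ∀ (x y : V) (s : ℝ), 0 < s →
    (iidLaw G).real {t | T t x y ≤ mu G (toR (y - x)) - s} ≤
      C * (1 + (nrm (y - x) : ℝ)) ^ (11 / 10 : ℝ) / s ^ 2 := by
  obtain ⟨C, hC, h⟩ := var_T G hG
  obtain ⟨C', -, h4⟩ := memLp_T G hG
  refine ⟨C, hC, fun x y s hs => ?_⟩
  have h1 := meas_ge_le_variance_div_sq (h4 x y).1 hs
  have h2 : (0 : ℝ) ≤ nrm (y - x) := by exact_mod_cast nrm_nonneg _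
  refine ENNReal.toReal_le_of_le_ofReal (by positivity) (le_trans (measure_mono fun t ht => ?_)
    (h1.trans (ENNReal.ofReal_le_ofReal (div_le_div_of_nonneg_right (h x y) (sq_nonneg _)))))
  have h3 := mu_le_mT G hG (y - x)
  rw [← integral_T] at h3
  have h5 : T t x y ≤ mu G (toR (y - x)) - s := ht
  have h6 : s ≤ -(T t x y - ∫ t, T t x y ∂iidLaw G) := by linarith
  exact le_abs.2 (Or.inr h6)

end Crest.Agent.R151
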