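import Crest.Agent.R151.BShape
import Crest.Agent.R151.BCross
import Crest.Agent.R151.BProj
import Crest.Agent.R151.BErg
import Crest.Agent.R151.BAnimal
import Crest.Agent.R151.BTilt
import Crest.Agent.R151.BVar

/-! R151: the whole base API (import this file). -/
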