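/-!
# R151 blueprint, part A: `mu` is differentiable off 0 for every atomless G with E min4² < ∞ (gives S0214(a), feeds C and D)

By symmetry and homogeneity it suffices that f ξ = mu(ξ,1) has no corner at any ξ0 (|ξ0| ≤ 1 is NOT enough for FACT0 but swap gives the rest; handle all ξ0 ∈ ℝ or |ξ0| ≤ 1 plus swap: every v ≠ 0 is ±(ξ,1)s or ±(1,ξ)s with |ξ| ≤ 1).
Suppose f'(ξ0+) - f'(ξ0-) = 2c > 0, v = (ξ0,1), ρ0 = midpoint subgradient: mu y - ρ0·y ≥ c' dist(y, ℝ₊ v).
(1) SHEAR.  For a set A of row gaps re-glue the vertical edges of gap i as (x,i)-(x±1,i+1): a bijection of Sym2, so T^{A,±}(0,z) has the law of T(0, z ± |A∩[0,z2)| e1).  A = rows spaced L > 2R+2 with uniform offset.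
T^{A,±}(0,z) ≤ T(0,z) + Σ_{i∈A} Δ_i^{R,±}, Δ^R_i = best repair of γ = geo(0,z) inside the slab |y-i| ≤ R (each maximal run of γ in the slab is replaced).  Single shear: E Δ_i^{∞,+} + E Δ_i^{∞,-} = m(z+e1)+m(z-e1)-2m(z) = O(1/K) for a good z within K of n v
(m ≤ mu + o(n), Lipschitz, pigeonhole).  Since m(z+εn e1)+m(z-εn e1)-2m(z) ≥ 2cεn - o(n) with ε = 1/L, it suffices that avg_i E(Δ_i^R - Δ_i^∞) → 0 as R → ∞ uniformly in n.  If Δ^R_i ≠ Δ^∞_i then (untame rows excluded, as in BlueC C3, with uniform integrability via the bypass variables Y)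
γ has a DETOUR: a path disjoint from γ except its ends γ_j, γ_k, covering row i, of height ≥ R, with excess D(j,k) ≤ C_i = ΣY near the crossings.  (Loc): the fraction of such rows → 0 as R → ∞.
(2) CLOSE rows (detour passes within w0 of γ at row i; then some detour of excess ≤ C(w0) has an END near row i): blocks of length M; u_k = exp(-min_{j ≤ k0} D(j,k)).  Lowering a useful edge x of γ (base `lower_one`, or bits) keeps γ and multiplies u_k by e^{-(t-a)} ≤ e^{-δ} for k > x only.
Sliding averages a_s(x) of u over [x,x+2^s): Σ_s Σ_x (a_s(x+1) - a_s(x+1-2^s))² ≤ C|γ| (telescoping of L² norms), pick a good scale s ⇒ E Σ u_k = o(n).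
(3) FAR rows (separation w ≥ w0 dyadic, S = w^1.05): accounting w.r.t. ρ0 (total excess of γ and of γ with a disjoint family of cheap detours is o(n); lower deviations S^0.9 on nets of spacing S^0.9, prob S^-0.4 by `var_T` and m ≥ mu; `animal`) shows both are straight within w/10 on scale S except on a fraction w^-c of rows.
Block B (S × w/2 parallelogram along v) avoided by γ, crossed by the detour with ≥ cS useful edges.  Monotone family ω = ω_J ≥ ... ≥ ω_0 lowering edges of B with probability K/S per step: E_j = {γ avoids B, adjacent, cheap detour through B in ω_j}; given E_j the next lowering makes the detour cheaper than γ with prob ≥ 1/2, so γ hits B in ω_{j-1};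
the events E_j ∩ {hits B in ω_{j-1}} are disjoint and contained in A_B = {γ(ω) adjacent to B}; densities ≥ e^-C on the typical event when J = √(S/(w log w))/K.  So P(E_B) ≲ K √(w log w/S) P(A_B) + (atypical, by animal); Σ_B P(A_B) ≤ C n/S; summable over dyadic w ≥ w0, → 0 as w0 → ∞.
See also idea 616 (helper55).
-/
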