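/-!
# R151 blueprint, part C: no bigeodesics (S0213), given differentiability of `mu` (part A)

Notation: `T` passage time, `T^S` restricted to a vertex set `S`, `f ξ = mu (ξ,1)` (convex, C¹ by part A),
for a label `a = f' ξ` put `ρ_a = ∇mu(ξ,1) = (a, f ξ - a ξ)`; `ρ_a·v ≤ mu v` for all `v`.
`A := f' 1`.  FACT0: there is `Ξ` with `f' Ξ > A` (else `mu(x,y) = A x + B y` on `x ≥ y > 0`; differentiability at
`e1` + reflection gives `B = 0`, at `(1,1)` + swap gives `A = B`, contradiction with `mu > 0`); so `A < f' Ξ ≤ mu e1`.
All events of the form "there is a curve with a Borel property" are null-measurable (base `nullMeas_proj`).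
A *curve* = bigeodesic `γ : ℤ → V`.  `γ` has *label* `a` if `(γ k).2 → ±∞` as `k → ±∞` and
`f'((γ k).1/(γ k).2) → a` at both ends.  For a row gap `j` (between rows `j` and `j+1`): *exit* = last index `k` with
`(γ k).2 ≤ j` (exit edge `(x,j)-(x,j+1)`), *entry* = first index with `(γ k).2 ≥ j+1`, entry edge at column `x~`.
*tame(L0)* at `j`: all points of `γ` between entry and exit have column within `L0` of `x`.
*useful* edge: `t e ≥ q` (`q, δ, p'` from base `exists_quantile`: `G(<q) ≤ η`, `G(<q-δ) = p' > 0`). *good* = tame and exit edge useful.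

## C1 (Ray)  a.s. ∀ ε ∃ r0 ∀ s ∃ geodesic ray h from s, ∀ k: mu(h_k - s) - ρ·(h_k - s) ≤ ε|h_k - s| + ε|s| + r0
for every fixed `ρ = ∇mu(v)`, `v ≠ 0` (we use countably many, upward AND downward ones; get downward by symmetry).
Proof. (Lin) a.s. ∀ ε ∃ r0, for infinitely many n there is a deterministic target u_n (|u_n| → ∞) with
|T(z,u_n) - T(0,u_n) + ρ·z| ≤ ε|z| + r0 for all |z| ≤ η n.  Put b(y) = T(y,u*), u* fixed ≈ n v, y in a box Q of side η' n.
For a lattice vector w (|w| ≈ ℓ, ℓ fixed large) with mu w - ρ·w ≤ ε²ℓ: Z_y = b(y+w) - b(y) + ρ·w ≥ -(T(y,y+w) - ρ·w),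
E|T(y,y+w) - ρ·w| ≤ 2ε²ℓ, and avg_{y∈Q} E Z_y ≤ ε²ℓ (telescoping: m = mu + o(n) on boundary layers, ∇mu ≈ ρ on Q by
continuity) so avg E|Z_y| ≤ Cε²ℓ.  A vector of length εℓ in direction θ (finite net of rational directions) is the difference of
two such w (ℓv and ℓv+εℓθ; differentiability gives o(ε)ℓ, choose scales so), hence block increments X_y = b(y+w_θ) - b(y) + ρ·w_θ have
avg E|X_y| ≤ ε'|w_θ|.  Deterministic 1-D maximal lemma along the lines y + ℕ w_θ: the fraction of y∈Q with
sup_{1≤m≤M} (1/m) Σ_{i<m} |X_{y+i w_θ}| > λ is ≤ C avg|X|/λ.  Translate (target u = u* - y): some target u_n has the estimate at all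
multiples of all w_θ with probability ≥ 1-ε.  Every z is within ε|z| of such a multiple; base `ae_T_le_near` finishes.
limsup of events of probability ≥ 1-ε has probability ≥ 1-ε.  Then h = König limit of geodesics s → u_n:
T(s,h_k) = T(s,u_n) - T(h_k,u_n) ≤ ρ·(h_k - s) + ε(|s|+|h_k|) + 2 r0, and base `ae_shape` (lower half).

## C2 (Wedge) a.s.: (i) every bigeodesic is, after one of the 8 lattice symmetries (incl. reversal), a curve with a label a∈[-A,A];
(ii) for rational α<β in (-f'Ξ, f'Ξ) and ε ∃ r0 ∀ curves γ with label in (α,β) ∀ s = γ_i: for k ≥ i,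
γ_k - s ∈ wedge(α,β,ε) ∪ ball(ε|s|+r0), for k ≤ i the same with s - γ_k; wedge = {y>0, f'(x/y) ∈ [α-ε, β+ε]}.
Proof. Rays h_L (label α), h_R (label β) from s (C1).  If z = γ_k is outside wedge∪ball and a later point c = γ_k' is strictly between the two
thin cones: LR crossing = row H+1 from the left, down to the first visit of h_L to level H, h_L reversed to s, h_R to level H, up, row H+1 to the right;
BT crossing = escape path from the bottom to z (left/right/below of the cones), γ[k,k'], staircase inside the open wedge to the top.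
`cross_LR_BT` ⇒ γ[k,k'] meets h_L or h_R at q; uniqueness of geodesics from s ⇒ z ∈ h_L ∪ h_R, contradiction.  For (i) take a limit direction θ of the
forward end, symmetry so that θ2 ≥ |θ1|, a = f'(θ1/θ2).  Backward end: apply the forward statement at s = γ_{-j}: -γ_{-j} ∈ wedge ∪ ball(ε|s|+r0).
(Barrier) a.s. for each row j, each geodesic ray g in the half plane H (rows ≥ j+1, resp ≤ j; geodesic for T^H) with a label, each finite F: for |x| large and N large
every T^{strip N}-geodesic from (x, boundary row) to u_N(g) (first visit of g to distance N) avoids F.  [ray h from (y,·), 1 << |y| << |x|, with a label making it cross g's cone;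
cut h at its last exit into H; x and u_N on one side of h, F on the other; `cross` twice + uniqueness of T^{strip}-geodesics.]

## C3 (Str) for η, there are L0, ι>0 with: for every label interval I, |I| ≤ ι, every K: P(Str_w(I,K)) → 1 as w → ∞, where Str_w = every curve with label in I that
visits [-Kw,Kw]² has, in each range of w consecutive rows inside [-Kw,Kw], at least (1-η)w good rows.
Proof. Cut γ (from entry at the lowest row to exit at the highest) into first-exit pieces of ℓ-boxes.  Cell bad = some piece starting in it can have cost < (1-ε)mu;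
prob ≤ ℓ^C e^{-cℓ} (base `lowLD`), finite range; ≤ Cℓ pieces start in one cell; base `animal_tail` ⇒ bad pieces ≤ ε w/ℓ.  Total excess over ρ_a is ≤ (ι C+ε)w (C2 + `ae_shape`), so all but
ε' w/ℓ pieces have displacement in the cone mu - ρ_a· ≤ √ε ℓ, hence go up by ≥ cℓ (FACT0).  If row j is not tame the stretch entry→exit has > J pieces and net height ≤ 1, so a fraction ≥ c' of them is
non-conic; overlap-2 cover of the index intervals (base `cover2`) ⇒ union has ≤ Cε' w/ℓ pieces ⇒ ≤ Cε' w rows.  Non-useful exit edges: base `peierls_marked`.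

## C4 (Budget) λ^+_{N,I}(x) = D_N(x, x+u^-_N) - D_N(x, x+u^+_N), D_N(x,u) = T^{[1,N]}((x+1,1),(u,N)) - T^{[1,N]}((x,1),(u,N)) is antitone in u (`monge`);
choose deterministic u^∓_N ∈ N[ξ^- - ε, ξ^-], N[ξ^+, ξ^+ + ε] by pigeonhole (telescoping of m_N(u) = E T^{[1,N]}((0,1),(u,N)) = mu + o(N), base `strip_mean`) with
limsup_N E λ^+_{N,I}(0) ≤ 2|I| (I half-open label interval, ξ^∓ just outside the slopes of I, f' continuous).  λ^+ depends only on edges in rows ≥ 1; λ^- likewise in rows ≤ 0.
SWAP: for curves γ, γ' with labels in I, entries/exits (x~,x), (x~',x'), u^±_N, u'^±_N their visits of levels ±N: for N large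
E_N(γ;x~',x') + E_N(γ';x~,x) ≤ Σ_{y between x,x'} λ^+_N(y) + Σ_{y between x~,x~'} λ^-_N(y), both terms ≥ 0, where
E_N(γ;x~',x') = T^{[-N,0]}(u^-_N,(x~',0)) + T((x~',0),(x',1)) + T^{[1,N]}((x',1),u^+_N) - T(u^-_N,u^+_N).
(Charge lemma) if X ⊂ ℤ is a stationary random set, every x∈X satisfies t ≤ liminf_N Σ_{y∈[x-L0, x'+L0]} λ_N(y), x' = next point of a stationary set X' ⊇ X beyond x+2L0 (exists by `recurrence`),
then t P(0∈X) ≤ (6L0+3) liminf E λ_N(0) (Fatou + `mass_transport`; at most 4L0+2.. points charge one y).

## C5 (H) P(good class-I exit at 0) ≤ C L0 |I|/(δ p').  Lower the exit edge (base `lower_one`): γ stays a tame curve and its margin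
M_e(γ) = inf_k [T^{avoiding e}(γ_{-k},γ_k) - cost] is ≥ δ; the swap path through the middle of the next such curve avoids e; Charge lemma.
Summing over dyadic partitions: E #{labels with a good exit at 0} < ∞, every fixed label has intensity 0, Σ_I m(I)² → 0 (m(I) = that probability).
## C6 no two curves with the same label share a backward half (or a forward half: symmetry by -1) and differ.  Branch vertex z; in an n-box pick rows j1∈[-2n,-n), j2∈[n,2n) at random: by C3 with prob ≥ 1-3η
γ is good at j1 and γ,γ' are good at j2.  For a fixed entry p the geodesics p → exits form a tree, #branch vertices ≤ #exits (add one path at a time).  So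
τ n²(1-3η) ≤ avg Σ_I N_I(j1) N_I(j2), E ≤ (Cn)² (Σ m(I)² + o(1)) (base `lln_row`), τ = P(0 is a branch vertex) ⇒ τ = 0.
## C7 (J) for an H^- ray g: b_g(z) = lim T^-(z,g_k) - T^-(g_0,g_k) (monotone) = lim_N of the strip version.  Jump event J^-_κ(I,x): two H^- rays with the same label in I whose increments
b(x+1)-b(x) differ by ≥ κ ⊂ {liminf λ^-_{N,I}(x) ≥ κ}; independence of λ^+, λ^-: P(J^+(I,x1) ∩ J^-(I,x2)) ≤ 4|I|²/κ², sum over partition → 0.  So a.s. each label has no jump on one side (say below; else use -1).
## C8 ladder.  γ ≠ γ' label a, no jump below: b - b' = β on row 0.  c(p), c'(p') costs along γ^-, γ'^- from the entries.  r(p,p') = T^-(p,p') + c(p) - c'(p') + β ≥ 0, r'(p',p) likewise with -β.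
Geodesic from x_L far left to u'_N crosses γ^- (if u_N left of u'_N, for a subsequence; mirror otherwise) at a deep p (Barrier): r(p,u'_N) → 0; inf_{p'} r(p,p') is monotone along γ ⇒ it is 0 for all p∈γ^-; same for γ'.
If γ, γ' share a vertex z (anywhere): for deep p, p' write T(z,p) = c(p) + mid, T(z,p') = c'(p') + mid' (mid, mid' signed).  The rungs p → p' and p' → p with r, r' ≤ ε and the triangle inequality at z give
β = mid - mid'.  Hence γ'' = γ(≤ z) ∪ γ'(≥ z) is a curve with label a: T(q,p) ≥ T(q,p') - T(p,p') ≥ T(q,z) + T(z,p) - ε (injective since weights are positive).  C6 twice ⇒ γ = γ'' = γ'.  So only row 0 is needed in C7.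
If disjoint: genuine rung (leaving γ for the last time at p1) with r ≤ ε, follow γ' far down, rung back (cut at first hit of γ, which is deep): margin M_{e_j}(γ) ≤ 2ε for all exit edges below p1.  So M_{e_j}(γ) → 0, j → -∞.
(M) now at most one curve per (edge, label), so finitely many curves have a good exit at e; a.s. all have margin > 0 (Fubini in t_e: curves through e at weight s are curves at weight s' < s; margins θ(γ) - s, countably many θ; G atomless).
Special point: lowest good exit of γ with margin ≥ κ.  E #special (point,label) in an n-box ≤ C n (each curve crossing the box has a good exit in most rows of [n,2n), C3+C5) ⇒ intensity 0 ⇒ no such γ has a good exit with margin ≥ κ, all κ ⇒ no such γ.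
CONCLUSION (U): a.s. at most one curve per label.
## C9 W_j(γ) ≥ t :⇔ ∃ D ∀ x' ≥ x+D, |x~'-x'| ≤ L0, ∀ᶠ N, E_N(γ;x~',x') ≥ t (row j).  ν_t = #{labels with a good exit at 0 and W ≥ t}: E ν_t ≤ C L0/t
(dyadic I ∋ a small: no other good class-I exit in (2L0, D) by (U) and finiteness of labels; Charge lemma; Fatou).
## C10 tilt.  Fix R; I narrow (slopes of I within 1/R of ξ0; at most CR dyadic I are not narrow, their total m → 0).  A_w: ≥ w m(I) good class-I exits in [-w,w] (lln_row), Str_w, C2(ii) with ε << 1/R.
S = edges of the tube |x - ξ0 y| ≤ Cw, 0 ≤ y ≤ Rw; coins ϑ = √p'/(C w √R).  Each of these curves γ has ≥ Rw/2 useful edges in S, so gain ≥ t = c δ √(p' R) with coin probability ≥ 9/10; with probability ≥ 4/5 half of them gain.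
In ω': γ' = König limit of ω'-geodesics γ_{-k} → γ_k (they use a lowered edge, so no escape); same label (finite change; C2 in ω'); W'_j(γ') ≥ t for every row j (triangle inequality + Barrier in ω'; far middle parts avoid S);
by Str_w and C2(ii) in ω', ≥ w/2 rows j∈[0,w) have a good exit of γ' within C'w of the tube.  base `tilt` ⇒ P(count ≥ w² m(I)/4) ≥ c0, Markov ⇒ E ν_t(I) ≥ c m(I).  Sum over I: c P(good exit at 0) ≤ C L0/(δ√(p'R)) + o(1); R → ∞ ⇒ P = 0; C3 ⇒ no curve.
-/
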