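/-!
# R151 blueprint, part D: strict convexity for exponential weights (S0214, second half)

Suppose not strictly convex: the unit sphere of mu contains a segment; by symmetry f ξ = mu(ξ,1) is affine on [ξ-,ξ+], ξ- < ξ+ maximal, f ξ = a0 ξ + ρ2, with an interior point in [-1,1]... and |a0| < mu e1
(FACT0 of BlueC, from differentiability).  ρ = (a0,ρ2), η(ξ) = f ξ - a0 ξ - ρ2 ≥ 0 convex, = 0 exactly on [ξ-,ξ+], → ∞ linearly.  ϑ(c) = sup{s ≥ 0 : η(ξ+ + s) ≤ c}: monotone, finite, ≤ C(1+c), ϑ(c) → 0 as c → 0, η(ξ+ + ϑ c) ≤ c.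
KEY: Σ over dyadic r ≥ r1 of [ϑ(λ/r) - ϑ(1/r)] ≤ log2(2λ) ϑ(λ/r1) (telescoping).
Slab passage time τ(y,h;x,u) = T^{rows[y,y+h-1]}((x,y),(u,y+h-1)) + t((u,y+h-1),(u,y+h)); slabs [y,y+h) are independent; c(y,h;x,u) = τ - ρ·(u-x,h).  Monge: x ≤ x', u ≤ u' ⇒ τ(x,u)+τ(x',u') ≤ τ(x,u')+τ(x',u).
E c ≥ 0 (m ≥ mu).  ξm midpoint, τ1 = (ξ+ - ξ-)/4.  V(s) = 1 ∨ sup{E c(0,h;0,ζ) : 1 ≤ h ≤ s, |ζ - ξm h| ≤ τ1 h + C0}.
## D0 tools
(Strat) D integer r.v. measurable for slab [0,h), |D| ≤ M ⇒ mu(E D, h) ≤ E τ(0,h;0,D).  [iid concatenation over n slabs; last correction along the top row, independent, O(√n); m ≥ mu.]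
(LogC) S(u) = P(τ^U ≥ u) satisfies S((u+v)/2)² ≥ S(u)S(v) for every region U (Prékopa-Leindler `pl_pi`, τ concave in t; finite boxes then decreasing limit).  So P(X ≥ u0) ≥ 1-p/4, P(X ≥ u1) ≤ 1-p ⇒ P(X ≥ u1+k(u1-u0)) ≤ (1-p/2)^k.
(Bias) E τ(0,N;0,x) ≤ mu(x,N) + C N^0.89 and Var ≤ CN for |x| ≤ Ξ N.  [φ_a(n) = E min_u (τ(0,n;0,u) - ρ_a·(u,n)) ≥ 0 by (Strat); φ_a(2n) ≥ 2φ_a(n) - C n^0.7 for |a| ≤ A' < mu e1 (first visit/last visit of level n, return piece ≥ -n^0.7, net of spacing n^0.7, Efron-Stein + Chebyshev),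
φ_a(n)/n → 0 ⇒ φ_a(n) ≤ C n^0.7.  For slope ξ with subgradient a use tilts a ± h^-0.15 in blocks of height h = N^0.75 in a deterministic proportion, straight correction C (N h)^½.]  So V(s) ≤ C s^0.89.
Choose J (infinitely many) with V(s) ≤ V_J max(1,(s/2^J)^0.9) ∀ s, V_J = V(2^J).  h_max = N0 2^J, W = N0^0.9 V_J + C1 J (C1 from lowLD: E_N below with log N ≤ C J).
(E_N) P(∀ |p| ≤ N², q: T(p,q) ≥ (1-ε)mu(q-p) - C log N) ≥ 1 - 1/N; then c-cost of any path p→q ≥ c1|Δx| - C|Δy| - C log N.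
(L1) E|c(0,h;0,ζ)| ≤ C(U + W n^0.9) if E c ≤ U, h ≤ n h_max, |ζ| ≤ K h: two independent boxes, connectors of height Ch below/above (independent of the slab, signed mean ≤ V), total mean ≥ 0 ⇒ E|c1 - c2| ≤ C(..); box vs strip error O(1) by lowLD.
(L2) LL(y,h;k) = max_{x,u ∈ k + [-Kh,Kh]} (-c(y,h;x,u))⁺ has P(LL ≥ s) ≤ C (W/s)^2.1, h ≤ h_max: n×n grid of boxes (independent), n² π ≥ 1 ⇒ harvest the first one; per row i the endpoints depend on slab i only, so connectors have exponential tails at scale W n^0.9 (L1 + LogC), E max over n rows ≤ C W n^0.95.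
(LPP) rows independent, events A_{i,k} of prob ≤ π: E sup over sequences (k_i)_{i<n}, k_0 = 0, Σ|k_{i+1}-k_i| ≤ βn, of #{i : A_{i,k_i}} ≤ C n (π + √(βπ)) (β ≥ 1).  [coarse cells r × m, r m π ≈ 1; coarse walk with steps left/right/up of length a, 3^a choices; for a fixed walk the count is a sum of independent indicators of total mean ≤ a.]  Layer cake for fields with P(F > s) ≤ π(s).
## D1 reach
ζ(h,u) = max{ζ ≤ K h : E c(0,h;0,ζ) ≤ C2 u} for u ≥ W.  K0 = 2^k, Γ = K0², depth d(h,u) = least d with (K0Γ)^d u ≥ h; (h,u) admissible if K0^d | h.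
Good_d(y,h,u; p,i,j): p[i,j] crosses the slab (starts in row y, ends with the up-edge to row y+h), c-cost ≤ u, stays within C0(h+u) of p_i, and (d>0) there are i = i_0 ≤ j_0 ≤ i_1 ≤ ... ≤ j_{K0-1} = j with Good_{d-1}(y+kh/K0, h/K0, Γu; p,i_k,j_k), return pieces p[j_k,i_{k+1}] within C0Γu of p_{j_k}.
R(y;g) = sup{end column of a Good path starting at column ≤ g}, R~ = max(R, g + ζ(h,u)).  Slab-measurable, stationary, monotone in g, bounded.
(Mean) E R~(0) ≤ h(ξ+ + ϑ(C3 u/h)): strategy "go to R~", Monge: c(0,x') ≤ u + c(0,ζ) - c(x,ζ) ≤ u + c(0,ζ) + LL; (Strat).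
δ(h,u) = ξ+ + ϑ(C3u/h) - ζ(h,u)/h ≥ 0, z(h,u) = ‖R~(0) - ζ‖_4/h, m(h,u) = ‖M‖_4/h, M = sup over Good paths from ≤ 0 and their vertices (x,y) of (x - y ζ/h)⁺.  D(r), Z(r), Mx(r): sups over h ≤ h_max, u ≥ W, h/u ∈ [r,2r) (admissible for Z, Mx).  All ≤ C.
(Env) greedy G_{k+1} = R~_sub(G_k + C0Γu), iid increments: z(h,u) ≤ δ + I + CK0Γ/r + 3K0^-½ z(h/K0,Γu); m ≤ δ + I + CK0Γ/r + C K0^-¼ z_sub + K0^-¾ (m_sub + slope difference) (crude L4 maxima).
(p0) h' = h - H1 - H2 admissible, H_i ≈ C b1, b1 = ε' S, S = (D(r) + Σ_λ λ^-⅓ Z(r/λ) + I-terms + K0Γ r^-⅔... ) h:  P(R_{h',λ0 u}(0) ≥ ζ(h,u) + C5 H) ≤ p0.  [else a pair of bins of width b1 (≤ (C/(p0 ε'))² pairs; the far ones cost z/(Lε') by Markov) has prob ≥ p1; add mid-face connectors; LogC + L2 ⇒ E c ≤ C(p1)(λ0 u + W) = C2 u at a larger displacement.]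
(Deficit) N = n h', n = h^10; path γ from 0 to (ξ_c N, N), ξ_c = ξ+ + ϑ(u/h), c(γ) ≤ 3uN/h (Bias, Chebyshev), E_N.  Recursive first/last-visit decomposition; Σ(negative parts) of level-j pieces ≤ C n K0^j W (LPP with L2, β = C), returns ≥ -CW; so #{slabs not Good with budget λu} ≤ C n/λ.
Majority slabs: displacement ≤ b1 + ζ(h,u) + C5H + 1{lucky}(δh + I + F); class λ: ≤ b1 + ζ(h',λu) + F^λ, F^λ ≤ z_λ h λ^½ + (F^λ - ·)⁺; not Good for any λu ≤ h': total ≤ C n u; top-level returns ≤ C n u.  Positive variation P, negative ≤ P (or done); LPP for every dyadic B ≥ B0 + Markov ⇒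
δ(h,u) ≤ I-terms + Cε' S/h.  Choose ε', then p0, λ0, (C2, C3), N0, then K0, then r1: Σ_{r ≥ r1 dyadic} (D+Z+Mx)(r) ≤ ε.
(Highway) ℓ = 2^m ≤ h_max, ℓ ≥ r1 W: the geodesic 0 → (ζ(ℓ,W),ℓ) has with prob ≥ 1/2 cost ≤ 4C2W·, is Good with budget λ1 W, hence (M and its point reflection) stays within s(ℓ) = C ℓ Σ(Mx + ...) of the chord; LogC + L2 ⇒ E c^{tube} ≤ C W.  Slope within τ1/10 of ξ+.
For dyadic s∈[s0,2^J] let ℓ(s) = largest such ℓ with s(ℓ) ≤ s/100 (and ℓ ≥ Cs); Σ_s s/ℓ(s) ≤ Cε + C/N0.  Same for ξ- by reflection.  κ(s) = C W s/min ℓ^±(s); Σκ ≤ C(ε + 1/N0) W.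
## D2 potential and contradiction
b_n(x) = min_u [T(x,(u,n)) - a0 (u - x.1)] - a0 x.1 ..., i.e. b_n(x) = inf_u T(x,(u,n)) - a0 u; b(x) ≤ T(x,y)+b(y); w(P) = cost P - b(start) + b(end) ≥ 0 additive; Ē = average of E over n∈[N,2N): Ē(b(x) - b(y)) → ρ·(y-x); translation by v changes Ē by O(1/N).
A tube geodesic of height ℓ has Ē w ≤ CW + o(1); its crossing portions of rows [y,y+h), y∈hℤ, are disjoint, so some y has Ē w(portion) ≤ C W h/ℓ: highways H^± through any prescribed place, error s/50.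
(Double) V(2s) ≤ V(s) + Cκ(s): σ geodesic of height h0 ≤ s in the class, σ1 from 0, σ2 = translate ending at z; tent Λ = H1+ ∪ H1- over 0 meeting below height h0/2 (cross_LR_BT gives p∈σ1∩Λ before the first visit of σ1 to level h0/2), inverted tent under z, H1+ extended meets H2- extended in the middle (strip lemma on sub-crossings of disjoint row ranges, so the order along the highways is right); Ē w(σ1 first part)+Ē w(σ2 second part) = E c(σ)+o(1).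
(Lower) κ(s) ≥ c: parallelogram of 4 highways, α = H1+ then H2- in ω, β = G1- then G2+ in ω' (base `tilt` on the part of the tube of H1+ away from β, ϑ ≈ 1/s): T'(β[p,q]) ≤ T'(p,q)+κ', T(α[p,q]) ≤ T(p,q)+κ' ⇒ gain ≤ 2κ', but gain ≥ δ with probability ≥ c.
End: s0 ≈ C r1 W, V(s0) ≤ C(r1W)^0.89.  If V_J ≥ J: W ≤ C V_J, V_J ≤ V(s0) + C(ε+1/N0)(N0^0.9 + C1)V_J < V_J.  If V_J ≤ J: c(J - log s0) ≤ Σκ ≤ C(ε+1/N0)(N0^0.9+C1) J, false for J large.
-/
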