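import Crest.Agent.R151.Defs

/-!
# R151 part C: definitions (owner helper41; DO NOT EDIT, msg helper41)

`fp G ξ = f' ξ`, `f ξ = mu (ξ,1)`.  A *curve* is a bigeodesic with a label `a`, `|a| ≤ f' 1`.
`Last γ k`: `k` is the last visit of `γ` to the rows `≤ (γ k).2` (the *exit* at the gap above that row; the exit edge is
`edge γ k`).  `First γ l`: `l` is the first visit to the rows `≥ (γ l).2` (if `(γ l).2 = j + 1` then `edge γ (l-1)` is the
*entry* edge at the gap above row `j`).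
-/

set_option autoImplicit false

open MeasureTheory ProbabilityTheory Crest.ProbabilityR.FirstPassage Filter Topology

namespace Crest.Agent.R151

/-- derivative of `ξ ↦ mu (ξ, 1)` -/
noncomputable def fp (G : Measure ℝ) (ξ : ℝ) : ℝ := deriv (fun s : ℝ => mu G (s, 1)) ξ

/-- the standing hypotheses of part C -/
structure HypC (G : Measure ℝ) : Prop where
  hyp : Hyp G
  diff : ∀ v : ℝ × ℝ, v ≠ 0 → DifferentiableAt ℝ (mu G) v

/-- inverse slope of a lattice point -/
noncomputable def slope (v : V) : ℝ := (v.1 : ℝ) / (v.2 : ℝ)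

/-- bigeodesic -/
def Bi (t : Env) (γ : ℤ → V) : Prop := ∀ i j, i ≤ j → IsGeo t Set.univ γ i j

/-- both ends of `γ` have the label `a` -/
structure HasLabel (G : Measure ℝ) (γ : ℤ → V) (a : ℝ) : Prop where
  up : Tendsto (fun k => (γ k).2) atTop atTop
  down : Tendsto (fun k => (γ k).2) atBot atBot
  top : Tendsto (fun k => fp G (slope (γ k))) atTop (𝓝 a)
  bot : Tendsto (fun k => fp G (slope (γ k))) atBot (𝓝 a)

/-- a bigeodesic with the label `a ∈ [-f' 1, f' 1]` -/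
structure Curve (G : Measure ℝ) (t : Env) (γ : ℤ → V) (a : ℝ) : Prop where
  bi : Bi t γ
  lab : HasLabel G γ a
  le : |a| ≤ fp G 1

/-- first visit to the rows `≥ (γ l).2` -/
def First (γ : ℤ → V) (l : ℤ) : Prop := ∀ m, m < l → (γ m).2 < (γ l).2

/-- last visit to the rows `≤ (γ k).2` -/
def Last (γ : ℤ → V) (k : ℤ) : Prop := ∀ m, k < m → (γ k).2 < (γ m).2

/-- `k` is an exit, and from the entry to the exit `γ` stays within `L` columns of the exit -/
def Tame (L : ℕ) (γ : ℤ → V) (k : ℤ) : Prop :=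
  Last γ k ∧ ∀ l m, (γ k).2 < (γ l).2 → l - 1 ≤ m → m ≤ k → |(γ m).1 - (γ k).1| ≤ L

/-- tame, and the exit edge is useful -/
def Good (L : ℕ) (q : ℝ) (t : Env) (γ : ℤ → V) (k : ℤ) : Prop := Tame L γ k ∧ q ≤ t (edge γ k)

/-- the upward cone between two inverse slopes -/
def cone (ξ₁ ξ₂ : ℝ) : Set V := {v | 0 < v.2 ∧ ξ₁ * v.2 ≤ v.1 ∧ (v.1 : ℝ) ≤ ξ₂ * v.2}

open Classical in
/-- every curve visiting the box of size `K w` is good at most rows of every range of `w` rows of the box -/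
def Str (G : Measure ℝ) (L : ℕ) (q η : ℝ) (K w : ℕ) : Set Env :=
  {t | ∀ γ a, Curve G t γ a → (∃ k, nrm (γ k) ≤ K * w) → ∀ j₀ : ℤ, -(K * w : ℤ) ≤ j₀ → j₀ + w ≤ K * w →
    (1 - η) * w ≤ (((Finset.Ico j₀ (j₀ + w)).filter fun j => ∃ k, (γ k).2 = j ∧ Good L q t γ k).card : ℝ)}

/-- the parameters produced by `exists_str` -/
structure CPar (G : Measure ℝ) (L : ℕ) (q δ : ℝ) : Prop where
  δ_pos : 0 < δ
  p_pos : 0 < G (Set.Iio (q - δ))
  str : ∀ K : ℕ, ∀ᵐ t ∂iidLaw G, ∀ᶠ w : ℕ in atTop, t ∈ Str G L q (1 / 10) K w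

end Crest.Agent.R151
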