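import Crest.Agent.R151.Defs

/-!
# R151 / CFact0: convex calculus of a symmetric norm that is differentiable off `0` (owner helper37)

`fs μ x = μ (x, 1)`, `rho μ ξ = ∇μ (ξ, 1)`.  Helper lemmas get the prefix `f0_`.
-/

set_option autoImplicit false
set_option linter.unusedVariables false

open Set

namespace Crest.Agent.R151

/-- `f ξ = μ (ξ, 1)` -/
def fs (μ : ℝ × ℝ → ℝ) (x : ℝ) : ℝ := μ (x, 1)

/-- Euclidean pairing -/
def dot (a p : ℝ × ℝ) : ℝ := a.1 * p.1 + a.2 * p.2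

/-- the gradient of `μ` at `(ξ, 1)` -/
noncomputable def rho (μ : ℝ × ℝ → ℝ) (ξ : ℝ) : ℝ × ℝ := (deriv (fs μ) ξ, fs μ ξ - ξ * deriv (fs μ) ξ)

/-- the upward cone of slopes in `[ξ1, ξ2]` -/
def coneR (ξ1 ξ2 : ℝ) : Set (ℝ × ℝ) := {p | 0 < p.2 ∧ ξ1 * p.2 ≤ p.1 ∧ p.1 ≤ ξ2 * p.2}

/-- differentiable off the origin -/
def DiffOff (μ : ℝ × ℝ → ℝ) : Prop := ∀ v : ℝ × ℝ, v ≠ 0 → DifferentiableAt ℝ μ v

variable {μ : ℝ × ℝ → ℝ}

theorem sn_zero (h : SymNorm μ) : μ 0 = 0 := by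
  simpa using h.smul 0 0

theorem sn_nonneg (h : SymNorm μ) (v : ℝ × ℝ) : 0 ≤ μ v := by
  obtain ⟨c, hc, h'⟩ := h.lower
  exact le_trans (by positivity) (h' v)

theorem sn_pos (h : SymNorm μ) {v : ℝ × ℝ} (hv : v ≠ 0) : 0 < μ v := by
  obtain ⟨c, hc, h'⟩ := h.lower
  exact lt_of_lt_of_le (mul_pos hc (norm_pos_iff.2 hv)) (h' v)

theorem sn_neg (h : SymNorm μ) (v : ℝ × ℝ) : μ (-v) = μ v := by
  simpa using h.smul (-1) v

theorem sn_refl2 (h : SymNorm μ) (v : ℝ × ℝ) : μ (v.1, -v.2) = μ v := by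
  rw [← h.refl v, ← sn_neg h (-v.1, v.2)]
  simp

theorem sn_abs_sub (h : SymNorm μ) (v w : ℝ × ℝ) : |μ v - μ w| ≤ μ (v - w) := by
  have h1 := h.add_le (v - w) w
  have h2 := h.add_le (w - v) v
  have h3 : μ (w - v) = μ (v - w) := by rw [← sn_neg h (v - w), neg_sub]
  rw [sub_add_cancel] at h1 h2
  rw [abs_le]
  constructor <;> linarith

theorem sn_continuous (h : SymNorm μ) : Continuous μ := by
  obtain ⟨C, hC, h'⟩ := h.upper
  refine (LipschitzWith.of_dist_le' (K := C) fun v w => ?_).continuous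
  rw [Real.dist_eq, dist_eq_norm]
  exact (sn_abs_sub h v w).trans (h' _)

theorem sn_convex (h : SymNorm μ) : ConvexOn ℝ univ μ := by
  refine ⟨convex_univ, fun v _ w _ a b ha hb _ => ?_⟩
  have := h.add_le (a • v) (b • w)
  rwa [h.smul, h.smul, abs_of_nonneg ha, abs_of_nonneg hb] at this

/-- `(x, 0)` is the midpoint of `(x, y)` and `(x, -y)` -/
theorem sn_e1_le (h : SymNorm μ) (v : ℝ × ℝ) : |v.1| * μ (1, 0) ≤ μ v := by
  have h1 := h.add_le v (v.1, -v.2)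
  have h2 : v + (v.1, -v.2) = (2 * v.1) • ((1 : ℝ), (0 : ℝ)) := by
    ext <;> simp
    ring
  rw [h2, h.smul, sn_refl2 h, abs_mul, abs_two] at h1
  linarith

theorem f0_line {v : ℝ × ℝ} {L : ℝ × ℝ →L[ℝ] ℝ} (hL : HasFDerivAt μ L v) (p : ℝ × ℝ) :
    HasDerivAt (fun s : ℝ => μ (v + s • p)) (L p) 0 := by
  have h1 : HasDerivAt (fun s : ℝ => v + s • p) p 0 := by
    simpa using ((hasDerivAt_id (0 : ℝ)).smul_const p).const_add v
  have h2 : HasFDerivAt μ L (v + (0 : ℝ) • p) := by simpa using hL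
  exact h2.comp_hasDerivAt (0 : ℝ) h1

/-- a derivative of `μ` is a supporting functional -/
theorem sn_deriv_le (h : SymNorm μ) {v : ℝ × ℝ} {L : ℝ × ℝ →L[ℝ] ℝ} (hL : HasFDerivAt μ L v) (p : ℝ × ℝ) :
    L p ≤ μ p := by
  have h1 := (hasDerivAt_iff_tendsto_slope_left_right.1 (f0_line hL p)).2
  refine le_of_tendsto h1 ?_
  filter_upwards [self_mem_nhdsWithin] with s (hs : 0 < s)
  rw [slope_def_field, sub_zero, div_le_iff₀ hs]
  have := h.add_le v (s • p)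
  rw [h.smul, abs_of_pos hs] at this
  simp only [zero_smul, add_zero]
  linarith

/-- Euler -/
theorem sn_deriv_self (h : SymNorm μ) {v : ℝ × ℝ} {L : ℝ × ℝ →L[ℝ] ℝ} (hL : HasFDerivAt μ L v) : L v = μ v := by
  have h1 := f0_line hL v
  have h2 : HasDerivAt (fun s : ℝ => (1 + s) * μ v) (μ v) 0 := by
    simpa using ((hasDerivAt_id (0 : ℝ)).const_add 1).mul_const (μ v)
  refine h1.unique (h2.congr_of_eventuallyEq ?_)
  filter_upwards [Ioi_mem_nhds (show (-1 : ℝ) < 0 by norm_num)] with s (hs : -1 < s)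
  have : v + s • v = (1 + s) • v := by rw [add_smul, one_smul]
  rw [this, h.smul, abs_of_pos (by linarith)]

theorem fs_convex (h : SymNorm μ) : ConvexOn ℝ univ (fs μ) := by
  refine ⟨convex_univ, fun x _ y _ a b ha hb hab => ?_⟩
  have := (sn_convex h).2 (mem_univ (x, (1 : ℝ))) (mem_univ (y, (1 : ℝ))) ha hb hab
  simpa [fs, hab] using this

theorem f0_ne (x : ℝ) : ((x, 1) : ℝ × ℝ) ≠ 0 := fun h => by simpa using congrArg Prod.snd h

theorem f0_hasDerivAt (hd : DiffOff μ) (x : ℝ) : HasDerivAt (fs μ) (fderiv ℝ μ (x, 1) (1, 0)) x := by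
  have h1 : HasDerivAt (fun s : ℝ => ((s, 1) : ℝ × ℝ)) (1, 0) x := (hasDerivAt_id x).prodMk (hasDerivAt_const x 1)
  exact (hd _ (f0_ne x)).hasFDerivAt.comp_hasDerivAt x h1

theorem fs_differentiable (hd : DiffOff μ) : Differentiable ℝ (fs μ) := by
  exact fun x => (f0_hasDerivAt hd x).differentiableAt

theorem fs_eq (h : SymNorm μ) {p : ℝ × ℝ} (hp : 0 < p.2) : μ p = p.2 * fs μ (p.1 / p.2) := by
  have : p = p.2 • ((p.1 / p.2, 1) : ℝ × ℝ) := by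
    ext <;> simp
    field_simp
  conv_lhs => rw [this, h.smul, abs_of_pos hp]
  rfl

theorem dfs_mono (h : SymNorm μ) (hd : DiffOff μ) : Monotone (deriv (fs μ)) := by
  exact monotoneOn_univ.1 ((fs_convex h).monotoneOn_deriv fun x _ => fs_differentiable hd x)

/-- monotone with the Darboux property -/
theorem dfs_continuous (h : SymNorm μ) (hd : DiffOff μ) : Continuous (deriv (fs μ)) := by
  have hm := dfs_mono h hd
  have ho : OrdConnected (deriv (fs μ) '' univ) := ordConnected_univ.image_deriv fun x _ => fs_differentiable hd x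
  refine continuous_iff_continuousAt.2 fun x => tendsto_order.2 ⟨fun a ha => ?_, fun a ha => ?_⟩
  · obtain ⟨y, hy, hya⟩ : ∃ y, y < x ∧ a < deriv (fs μ) y := by
      by_contra hcon
      push Not at hcon
      obtain ⟨b, hb1, hb2⟩ := exists_between ha
      obtain ⟨z, -, hz⟩ := ho.out (mem_image_of_mem _ (mem_univ (x - 1))) (mem_image_of_mem _ (mem_univ x))
        (show b ∈ Icc _ _ from ⟨by linarith [hcon (x - 1) (by linarith)], hb2.le⟩)
      rcases lt_or_ge z x with hzx | hzx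
      · linarith [hcon z hzx]
      · linarith [hm hzx]
    filter_upwards [Ioi_mem_nhds hy] with z (hz : y < z)
    exact hya.trans_le (hm hz.le)
  · obtain ⟨y, hy, hya⟩ : ∃ y, x < y ∧ deriv (fs μ) y < a := by
      by_contra hcon
      push Not at hcon
      obtain ⟨b, hb1, hb2⟩ := exists_between ha
      obtain ⟨z, -, hz⟩ := ho.out (mem_image_of_mem _ (mem_univ x)) (mem_image_of_mem _ (mem_univ (x + 1)))
        (show b ∈ Icc _ _ from ⟨hb1.le, by linarith [hcon (x + 1) (by linarith)]⟩)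
      rcases lt_or_ge x z with hzx | hzx
      · linarith [hcon z hzx]
      · linarith [hm hzx]
    filter_upwards [Iio_mem_nhds hy] with z (hz : z < y)
    exact (hm hz.le).trans_lt hya

theorem dfs_neg (h : SymNorm μ) (x : ℝ) : deriv (fs μ) (-x) = -deriv (fs μ) x := by
  have h1 : (fun x => fs μ (-x)) = fs μ := funext fun x => h.refl (x, 1)
  have h2 := deriv_comp_neg (fs μ) x
  rw [h1] at h2
  linarith

theorem dfs_abs_le (h : SymNorm μ) (x : ℝ) : |deriv (fs μ) x| ≤ μ (1, 0) := by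
  have h0 := sn_nonneg h (1, 0)
  refine norm_deriv_le_of_lip' (f := fs μ) h0 (Filter.Eventually.of_forall fun y => ?_)
  have h1 := sn_abs_sub h (y, 1) (x, 1)
  have h2 : ((y, 1) : ℝ × ℝ) - (x, 1) = (y - x) • ((1 : ℝ), (0 : ℝ)) := by
    ext <;> simp
  rw [h2, h.smul] at h1
  rw [Real.norm_eq_abs, Real.norm_eq_abs, mul_comm]
  exact h1

theorem f0_rho (h : SymNorm μ) (hd : DiffOff μ) (ξ : ℝ) (p : ℝ × ℝ) :
    fderiv ℝ μ (ξ, 1) p = dot (rho μ ξ) p := by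
  have h1 := (f0_hasDerivAt hd ξ).deriv
  have h2 := sn_deriv_self h (hd _ (f0_ne ξ)).hasFDerivAt
  have h3 : p = (p.1 - ξ * p.2) • ((1 : ℝ), (0 : ℝ)) + p.2 • (ξ, (1 : ℝ)) := by
    ext <;> simp
    ring
  conv_lhs => rw [h3, map_add, map_smul, map_smul, h2, ← h1]
  simp only [dot, rho, fs, smul_eq_mul]
  ring

/-- tangent line -/
theorem fs_tangent (h : SymNorm μ) (hd : DiffOff μ) (ξ x : ℝ) : fs μ ξ + deriv (fs μ) ξ * (x - ξ) ≤ fs μ x := by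
  have h1 := sn_deriv_le h (hd _ (f0_ne ξ)).hasFDerivAt (x, 1)
  rw [f0_rho h hd] at h1
  simp only [dot, rho] at h1
  unfold fs at *
  linarith

theorem fderiv_rho (h : SymNorm μ) (hd : DiffOff μ) (ξ : ℝ) (p : ℝ × ℝ) :
    fderiv ℝ μ (ξ, 1) p = dot (rho μ ξ) p := by
  exact f0_rho h hd ξ p

theorem dot_rho_le (h : SymNorm μ) (hd : DiffOff μ) (ξ : ℝ) (p : ℝ × ℝ) : dot (rho μ ξ) p ≤ μ p := by
  rw [← f0_rho h hd]
  exact sn_deriv_le h (hd _ (f0_ne ξ)).hasFDerivAt p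

theorem rho2_nonneg (h : SymNorm μ) (hd : DiffOff μ) (ξ : ℝ) : 0 ≤ (rho μ ξ).2 := by
  have h1 := dot_rho_le h hd ξ (ξ, -1)
  have h2 : μ (ξ, -1) = fs μ ξ := sn_refl2 h (ξ, 1)
  simp only [dot, rho] at h1 ⊢
  linarith

theorem rho2_pos (h : SymNorm μ) (hd : DiffOff μ) {ξ : ℝ} (hξ : |deriv (fs μ) ξ| < μ (1, 0)) :
    0 < (rho μ ξ).2 := by
  simp only [rho]
  rcases eq_or_ne ξ 0 with rfl | h0
  · simpa [fs] using sn_pos h (f0_ne 0)
  · have h1 : |ξ| * μ (1, 0) ≤ fs μ ξ := sn_e1_le h (ξ, 1)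
    have h2 := mul_lt_mul_of_pos_left hξ (abs_pos.2 h0)
    have h3 := le_abs_self (ξ * deriv (fs μ) ξ)
    rw [abs_mul] at h3
    linarith

/-- **FACT0** -/
theorem sn_fact0 (h : SymNorm μ) (hd : DiffOff μ) : ∃ Ξ > 1, deriv (fs μ) 1 < deriv (fs μ) Ξ := by
  by_contra hcon
  push Not at hcon
  have hm := dfs_mono h hd
  set A := deriv (fs μ) 1 with hA
  have h1 : ∀ x, 1 < x → fs μ x = A * x + (fs μ 1 - A) := fun x hx => by
    have e : deriv (fs μ) x = A := le_antisymm (hcon x hx) (hm hx.le)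
    have t1 := fs_tangent h hd 1 x
    have t2 := fs_tangent h hd x 1
    rw [e] at t2
    linarith
  have h2 : ∀ s ∈ Ioo (0 : ℝ) 1, fs μ s = A + (fs μ 1 - A) * s := fun s hs => by
    have e1 : fs μ s = μ (1, s) := h.swap (1, s)
    rw [e1, fs_eq h (p := (1, s)) hs.1, h1 _ ((one_lt_div hs.1).2 hs.2)]
    have := hs.1.ne'
    field_simp
  have h3 : ∀ s ∈ Ioo (0 : ℝ) 1, deriv (fs μ) s = fs μ 1 - A := fun s hs => by
    have e : fs μ =ᶠ[nhds s] fun s => A + (fs μ 1 - A) * s := by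
      filter_upwards [Ioo_mem_nhds hs.1 hs.2] with y hy using h2 y hy
    rw [e.deriv_eq]
    simp
  have h4 : Icc (0 : ℝ) 1 ⊆ {s | deriv (fs μ) s = fs μ 1 - A} := by
    rw [← closure_Ioo zero_ne_one]
    exact (isClosed_eq (dfs_continuous h hd) continuous_const).closure_subset_iff.2 h3
  have h5 : deriv (fs μ) 0 = fs μ 1 - A := h4 ⟨le_rfl, zero_le_one⟩
  have h6 : A = fs μ 1 - A := h4 ⟨zero_le_one, le_rfl⟩
  have h7 := dfs_neg h 0
  rw [neg_zero] at h7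
  have h8 : 0 < fs μ 1 := sn_pos h (f0_ne 1)
  linarith

/-- every value strictly between `∓ f' Ξ` is a value of `f'` at a point of `(-Ξ, Ξ)` -/
theorem exists_dfs_eq (h : SymNorm μ) (hd : DiffOff μ) {Ξ a : ℝ} (ha : |a| < deriv (fs μ) Ξ) :
    ∃ ξ, |ξ| < Ξ ∧ deriv (fs μ) ξ = a := by
  have h1 := dfs_neg h Ξ
  obtain ⟨h2, h3⟩ := abs_lt.1 ha
  have h4 : -Ξ < Ξ := (dfs_mono h hd).reflect_lt (by linarith)
  obtain ⟨ξ, hξ, e⟩ := intermediate_value_Ioo h4.le (dfs_continuous h hd).continuousOn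
    (show a ∈ Ioo _ _ from ⟨by linarith, h3⟩)
  exact ⟨ξ, abs_lt.2 hξ, e⟩

theorem exists_rat_dfs (h : SymNorm μ) (hd : DiffOff μ) {ξ1 ξ2 : ℝ} (h12 : deriv (fs μ) ξ1 < deriv (fs μ) ξ2) :
    ∃ ξ : ℚ, deriv (fs μ) ξ1 < deriv (fs μ) ξ ∧ deriv (fs μ) ξ < deriv (fs μ) ξ2 := by
  have h4 : ξ1 < ξ2 := (dfs_mono h hd).reflect_lt h12
  obtain ⟨b, hb⟩ := exists_between h12
  obtain ⟨ξ, -, e⟩ := intermediate_value_Ioo h4.le (dfs_continuous h hd).continuousOn (show b ∈ Ioo _ _ from hb)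
  exact Rat.denseRange_cast.exists_mem_open
    (isOpen_Ioo.preimage (dfs_continuous h hd) : IsOpen (deriv (fs μ) ⁻¹' Ioo (deriv (fs μ) ξ1) (deriv (fs μ) ξ2)))
    ⟨ξ, by rw [mem_preimage, e]; exact hb⟩

theorem f0_side_gap (h : SymNorm μ) {A : ℝ} (hA : A < μ (1, 0)) :
    ∃ c > 0, ∀ (a : ℝ) (p : ℝ × ℝ), |a| ≤ A → c * ‖p‖ ≤ μ p - a * p.1 := by
  obtain ⟨c, hc, h'⟩ := h.lower
  have hm : 0 < μ (1, 0) := sn_pos h fun h => by simpa using congrArg Prod.fst h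
  refine ⟨(μ (1, 0) - A) / μ (1, 0) * c, mul_pos (div_pos (by linarith) hm) hc, fun a p ha => ?_⟩
  have h1 := sn_e1_le h p
  have h2 : a * p.1 ≤ A * |p.1| := (le_abs_self _).trans (by rw [abs_mul]; gcongr)
  have hA0 : 0 ≤ A := (abs_nonneg a).trans ha
  have h3 : A * |p.1| ≤ A / μ (1, 0) * μ p := by
    rw [div_mul_eq_mul_div, le_div_iff₀ hm, mul_assoc]
    gcongr
  have h4 : (μ (1, 0) - A) / μ (1, 0) * c * ‖p‖ ≤ (μ (1, 0) - A) / μ (1, 0) * μ p := by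
    rw [mul_assoc]
    exact mul_le_mul_of_nonneg_left (h' p) (div_nonneg (by linarith) hm.le)
  have h5 : (μ (1, 0) - A) / μ (1, 0) * μ p = μ p - A / μ (1, 0) * μ p := by field_simp
  linarith

theorem f0_excess (h : SymNorm μ) (ξ : ℝ) {p : ℝ × ℝ} (hp : 0 < p.2) : μ p - dot (rho μ ξ) p =
    p.2 * (fs μ (p.1 / p.2) - fs μ ξ - deriv (fs μ) ξ * (p.1 / p.2 - ξ)) := by
  rw [fs_eq h hp]
  simp only [dot, rho]
  field_simp
  ring

theorem f0_strict (h : SymNorm μ) (hd : DiffOff μ) {ξ1 ξ ξ2 : ℝ} (h1 : deriv (fs μ) ξ1 < deriv (fs μ) ξ)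
    (h2 : deriv (fs μ) ξ < deriv (fs μ) ξ2) {p : ℝ × ℝ} (hp : p ≠ 0)
    (hn : ¬ (0 < p.2 ∧ ξ1 * p.2 < p.1 ∧ p.1 < ξ2 * p.2)) : 0 < μ p - dot (rho μ ξ) p := by
  have hm := dfs_mono h hd
  rcases lt_or_ge 0 p.2 with hp2 | hp2
  · rw [f0_excess h ξ hp2]
    refine mul_pos hp2 ?_
    rcases le_or_gt p.1 (ξ1 * p.2) with hx | hx
    · obtain ⟨η, e1, e2⟩ := exists_rat_dfs h hd h1
      have l1 : ξ1 < η := hm.reflect_lt e1
      have l2 : p.1 / p.2 ≤ ξ1 := (div_le_iff₀ hp2).2 hx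
      have t1 := fs_tangent h hd η (p.1 / p.2)
      have t2 := fs_tangent h hd ξ η
      nlinarith [mul_pos (sub_pos.2 e2) (show 0 < (η : ℝ) - p.1 / p.2 by linarith)]
    · have hx' : ξ2 * p.2 ≤ p.1 := not_lt.1 fun h => hn ⟨hp2, hx, h⟩
      obtain ⟨η, e1, e2⟩ := exists_rat_dfs h hd h2
      have l1 : η < ξ2 := hm.reflect_lt e2
      have l2 : ξ2 ≤ p.1 / p.2 := (le_div_iff₀ hp2).2 hx'
      have t1 := fs_tangent h hd η (p.1 / p.2)
      have t2 := fs_tangent h hd ξ η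
      nlinarith [mul_pos (sub_pos.2 e1) (show 0 < p.1 / p.2 - (η : ℝ) by linarith)]
  · have a1 := abs_le.1 (dfs_abs_le h ξ1)
    have a2 := abs_le.1 (dfs_abs_le h ξ2)
    obtain ⟨c, hc, hc'⟩ := f0_side_gap h (A := |deriv (fs μ) ξ|) (abs_lt.2 ⟨by linarith, by linarith⟩)
    have t1 := hc' _ p le_rfl
    have t2 := mul_pos hc (norm_pos_iff.2 hp)
    have t3 := mul_nonpos_of_nonneg_of_nonpos (rho2_nonneg h hd ξ) hp2
    simp only [dot, rho] at t3 ⊢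
    linarith

/-- outside the cone the excess over `rho μ ξ` is linear (compactness of the unit sphere) -/
theorem exists_cone_gap (h : SymNorm μ) (hd : DiffOff μ) {ξ1 ξ ξ2 : ℝ} (h1 : deriv (fs μ) ξ1 < deriv (fs μ) ξ)
    (h2 : deriv (fs μ) ξ < deriv (fs μ) ξ2) :
    ∃ κ > 0, ∀ p, p ∈ coneR ξ1 ξ2 ∨ κ * ‖p‖ ≤ μ p - dot (rho μ ξ) p := by
  have hO : IsOpen {p : ℝ × ℝ | 0 < p.2 ∧ ξ1 * p.2 < p.1 ∧ p.1 < ξ2 * p.2} :=
    (isOpen_lt continuous_const continuous_snd).inter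
      ((isOpen_lt (by fun_prop) continuous_fst).inter (isOpen_lt continuous_fst (by fun_prop)))
  have hK := (isCompact_sphere (0 : ℝ × ℝ) 1).diff hO
  have hcont : Continuous fun p : ℝ × ℝ => μ p - dot (rho μ ξ) p := by
    refine (sn_continuous h).sub ?_
    unfold dot
    fun_prop
  obtain ⟨κ, hκ, hκ'⟩ := hK.exists_forall_le' hcont.continuousOn (a := 0) fun p hp =>
    f0_strict h hd h1 h2 (fun e => by simpa [e] using hp.1) hp.2
  refine ⟨κ, hκ, fun p => ?_⟩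
  rcases eq_or_ne p 0 with rfl | hp
  · right
    simp [sn_zero h, dot]
  have hn : 0 < ‖p‖ := norm_pos_iff.2 hp
  by_cases hc : 0 < p.2 ∧ ξ1 * p.2 < p.1 ∧ p.1 < ξ2 * p.2
  · exact Or.inl ⟨hc.1, hc.2.1.le, hc.2.2.le⟩
  right
  have hi : 0 < ‖p‖⁻¹ := inv_pos.2 hn
  have := hκ' (‖p‖⁻¹ • p) ⟨by simp [norm_smul, hn.ne'], fun ⟨c1, c2, c3⟩ => hc (by
    simp only [Prod.smul_snd, Prod.smul_fst, smul_eq_mul] at c1 c2 c3
    refine ⟨(mul_pos_iff_of_pos_left hi).1 c1, lt_of_mul_lt_mul_left (a := ‖p‖⁻¹) (by linarith) hi.le,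
      lt_of_mul_lt_mul_left (a := ‖p‖⁻¹) (by linarith) hi.le⟩)⟩
  rw [h.smul, abs_of_pos hi] at this
  have e : ‖p‖⁻¹ * μ p - dot (rho μ ξ) (‖p‖⁻¹ • p) = (μ p - dot (rho μ ξ) p) / ‖p‖ := by
    simp only [dot, Prod.smul_snd, Prod.smul_fst, smul_eq_mul]
    field_simp
  rwa [e, le_div_iff₀ hn] at this

/-- inside the cone the excess is small -/
theorem excess_le (h : SymNorm μ) (hd : DiffOff μ) {ξ1 ξ ξ2 : ℝ} (h1 : ξ1 ≤ ξ) (h2 : ξ ≤ ξ2) {p : ℝ × ℝ}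
    (hp : p ∈ coneR ξ1 ξ2) :
    μ p - dot (rho μ ξ) p ≤ (deriv (fs μ) ξ2 - deriv (fs μ) ξ1) * (ξ2 - ξ1) * p.2 := by
  obtain ⟨hp2, hx1, hx2⟩ := hp
  have hm := dfs_mono h hd
  rw [f0_excess h ξ hp2, mul_comm]
  refine mul_le_mul_of_nonneg_right ?_ hp2.le
  have l1 : ξ1 ≤ p.1 / p.2 := (le_div_iff₀ hp2).2 hx1
  have l2 : p.1 / p.2 ≤ ξ2 := (div_le_iff₀ hp2).2 hx2
  have t := fs_tangent h hd (p.1 / p.2) ξ
  have m1 := hm l1
  have m2 := hm l2
  have m3 := hm h1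
  have m4 := hm h2
  have : (deriv (fs μ) (p.1 / p.2) - deriv (fs μ) ξ) * (p.1 / p.2 - ξ) ≤
      (deriv (fs μ) ξ2 - deriv (fs μ) ξ1) * (ξ2 - ξ1) := by
    refine (le_abs_self _).trans ?_
    rw [abs_mul]
    exact mul_le_mul (abs_le.2 ⟨by linarith, by linarith⟩) (abs_le.2 ⟨by linarith, by linarith⟩) (abs_nonneg _)
      (by linarith)
  linarith

theorem exists_side_gap (h : SymNorm μ) {A : ℝ} (hA : A < μ (1, 0)) :
    ∃ c > 0, ∀ (a : ℝ) (p : ℝ × ℝ), |a| ≤ A → c * ‖p‖ ≤ μ p - a * p.1 := by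
  exact f0_side_gap h hA

end Crest.Agent.R151
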