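import Crest.Agent.R151.GEsc
import Crest.Agent.R151.BMu

/-! # R151 / GLabel: bigeodesics have labels (deterministic)
Keep the statements; helper lemmas get the prefix `gla_`. -/

set_option autoImplicit false
set_option linter.unusedVariables false
set_option linter.unusedSectionVars false

open MeasureTheory ProbabilityTheory Crest.ProbabilityR.FirstPassage Filter Topology

namespace Crest.Agent.R151

variable {G : Measure ℝ} [IsProbabilityMeasure G] [NullSingletonClass G] {t : Env} {γ : ℤ → V}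

theorem fp_eq (G : Measure ℝ) : fp G = deriv (fs (mu G)) := rfl

theorem Bi.adjG (h : Bi t γ) (k : ℤ) : Adj (γ k) (γ (k + 1)) := by
  exact (h k (k + 1) (by omega)).1.2.2 k le_rfl (by omega)

theorem Bi.injective (h : Bi t γ) : Function.Injective γ := by
  intro a b e
  exact (h (min a b) (max a b) min_le_max).2.1 ⟨min_le_left _ _, le_max_left _ _⟩ ⟨min_le_right _ _, le_max_right _ _⟩ e

theorem bi_act {φ : V → V} (hφ : IsAut φ) : Bi (act φ t) γ ↔ Bi t fun k => φ (γ k) := by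
  simp only [Bi, isGeo_act hφ, Set.image_univ_of_surjective hφ.bij.2]

theorem Bi.rev (h : Bi t γ) : Bi t fun k => γ (-k) := by
  intro i j hij
  simpa using (h (-j) (-i) (by omega)).rev

theorem slope_neg (v : V) : slope (-v) = slope v := by
  simp [slope, neg_div_neg_eq]

theorem HasLabel.neg_revG {a : ℝ} (h : HasLabel G γ a) : HasLabel G (fun k => -γ (-k)) a := by
  refine ⟨tendsto_neg_atBot_atTop.comp (h.down.comp tendsto_neg_atTop_atBot),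
    tendsto_neg_atTop_atBot.comp (h.up.comp tendsto_neg_atBot_atTop), ?_, ?_⟩
  · simp only [slope_neg]
    exact h.bot.comp tendsto_neg_atTop_atBot
  · simp only [slope_neg]
    exact h.top.comp tendsto_neg_atBot_atTop

theorem Curve.neg_rev {a : ℝ} (h : Curve G (act (fun x => -x) t) γ a) : Curve G t (fun k => -γ (-k)) a := by
  exact ⟨((bi_act isAut_neg).1 h.bi).rev, h.lab.neg_revG, h.le⟩

theorem Curve.neg_rev' {a : ℝ} (h : Curve G t γ a) : Curve G (act (fun x => -x) t) (fun k => -γ (-k)) a := by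
  refine ⟨(bi_act isAut_neg).2 ?_, h.lab.neg_revG, h.le⟩
  simpa using h.bi.rev

theorem gla_mono (H : HypC G) : Monotone (fp G) := dfs_mono (symNorm_mu G H.hyp) H.diff

theorem gla_cone {v : V} {ξ₁ ξ₂ : ℝ} (hv : 0 < v.2) : v ∈ cone ξ₁ ξ₂ ↔ ξ₁ ≤ slope v ∧ slope v ≤ ξ₂ := by
  have : (0 : ℝ) < v.2 := by exact_mod_cast hv
  simp only [cone, slope, Set.mem_ofPred_eq, hv, true_and, le_div_iff₀ this, div_le_iff₀ this]

/-- a label confines the slopes (`fp G` is monotone) -/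
theorem eventually_cone_of_label (H : HypC G) {α : Type} {l : Filter α} {u : α → V} {a ξ₁ ξ₂ : ℝ}
    (hup : Tendsto (fun k => (u k).2) l atTop) (ha : Tendsto (fun k => fp G (slope (u k))) l (𝓝 a))
    (h₁ : fp G ξ₁ < a) (h₂ : a < fp G ξ₂) : ∀ᶠ k in l, u k ∈ cone ξ₁ ξ₂ := by
  filter_upwards [hup.eventually_gt_atTop 0, ha.eventually (Ioo_mem_nhds h₁ h₂)] with k hk h
  exact (gla_cone hk).2 ⟨((gla_mono H).reflect_lt h.1).le, ((gla_mono H).reflect_lt h.2).le⟩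

theorem gla_dir {u : ℤ → V} (h : ∃ᶠ k in atTop, 0 < (u k).2 ∧ |(u k).1| ≤ (u k).2) :
    ∃ ξ : ℝ, |ξ| ≤ 1 ∧ ∀ ξ₁ ξ₂, ξ₁ < ξ → ξ < ξ₂ → ∃ᶠ k in atTop, u k ∈ cone ξ₁ ξ₂ := by
  have := frequently_iff_neBot.1 h
  obtain ⟨ξ, hξ, hc⟩ := (isCompact_Icc (a := (-1 : ℝ)) (b := 1)).exists_mapClusterPt
    (f := atTop ⊓ 𝓟 {k | 0 < (u k).2 ∧ |(u k).1| ≤ (u k).2}) (u := fun k => slope (u k)) (by
      rw [le_principal_iff, mem_map]
      refine mem_inf_of_right (mem_principal.2 fun k hk => ?_)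
      refine (gla_cone hk.1).1 ⟨hk.1, ?_, ?_⟩
      · have : -(u k).2 ≤ (u k).1 := (abs_le.1 hk.2).1
        rw [neg_one_mul]
        exact_mod_cast this
      · have : (u k).1 ≤ (u k).2 := (abs_le.1 hk.2).2
        rw [one_mul]
        exact_mod_cast this)
  refine ⟨ξ, abs_le.2 hξ, fun ξ₁ ξ₂ h1 h2 => ?_⟩
  have := frequently_inf_principal.1 (mapClusterPt_iff_frequently.1 hc _ (Icc_mem_nhds h1 h2))
  exact this.mono fun k hk => (gla_cone hk.1.1).2 hk.2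

/-- One of the four maps sends infinitely many points to `{|x| ≤ y, 0 < y}`; take a cluster point of the slopes in `[-1, 1]`. -/
theorem exists_dir (hγ : Function.Injective γ) : ∃ ξ : ℝ, |ξ| ≤ 1 ∧
    ((∀ ξ₁ ξ₂, ξ₁ < ξ → ξ < ξ₂ → ∃ᶠ k in atTop, γ k ∈ cone ξ₁ ξ₂) ∨
      (∀ ξ₁ ξ₂, ξ₁ < ξ → ξ < ξ₂ → ∃ᶠ k in atTop, -γ k ∈ cone ξ₁ ξ₂) ∨
      (∀ ξ₁ ξ₂, ξ₁ < ξ → ξ < ξ₂ → ∃ᶠ k in atTop, (γ k).swap ∈ cone ξ₁ ξ₂) ∨
      (∀ ξ₁ ξ₂, ξ₁ < ξ → ξ < ξ₂ → ∃ᶠ k in atTop, -(γ k).swap ∈ cone ξ₁ ξ₂)) := by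
  have h0 : ∀ᶠ k in atTop, γ k ≠ 0 := by
    by_cases h : ∃ k₀, γ k₀ = 0
    · obtain ⟨k₀, hk₀⟩ := h
      filter_upwards [eventually_gt_atTop k₀] with k hk e
      exact hk.ne' (hγ (e.trans hk₀.symm))
    · exact Eventually.of_forall fun k e => h ⟨k, e⟩
  have h1 : ∃ᶠ k in atTop, (0 < (γ k).2 ∧ |(γ k).1| ≤ (γ k).2) ∨ (0 < (-γ k).2 ∧ |(-γ k).1| ≤ (-γ k).2) ∨
      (0 < (γ k).swap.2 ∧ |(γ k).swap.1| ≤ (γ k).swap.2) ∨ (0 < (-(γ k).swap).2 ∧ |(-(γ k).swap).1| ≤ (-(γ k).swap).2) := by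
    refine (h0.mono fun k hk => ?_).frequently
    have : (γ k).1 ≠ 0 ∨ (γ k).2 ≠ 0 := by
      by_contra hc
      push Not at hc
      exact hk (Prod.ext hc.1 hc.2)
    simp only [Prod.fst_neg, Prod.snd_neg, Prod.fst_swap, Prod.snd_swap, abs_le]
    omega
  simp only [frequently_or_distrib] at h1
  rcases h1 with h | h | h | h <;> obtain ⟨ξ, h1, h2⟩ := gla_dir h
  exacts [⟨ξ, h1, Or.inl h2⟩, ⟨ξ, h1, Or.inr (Or.inl h2)⟩, ⟨ξ, h1, Or.inr (Or.inr (Or.inl h2))⟩,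
    ⟨ξ, h1, Or.inr (Or.inr (Or.inr h2))⟩]

theorem gla_key (H : HypC G) (hw : Wedge (mu G) t) (hγ : Bi t γ) {ξ : ℝ}
    (hdir : ∀ ξ₁ ξ₂, ξ₁ < ξ → ξ < ξ₂ → ∃ᶠ k in atTop, γ k ∈ cone ξ₁ ξ₂) {ζ₃ η₃ : ℝ} (h₁ : fp G ζ₃ < fp G ξ)
    (h₂ : fp G ξ < fp G η₃) :
    (Tendsto (fun k => (γ k).2) atTop atTop ∧ ∀ᶠ k in atTop, γ k ∈ cone ζ₃ η₃) ∧
      (Tendsto (fun k => (-γ k).2) atBot atTop ∧ ∀ᶠ k in atBot, -γ k ∈ cone ζ₃ η₃) := by
  have hμ := symNorm_mu G H.hyp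
  have hm := gla_mono H
  have mid : ∀ {x y : ℝ}, fp G x < fp G y → ∃ z, fp G x < fp G z ∧ fp G z < fp G y := fun h => by
    obtain ⟨z, hz⟩ := exists_rat_dfs hμ H.diff h
    exact ⟨z, hz⟩
  obtain ⟨ζ₂, a₁, a₂⟩ := mid h₁
  obtain ⟨ζ₁, a₃, a₄⟩ := mid a₂
  obtain ⟨η₂, b₂, b₁⟩ := mid h₂
  obtain ⟨η₁, b₄, b₃⟩ := mid b₂
  obtain ⟨ζ₀, c₁, c₂⟩ := exists_between (hm.reflect_lt a₄)
  obtain ⟨η₀, d₁, d₂⟩ := exists_between (hm.reflect_lt b₄)
  have := frequently_iff_neBot.1 (hdir ζ₀ η₀ c₂ d₁)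
  have hn : ∀ (s : V) {l : Filter ℤ}, l ≤ cofinite → Tendsto (fun k => nrm (γ k - s)) l atTop := fun s l hl =>
    tendsto_nrm s hl (I := Set.univ) (Eventually.of_forall fun _ => trivial) hγ.injective.injOn
  have hl : atTop ⊓ 𝓟 {k | γ k ∈ cone ζ₀ η₀} ≤ cofinite := inf_le_left.trans atTop_le_cofinite
  obtain ⟨r₀, hr₀⟩ := hw ζ₂ ζ₁ η₁ η₂ a₃ (by linarith) b₃ (1 / 2) (by norm_num)
  have key : ∀ i k, i ≤ k → γ k - γ i ∈ cone ζ₂ η₂ ∨ (nrm (γ k - γ i) : ℝ) ≤ 1 / 2 * nrm (γ i) + r₀ := fun i k hik => by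
    obtain ⟨r₁, hr₁⟩ := hr₀ (γ i)
    have e1 := (eventually_cone (l := atTop ⊓ 𝓟 {k | γ k ∈ cone ζ₀ η₀}) (u := γ) (s := 0) c₁ d₂
      (mem_inf_of_right (mem_principal.2 fun k hk => by simpa using hk)) (hn 0 hl) (γ i)).2
    obtain ⟨j, j1, j2, j3⟩ := (e1.and (((hn (γ i) hl).eventually_ge_atTop r₁).and
      ((eventually_ge_atTop k).filter_mono inf_le_left))).exists
    exact hr₁ γ i j (hγ i j (hik.trans j3)) rfl j2 j1 k hik j3
  obtain ⟨M, hM⟩ := exists_int_gt (nrm (γ 0) + 2 * |r₀| : ℝ)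
  have h00 : (0 : ℝ) ≤ nrm (γ 0) := by exact_mod_cast nrm_nonneg _
  constructor
  · have := eventually_cone (l := atTop) (u := γ) (s := γ 0) (hm.reflect_lt a₁) (hm.reflect_lt b₁) (by
      filter_upwards [eventually_ge_atTop 0, (hn (γ 0) atTop_le_cofinite).eventually_ge_atTop M] with k h1 h2
      refine (key 0 k h1).resolve_right fun h => ?_
      have : (M : ℝ) ≤ nrm (γ k - γ 0) := by exact_mod_cast h2
      linarith [le_abs_self r₀, abs_nonneg r₀]) (hn (γ 0) atTop_le_cofinite) 0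
    simpa using this
  · have e : ∀ k, -γ k - -γ 0 = γ 0 - γ k := fun k => by abel
    have := eventually_cone (l := atBot) (u := fun k => -γ k) (s := -γ 0) (hm.reflect_lt a₁) (hm.reflect_lt b₁) (by
      filter_upwards [eventually_le_atBot 0, (hn (γ 0) atBot_le_cofinite).eventually_ge_atTop M] with k h1 h2
      rw [e]
      refine (key k 0 h1).resolve_right fun h => ?_
      have h3 : (M : ℝ) ≤ nrm (γ k - γ 0) := by exact_mod_cast h2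
      have h4 := nrm_add_le (γ k - γ 0) (γ 0)
      rw [sub_add_cancel] at h4
      have h5 : (nrm (γ k) : ℝ) ≤ nrm (γ k - γ 0) + nrm (γ 0) := by exact_mod_cast h4
      rw [nrm_sub_comm] at h
      linarith [le_abs_self r₀, abs_nonneg r₀]) (by
        simp only [e, nrm_sub_comm (γ 0)]
        exact hn (γ 0) atBot_le_cofinite) 0
    simpa only [sub_zero] using this

/-- Let `a = fp ξ`, `|a| ≤ fp 1 < fp Ξ` (`sn_fact0`).  For small `δ > 0` choose (`exists_dfs_eq`) points `ζ₃ < ζ₂ < ζ₁ < ξ` with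
`fp = a - δ, a - 2δ/3, a - δ/3` and symmetric ones `ξ < η₁ < η₂ < η₃`.  For every `i` there are arbitrarily large `k` with
`γ k - γ i ∈ cone ζ₁ η₁` and `nrm (γ k - γ i)` large (`eventually_cone` on the filter `atTop ⊓ 𝓟 {k | γ k ∈ cone ..}`).  `Wedge`
with `ε = 1/2`: for all `i ≤ k`, `γ k - γ i ∈ cone ζ₂ η₂` or `nrm (γ k - γ i) ≤ nrm (γ i) / 2 + r₀`.  Forward: `i = 0`, `k → ∞`.
Backward: `k = 0`, `i → -∞`.  `eventually_cone` moves the apex to `0` (cone `ζ₃ η₃`). -/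
theorem hasLabel_of_dir (H : HypC G) (hw : Wedge (mu G) t) (hγ : Bi t γ) {ξ : ℝ} (hξ : |ξ| ≤ 1)
    (hdir : ∀ ξ₁ ξ₂, ξ₁ < ξ → ξ < ξ₂ → ∃ᶠ k in atTop, γ k ∈ cone ξ₁ ξ₂) : Curve G t γ (fp G ξ) := by
  have hμ := symNorm_mu G H.hyp
  have hm := gla_mono H
  have hneg : ∀ x, fp G (-x) = -fp G x := dfs_neg hμ
  obtain ⟨Ξ, -, hΞ : fp G 1 < fp G Ξ⟩ := sn_fact0 hμ H.diff
  have hle : |fp G ξ| ≤ fp G 1 := abs_le.2 ⟨by rw [← hneg]; exact hm (abs_le.1 hξ).1, hm (abs_le.1 hξ).2⟩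
  obtain ⟨l₁, l₂⟩ := abs_le.1 hle
  have e₁ : fp G (-Ξ) < fp G ξ := by rw [hneg]; linarith
  have e₂ : fp G ξ < fp G Ξ := by linarith
  have lim : ∀ {l : Filter ℤ} {u : ℤ → V}, (∀ ζ η, fp G ζ < fp G ξ → fp G ξ < fp G η → ∀ᶠ k in l, u k ∈ cone ζ η) →
      Tendsto (fun k => fp G (slope (u k))) l (𝓝 (fp G ξ)) := fun {l u} h => by
    refine tendsto_order.2 ⟨fun b hb => ?_, fun b hb => ?_⟩
    · obtain ⟨b', b1, b2⟩ := exists_between (max_lt hb e₁)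
      rw [max_lt_iff, hneg] at b1
      obtain ⟨ζ, -, hζ : fp G ζ = b'⟩ := exists_dfs_eq hμ H.diff (Ξ := Ξ) (a := b') (abs_lt.2 ⟨b1.2, b2.trans e₂⟩)
      filter_upwards [h ζ Ξ (hζ ▸ b2) e₂] with k hk
      exact b1.1.trans_le (hζ ▸ hm ((gla_cone hk.1).1 hk).1)
    · obtain ⟨b', b1, b2⟩ := exists_between (lt_min hb e₂)
      rw [lt_min_iff] at b2
      obtain ⟨ζ, -, hζ : fp G ζ = b'⟩ := exists_dfs_eq hμ H.diff (Ξ := Ξ) (a := b')
        (abs_lt.2 ⟨by rw [hneg] at e₁; exact e₁.trans b1, b2.2⟩)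
      filter_upwards [h (-Ξ) ζ e₁ (hζ ▸ b1)] with k hk
      exact lt_of_le_of_lt (hζ ▸ hm ((gla_cone hk.1).1 hk).2) b2.1
  obtain ⟨⟨k₁, -⟩, k₂, -⟩ := gla_key H hw hγ hdir e₁ e₂
  refine ⟨hγ, ⟨k₁, ?_, lim fun ζ η h1 h2 => (gla_key H hw hγ hdir h1 h2).1.2, ?_⟩, hle⟩
  · simpa [Function.comp_def] using tendsto_neg_atTop_atBot.comp k₂
  · simpa only [slope_neg] using lim (u := fun k => -γ k) fun ζ η h1 h2 => (gla_key H hw hγ hdir h1 h2).2.2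

/-- the four cases of `exists_dir`; `act (fun x => -x) (act Prod.swap t)`, `bi_act`, `Curve.neg_rev` -/
theorem curve_of_bi (H : HypC G) (h₁ : Wedge (mu G) t) (h₂ : Wedge (mu G) (act (fun x => -x) t))
    (h₃ : Wedge (mu G) (act Prod.swap t)) (h₄ : Wedge (mu G) (act (fun x => -x) (act Prod.swap t))) (hγ : Bi t γ) :
    ∃ γ' a, Curve G t γ' a ∨ Curve G (act Prod.swap t) γ' a := by
  obtain ⟨ξ, hξ, h | h | h | h⟩ := exists_dir hγ.injective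
  · exact ⟨_, _, Or.inl (hasLabel_of_dir H h₁ hγ hξ h)⟩
  · exact ⟨_, _, Or.inl (hasLabel_of_dir H h₂ ((bi_act isAut_neg).2 (by simpa using hγ)) hξ h).neg_rev⟩
  · exact ⟨_, _, Or.inr (hasLabel_of_dir H h₃ ((bi_act isAut_swap).2 (by simpa using hγ)) hξ h)⟩
  · exact ⟨_, _, Or.inr (hasLabel_of_dir H h₄
      ((bi_act isAut_neg).2 ((bi_act isAut_swap).2 (by simpa using hγ))) hξ h).neg_rev⟩

end Crest.Agent.R151
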