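import Crest.Agent.R151.GTop
import Crest.Agent.R151.GLabel

/-! # R151 / GBar: barrier (deterministic)
Keep the statements; helper lemmas get the prefix `gba_`. -/

set_option autoImplicit false
set_option linter.unusedVariables false
set_option linter.unusedSectionVars false

open MeasureTheory ProbabilityTheory Crest.ProbabilityR.FirstPassage Filter Topology

namespace Crest.Agent.R151

variable {G : Measure ℝ} [IsProbabilityMeasure G] [NullSingletonClass G] {t : Env}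

/-- Let `F ⊆ ball 0 R`, `Ξ = max 1 (max |ξ₁| |ξ₂|)`.  Take the ray `h` from `s = (y, j)` (`ConeRays` with `ε = 1/2`), `y` so large that
all points of `h` of height `≤ R` have column `> R`.  `k₀` = last visit of `h` to row `j` (`exists_last_row`),
`D = (h k₀).1 + 1`.  For large `N` the first visit `k₁ ≥ k₀` to row `j + N` (`exists_first_row`) has
`(h k₁).1 ≤ y + ξ₂ N < ξ₃ (j + N) ≤ u.1`.  `h` on `k₀..k₁` is a geodesic of the strip (`IsGeo.restrict`).  If `p m ∈ F`, `cross_sep`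
(for the reversed first part and for the second part of `p`) gives meeting points before and after `m`, and
`geo_mem_of_meet` puts `p m` on `h`. -/
theorem barrier_det {μ : ℝ × ℝ → ℝ} (hr : Reg t) (hc : ConeRays μ t) {ξ₁ ξ₂ ξ₃ : ℝ}
    (h₁ : deriv (fs μ) ξ₁ < deriv (fs μ) ξ₂) (h₂ : ξ₂ < ξ₃) (j : ℤ) (F : Finset V) :
    ∃ D : ℤ, ∀ x : ℤ, D ≤ x → ∀ᶠ N : ℕ in atTop, ∀ p i i', IsGeo t (rows j (j + N)) p i i' → p i = (x, j) →
      (p i').2 = j + N → ξ₃ * (p i').2 ≤ (p i').1 → ∀ m, i ≤ m → m ≤ i' → p m ∉ F := by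
  obtain ⟨R, hR⟩ : ∃ R : ℤ, ∀ v ∈ F, nrm v ≤ R := by
    obtain ⟨R, hR⟩ := (F.image nrm).bddAbove
    exact ⟨R, fun v hv => hR (Finset.mem_coe.2 (Finset.mem_image_of_mem _ hv))⟩
  obtain ⟨r₀, hr₀⟩ := hc ξ₁ ξ₂ h₁ (1 / 2) (by norm_num)
  set Ξ : ℝ := max 1 (max |ξ₁| |ξ₂|) with hΞ
  have hΞ1 : 1 ≤ Ξ := le_max_left _ _
  have hΞ2 : |ξ₁| ≤ Ξ := (le_max_left _ _).trans (le_max_right _ _)
  have hΞ3 : |ξ₂| ≤ Ξ := (le_max_right _ _).trans (le_max_right _ _)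
  obtain ⟨y, hy⟩ := exists_int_gt (max (|(j : ℝ)|) (max (R + Ξ * (R - j)) (2 * (R + r₀))))
  have hy1 : |(j : ℝ)| < y := (le_max_left _ _).trans_lt hy
  have hy2 : R + Ξ * (R - j) < y := ((le_max_left _ _).trans (le_max_right _ _)).trans_lt hy
  have hy3 : 2 * (R + r₀) < y := ((le_max_right _ _).trans (le_max_right _ _)).trans_lt hy
  have hs : nrm (y, j) = y := by
    have : |j| < y := by exact_mod_cast hy1
    have h0 : 0 ≤ y := (abs_nonneg j).trans this.le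
    simp only [nrm, abs_of_nonneg h0]
    exact max_eq_left this.le
  obtain ⟨h, h0, hray, hcone⟩ := hr₀ (y, j)
  rw [hs] at hcone
  have hcol : ∀ k, 0 ≤ k → (h k).2 ≤ R → R < (h k).1 := by
    intro k hk hkR
    have e1 : ((y : ℝ) - (h k).1) ≤ (nrm (h k - (y, j)) : ℝ) := by
      have : y - (h k).1 ≤ nrm (h k - (y, j)) := by
        refine le_trans ?_ (le_max_left _ _)
        rw [Prod.fst_sub, abs_sub_comm]
        exact le_abs_self _
      exact_mod_cast this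
    have e2 : (R : ℝ) < (h k).1 := by
      rcases hcone k hk with e | e
      · have e3 := cone_nrm_le hΞ2 hΞ3 hΞ1 e
        have e4 : (((h k - (y, j)).2 : ℤ) : ℝ) ≤ R - j := by
          have : (h k - (y, j)).2 ≤ R - j := by simp only [Prod.snd_sub]; omega
          exact_mod_cast this
        have e5 := mul_le_mul_of_nonneg_left e4 (zero_le_one.trans hΞ1)
        linarith
      · linarith
    exact_mod_cast e2
  have hadj : ∀ k, 0 ≤ k → Adj (h k) (h (k + 1)) := fun k hk =>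
    (hray (k + 1) (by omega)).1.2.2 k hk (by omega)
  have hinj : Set.InjOn h (Set.Ici 0) := fun a ha b hb e =>
    (hray (max a b) (le_max_of_le_left ha)).2.1 ⟨ha, le_max_left _ _⟩ ⟨hb, le_max_right _ _⟩ e
  have hn := tendsto_nrm (y, j) atTop_le_cofinite (eventually_ge_atTop 0) hinj
  have hev : ∀ᶠ k in atTop, h k - (y, j) ∈ cone ξ₁ ξ₂ := by
    filter_upwards [eventually_ge_atTop 0,
      (tendsto_intCast_atTop_atTop (R := ℝ).comp hn).eventually_gt_atTop (1 / 2 * y + r₀)] with k hk hk'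
    exact (hcone k hk).resolve_right (not_le.2 hk')
  have hup := (eventually_cone (sub_one_lt ξ₁) (lt_add_one ξ₂) hev hn (y, j)).1
  obtain ⟨k₀, hk₀, hk₀j, hlast⟩ := exists_last_row (H := j) hadj (by rw [h0]) hup
  refine ⟨(h k₀).1, fun x hx => ?_⟩
  have t1 : Tendsto (fun N : ℕ => (N : ℝ)) atTop atTop := tendsto_natCast_atTop_atTop
  filter_upwards [t1.eventually_gt_atTop (1 / 2 * y + r₀),
    (t1.const_mul_atTop (sub_pos.2 h₂)).eventually_ge_atTop (y - ξ₃ * j)] with N hN1 hN2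
  intro p i i' hp hpi hpi' hsl m him hmi hF
  obtain ⟨k₁, hk₁, hk₁j, hfirst⟩ := exists_first_row (i := k₀) (H := j + N) (fun k hk => hadj k (hk₀.trans hk))
    (by omega) ((eventually_ge_atTop k₀).and (hup.eventually_ge_atTop (j + N))).exists
  have htop : (h k₁).1 ≤ (p i').1 := by
    have e1 : (h k₁ - (y, j)).2 = N := by simp only [Prod.snd_sub]; omega
    have e2 : (N : ℝ) ≤ (nrm (h k₁ - (y, j)) : ℝ) := by
      have : (N : ℤ) ≤ nrm (h k₁ - (y, j)) := by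
        refine le_trans ?_ (le_max_right _ _)
        rw [e1]
        exact le_abs_self _
      exact_mod_cast this
    have e3 := ((hcone k₁ (hk₀.trans hk₁)).resolve_right (not_le.2 (hN1.trans_le e2))).2.2
    rw [e1, Prod.fst_sub] at e3
    rw [hpi'] at hsl
    push_cast at e3 hsl
    have : ((h k₁).1 : ℝ) ≤ (p i').1 := by linarith
    exact_mod_cast this
  have hg : IsGeo t (rows j (j + N)) h k₀ k₁ := by
    refine ((hray k₁ (hk₀.trans hk₁)).sub hr.nonneg hk₀ hk₁ le_rfl).restrict hr.nonneg (Set.subset_univ _)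
      fun k h1 h2 => ⟨?_, ?_⟩
    · rcases h1.eq_or_lt with rfl | h1
      · exact hk₀j.ge
      · exact (hlast k h1).le
    · rcases h2.eq_or_lt with rfl | h2
      · exact hk₁j.le
      · exact (hfirst k h1 h2).le
  have hm1 : (p m).1 ≤ R := (le_abs_self _).trans ((le_max_left _ _).trans (hR _ hF))
  have hm2 : (p m).2 ≤ R := (le_abs_self _).trans ((le_max_right _ _).trans (hR _ hF))
  have hleft : ∀ l, k₀ ≤ l → l ≤ k₁ → (h l).2 = (p m).2 → (p m).1 ≤ (h l).1 := fun l h1 _ e =>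
    hm1.trans (hcol l (hk₀.trans h1) (e ▸ hm2)).le
  obtain ⟨a, a', a1, a2, a3, a4, ea⟩ := cross_sep (hp.1.sub le_rfl him hmi).rev hg.1 hk₀j hk₁j
    (by simpa only [neg_neg] using hleft) (by
      intro l h1 h2 e
      simp only [neg_neg, hpi] at e ⊢
      rcases h1.eq_or_lt with rfl | h1
      · exact hx
      · exact absurd e (hlast l h1).ne')
  obtain ⟨c, c', c1, c2, c3, c4, ec⟩ := cross_sep (hp.1.sub him hmi le_rfl) hg.1 hk₀j hk₁j hleft (by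
      intro l h1 h2 e
      rcases h2.eq_or_lt with rfl | h2
      · exact htop
      · exact absurd (e.trans hpi') (hfirst l h1 h2).ne)
  obtain ⟨b', b1, b2, eb⟩ := geo_mem_of_meet hr hp hg (a := -a) (b := m) (c := c) (by omega) (by omega) c1 c2
    ⟨a3, a4⟩ ⟨c3, c4⟩ ea ec
  have := hcol b' (hk₀.trans ((le_min a3 c3).trans b1)) (eb ▸ hm2)
  rw [← eb] at this
  omega

theorem gba_invol (σ₁ σ₂ : ℤˣ) : Function.Involutive (sgn σ₁ σ₂) := fun v => by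
  simp only [sgn, ← mul_assoc, Int.units_coe_mul_self, one_mul]

theorem isAut_sgn (σ₁ σ₂ : ℤˣ) : IsAut (sgn σ₁ σ₂) := by
  refine ⟨(gba_invol σ₁ σ₂).bijective, fun x y => ?_⟩
  rw [adj_iff, adj_iff]
  rcases Int.units_eq_one_or σ₁ with rfl | rfl <;> rcases Int.units_eq_one_or σ₂ with rfl | rfl <;>
    simp only [sgn, Units.val_one, Units.val_neg, one_mul, neg_mul] <;> omega

theorem gba_sgn {μ : ℝ × ℝ → ℝ} (hr : Reg t) {σ₁ σ₂ : ℤˣ} (hc : ConeRays μ (act (sgn σ₁ σ₂) t)) {ξ₁ ξ₂ ξ₃ : ℝ}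
    (h₁ : deriv (fs μ) ξ₁ < deriv (fs μ) ξ₂) (h₂ : ξ₂ < ξ₃) (j : ℤ) (F : Finset V) :
    ∃ D : ℤ, ∀ x : ℤ, D ≤ σ₁ * x → ∀ᶠ N : ℕ in atTop, ∀ p i i',
      IsGeo t (sgn σ₁ σ₂ ⁻¹' rows (σ₂ * j) (σ₂ * j + N)) p i i' → p i = (x, j) →
      σ₂ * (p i').2 = σ₂ * j + N → ξ₃ * ((σ₂ * (p i').2 : ℤ) : ℝ) ≤ ((σ₁ * (p i').1 : ℤ) : ℝ) →
      ∀ m, i ≤ m → m ≤ i' → p m ∉ F := by
  have hφ := isAut_sgn σ₁ σ₂
  have hi := gba_invol σ₁ σ₂
  obtain ⟨D, hD⟩ := barrier_det (hr.act hφ) hc h₁ h₂ (σ₂ * j) (F.image (sgn σ₁ σ₂))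
  refine ⟨D, fun x hx => (hD _ hx).mono fun N hN p i i' hp hpi hpi' hsl m h1 h2 hF => ?_⟩
  refine hN (fun k => sgn σ₁ σ₂ (p k)) i i' ((isGeo_act hφ).2 ?_) (by rw [hpi]; rfl) hpi' hsl m h1 h2
    (Finset.mem_image_of_mem _ hF)
  rw [Set.image_eq_preimage_of_inverse hi hi]
  simpa only [hi _] using hp

/-- points of a labelled curve in a far row have a large index, so their slope is controlled -/
theorem HasLabel.far_rows (H : HypC G) {γ : ℤ → V} {a : ℝ} (h : HasLabel G γ a) {ξ₁ ξ₂ : ℝ} (h₁ : fp G ξ₁ < a)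
    (h₂ : a < fp G ξ₂) : ∃ R : ℤ, ∀ l, (R ≤ (γ l).2 → γ l ∈ cone ξ₁ ξ₂) ∧ ((γ l).2 ≤ -R → -γ l ∈ cone ξ₁ ξ₂) := by
  obtain ⟨K₁, hK₁⟩ := eventually_atTop.1 (eventually_cone_of_label H h.up h.top h₁ h₂)
  obtain ⟨K₂, hK₂⟩ := eventually_atBot.1 (eventually_cone_of_label H (u := fun k => -γ k)
    (tendsto_neg_atBot_atTop.comp h.down) (by simpa only [slope_neg] using h.bot) h₁ h₂)
  obtain ⟨M, hM⟩ := ((Finset.Icc K₂ K₁).image fun k => |(γ k).2|).bddAbove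
  have hM' : ∀ k, K₂ ≤ k → k ≤ K₁ → |(γ k).2| ≤ M := fun k h1 h2 =>
    hM (Finset.mem_coe.2 (Finset.mem_image_of_mem (fun k => |(γ k).2|) (Finset.mem_Icc.2 ⟨h1, h2⟩)))
  refine ⟨max M 0 + 1, fun l => ⟨fun hl => hK₁ l ?_, fun hl => hK₂ l ?_⟩⟩
  · by_contra hn
    rcases le_total l K₂ with e | e
    · have := (hK₂ l e).1
      simp only [Prod.snd_neg] at this
      omega
    · have := (abs_le.1 (hM' l e (not_le.1 hn).le)).2
      omega
  · by_contra hn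
    rcases le_total K₁ l with e | e
    · have := (hK₁ l e).1
      omega
    · have := (abs_le.1 (hM' l (not_le.1 hn).le e)).1
      omega

/-- `barrier_det` in the four environments `act (sgn σ₁ σ₂) t` (`sgn` is an involution), with `ξ₃ = -Ξ'` where
`fp 1 < fp Ξ' < fp Ξ'' < fp Ξ`, `ξ₂ = -Ξ''`, `ξ₁ = -Ξ`; `far_rows` with the cone `(-Ξ', Ξ')`, which is symmetric. -/
theorem barrier_all (H : HypC G) (hr : Reg t) (hc : ∀ σ₁ σ₂, ConeRays (mu G) (act (sgn σ₁ σ₂) t)) :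
    ∀ γ a, Curve G t γ a → ∀ (j : ℤ) (F : Finset V),
    ∃ D : ℤ, ∀ x : ℤ, D ≤ |x| → ∀ᶠ N : ℕ in atTop, ∀ l p i i', p i = (x, j) → p i' = γ l →
      ((First γ l ∧ (γ l).2 = j + N ∧ IsGeo t (rows j (j + N)) p i i') ∨
        (Last γ l ∧ (γ l).2 = j - N ∧ IsGeo t (rows (j - N) j) p i i')) →
      ∀ m, i ≤ m → m ≤ i' → p m ∉ F := by
  intro γ a hγ j F
  have hS := symNorm_mu G H.hyp
  have hd : DiffOff (mu G) := H.diff
  obtain ⟨Ξ, -, hΞ⟩ := sn_fact0 hS hd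
  obtain ⟨Ξ₂, e1, e2⟩ := exists_rat_dfs hS hd hΞ
  obtain ⟨Ξ₁, e3, e4⟩ := exists_rat_dfs hS hd e1
  have e5 : (Ξ₁ : ℝ) < Ξ₂ := lt_of_not_ge fun h => (dfs_mono hS hd h).not_gt e4
  have ha := abs_le.1 hγ.le
  rw [fp_eq] at ha
  obtain ⟨R, hR⟩ := hγ.lab.far_rows H (ξ₁ := -Ξ₁) (ξ₂ := Ξ₁) (by rw [fp_eq, dfs_neg hS]; linarith [ha.1])
    (by rw [fp_eq]; linarith [ha.2])
  choose D hD using fun σ₁ σ₂ : ℤˣ => gba_sgn (ξ₁ := -Ξ) (ξ₂ := -Ξ₂) (ξ₃ := -Ξ₁) hr (hc σ₁ σ₂)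
    (by rw [dfs_neg hS, dfs_neg hS]; exact neg_lt_neg e2) (neg_lt_neg e5) j F
  obtain ⟨D₀, hD₀⟩ := Finite.exists_le fun σ : ℤˣ × ℤˣ => D σ.1 σ.2
  refine ⟨D₀, fun x hx => ?_⟩
  obtain ⟨σ₁, hσ₁⟩ : ∃ σ₁ : ℤˣ, σ₁ * x = |x| := by
    rcases le_total 0 x with h | h
    · exact ⟨1, by simp [abs_of_nonneg h]⟩
    · exact ⟨-1, by simp [abs_of_nonpos h]⟩
  have hsym : ∀ v : V, v ∈ cone (-Ξ₁) Ξ₁ → ∀ σ : ℤˣ, -(Ξ₁ : ℝ) * v.2 ≤ ((σ * v.1 : ℤ) : ℝ) := by
    intro v hv σ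
    rcases Int.units_eq_one_or σ with rfl | rfl
    · simpa using hv.2.1
    · simpa using hv.2.2
  filter_upwards [hD σ₁ 1 x (hσ₁ ▸ (hD₀ (σ₁, 1)).trans hx), hD σ₁ (-1) x (hσ₁ ▸ (hD₀ (σ₁, -1)).trans hx),
    eventually_ge_atTop (R - j).toNat, eventually_ge_atTop (R + j).toNat] with N h1 h2 h3 h4
  rintro l p i i' hpi hpi' (⟨-, hl, hg⟩ | ⟨-, hl, hg⟩)
  · refine h1 p i i' ?_ hpi (by rw [hpi', hl]; simp) ?_
    · convert hg using 1
      ext v
      simp [rows, sgn]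
    · rw [hpi']
      simpa using hsym _ ((hR l).1 (by omega)) σ₁
  · refine h2 p i i' ?_ hpi (by rw [hpi', hl]; simp; ring) ?_
    · convert hg using 1
      ext v
      simp only [rows, sgn, Set.mem_preimage, Set.mem_ofPred_eq, Units.val_neg, Units.val_one, neg_mul, one_mul]
      omega
    · rw [hpi']
      simpa using hsym _ ((hR l).2 (by omega)) (-σ₁)

end Crest.Agent.R151
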