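import Crest.Agent.R151.GStr
import Crest.Agent.R151.GBar

/-!
# R151 part C: the geometric input C0–C3 (statements by helper41, proofs: Cgeom sub-lead helper37)
Keep the statements (msg helper41 if one is false or inconvenient); the file may import anything that does not import it.
-/

set_option autoImplicit false

open MeasureTheory ProbabilityTheory Crest.ProbabilityR.FirstPassage Filter Topology

namespace Crest.Agent.R151

variable {G : Measure ℝ} [IsProbabilityMeasure G] [NullSingletonClass G]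

/-- `f` is convex and differentiable -/
theorem fp_mono (H : HypC G) : Monotone (fp G) := by
  exact dfs_mono (symNorm_mu G H.hyp) H.diff

/-- a monotone derivative is continuous (Darboux) -/
theorem fp_cont (H : HypC G) : Continuous (fp G) := by
  exact dfs_continuous (symNorm_mu G H.hyp) H.diff

theorem fp_neg (H : HypC G) (ξ : ℝ) : fp G (-ξ) = -fp G ξ := by
  exact dfs_neg (symNorm_mu G H.hyp) ξ

/-- FACT0 -/
theorem fact0 (H : HypC G) : ∃ Ξ : ℝ, fp G 1 < fp G Ξ := by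
  obtain ⟨Ξ, -, h⟩ := sn_fact0 (symNorm_mu G H.hyp) H.diff
  exact ⟨Ξ, h⟩

/-- C2(i): every bigeodesic is a curve, or a curve of the transposed environment, after a possible reversal -/
theorem ae_curve (H : HypC G) : ∀ᵐ t ∂iidLaw G, ∀ γ, Bi t γ →
    ∃ γ' a, Curve G t γ' a ∨ Curve G (act Prod.swap t) γ' a := by
  filter_upwards [ae_wedge_id H, ae_wedge_act H isAut_neg, ae_wedge_act H isAut_swap,
    ae_wedge_act H (isAut_swap.comp isAut_neg)] with t h₁ h₂ h₃ h₄ γ hγ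
  rw [← act_comp] at h₄
  exact curve_of_bi H h₁ h₂ h₃ h₄ hγ

/-- C2 for finite geodesics (both directions) -/
theorem ae_wedge (H : HypC G) {ξ₁' ξ₁ ξ₂ ξ₂' ε : ℝ} (h₁ : fp G ξ₁' < fp G ξ₁) (h : ξ₁ ≤ ξ₂)
    (h₂ : fp G ξ₂ < fp G ξ₂') (hε : 0 < ε) : ∀ᵐ t ∂iidLaw G, ∃ r₀ : ℝ, ∀ s : V, ∃ r₁ : ℤ,
    ∀ p i j, IsGeo t Set.univ p i j → r₁ ≤ nrm (p j - p i) → p j - p i ∈ cone ξ₁ ξ₂ → ∀ k, i ≤ k → k ≤ j →
      (p i = s → p k - s ∈ cone ξ₁' ξ₂' ∨ (nrm (p k - s) : ℝ) ≤ ε * nrm s + r₀) ∧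
      (p j = s → s - p k ∈ cone ξ₁' ξ₂' ∨ (nrm (p k - s) : ℝ) ≤ ε * nrm s + r₀) := by
  filter_upwards [ae_wedge_id H, ae_wedge_act H isAut_neg] with t w₁ w₂
  exact wedge_both w₁ w₂ h₁ h h₂ hε

/-- C2(ii) (from `ae_wedge`), as one inequality for both directions -/
theorem ae_tube (H : HypC G) {ξ σ α β ε : ℝ} (h₁ : fp G (ξ - σ) < α) (h₂ : β < fp G (ξ + σ)) (hε : 0 < ε) :
    ∀ᵐ t ∂iidLaw G, ∃ r₀ : ℝ, ∀ γ a, Curve G t γ a → α ≤ a → a ≤ β → ∀ i k,
      |((γ k).1 - (γ i).1 : ℝ) - ξ * ((γ k).2 - (γ i).2)| ≤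
        σ * |((γ k).2 - (γ i).2 : ℝ)| + ε * nrm (γ i) + r₀ := by
  filter_upwards [ae_wedge_id H, ae_wedge_act H isAut_neg] with t w₁ w₂
  exact tube_of_wedge H w₁ w₂ h₁ h₂ ε hε

/-- Barrier (both directions): strip geodesics from a far point of row `j` to the ends of a curve avoid a finite set -/
theorem ae_barrier (H : HypC G) : ∀ᵐ t ∂iidLaw G, ∀ γ a, Curve G t γ a → ∀ (j : ℤ) (F : Finset V),
    ∃ D : ℤ, ∀ x : ℤ, D ≤ |x| → ∀ᶠ N : ℕ in atTop, ∀ l p i i', p i = (x, j) → p i' = γ l →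
      ((First γ l ∧ (γ l).2 = j + N ∧ IsGeo t (rows j (j + N)) p i i') ∨
        (Last γ l ∧ (γ l).2 = j - N ∧ IsGeo t (rows (j - N) j) p i i')) →
      ∀ m, i ≤ m → m ≤ i' → p m ∉ F := by
  have h : ∀ᵐ t ∂iidLaw G, ∀ σ₁ σ₂, ConeRays (mu G) (act (sgn σ₁ σ₂) t) := by
    rw [ae_all_iff]; intro σ₁
    rw [ae_all_iff]; intro σ₂
    exact (measurePreserving_act G (isAut_sgn σ₁ σ₂).bij).quasiMeasurePreserving.ae (ae_coneRays H)
  filter_upwards [ae_reg G H.hyp.nonneg, h] with t h₁ h₂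
  exact barrier_all H h₁ h₂

/-- C3 with `η = 1/10`, for all labels at once (finite union over label intervals of length `≤ ι`) -/
theorem exists_str (H : HypC G) : ∃ (L : ℕ) (q δ : ℝ), CPar G L q δ := by
  exact ae_str H

end Crest.Agent.R151
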