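import Crest.Agent.R151.D0Sel

/-! R151 / D0Cat: concatenation of strategies, (Strat). -/

set_option autoImplicit false
open MeasureTheory ProbabilityTheory Crest.ProbabilityR.FirstPassage Filter Topology
open scoped ENNReal

namespace Crest.Agent.R151

variable {G : Measure ℝ} [IsProbabilityMeasure G] [NullSingletonClass G]

variable (hG : Nice G)
include hG

/-- `mu_le_mT`, `integral_T`, `T_le_tau` -/
theorem mu_le_integral_tau0 {h : ℕ} (hh : 1 ≤ h) (x : ℤ) :
    mu G ((x : ℝ), (h : ℝ)) ≤ ∫ t, tau t Set.univ 0 h 0 x ∂iidLaw G := by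
  have h1 := mu_le_mT G hG.hyp ((x, (0 : ℤ) + h) - (0, 0))
  rw [← integral_T] at h1
  refine le_trans (le_of_eq (by simp [toR])) (h1.trans (integral_mono_ae (integrable_T G hG.hyp _ _)
    ((memLp_tau hG (conn_slabTo hh) 1).integrable (by simp)) ?_))
  filter_upwards [ae_nonneg G hG.hyp.nonneg] with t ht
  exact T_le_tau ht (conn_slabTo hh)

/-- finitely many values: `|F (X t) t| ≤ ∑ a ∈ A, |F a t|` (`measurable_comp_countable`) -/
theorem integrable_tau_rand0 {X Y : Env → ℤ} (hX : Measurable X) (hY : Measurable Y) {M : ℤ}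
    (bX : ∀ t, |X t| ≤ M) (bY : ∀ t, |Y t| ≤ M) (y : ℤ) {h : ℕ} (hh : 1 ≤ h) :
    Integrable (fun t => tau t Set.univ y h (X t) (Y t)) (iidLaw G) := by
  have hm : Measurable fun t => tau t Set.univ y h (X t) (Y t) :=
    measurable_comp_countable (X := fun t => (X t, Y t)) (hX.prodMk hY)
      (F := fun a t => tau t Set.univ y h a.1 a.2) fun a => measurable_tau _ _ _ _ _
  refine (integrable_finsetSum (Finset.Icc (-M) M ×ˢ Finset.Icc (-M) M) fun a _ =>
    ((memLp_tau hG (conn_slabTo (y := y) (x := a.1) (u := a.2) hh) 1).integrable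
      (by simp)).norm).mono' hm.aestronglyMeasurable (ae_of_all _ fun t => ?_)
  exact Finset.single_le_sum (f := fun a : ℤ × ℤ => ‖tau t Set.univ y h a.1 a.2‖)
    (fun a _ => norm_nonneg _) (a := (X t, Y t)) (Finset.mem_product.2
      ⟨Finset.mem_Icc.2 (abs_le.1 (bX t)), Finset.mem_Icc.2 (abs_le.1 (bY t))⟩)

omit hG [NullSingletonClass G] in
theorem IsStrat.abs_sMean_le {h : ℕ} {M : ℤ} {D : Env → ℤ} (hD : IsStrat h M D) : |sMean G D| ≤ M := by
  have h1 := norm_integral_le_of_norm_le_const (μ := iidLaw G) (f := fun t => (D t : ℝ)) (C := M)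
    (ae_of_all _ fun t => by rw [Real.norm_eq_abs]; exact_mod_cast hD.bdd t)
  simpa [sMean] using h1

omit hG [NullSingletonClass G] in
theorem IsStrat.sVar_le {h : ℕ} {M : ℤ} {D : Env → ℤ} (hD : IsStrat h M D) :
    0 ≤ sVar G D ∧ sVar G D ≤ 4 * (M : ℝ) ^ 2 := by
  refine ⟨integral_nonneg fun t => sq_nonneg _, (le_abs_self _).trans ?_⟩
  have h1 := norm_integral_le_of_norm_le_const (μ := iidLaw G)
    (f := fun t => ((D t : ℝ) - sMean G D) ^ 2) (C := 4 * (M : ℝ) ^ 2) (ae_of_all _ fun t => by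
      have h2 : |(D t : ℝ)| ≤ M := by exact_mod_cast hD.bdd t
      have h3 := (abs_sub (D t : ℝ) (sMean G D)).trans (add_le_add h2 (hD.abs_sMean_le (G := G)))
      rw [Real.norm_eq_abs, abs_pow]
      exact (pow_le_pow_left₀ (abs_nonneg _) h3 2).trans (le_of_eq (by ring)))
  simpa [sVar] using h1

omit hG [NullSingletonClass G] in
theorem D0Cat_memLp {h : ℕ} {M : ℤ} {D : Env → ℤ} (hD : IsStrat h M D) :
    MemLp (fun t => (D t : ℝ)) 2 (iidLaw G) :=
  MemLp.of_bound ((measurable_of_countable fun z : ℤ => (z : ℝ)).comp hD.meas).aestronglyMeasurable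
    M (ae_of_all _ fun t => by rw [Real.norm_eq_abs]; exact_mod_cast hD.bdd t)

omit hG [NullSingletonClass G] in
theorem D0Cat_freeze {h1 h2 : ℕ} {M : ℤ} {D : Env → ℤ} (hD : IsStrat h1 M D) {Φ : ℤ → Env → ℝ}
    (hm : ∀ a, Measurable (Φ a)) (hi : ∀ a, Integrable (Φ a) (iidLaw G))
    (hd : ∀ a, DependsOnly (Φ a) (slabEdges 0 h2)) :
    Integrable (fun t => Φ (D t) (shift (D t, h1) t)) (iidLaw G) ∧
      ∫ t, Φ (D t) (shift (D t, h1) t) ∂iidLaw G = ∫ t, ∫ t', Φ (D t) t' ∂iidLaw G ∂iidLaw G := by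
  have h := integral_freeze G (F := fun a t => Φ a (shift (a, h1) t)) hD.meas (Finset.Icc (-M) M)
    (fun t => Finset.mem_Icc.2 (abs_le.1 (hD.bdd t))) (fun a => (hm a).comp (measurable_shift _))
    (fun a _ => (measurePreserving_shift G _).integrable_comp_of_integrable (hi a)) hD.dep
    (fun a => (hd a).shift_slab0 (a, h1)) (disjoint_slabEdges le_rfl)
  refine ⟨h.1, h.2.trans ?_⟩
  simp only [integral_shift0 G _ (hm _)]

omit hG [NullSingletonClass G] in
theorem D0Cat_sq {h : ℕ} {M : ℤ} {D : Env → ℤ} (hD : IsStrat h M D) (c : ℝ) :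
    ∫ t, (c + ((D t : ℝ) - sMean G D)) ^ 2 ∂iidLaw G = c ^ 2 + sVar G D := by
  have h1 := D0Cat_memLp (G := G) hD
  have h2 : Integrable (fun t => (D t : ℝ) - sMean G D) (iidLaw G) :=
    (h1.integrable one_le_two).sub (integrable_const _)
  have h3 : Integrable (fun t => ((D t : ℝ) - sMean G D) ^ 2) (iidLaw G) :=
    (h1.sub (memLp_const _)).integrable_sq
  have h4 : Integrable (fun t => c ^ 2 + 2 * c * ((D t : ℝ) - sMean G D)) (iidLaw G) :=
    (integrable_const _).add (h2.const_mul _)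
  simp only [add_sq]
  rw [integral_add h4 h3, integral_add (integrable_const _) (h2.const_mul _), integral_const_mul,
    integral_sub (h1.integrable one_le_two) (integrable_const _)]
  simp [sMean, sVar]

/-- `D t = D1 t + D2 (shift (D1 t, h1) t)`.  `integral_freeze` with `X = D1` (values in `Icc (-M1) M1`, reads `slabEdges 0 h1`) and
`F a t = D2 (shift (a,h1) t)`, `(a - m1 + D2 (…) - m2)²`, `tau (shift (a,h1) t) univ 0 h2 0 (D2 (…))` (they read `slabEdges h1 h2`:
`DependsOnly.shift_slab0`, `disjoint_slabEdges`); `integral_shift0`, `tau_shift_univ`, `tau_concat`. -/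
theorem IsStrat.cat {h1 h2 : ℕ} (a1 : 1 ≤ h1) (a2 : 1 ≤ h2) {M1 M2 : ℤ} {D1 D2 : Env → ℤ}
    (s1 : IsStrat h1 M1 D1) (s2 : IsStrat h2 M2 D2) : ∃ D, IsStrat (h1 + h2) (M1 + M2) D ∧
      sMean G D = sMean G D1 + sMean G D2 ∧ sVar G D = sVar G D1 + sVar G D2 ∧
      sCost G (h1 + h2) D ≤ sCost G h1 D1 + sCost G h2 D2 := by
  have m2 : Measurable fun t => (D2 t : ℝ) :=
    (measurable_of_countable fun z : ℤ => (z : ℝ)).comp s2.meas
  have l1 := D0Cat_memLp (G := G) s1
  have l2 := D0Cat_memLp (G := G) s2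
  have hs : IsStrat (h1 + h2) (M1 + M2) fun t => D1 t + D2 (shift (D1 t, h1) t) := by
    refine ⟨s1.meas.add (measurable_comp_countable s1.meas
      (F := fun a t => D2 (shift (a, h1) t)) fun a => s2.meas.comp (measurable_shift _)),
      fun t t' h => ?_, fun t => (abs_add_le _ _).trans (add_le_add (s1.bdd _) (s2.bdd _))⟩
    have e1 : D1 t = D1 t' := s1.dep.mono0 (slabEdges_mono le_rfl (by push_cast; omega)) t t' h
    have e2 := (s2.dep.shift_slab0 (D1 t', h1)).mono0
      (slabEdges_mono (y := 0) (h := h1 + h2) (by simp) (by simp)) t t' h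
    simp only [e1]
    exact congrArg _ e2
  have hM : sMean G (fun t => D1 t + D2 (shift (D1 t, h1) t)) = sMean G D1 + sMean G D2 := by
    obtain ⟨f1, f2⟩ := D0Cat_freeze (G := G) (h2 := h2) s1 (Φ := fun _ t => (D2 t : ℝ)) (fun _ => m2)
      (fun _ => l2.integrable one_le_two) fun _ t t' h => by simp only [s2.dep t t' h]
    simp only [sMean, Int.cast_add]
    rw [integral_add (l1.integrable one_le_two) f1, f2]
    simp
  refine ⟨_, hs, hM, ?_, ?_⟩
  · have l3 : ∀ c : ℝ, MemLp (fun t => c + ((D2 t : ℝ) - sMean G D2)) 2 (iidLaw G) := fun c =>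
      (memLp_const c).add (l2.sub (memLp_const (sMean G D2)))
    have l4 : MemLp (fun t => (D1 t : ℝ) - sMean G D1) 2 (iidLaw G) :=
      l1.sub (memLp_const (sMean G D1))
    obtain ⟨-, f2⟩ := D0Cat_freeze (G := G) (h2 := h2) s1
      (Φ := fun a t => (((a : ℝ) - sMean G D1) + ((D2 t : ℝ) - sMean G D2)) ^ 2)
      (fun _ => ((m2.sub_const _).const_add _).pow_const 2)
      (fun _ => (l3 _).integrable_sq)
      fun _ t t' h => by simp only [s2.dep t t' h]
    simp only [D0Cat_sq s2] at f2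
    rw [integral_add l4.integrable_sq (integrable_const _)] at f2
    rw [sVar, hM]
    refine Eq.trans (integral_congr_ae (ae_of_all _ fun t => ?_)) (f2.trans ?_)
    · push_cast
      ring
    · simp [sVar]
  · have hM2 : (0 : ℤ) ≤ M2 := (abs_nonneg _).trans (s2.bdd 0)
    have hM1 : (0 : ℤ) ≤ M1 := (abs_nonneg _).trans (s1.bdd 0)
    obtain ⟨f1, f2⟩ := D0Cat_freeze (G := G) (h2 := h2) s1 (Φ := fun _ t => tau t Set.univ 0 h2 0 (D2 t))
      (fun _ => measurable_comp_countable s2.meas (F := fun a t => tau t Set.univ 0 h2 0 a)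
        fun a => measurable_tau _ _ _ _ _)
      (fun _ => integrable_tau_rand0 hG (X := fun _ => 0) measurable_const s2.meas
        (fun _ => by simpa) s2.bdd 0 a2)
      fun _ t t' h => by
        simp only [s2.dep t t' h]
        exact dependsOnly_tau _ _ _ _ _ t t' fun e he => h e he.1
    have i1 := integrable_tau_rand0 hG (X := fun _ => 0) measurable_const s1.meas
      (fun _ => by simpa) s1.bdd 0 a1
    simp only [integral_const, probReal_univ, one_smul] at f2
    unfold sCost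
    rw [← f2, ← integral_add i1 f1]
    refine integral_mono_ae (integrable_tau_rand0 hG (X := fun _ => 0) measurable_const hs.meas
      (fun _ => by simpa using add_nonneg hM1 hM2) hs.bdd 0 (by omega)) (i1.add f1) ?_
    filter_upwards [ae_nonneg G hG.hyp.nonneg] with t ht
    rw [tau_shift_univ]
    simpa [add_comm] using tau_concat (y := 0) (x := 0) (u := D1 t + D2 (shift (D1 t, h1) t)) ht a1 a2
      (D1 t)

/-- induction on `n` -/
theorem IsStrat.seq {h : ℕ} (hh : 1 ≤ h) {M : ℤ} (D : ℕ → Env → ℤ) (hD : ∀ i, IsStrat h M (D i))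
    {n : ℕ} (hn : 1 ≤ n) : ∃ D', IsStrat (n * h) (n * M) D' ∧
      sMean G D' = ∑ i ∈ Finset.range n, sMean G (D i) ∧
      sVar G D' = ∑ i ∈ Finset.range n, sVar G (D i) ∧
      sCost G (n * h) D' ≤ ∑ i ∈ Finset.range n, sCost G h (D i) := by
  induction n, hn using Nat.le_induction with
  | base => exact ⟨D 0, by simpa using hD 0, by simp, by simp, by simp⟩
  | succ n hn ih =>
    obtain ⟨D', s, e1, e2, e3⟩ := ih
    obtain ⟨D'', s', f1, f2, f3⟩ := IsStrat.cat hG (Nat.mul_pos hn hh) hh s (hD n)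
    refine ⟨D'', by simpa [add_mul] using s', ?_, ?_, ?_⟩
    · rw [f1, e1, Finset.sum_range_succ]
    · rw [f2, e2, Finset.sum_range_succ]
    · rw [add_mul, one_mul, Finset.sum_range_succ]
      linarith

/-- `tau_concat` at `D t`; `integral_freeze` and `integral_tau_le` for the second slab; `E |x - D| ≤ |x - sMean| + √sVar` -/
theorem strat_finish : ∃ C > 0, ∀ (h r : ℕ) (M x : ℤ) (D : Env → ℤ), 1 ≤ h → 1 ≤ r → IsStrat h M D →
    ∫ t, tau t Set.univ 0 (h + r) 0 x ∂iidLaw G ≤
      sCost G h D + C * (|(x : ℝ) - sMean G D| + √(sVar G D) + r) := by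
  obtain ⟨C, hC, h0⟩ := integral_tau_le hG
  refine ⟨C, hC, fun h r M x D hh hr s => ?_⟩
  have hM : (0 : ℤ) ≤ M := (abs_nonneg _).trans (s.bdd 0)
  have l1 := (D0Cat_memLp (G := G) s).sub (memLp_const (sMean G D))
  have l2 : MemLp (fun t => |(D t : ℝ) - sMean G D|) 2 (iidLaw G) := l1.abs
  have h1 : ∫ t, |(D t : ℝ) - sMean G D| ∂iidLaw G ≤ √(sVar G D) := by
    refine Real.le_sqrt_of_sq_le ?_
    have := variance_nonneg (fun t => |(D t : ℝ) - sMean G D|) (iidLaw G)
    rw [variance_eq_sub l2] at this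
    simpa [sVar] using this
  obtain ⟨f1, f2⟩ := D0Cat_freeze (G := G) (h2 := r) s (Φ := fun a t => tau t Set.univ 0 r 0 (x - a))
    (fun _ => measurable_tau _ _ _ _ _)
    (fun _ => (memLp_tau hG (conn_slabTo hr) 1).integrable (by simp))
    fun _ t t' h => dependsOnly_tau _ _ _ _ _ t t' fun e he => h e he.1
  have i1 := integrable_tau_rand0 hG (X := fun _ => 0) measurable_const s.meas
    (fun _ => by simpa) s.bdd 0 hh
  have i2 : Integrable (fun t => C * (|(x : ℝ) - sMean G D| + r + |(D t : ℝ) - sMean G D|))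
      (iidLaw G) := ((integrable_const _).add (l2.integrable one_le_two)).const_mul C
  have h2 : ∫ t, ∫ t', tau t' Set.univ 0 r 0 (x - D t) ∂iidLaw G ∂iidLaw G ≤
      ∫ t, C * (|(x : ℝ) - sMean G D| + r + |(D t : ℝ) - sMean G D|) ∂iidLaw G := by
    refine integral_mono_of_nonneg (ae_of_all _ fun t => integral_nonneg_of_ae ?_) i2
      (ae_of_all _ fun t => (h0 0 0 _ r hr).1.trans (mul_le_mul_of_nonneg_left ?_ hC.le))
    · filter_upwards [ae_nonneg G hG.hyp.nonneg] with t' ht using tau_nonneg ht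
    · have := abs_sub ((x : ℝ) - sMean G D) ((D t : ℝ) - sMean G D)
      push_cast
      rw [sub_sub_sub_cancel_right] at this
      rw [sub_zero]
      linarith
  rw [integral_const_mul, integral_add (integrable_const _) (l2.integrable one_le_two),
    integral_const, probReal_univ, one_smul, ← f2] at h2
  have h3 : ∫ t, tau t Set.univ 0 (h + r) 0 x ∂iidLaw G ≤ ∫ t, (tau t Set.univ 0 h 0 (D t) +
      tau (shift (D t, h) t) Set.univ 0 r 0 (x - D t)) ∂iidLaw G := by
    refine integral_mono_ae ((memLp_tau hG (conn_slabTo (by omega)) 1).integrable (by simp))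
      (i1.add f1) ?_
    filter_upwards [ae_nonneg G hG.hyp.nonneg] with t ht
    rw [tau_shift_univ]
    simpa using tau_concat (y := 0) (x := 0) (u := x) ht hh hr (D t)
  rw [integral_add i1 f1] at h3
  have h4 := mul_le_mul_of_nonneg_left h1 hC.le
  unfold sCost
  linarith

/-- (Strat)  `IsStrat.seq` with the constant sequence, `strat_finish` with `r = 1`, `x = ⌊n d⌋`, `mu_le_integral_tau0`, `SymNorm.lip`, `smul`:
`n (μ (d,h) - sCost) ≤ C (1 + √n)` for all `n ≥ 1`. -/
theorem strat {h : ℕ} (hh : 1 ≤ h) {D : Env → ℤ} (hD : Measurable D) (hdep : DependsOnly D (slabEdges 0 h))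
    {M : ℤ} (hM : ∀ t, |D t| ≤ M) :
    mu G (∫ t, (D t : ℝ) ∂iidLaw G, h) ≤ ∫ t, tau t Set.univ 0 h 0 (D t) ∂iidLaw G := by
  have s : IsStrat h M D := ⟨hD, hdep, hM⟩
  obtain ⟨C, hC, h1⟩ := strat_finish hG
  have hμ := symNorm_mu G hG.hyp
  obtain ⟨L, hL, h2⟩ := hμ.lip
  change mu G (sMean G D, h) ≤ sCost G h D
  have key : ∀ k : ℕ, 1 ≤ k → k * (mu G (sMean G D, h) - sCost G h D) ≤
      L + 2 * C + C * √(sVar G D) := fun k hk => by
    obtain ⟨D', s', e1, e2, e3⟩ := IsStrat.seq hG hh (fun _ => D) (fun _ => s)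
      (n := k ^ 2) (Nat.one_le_pow _ _ hk)
    simp only [Finset.sum_const, Finset.card_range, nsmul_eq_mul, Nat.cast_pow] at e1 e2 e3
    have hk' : (1 : ℝ) ≤ k := by exact_mod_cast hk
    have a1 := (mu_le_integral_tau0 hG (Nat.le_add_left 1 (k ^ 2 * h)) ⌊sMean G D'⌋).trans
      (h1 _ 1 _ _ D' (Nat.mul_pos (Nat.one_le_pow _ _ hk) hh) le_rfl s')
    have a2 : |(⌊sMean G D'⌋ : ℝ) - sMean G D'| ≤ 1 := by
      rw [abs_sub_comm, abs_of_nonneg (sub_nonneg.2 (Int.floor_le _))]
      linarith [Int.lt_floor_add_one (sMean G D')]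
    have a3 : √(sVar G D') = k * √(sVar G D) := by
      rw [e2, Real.sqrt_mul (by positivity), Real.sqrt_sq (by positivity)]
    have a4 := hμ.smul ((k : ℝ) ^ 2) (sMean G D, h)
    have a5 := (le_abs_self _).trans (h2 (((k : ℝ) ^ 2) • (sMean G D, (h : ℝ)))
      ((⌊sMean G D'⌋ : ℝ), ((k ^ 2 * h + 1 : ℕ) : ℝ)))
    have a6 : ‖((k : ℝ) ^ 2) • (sMean G D, (h : ℝ)) -
        ((⌊sMean G D'⌋ : ℝ), ((k ^ 2 * h + 1 : ℕ) : ℝ))‖ ≤ 1 := by
      rw [Prod.norm_def, max_le_iff]
      constructor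
      · simpa [← e1, abs_sub_comm] using a2
      · simp
    rw [abs_of_nonneg (by positivity)] at a4
    have a7 := mul_le_mul_of_nonneg_left a6 hL.le
    have a8 := mul_le_mul_of_nonneg_left a2 hC.le
    rw [a3] at a1
    have a9 : (k : ℝ) * (k * (mu G (sMean G D, h) - sCost G h D)) ≤
        k * (L + 2 * C + C * √(sVar G D)) := by
      have b1 : L + 2 * C ≤ k * (L + 2 * C) := le_mul_of_one_le_left (by positivity) hk'
      push_cast at a1 a5 a7
      linarith
    exact le_of_mul_le_mul_left a9 (by positivity)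
  by_contra h3
  have h4 := sub_pos.2 (not_le.1 h3)
  obtain ⟨k, hk⟩ := exists_nat_gt ((L + 2 * C + C * √(sVar G D)) /
    (mu G (sMean G D, h) - sCost G h D))
  have h5 := key (k + 1) (by omega)
  rw [div_lt_iff₀ h4] at hk
  push_cast at h5
  linarith

end Crest.Agent.R151
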