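import Crest.Agent.R151.D0Ptl
import Crest.Agent.R151.D0Cat

/-! R151 / D0Bias: the non-random fluctuation bound (Bias). -/

set_option autoImplicit false
open MeasureTheory ProbabilityTheory Crest.ProbabilityR.FirstPassage Filter Topology
open scoped ENNReal

namespace Crest.Agent.R151

theorem D0Bias_sum {j B : ℕ} (h : j ≤ B) {α : Type} (g : α → ℝ) (x y : α) :
    ∑ i ∈ Finset.range B, g (if i < j then x else y) = j * g x + ((B : ℝ) - j) * g y := by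
  induction B, h using Nat.le_induction with
  | base =>
    rw [Finset.sum_congr rfl fun i hi => by rw [if_pos (Finset.mem_range.1 hi)]]
    simp
  | succ n hn ih =>
    rw [Finset.sum_range_succ, ih, if_neg (by omega)]
    push_cast
    ring

/-- discrete intermediate value: the least `j ≤ B` with `f j ≥ -B δ`, `f j = j dp + (B - j) dm - B d` -/
theorem exists_mix0 {dp dm d δ L : ℝ} (hδ : 0 ≤ δ) (hp : d - δ ≤ dp) (hm : dm ≤ d + δ)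
    (hL : |dp - dm| ≤ L) (B : ℕ) :
    ∃ j : ℕ, j ≤ B ∧ |j * dp + ((B : ℝ) - j) * dm - B * d| ≤ B * δ + L := by
  classical
  have hB : (0 : ℝ) ≤ B := Nat.cast_nonneg _
  have hL0 : 0 ≤ L := (abs_nonneg _).trans hL
  have hBB : -(B * δ) ≤ B * dp + ((B : ℝ) - B) * dm - B * d := by
    have := mul_le_mul_of_nonneg_left hp hB
    linarith
  have hex : ∃ j : ℕ, -(B * δ) ≤ j * dp + ((B : ℝ) - j) * dm - B * d := ⟨B, hBB⟩
  have h1 := Nat.find_spec hex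
  refine ⟨Nat.find hex, Nat.find_min' hex hBB, abs_le.2 ⟨by linarith, ?_⟩⟩
  rcases h0 : Nat.find hex with _ | i
  · have := mul_le_mul_of_nonneg_left hm hB
    push_cast
    linarith
  · have h2 := not_le.1 (Nat.find_min hex (m := i) (by omega))
    have := (abs_le.1 hL).2
    have := mul_nonneg hB hδ
    push_cast
    linarith

variable {G : Measure ℝ} [IsProbabilityMeasure G] [NullSingletonClass G]

variable (hG : Nice G)
include hG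

/-- the tilted0 strategies.  `A' = (max A 0 + μ₁)/2`, `K, C` from `ptl0` for `A'`, `κ0 = A' - max A 0`.  For `σ = ±1` take `Supp ξ' (a + σ κ) b'` (`exists_supp0`) and `D` from `ptl0`,
`d = sMean`.  `(a + σκ) ξ + b' ≤ μ (ξ,1) = a ξ + b` gives the cost bound; `a d + b n ≤ μ (d,n) ≤ sCost` (`strat`) gives the last claim. -/
theorem tilted0 {A : ℝ} (hA : A < mu G (1, 0)) : ∃ K : ℕ, ∃ C > 0, ∃ κ0 > 0, ∀ ξ a b κ σ : ℝ, |a| ≤ A →
    Supp (mu G) ξ a b → 0 < κ → κ ≤ κ0 → (σ = 1 ∨ σ = -1) → ∀ n : ℕ, 1 ≤ n →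
      ∃ D, IsStrat n (K * n) D ∧
        sCost G n D ≤ a * sMean G D + b * n + σ * κ * (sMean G D - ξ * n) + C * (n : ℝ) ^ (2 / 3 : ℝ) ∧
        σ * (ξ * n - sMean G D) ≤ C * (n : ℝ) ^ (2 / 3 : ℝ) / κ := by
  have hμ := symNorm_mu G hG.hyp
  have h1 := hμ.one_pos0
  have hmax : max A 0 < mu G (1, 0) := max_lt hA h1
  obtain ⟨K, C, hC, hp⟩ := ptl0 hG (A := (max A 0 + mu G (1, 0)) / 2) (by linarith)
  refine ⟨K, C, hC, (mu G (1, 0) - max A 0) / 2, by linarith,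
    fun ξ a b κ σ ha hs hκ hκ0 hσ n hn => ?_⟩
  have hσκ : |σ * κ| = κ := by rcases hσ with rfl | rfl <;> simp [abs_of_pos hκ]
  have ha' : |a + σ * κ| ≤ (max A 0 + mu G (1, 0)) / 2 := by
    have := abs_add_le a (σ * κ)
    linarith [le_max_left A 0]
  obtain ⟨ξ', b', hs'⟩ := exists_supp0 hμ (a := a + σ * κ) (by linarith)
  obtain ⟨D, hD, hc⟩ := hp ξ' _ b' ha' hs' n hn
  have hn0 : (0 : ℝ) ≤ n := Nat.cast_nonneg _
  have e1 : (a + σ * κ) * ξ + b' * 1 ≤ mu G (ξ, 1) := hs'.2 (ξ, 1)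
  have e2 := hs.1
  have e3 : b' * n ≤ (b - σ * κ * ξ) * n := mul_le_mul_of_nonneg_right (by linarith) hn0
  have e4 : a * sMean G D + b * n ≤ mu G (sMean G D, n) := hs.2 (sMean G D, n)
  have e5 : mu G (sMean G D, n) ≤ sCost G n D := strat hG hn hD.meas hD.dep hD.bdd
  refine ⟨D, hD, by linarith, ?_⟩
  rw [le_div_iff₀ hκ]
  linarith

/-- Blocks of height `h = m^6` (`h^(2/3) = m^4`), `κ = 1/m`, `δ = C m^5`.  `Dp, Dm` from `tilted0` (`σ = ±1`), `j` from `exists_mix0` (`d = ξ h`, `L = 2 K1 h`),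
`IsStrat.seq` for `D i = if i < j then Dp else Dm`, `strat_finish`.  With `f = sMean - B ξ h`, `|f| ≤ C B m^5 + 2 K1 m^6`:
`sCost ≤ B h (a ξ + b) + a f + κ B (K1 + K) h + C B m^4`, `√sVar ≤ 2 √B K1 h ≤ 2 K1 m^7`, `|x - sMean| ≤ |x - ξ N| + K r + |f|`. -/
theorem bias_blocks {A : ℝ} (hA : A < mu G (1, 0)) (K : ℝ) : ∃ m0 : ℕ, ∃ C > 0,
    ∀ (m B r : ℕ) (x : ℤ) (ξ a b : ℝ), m0 ≤ m → 1 ≤ m → 1 ≤ B → B ≤ m ^ 2 → 1 ≤ r → r ≤ m ^ 6 →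
      |ξ| ≤ K → |a| ≤ A → Supp (mu G) ξ a b →
        ∫ t, tau t Set.univ 0 (B * m ^ 6 + r) 0 x ∂iidLaw G ≤ B * (m : ℝ) ^ 6 * mu G (ξ, 1) +
          C * ((m : ℝ) ^ 7 + |x - ξ * ((B * m ^ 6 + r : ℕ) : ℝ)|) := by
  obtain ⟨K1, C, hC, κ0, hκ0, ht⟩ := tilted0 hG hA
  obtain ⟨Cf, hCf, hf⟩ := strat_finish hG
  refine ⟨⌈1 / κ0⌉₊, |A| * (C + 2 * K1) + (K1 + |K| + C) + Cf * (|K| + C + 4 * K1 + 2), by positivity,
    fun m B r x ξ a b hm0 hm hB hB2 hr hr6 hξ ha hs => ?_⟩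
  have hm' : (1 : ℝ) ≤ m := by exact_mod_cast hm
  have hκ : 1 / (m : ℝ) ≤ κ0 := by
    have : 1 / κ0 ≤ m := (Nat.le_ceil _).trans (by exact_mod_cast hm0)
    rw [div_le_iff₀ hκ0] at this
    rw [div_le_iff₀ (by linarith)]
    linarith
  have hh : 1 ≤ m ^ 6 := Nat.one_le_pow _ _ hm
  obtain ⟨Dp, sp, cp, mp⟩ := ht ξ a b (1 / m) 1 ha hs (by positivity) hκ (Or.inl rfl) _ hh
  obtain ⟨Dm, sm, cm, mm⟩ := ht ξ a b (1 / m) (-1) ha hs (by positivity) hκ (Or.inr rfl) _ hh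
  have e23 : ((m ^ 6 : ℕ) : ℝ) ^ (2 / 3 : ℝ) = (m : ℝ) ^ 4 := by
    rw [Nat.cast_pow, ← Real.rpow_natCast, ← Real.rpow_mul (by linarith), ← Real.rpow_natCast]
    norm_num
  have ediv : C * (m : ℝ) ^ 4 / (1 / m) = C * (m : ℝ) ^ 5 := by field_simp
  rw [e23] at cp cm mp mm
  rw [ediv] at mp mm
  have bp := sp.abs_sMean_le (G := G)
  have bm := sm.abs_sMean_le (G := G)
  have vp := (sp.sVar_le (G := G)).2
  have vm := (sm.sVar_le (G := G)).2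
  push_cast at cp cm mp mm bp bm vp vm
  obtain ⟨j, hj, hmix⟩ := exists_mix0 (dp := sMean G Dp) (dm := sMean G Dm) (d := ξ * (m : ℝ) ^ 6)
    (δ := C * (m : ℝ) ^ 5) (L := 2 * (K1 * (m : ℝ) ^ 6)) (by positivity) (by linarith) (by linarith)
    ((abs_sub _ _).trans (by linarith)) B
  obtain ⟨D, sD, mD, vD, cD⟩ := IsStrat.seq hG hh (fun i => if i < j then Dp else Dm)
    (fun i => by split_ifs; exacts [sp, sm]) hB
  rw [D0Bias_sum hj (sMean G)] at mD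
  rw [D0Bias_sum hj (sVar G)] at vD
  rw [D0Bias_sum hj (sCost G (m ^ 6))] at cD
  have fin := hf _ r _ x D (Nat.mul_pos hB hh) hr sD
  rw [← mD] at hmix
  have hj0 : (0 : ℝ) ≤ j := Nat.cast_nonneg _
  have hj1 : (0 : ℝ) ≤ (B : ℝ) - j := sub_nonneg.2 (by exact_mod_cast hj)
  have hB2' : (B : ℝ) ≤ (m : ℝ) ^ 2 := by exact_mod_cast hB2
  have hr6' : (r : ℝ) ≤ (m : ℝ) ^ 6 := by exact_mod_cast hr6
  have hK1 : (0 : ℝ) ≤ K1 := Nat.cast_nonneg _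
  have hξ' : |ξ| ≤ |K| := hξ.trans (le_abs_self _)
  have ha' : |a| ≤ |A| := ha.trans (le_abs_self _)
  have m45 : (m : ℝ) ^ 4 ≤ (m : ℝ) ^ 5 := pow_le_pow_right₀ hm' (by norm_num)
  have m67 : (m : ℝ) ^ 6 ≤ (m : ℝ) ^ 7 := pow_le_pow_right₀ hm' (by norm_num)
  have m5 : (B : ℝ) * (m : ℝ) ^ 5 ≤ (m : ℝ) ^ 7 := by
    calc _ ≤ (m : ℝ) ^ 2 * (m : ℝ) ^ 5 := mul_le_mul_of_nonneg_right hB2' (by positivity)
      _ = _ := by ring
  have tilt : ∀ d : ℝ, |d| ≤ K1 * (m : ℝ) ^ 6 →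
      |1 / (m : ℝ) * (d - ξ * (m : ℝ) ^ 6)| ≤ (K1 + |K|) * (m : ℝ) ^ 5 := fun d hd => by
    have a1 : |d - ξ * (m : ℝ) ^ 6| ≤ (K1 + |K|) * (m : ℝ) ^ 6 := by
      refine (abs_sub _ _).trans ?_
      rw [abs_mul, abs_of_nonneg (show (0 : ℝ) ≤ (m : ℝ) ^ 6 by positivity)]
      have := mul_le_mul_of_nonneg_right hξ' (show (0 : ℝ) ≤ (m : ℝ) ^ 6 by positivity)
      linarith
    rw [abs_mul, abs_of_nonneg (show (0 : ℝ) ≤ 1 / (m : ℝ) by positivity)]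
    calc _ ≤ 1 / (m : ℝ) * ((K1 + |K|) * (m : ℝ) ^ 6) := mul_le_mul_of_nonneg_left a1 (by positivity)
      _ = _ := by field_simp
  have hC5 := mul_le_mul_of_nonneg_left m45 hC.le
  have cp' : sCost G (m ^ 6) Dp ≤ a * sMean G Dp + b * (m : ℝ) ^ 6 + (K1 + |K| + C) * (m : ℝ) ^ 5 := by
    have := (abs_le.1 (tilt _ bp)).2
    linarith
  have cm' : sCost G (m ^ 6) Dm ≤ a * sMean G Dm + b * (m : ℝ) ^ 6 + (K1 + |K| + C) * (m : ℝ) ^ 5 := by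
    have := (abs_le.1 (tilt _ bm)).1
    linarith
  have c1 : sCost G (B * m ^ 6) D ≤ a * sMean G D + B * (b * (m : ℝ) ^ 6) +
      (K1 + |K| + C) * (m : ℝ) ^ 7 := by
    have a1 := mul_le_mul_of_nonneg_left cp' hj0
    have a2 := mul_le_mul_of_nonneg_left cm' hj1
    have a3 := mul_le_mul_of_nonneg_left m5 (show 0 ≤ K1 + |K| + C by positivity)
    rw [mD]
    linarith
  have f1 : |sMean G D - B * (ξ * (m : ℝ) ^ 6)| ≤ (C + 2 * K1) * (m : ℝ) ^ 7 := by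
    have a1 := mul_le_mul_of_nonneg_left m5 hC.le
    have a2 := mul_le_mul_of_nonneg_left m67 hK1
    linarith
  have f2 : a * (sMean G D - B * (ξ * (m : ℝ) ^ 6)) ≤ |A| * ((C + 2 * K1) * (m : ℝ) ^ 7) := by
    refine (le_abs_self _).trans ?_
    rw [abs_mul]
    exact mul_le_mul ha' f1 (abs_nonneg _) (abs_nonneg _)
  have f3 : √(sVar G D) ≤ 2 * K1 * (m : ℝ) ^ 7 := by
    refine Real.sqrt_le_iff.2 ⟨by positivity, ?_⟩
    have a1 := mul_le_mul_of_nonneg_left vp hj0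
    have a2 := mul_le_mul_of_nonneg_left vm hj1
    have a3 := mul_le_mul_of_nonneg_right hB2' (show 0 ≤ 4 * (K1 * (m : ℝ) ^ 6) ^ 2 by positivity)
    rw [vD]
    nlinarith
  have f4 : |(x : ℝ) - sMean G D| ≤ |x - ξ * ((B * m ^ 6 + r : ℕ) : ℝ)| +
      (|K| + C + 2 * K1) * (m : ℝ) ^ 7 := by
    have e : (x : ℝ) - sMean G D = (x - ξ * ((B * m ^ 6 + r : ℕ) : ℝ)) + ξ * r -
        (sMean G D - B * (ξ * (m : ℝ) ^ 6)) := by push_cast; ring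
    have a1 : |ξ * r| ≤ |K| * (m : ℝ) ^ 7 := by
      rw [abs_mul, Nat.abs_cast]
      exact mul_le_mul hξ' (hr6'.trans m67) (Nat.cast_nonneg _) (abs_nonneg _)
    rw [e]
    refine (abs_sub _ _).trans ?_
    have := abs_add_le (x - ξ * ((B * m ^ 6 + r : ℕ) : ℝ)) (ξ * r)
    linarith
  rw [← hs.1]
  have hX := abs_nonneg (x - ξ * ((B * m ^ 6 + r : ℕ) : ℝ))
  generalize |x - ξ * ((B * m ^ 6 + r : ℕ) : ℝ)| = X at f4 hX ⊢
  have g1 : |(x : ℝ) - sMean G D| + √(sVar G D) + r ≤ X + (|K| + C + 4 * K1 + 1) * (m : ℝ) ^ 7 := by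
    linarith
  have g2 := mul_le_mul_of_nonneg_left g1 hCf.le
  have g3 : 0 ≤ (|A| * (C + 2 * K1) + (K1 + |K| + C) + Cf * (|K| + C + 4 * K1 + 1)) * X := by
    positivity
  have g4 : 0 ≤ Cf * (m : ℝ) ^ 7 := by positivity
  linarith

/-- the least `m` with `N ≤ m^8`; `B = (N-1) / m^6`, `r = N - B m^6`.  For `m ≥ 4`: `N > (m-1)^8 ≥ m^6`; `m ≤ 2 (m-1)`, `(m-1)^7 ≤ N^(7/8) ≤ N^(89/100)`. -/
theorem exists_blocks0 (m0 : ℕ) : ∃ N0 : ℕ, ∀ N : ℕ, N0 ≤ N → ∃ m B r : ℕ, m0 ≤ m ∧ 1 ≤ m ∧ 1 ≤ B ∧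
    B ≤ m ^ 2 ∧ 1 ≤ r ∧ r ≤ m ^ 6 ∧ N = B * m ^ 6 + r ∧
      (m : ℝ) ^ 7 ≤ 128 * (N : ℝ) ^ (89 / 100 : ℝ) := by
  classical
  refine ⟨(max m0 4) ^ 8, fun N hN => ?_⟩
  have hex : ∃ m : ℕ, N ≤ m ^ 8 := ⟨N, Nat.le_self_pow (by norm_num) N⟩
  have h1 := Nat.find_spec hex
  have h2 : max m0 4 ≤ Nat.find hex :=
    (Nat.pow_le_pow_iff_left (by norm_num)).1 (hN.trans h1)
  obtain ⟨l, hl⟩ : ∃ l, Nat.find hex = l + 1 := ⟨Nat.find hex - 1, by omega⟩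
  have h3 : l ^ 8 < N := not_le.1 (Nat.find_min hex (m := l) (by omega))
  rw [hl] at h1 h2
  have hl3 : 3 ≤ l := by omega
  have h4 : (l + 1) ^ 6 ≤ l ^ 8 := by
    have a1 : (l + 1) ^ 3 ≤ l ^ 4 := by
      obtain ⟨k, rfl⟩ : ∃ k, l = k + 3 := ⟨l - 3, by omega⟩
      nlinarith [Nat.zero_le (k ^ 4), Nat.zero_le (k ^ 3), Nat.zero_le (k ^ 2)]
    calc (l + 1) ^ 6 = ((l + 1) ^ 3) ^ 2 := by ring
      _ ≤ (l ^ 4) ^ 2 := Nat.pow_le_pow_left a1 2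
      _ = l ^ 8 := by ring
  have hp : 0 < (l + 1) ^ 6 := by positivity
  have d1 := Nat.div_add_mod (N - 1) ((l + 1) ^ 6)
  have d2 := Nat.mod_lt (N - 1) hp
  have d3 : m0 ≤ l + 1 := (le_max_left _ _).trans h2
  clear hl hex
  refine ⟨l + 1, (N - 1) / (l + 1) ^ 6, (N - 1) % (l + 1) ^ 6 + 1, d3, Nat.succ_pos l,
    (Nat.one_le_div_iff hp).2 (by omega), ?_, Nat.succ_pos _, d2, ?_, ?_⟩
  · refine Nat.div_le_of_le_mul ?_
    have : (l + 1) ^ 6 * (l + 1) ^ 2 = (l + 1) ^ 8 := by ring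
    omega
  · rw [mul_comm]; omega
  · have hN1 : (1 : ℝ) ≤ N := by exact_mod_cast (show 1 ≤ N by omega)
    have a1 : ((l : ℝ) ^ 8) ^ (7 / 8 : ℝ) ≤ (N : ℝ) ^ (7 / 8 : ℝ) :=
      Real.rpow_le_rpow (by positivity) (by exact_mod_cast h3.le) (by norm_num)
    have a2 : ((l : ℝ) ^ 8) ^ (7 / 8 : ℝ) = (l : ℝ) ^ 7 := by
      rw [← Real.rpow_natCast, ← Real.rpow_mul (by positivity), ← Real.rpow_natCast]
      norm_num
    have a3 : (N : ℝ) ^ (7 / 8 : ℝ) ≤ (N : ℝ) ^ (89 / 100 : ℝ) :=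
      Real.rpow_le_rpow_of_exponent_le hN1 (by norm_num)
    have a4 : ((l + 1 : ℕ) : ℝ) ^ 7 ≤ (2 * (l : ℝ)) ^ 7 := by
      refine pow_le_pow_left₀ (by positivity) ?_ 7
      have : (3 : ℝ) ≤ l := by exact_mod_cast hl3
      push_cast
      linarith
    have a5 : (2 * (l : ℝ)) ^ 7 = 128 * (l : ℝ) ^ 7 := by ring
    linarith

/-- (Bias)  `N ≥ N0`: `exists_blocks0`, `bias_blocks`, `μ ≥ 0`.  `N < N0`: `integral_tau_le`, `|x| + N ≤ |x - ξ N| + (|K| + 1) N0`. -/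
theorem bias {A : ℝ} (hA : A < mu G (1, 0)) (K : ℝ) : ∃ C > 0, ∀ (N : ℕ) (x : ℤ) (ξ a b : ℝ), 1 ≤ N →
    |ξ| ≤ K → |a| ≤ A → Supp (mu G) ξ a b →
      ∫ t, tau t Set.univ 0 N 0 x ∂iidLaw G ≤
        N * mu G (ξ, 1) + C * ((N : ℝ) ^ (89 / 100 : ℝ) + |x - ξ * N|) := by
  have hμ := symNorm_mu G hG.hyp
  obtain ⟨m0, C, hC, hb⟩ := bias_blocks hG hA K
  obtain ⟨N0, hN0⟩ := exists_blocks0 hG m0
  obtain ⟨C1, hC1, h1⟩ := integral_tau_le hG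
  refine ⟨128 * C + C1 * (1 + (|K| + 1) * N0), by positivity, fun N x ξ a b hN hξ ha hs => ?_⟩
  have hN' : (1 : ℝ) ≤ N := by exact_mod_cast hN
  have hp : (1 : ℝ) ≤ (N : ℝ) ^ (89 / 100 : ℝ) := Real.one_le_rpow hN' (by norm_num)
  have hX := abs_nonneg ((x : ℝ) - ξ * N)
  have hm0 := hμ.nonneg (ξ, 1)
  have c1 : 0 ≤ C1 * (1 + (|K| + 1) * N0) := by positivity
  rcases le_or_gt N0 N with h | h
  · obtain ⟨m, B, r, a1, a2, a3, a4, a5, a6, a7, a8⟩ := hN0 N h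
    have := hb m B r x ξ a b a1 a2 a3 a4 a5 a6 hξ ha hs
    rw [← a7] at this
    have b1 : (B : ℝ) * (m : ℝ) ^ 6 ≤ N := by
      have : B * m ^ 6 ≤ N := by omega
      exact_mod_cast this
    have b2 := mul_le_mul_of_nonneg_right b1 hm0
    have b3 := mul_le_mul_of_nonneg_left a8 hC.le
    have b4 := mul_nonneg hC.le hX
    have b5 := mul_nonneg c1 (show 0 ≤ (N : ℝ) ^ (89 / 100 : ℝ) + |x - ξ * N| by linarith)
    linarith
  · have b0 := (h1 0 0 x N hN).1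
    have hN0' : (N : ℝ) ≤ N0 := by exact_mod_cast h.le
    have b1 : |(x : ℝ) - ((0 : ℤ) : ℝ)| + N ≤ |x - ξ * N| + (|K| + 1) * N0 := by
      have e : (x : ℝ) - ((0 : ℤ) : ℝ) = (x - ξ * N) + ξ * N := by push_cast; ring
      have a1 : |ξ * N| ≤ |K| * N0 := by
        rw [abs_mul, Nat.abs_cast]
        exact mul_le_mul (hξ.trans (le_abs_self _)) hN0' (by linarith) (abs_nonneg _)
      have := abs_add_le ((x : ℝ) - ξ * N) (ξ * N)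
      rw [e]
      linarith
    have b2 := mul_le_mul_of_nonneg_left b1 hC1.le
    have b3 : 0 ≤ (N : ℝ) * mu G (ξ, 1) := by positivity
    have b4 : 0 ≤ (|K| + 1) * (N0 : ℝ) := by positivity
    have b5 := mul_nonneg hC.le (show 0 ≤ (N : ℝ) ^ (89 / 100 : ℝ) + |x - ξ * N| by linarith)
    have b6 : |x - ξ * N| + (|K| + 1) * N0 ≤
        (1 + (|K| + 1) * N0) * ((N : ℝ) ^ (89 / 100 : ℝ) + |x - ξ * N|) := by nlinarith
    have b7 := mul_le_mul_of_nonneg_left b6 hC1.le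
    nlinarith

variable (F : Face (mu G))

/-- `Vb_le`; for `Mid h ζ` take `ξ = max (ξm - τ1) (min (ξm + τ1) (ζ / h)) ∈ [ξn, ξp]`, `|ζ - ξ h| ≤ 1`; `bias` with `A = |a0|` -/
theorem Face.Vb_apriori : ∃ C > 0, ∀ s : ℕ, 1 ≤ s → F.Vb G s ≤ C * (s : ℝ) ^ (89 / 100 : ℝ) := by
  have hμ := symNorm_mu G hG.hyp
  have hτ := F.τ1_pos hμ
  obtain ⟨C, hC, hb⟩ := bias hG F.steep (|F.ξm| + F.τ1)
  refine ⟨2 * C + |F.a0| + 1, by positivity, fun s hs => ?_⟩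
  have hs' : (1 : ℝ) ≤ s := by exact_mod_cast hs
  have hp : (1 : ℝ) ≤ (s : ℝ) ^ (89 / 100 : ℝ) := Real.one_le_rpow hs' (by norm_num)
  have ha0 := abs_nonneg F.a0
  refine F.Vb_le hG (by nlinarith) fun h ζ hh hhs hm => ?_
  have hh' : (1 : ℝ) ≤ h := by exact_mod_cast hh
  obtain ⟨ξ, x1, x2, x3⟩ : ∃ ξ : ℝ, F.ξm - F.τ1 ≤ ξ ∧ ξ ≤ F.ξm + F.τ1 ∧ |(ζ : ℝ) - ξ * h| ≤ 1 := by
    unfold Face.Mid at hm
    rw [abs_le] at hm
    rcases le_or_gt ((ζ : ℝ)) ((F.ξm - F.τ1) * h) with c1 | c1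
    · exact ⟨F.ξm - F.τ1, le_rfl, by linarith, abs_le.2 ⟨by linarith [hm.1], by linarith⟩⟩
    rcases le_or_gt ((F.ξm + F.τ1) * h) (ζ : ℝ) with c2 | c2
    · exact ⟨F.ξm + F.τ1, by linarith, le_rfl, abs_le.2 ⟨by linarith, by linarith [hm.2]⟩⟩
    refine ⟨ζ / h, (le_div_iff₀ (by linarith)).2 c1.le, (div_le_iff₀ (by linarith)).2 c2.le, ?_⟩
    rw [div_mul_cancel₀ _ (by linarith), sub_self, abs_zero]
    exact zero_le_one
  have hsup : Supp (mu G) ξ F.a0 F.b0 := by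
    have := F.lt
    unfold Face.ξm Face.τ1 at x1 x2
    exact F.supp ξ (by linarith) (by linarith)
  have b1 := hb h ζ ξ F.a0 F.b0 hh
    (abs_le.2 ⟨by linarith [neg_abs_le F.ξm], by linarith [le_abs_self F.ξm]⟩) le_rfl hsup
  have b2 : F.ec G Set.univ h ζ =
      ∫ t, tau t Set.univ 0 h 0 ζ ∂iidLaw G - (F.a0 * ζ + F.b0 * h) := by
    have i1 : Integrable (fun t => tau t Set.univ 0 h 0 ζ) (iidLaw G) :=
      (memLp_tau hG (conn_slabTo hh) 1).integrable (by simp)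
    have : ∀ t, F.c t Set.univ 0 h 0 ζ = tau t Set.univ 0 h 0 ζ - (F.a0 * ζ + F.b0 * h) := fun t => by
      simp only [Face.c]; push_cast; ring
    simp only [Face.ec, this]
    rw [integral_sub i1 (integrable_const _)]
    simp
  have b3 : (h : ℝ) ^ (89 / 100 : ℝ) ≤ (s : ℝ) ^ (89 / 100 : ℝ) :=
    Real.rpow_le_rpow (by linarith) (by exact_mod_cast hhs) (by norm_num)
  have b4 : -(F.a0 * ((ζ : ℝ) - ξ * h)) ≤ |F.a0| := by
    refine (neg_le_abs _).trans ?_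
    rw [abs_mul]
    exact mul_le_of_le_one_right ha0 x3
  rw [← hsup.1] at b1
  have b5 := mul_le_mul_of_nonneg_left
    (show (h : ℝ) ^ (89 / 100 : ℝ) + |(ζ : ℝ) - ξ * h| ≤ 2 * (s : ℝ) ^ (89 / 100 : ℝ) by linarith) hC.le
  have b6 := mul_le_mul_of_nonneg_left hp ha0
  rw [b2]
  nlinarith

end Crest.Agent.R151
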