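import Crest.Agent.R151.D0L2a

/-! R151 / D0L2b: lower tail (L2) of reduced slab passage times and (Pos). -/

set_option autoImplicit false
open MeasureTheory ProbabilityTheory Crest.ProbabilityR.FirstPassage Filter Topology
open scoped ENNReal

namespace Crest.Agent.R151

/-- some pair of end points in the window of radius `r` has very negative reduced box passage time -/
def Face.BoxEv {μ : ℝ × ℝ → ℝ} (F : Face μ) (h : ℕ) (k : ℤ) (r R : ℕ) (s : ℝ) : Set Env :=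
  {t | ∃ x u : ℤ, |x - k| ≤ r ∧ |u - k| ≤ r ∧
    s < -(tauB t 0 h k R x u - F.a0 * ((u : ℝ) - x) - F.b0 * h)}

theorem D0L2b_mono {Ω : Type} [MeasurableSpace Ω] {P : Measure Ω} [IsFiniteMeasure P] {A B : Set Ω}
    (h : A ≤ᵐ[P] B) : P.real A ≤ P.real B :=
  ENNReal.toReal_mono (measure_ne_top _ _) (measure_mono_ae h)

theorem D0L2b_meas {μ : ℝ × ℝ → ℝ} (F : Face μ) (h : ℕ) (k : ℤ) (r R : ℕ) (s : ℝ) :
    MeasurableSet (F.BoxEv h k r R s) := by
  refine measurableSet_setOf.2 (Measurable.exists fun x => Measurable.exists fun u =>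
    measurable_const.and (measurable_const.and (measurableSet_setOf.1 ?_)))
  exact measurableSet_lt measurable_const
    (((measurable_tauB _ _ _ _ _ _).sub_const _).sub_const _).neg

theorem D0L2b_dep {μ : ℝ × ℝ → ℝ} (F : Face μ) {h : ℕ} (hh : 1 ≤ h) (k : ℤ) {r R : ℕ} (hr : r ≤ R)
    (s : ℝ) : DependsOnly (fun t => t ∈ F.BoxEv h k r R s) (boxEdges 0 h k R) := by
  intro t t' e
  simp only [Face.BoxEv, Set.mem_setOf_eq, eq_iff_iff]
  refine exists_congr fun x => exists_congr fun u => and_congr_right fun _ =>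
    and_congr_right fun hu => ?_
  have := dependsOnly_tauB (y := 0) hh x (hu.trans (Int.ofNat_le.2 hr)) t t' e
  simp only at this
  rw [this]

theorem D0L2b_shift {μ : ℝ × ℝ → ℝ} (F : Face μ) (h : ℕ) (k : ℤ) (r R : ℕ) (s : ℝ) :
    {t | shift (k, 0) t ∈ F.BoxEv h 0 r R s} = F.BoxEv h k r R s := by
  ext t
  simp only [Face.BoxEv, Set.mem_setOf_eq, tauB_shift, add_zero, zero_add, sub_zero]
  constructor
  · rintro ⟨x, u, h1, h2, h3⟩
    refine ⟨x + k, u + k, by simpa using h1, by simpa using h2, ?_⟩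
    push_cast
    linarith
  · rintro ⟨x, u, h1, h2, h3⟩
    refine ⟨x - k, u - k, h1, h2, ?_⟩
    rw [sub_add_cancel, sub_add_cancel]
    push_cast
    linarith

/-- `n = ⌈√(2/π)⌉₊`; `1 - exp (-x) ≥ x/(1+x)`, `x = n π ≥ 2/n` -/
theorem exists_grid0 {π : ℝ} (h0 : 0 < π) (h1 : π ≤ 1) :
    ∃ n : ℕ, 1 ≤ n ∧ (n : ℝ) ^ 2 * π ≤ 8 ∧ 1 ≤ n * (1 - Real.exp (-(n * π))) := by
  set a : ℝ := √(2 / π) with ha
  have a2 : a ^ 2 * π = 2 := by rw [ha, Real.sq_sqrt (by positivity)]; field_simp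
  have a0 : 0 ≤ a := Real.sqrt_nonneg _
  have a1 : 1 < a := by
    by_contra hc
    have : a ^ 2 ≤ 1 := pow_le_one₀ a0 (not_lt.1 hc)
    nlinarith
  have n1 : a ≤ (⌈a⌉₊ : ℝ) := Nat.le_ceil a
  have n2 : (⌈a⌉₊ : ℝ) < a + 1 := Nat.ceil_lt_add_one a0
  have n3 : 2 ≤ ⌈a⌉₊ := by
    have : (1 : ℝ) < ⌈a⌉₊ := a1.trans_le n1
    exact_mod_cast this
  have n3' : (2 : ℝ) ≤ ⌈a⌉₊ := by exact_mod_cast n3
  refine ⟨⌈a⌉₊, by omega, ?_, ?_⟩
  · have : (⌈a⌉₊ : ℝ) ^ 2 ≤ (2 * a) ^ 2 := pow_le_pow_left₀ (by positivity) (by linarith) 2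
    nlinarith
  · generalize (⌈a⌉₊ : ℝ) = n at n1 n2 n3'
    have h2 : 2 ≤ n * (n * π) := by
      have : a ^ 2 ≤ n ^ 2 := pow_le_pow_left₀ a0 n1 2
      nlinarith
    have hx : 0 < n * π := by positivity
    generalize n * π = x at h2 hx
    have e1 : Real.exp (-x) * (x + 1) ≤ 1 := by
      have := mul_le_mul_of_nonneg_left (Real.add_one_le_exp x) (Real.exp_pos (-x)).le
      rwa [← Real.exp_add, neg_add_cancel, Real.exp_zero] at this
    have e2 : x + 1 ≤ n * x := by nlinarith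
    have e3 : (x + 1) * 1 ≤ (x + 1) * (n * (1 - Real.exp (-x))) := by nlinarith
    exact le_of_mul_le_mul_left e3 (by linarith)

variable {G : Measure ℝ} [IsProbabilityMeasure G] [NullSingletonClass G]

variable (hG : Nice G)
include hG

variable (F : Face (mu G))

/-- `π = P (BoxEv h 0 …) > 0`, `n` from `exists_grid0`, boxes at `k j = j (2 C0 + 1) h`, `j < n`: same probability (`tauB_shift`, `prob_shift0`), independent
(`dependsOnly_tauB`, `disjoint_boxEdges`, `prob_none_le0`), and for `t ≥ 0` each of them implies `s < LL t 0 h 0 ((2 C0 + 1 + K) n h)` (`tau_le_tauB`,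
`neg_c_le_LL`).  `L2_wide`: `s ≤ C W n^(20/21)`, so `(s/(C W))^(21/10) ≤ n² ≤ 8/π`; `8 ≤ 8^(21/10)`. -/
theorem Face.prob_boxEv (K C0 : ℕ) (hK : K ≤ C0) : ∃ C > 0, ∀ (hmax : ℕ) (W : ℝ), F.Scale G hmax W →
    ∀ (h : ℕ) (s : ℝ), 1 ≤ h → h ≤ hmax → 0 < s →
      (iidLaw G).real (F.BoxEv h 0 (K * h) (C0 * h) s) ≤ (C * W / s) ^ (21 / 10 : ℝ) := by
  obtain ⟨C, hC, hw⟩ := F.L2_wide hG (2 * C0 + 1 + K)
  refine ⟨8 * C, by positivity, fun hmax W hS h s hh hhm hs => ?_⟩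
  have hW := hS.one_le
  set π := (iidLaw G).real (F.BoxEv h 0 (K * h) (C0 * h) s) with hπ
  rcases le_or_gt π 0 with h0 | h0
  · exact h0.trans (by positivity)
  obtain ⟨n, hn, hn8, hn1⟩ := exists_grid0 h0 measureReal_le_one
  have hh' : (1 : ℤ) ≤ h := by exact_mod_cast hh
  have hKC : K * h ≤ C0 * h := Nat.mul_le_mul_right _ hK
  set k : ℕ → ℤ := fun j => j * ((2 * C0 + 1) * h) with hk
  have key : ∀ a b : ℕ, a < b → k a + ((C0 * h : ℕ) : ℤ) < k b - ((C0 * h : ℕ) : ℤ) := by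
    intro a b hab
    have : (a : ℤ) + 1 ≤ b := by exact_mod_cast hab
    have h2 := mul_le_mul_of_nonneg_right this (show (0 : ℤ) ≤ (2 * C0 + 1) * h by positivity)
    simp only [hk]
    push_cast
    nlinarith
  have p1 := prob_none_le0 G (Finset.range n) (fun j => F.BoxEv h (k j) (K * h) (C0 * h) s)
    (fun j => boxEdges 0 h (k j) (C0 * h)) (fun j _ => D0L2b_meas F _ _ _ _ _)
    (fun j _ => D0L2b_dep F hh _ hKC s)
    (fun i _ j _ hij => by
      rcases lt_or_gt_of_ne hij with h' | h'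
      · exact disjoint_boxEdges (key _ _ h')
      · exact (disjoint_boxEdges (key _ _ h')).symm)
    (π := π) (fun j _ => by
      rw [← D0L2b_shift F h (k j), prob_shift0 G _ (D0L2b_meas F _ _ _ _ _)])
  rw [Finset.card_range] at p1
  have p5 : (iidLaw G).real {t : Env | ¬ ∀ e, 0 ≤ t e} = 0 := by
    have := ae_iff.1 (ae_nonneg G hG.hyp.nonneg)
    rw [measureReal_def, this]; rfl
  have p2 : 1 - Real.exp (-(n * π)) ≤
      (iidLaw G).real {t | s < F.LL t 0 h 0 ((2 * C0 + 1 + K) * n * h)} := by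
    have e : (Set.univ : Set Env) ⊆ {t | s < F.LL t 0 h 0 ((2 * C0 + 1 + K) * n * h)} ∪
        {t | ∀ j ∈ Finset.range n, t ∉ F.BoxEv h (k j) (K * h) (C0 * h) s} ∪
        {t : Env | ¬ ∀ e, 0 ≤ t e} := by
      intro t _
      by_cases ht : ∀ e, 0 ≤ t e
      swap
      · exact Or.inr ht
      by_cases hb : ∀ j ∈ Finset.range n, t ∉ F.BoxEv h (k j) (K * h) (C0 * h) s
      · exact Or.inl (Or.inr hb)
      refine Or.inl (Or.inl ?_)
      push Not at hb
      obtain ⟨j, hj, x, u, hx, hu, hlt⟩ := hb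
      have hj' : (j : ℤ) + 1 ≤ n := by exact_mod_cast Finset.mem_range.1 hj
      have hb : ∀ z : ℤ, |z - k j| ≤ ((K * h : ℕ) : ℤ) →
          |z - 0| ≤ (((2 * C0 + 1 + K) * n * h : ℕ) : ℤ) := fun z hz => by
        have b1 := mul_le_mul_of_nonneg_right hj' (show (0 : ℤ) ≤ (2 * C0 + 1) * h by positivity)
        have b2 : (1 : ℤ) * (K * h) ≤ n * (K * h) :=
          mul_le_mul_of_nonneg_right (by omega) (by positivity)
        have b3 : (0 : ℤ) ≤ j * ((2 * C0 + 1) * h) := by positivity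
        have b4 : (0 : ℤ) ≤ (2 * C0 + 1) * h := by positivity
        simp only [hk] at hz
        push_cast at hz ⊢
        rw [abs_le] at hz ⊢
        constructor <;> nlinarith [hz.1, hz.2]
      have a1 := F.neg_c_le_LL t 0 h (hb x hx) (hb u hu)
      have a2 := tau_le_tauB (y := 0) ht hh (hx.trans (Int.ofNat_le.2 hKC))
        (hu.trans (Int.ofNat_le.2 hKC))
      simp only [Face.c] at a1
      show s < _
      linarith
    have u1 := measureReal_mono (μ := iidLaw G) e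
    have u2 := measureReal_union_le (μ := iidLaw G)
      ({t | s < F.LL t 0 h 0 ((2 * C0 + 1 + K) * n * h)} ∪
        {t | ∀ j ∈ Finset.range n, t ∉ F.BoxEv h (k j) (K * h) (C0 * h) s})
      {t : Env | ¬ ∀ e, 0 ≤ t e}
    have u3 := measureReal_union_le (μ := iidLaw G)
      {t | s < F.LL t 0 h 0 ((2 * C0 + 1 + K) * n * h)}
      {t | ∀ j ∈ Finset.range n, t ∉ F.BoxEv h (k j) (K * h) (C0 * h) s}
    rw [probReal_univ] at u1
    linarith
  have p3 := hw hmax W hS h n s hh hhm hn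
    (hn1.trans (mul_le_mul_of_nonneg_left p2 (Nat.cast_nonneg _)))
  have hn0 : (0 : ℝ) < n := by exact_mod_cast hn
  have p4 : 1 ≤ (C * W / s) ^ (21 / 10 : ℝ) * (n : ℝ) ^ 2 := by
    have a1 : 1 ≤ C * W / s * (n : ℝ) ^ (20 / 21 : ℝ) := by
      rw [div_mul_eq_mul_div, one_le_div hs]; exact p3
    have a2 := Real.one_le_rpow a1 (show (0 : ℝ) ≤ 21 / 10 by norm_num)
    rw [Real.mul_rpow (by positivity) (by positivity), ← Real.rpow_mul hn0.le] at a2
    norm_num at a2 ⊢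
    exact a2
  have p6 : (8 : ℝ) ≤ (8 : ℝ) ^ (21 / 10 : ℝ) := Real.self_le_rpow_of_one_le (by norm_num) (by norm_num)
  have p7 : (8 * C * W / s) ^ (21 / 10 : ℝ) = (8 : ℝ) ^ (21 / 10 : ℝ) * (C * W / s) ^ (21 / 10 : ℝ) := by
    rw [← Real.mul_rpow (by norm_num) (by positivity)]
    congr 1; ring
  rw [p7]
  have p8 : 0 ≤ (C * W / s) ^ (21 / 10 : ℝ) := by positivity
  generalize (C * W / s) ^ (21 / 10 : ℝ) = z at p4 p8
  have := mul_le_mul_of_nonneg_right p4 h0.le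
  have := mul_le_mul_of_nonneg_left hn8 p8
  have := mul_le_mul_of_nonneg_right p6 p8
  nlinarith

/-- union bound for the box error: trivial for `s ≤ C' W`; for `s ≥ 2 C W ≥ 2 C log h`: `h exp (-s/(2C)) ≤ 1`, and `exp (-x) ≤ 6/x³` -/
theorem etail_union (K : ℕ) {C : ℝ} (hC : 0 < C) : ∃ C' > 0, ∀ (h : ℕ) (W s : ℝ) (Z : ℤ → Env → ℝ),
    1 ≤ h → 1 ≤ W → Real.log h ≤ W → 0 < s → (∀ x, ETail (iidLaw G) C (Z x)) →
      (iidLaw G).real {t | ∃ x : ℤ, |x| ≤ K * h ∧ s < Z x t} ≤ (C' * W / s) ^ (21 / 10 : ℝ) := by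
  set C' : ℝ := 2 * C + 48 * (2 * K + 1) * C ^ 4 + 1 with hC'
  have c0 : 0 ≤ 48 * (2 * K + 1) * C ^ 4 := by positivity
  have c1 : 1 ≤ C' := by linarith
  refine ⟨C', by linarith, fun h W s Z hh hW hl hs hZ => ?_⟩
  rcases le_or_gt 1 (C' * W / s) with h1 | h1
  · exact measureReal_le_one.trans (Real.one_le_rpow h1 (by norm_num))
  have hh' : (1 : ℝ) ≤ h := by exact_mod_cast hh
  have e : {t | ∃ x : ℤ, |x| ≤ K * h ∧ s < Z x t} ⊆
      ⋃ x ∈ Finset.Icc (-((K * h : ℕ) : ℤ)) (K * h : ℕ), {t | s < Z x t} := by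
    rintro t ⟨x, hx, ht⟩
    simp only [Set.mem_iUnion]
    refine ⟨x, Finset.mem_Icc.2 ?_, ht⟩
    push_cast
    exact abs_le.1 hx
  have p1 : (iidLaw G).real {t | ∃ x : ℤ, |x| ≤ K * h ∧ s < Z x t} ≤
      (2 * (K * h) + 1) * (C * Real.exp (-s / C)) := by
    refine (measureReal_mono e (measure_ne_top _ _)).trans ((measureReal_biUnion_finset_le _ _).trans ?_)
    refine (Finset.sum_le_card_nsmul _ _ _ fun x _ => (hZ x).2.2 s hs.le).trans ?_
    rw [nsmul_eq_mul, Int.card_Icc]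
    refine le_of_eq ?_
    congr 1
    have : (((K * h : ℕ) : ℤ) + 1 - -((K * h : ℕ) : ℤ)).toNat = 2 * (K * h) + 1 := by omega
    rw [this]; push_cast; ring
  rw [div_lt_one hs] at h1
  set z : ℝ := s / (2 * C) with hz
  have hz0 : 0 < z := by positivity
  have hzW : W ≤ z := by
    rw [hz, le_div_iff₀ (by positivity)]
    nlinarith
  have e1 : Real.exp (-s / C) = Real.exp (-z) * Real.exp (-z) := by
    rw [← Real.exp_add]; congr 1; rw [hz]; field_simp; ring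
  have e2 : h * Real.exp (-z) ≤ 1 := by
    have : Real.exp (-z) ≤ Real.exp (-Real.log h) := Real.exp_le_exp.2 (by linarith)
    rw [Real.exp_neg (Real.log h), Real.exp_log (by linarith)] at this
    calc _ ≤ h * (h : ℝ)⁻¹ := mul_le_mul_of_nonneg_left this (by linarith)
      _ = 1 := mul_inv_cancel₀ (by linarith)
  have e3 : Real.exp (-z) ≤ 48 * C ^ 3 / s ^ 3 := by
    have := Real.pow_div_factorial_le_exp z hz0.le 3
    rw [Real.exp_neg, inv_le_comm₀ (Real.exp_pos _) (by positivity)]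
    refine le_trans (le_of_eq ?_) this
    rw [hz]; simp only [Nat.factorial]; field_simp; norm_num
  have e4 : (2 * (K * h) + 1) * (C * Real.exp (-s / C)) ≤ (2 * K + 1) * C * (48 * C ^ 3 / s ^ 3) := by
    have a0 := (Real.exp_pos (-z)).le
    have a1 : (2 * (K * h) + 1 : ℝ) ≤ (2 * K + 1) * h := by nlinarith
    calc _ ≤ (2 * K + 1) * h * (C * Real.exp (-s / C)) :=
          mul_le_mul_of_nonneg_right a1 (by positivity)
      _ = (2 * K + 1) * C * ((h * Real.exp (-z)) * Real.exp (-z)) := by rw [e1]; ring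
      _ ≤ (2 * K + 1) * C * (1 * (48 * C ^ 3 / s ^ 3)) :=
          mul_le_mul_of_nonneg_left (mul_le_mul e2 e3 a0 zero_le_one) (by positivity)
      _ = _ := by ring
  have e5 : (C' * W / s) ^ (3 : ℝ) ≤ (C' * W / s) ^ (21 / 10 : ℝ) :=
    Real.rpow_le_rpow_of_exponent_ge (by positivity) ((div_le_one hs).2 h1.le) (by norm_num)
  have e6 : (2 * K + 1) * C * (48 * C ^ 3 / s ^ 3) ≤ (C' * W / s) ^ (3 : ℝ) := by
    rw [show (3 : ℝ) = ((3 : ℕ) : ℝ) by norm_num, Real.rpow_natCast, div_pow, mul_div_assoc']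
    refine div_le_div_of_nonneg_right ?_ (by positivity)
    have a1 : C' ≤ C' * W := le_mul_of_one_le_right (by linarith) hW
    have a2 : C' * W ≤ (C' * W) ^ 3 := le_self_pow₀ (by linarith) (by norm_num)
    linarith
  linarith

/-- (L2)  `prob_LL0`; `box_err0`: a.e. `s < LL → BoxEv (s/2) ∨ ∃ x, s/2 < Z x` (contrapositive by `LL_le0`); `prob_boxEv`, `etail_union`;
`x^γ + y^γ ≤ (x+y)^γ` (`Real.add_rpow_le_rpow_add`). -/
theorem Face.L2 (K : ℕ) : ∃ C > 0, ∀ (hmax : ℕ) (W : ℝ), F.Scale G hmax W → ∀ (h : ℕ) (y k : ℤ) (s : ℝ),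
    1 ≤ h → h ≤ hmax → 0 < s →
      (iidLaw G).real {t | s < F.LL t y h k (K * h)} ≤ (C * W / s) ^ (21 / 10 : ℝ) := by
  obtain ⟨C0, hC0, C, hC, hbox⟩ := box_err0 hG K
  obtain ⟨C1, hC1, h1⟩ := F.prob_boxEv hG K C0 hC0
  obtain ⟨C2, hC2, h2⟩ := etail_union hG K hC
  refine ⟨2 * (C1 + C2), by positivity, fun hmax W hS h y k s hh hhm hs => ?_⟩
  have hW := hS.one_le
  rw [F.prob_LL0 hG]
  obtain ⟨Z, hZ, hae⟩ := hbox 0 0 h hh
  have hl : Real.log h ≤ W :=
    (Real.log_le_log (by exact_mod_cast hh) (by exact_mod_cast hhm)).trans hS.log_le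
  have p1 := h1 hmax W hS h (s / 2) hh hhm (by positivity)
  have p2 := h2 h W (s / 2) Z hh hW hl (by positivity) hZ
  have e : {t | s < F.LL t 0 h 0 (K * h)} ≤ᵐ[iidLaw G]
      (F.BoxEv h 0 (K * h) (C0 * h) (s / 2) ∪ {t | ∃ x : ℤ, |x| ≤ K * h ∧ s / 2 < Z x t} : Set Env) := by
    filter_upwards [hae] with t ht hlt
    by_contra hcon
    have hcon' := not_or.1 hcon
    refine absurd hlt (not_lt.2 (F.LL_le0 hs.le fun x u hx hu => ?_))
    have a1 : -(tauB t 0 h 0 (C0 * h) x u - F.a0 * ((u : ℝ) - x) - F.b0 * h) ≤ s / 2 :=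
      not_lt.1 fun h' => hcon'.1 ⟨x, u, hx, hu, h'⟩
    push_cast at hx hu
    have a2 : Z x t ≤ s / 2 := not_lt.1 fun h' => hcon'.2 ⟨x, by simpa using hx, h'⟩
    have a3 := ht.2 x u hx hu
    simp only [Face.c]
    linarith
  have p3 := (D0L2b_mono e).trans (measureReal_union_le _ _)
  have p4 := Real.add_rpow_le_rpow_add (a := C1 * W / (s / 2)) (b := C2 * W / (s / 2))
    (p := 21 / 10) (by positivity) (by positivity) (by norm_num)
  have e2 : C1 * W / (s / 2) + C2 * W / (s / 2) = 2 * (C1 + C2) * W / s := by field_simp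
  rw [e2] at p4
  linarith

/-- `mean_of_pow_tail0` -/
theorem Face.integral_LL (K : ℕ) : ∃ C > 0, ∀ (hmax : ℕ) (W : ℝ), F.Scale G hmax W → ∀ (h : ℕ) (y k : ℤ),
    1 ≤ h → h ≤ hmax → Integrable (fun t => F.LL t y h k (K * h)) (iidLaw G) ∧
      ∫ t, F.LL t y h k (K * h) ∂iidLaw G ≤ C * W := by
  obtain ⟨C, hC, hL⟩ := F.L2 hG K
  refine ⟨5 * C, by positivity, fun hmax W hS h y k hh hhm => ?_⟩
  have hW := hS.one_le
  have := mean_of_pow_tail0 (P := iidLaw G) (F.measurable_LL y h k (K * h))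
    (fun t => F.LL_nonneg t y h k _) (M := C * W) (γ := 21 / 10) (by positivity) (by norm_num)
    fun s hs => hL hmax W hS h y k s hh hhm hs
  exact ⟨this.1, this.2.trans (le_of_eq (by ring))⟩

/-- (Pos) cheap with positive probability implies cheap in mean: `c^U ≥ c ≥ -LL` a.e. (`tau_univ_le`, `neg_c_le_LL`), `L2` at `s = C1 W` with
`(C/C1)^2.1 ≤ p/4` (`C1 = 4 C / p` when `p ≤ 1`), `logc_tail` with `u0 = -C1 W`, `u1 = u + 1`, `logc_c0`, `integrable_c`. -/
theorem Face.pos_prob (K : ℕ) {p : ℝ} (hp : 0 < p) : ∃ C > 0, ∀ (hmax : ℕ) (W : ℝ), F.Scale G hmax W →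
    ∀ (h : ℕ) (ζ : ℤ) (U : Set V) (u : ℝ), 1 ≤ h → h ≤ hmax → |ζ| ≤ K * h → 0 ≤ u →
      Conn (U ∩ slabTo 0 h ζ) (0, 0) (ζ, h) → p ≤ (iidLaw G).real {t | F.c t U 0 h 0 ζ ≤ u} →
        F.ec G U h ζ ≤ C * (u + W) := by
  obtain ⟨C, hC, hL⟩ := F.L2 hG K
  refine ⟨(1 + 2 / p) * (1 + 4 * C / p), by positivity,
    fun hmax W hS h ζ U u hh hhm hζ hu hc hpu => ?_⟩
  have hW := hS.one_le
  have hp1 : p ≤ 1 := hpu.trans measureReal_le_one
  have hc' : Conn (U ∩ slabTo 0 h ζ) (0, 0) (ζ, 0 + h) := by rwa [zero_add]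
  have mX := F.measurable_c0 U 0 h 0 ζ
  have iX := F.integrable_c hG hc'
  set B : ℝ := 4 * C / p * W with hB
  have hB0 : 0 < B := by positivity
  have q0 : 1 - p / 4 ≤ (iidLaw G).real {t | -B ≤ F.c t U 0 h 0 ζ} := by
    have a1 := hL hmax W hS h 0 0 B hh hhm hB0
    have a2 : C * W / B = p / 4 := by rw [hB]; field_simp
    rw [a2] at a1
    have a3 : (p / 4) ^ (21 / 10 : ℝ) ≤ p / 4 :=
      Real.rpow_le_self_of_le_one (by positivity) (by linarith) (by norm_num)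
    have e : (Set.univ : Set Env) ≤ᵐ[iidLaw G]
        ({t | -B ≤ F.c t U 0 h 0 ζ} ∪ {t | B < F.LL t 0 h 0 (K * h)} : Set Env) := by
      filter_upwards [ae_nonneg G hG.hyp.nonneg] with t ht _
      by_cases hb : B < F.LL t 0 h 0 (K * h)
      · exact Or.inr hb
      refine Or.inl ?_
      have b1 := F.neg_c_le_LL t 0 h (k := 0) (x := 0) (u := ζ) (R := K * h) (by simp; positivity)
        (by push_cast; rwa [sub_zero])
      have b2 := tau_univ_le ht hc'
      show -B ≤ _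
      simp only [Face.c] at b1 ⊢
      linarith [not_lt.1 hb]
    have a4 := (D0L2b_mono e).trans (measureReal_union_le _ _)
    rw [probReal_univ] at a4
    linarith
  have q1 : (iidLaw G).real {t | u + 1 ≤ F.c t U 0 h 0 ζ} ≤ 1 - p := by
    have a1 := probReal_compl_eq_one_sub (μ := iidLaw G) (measurableSet_le mX (measurable_const (a := u)))
    have a2 : {t | u + 1 ≤ F.c t U 0 h 0 ζ} ⊆ {t | F.c t U 0 h 0 ζ ≤ u}ᶜ := fun t ht h' => by
      have h1 : u + 1 ≤ F.c t U 0 h 0 ζ := ht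
      have h2 : F.c t U 0 h 0 ζ ≤ u := h'
      linarith
    have a3 := measureReal_mono (μ := iidLaw G) a2
    linarith
  obtain ⟨-, i1, e1⟩ := logc_tail (iidLaw G) mX (F.logc_c0 hG U 0 h 0 ζ) (u0 := -B) (u1 := u + 1)
    (by linarith) hp hp1 q0 q1
  have e2 : F.ec G U h ζ ≤ ∫ t, (u + 1 + max (F.c t U 0 h 0 ζ - (u + 1)) 0) ∂iidLaw G :=
    integral_mono iX ((integrable_const _).add i1) fun t => by
      have := le_max_left (F.c t U 0 h 0 ζ - (u + 1)) 0
      simp only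
      linarith
  rw [integral_add (integrable_const _) i1] at e2
  simp only [integral_const, probReal_univ, one_smul] at e2
  have e3 : 2 * (u + 1 - -B) / p = 2 / p * (u + 1 + B) := by ring
  have e4 : u + 1 + B ≤ (1 + 4 * C / p) * (u + W) := by
    have : 0 ≤ 4 * C / p * u := by positivity
    rw [hB]; nlinarith
  have e5 := mul_le_mul_of_nonneg_left e4 (show 0 ≤ 1 + 2 / p by positivity)
  rw [mul_assoc]
  nlinarith

end Crest.Agent.R151
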