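import Crest.Agent.R151.D0Lpp1

/-! R151 / D0Lpp2: last passage sums of heavy tailed fields. -/

set_option autoImplicit false
open MeasureTheory ProbabilityTheory Crest.ProbabilityR.FirstPassage Filter Topology
open scoped ENNReal

namespace Crest.Agent.R151

theorem D0Lpp2_series {Ω : Type} [MeasurableSpace Ω] (P : Measure Ω) (f : ℕ → Ω → ℝ) (c : ℕ → ℝ)
    (hm : ∀ j, Measurable (f j)) (h0 : ∀ j t, 0 ≤ f j t) (hi : ∀ j, Integrable (f j) P)
    (hc : ∀ j, ∫ t, f j t ∂P ≤ c j) (hs : Summable c) :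
    ∃ g : Ω → ℝ, Measurable g ∧ (∀ t, 0 ≤ g t) ∧ Integrable g P ∧ ∫ t, g t ∂P ≤ ∑' j, c j ∧
      ∀ᵐ t ∂P, ∀ J : Finset ℕ, ∑ j ∈ J, f j t ≤ g t := by
  have hc0 : ∀ j, 0 ≤ c j := fun j => (integral_nonneg (h0 j)).trans (hc j)
  have m1 : ∀ j, Measurable fun t => ENNReal.ofReal (f j t) := fun j => (hm j).ennreal_ofReal
  have m2 : Measurable fun t => ∑' j, ENNReal.ofReal (f j t) := Measurable.ennreal_tsum m1
  have b1 : ∫⁻ t, ∑' j, ENNReal.ofReal (f j t) ∂P ≤ ENNReal.ofReal (∑' j, c j) := by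
    rw [lintegral_tsum fun j => (m1 j).aemeasurable, ENNReal.ofReal_tsum_of_nonneg hc0 hs]
    refine ENNReal.tsum_le_tsum fun j => ?_
    rw [← ofReal_integral_eq_lintegral_ofReal (hi j) (Eventually.of_forall (h0 j))]
    exact ENNReal.ofReal_le_ofReal (hc j)
  have b2 : ∫⁻ t, ∑' j, ENNReal.ofReal (f j t) ∂P ≠ ⊤ := ne_top_of_le_ne_top ENNReal.ofReal_ne_top b1
  have b3 := ae_lt_top m2 b2
  refine ⟨fun t => (∑' j, ENNReal.ofReal (f j t)).toReal, m2.ennreal_toReal, fun t => ENNReal.toReal_nonneg,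
    integrable_toReal_of_lintegral_ne_top m2.aemeasurable b2, ?_, b3.mono fun t ht J => ?_⟩
  · rw [integral_toReal m2.aemeasurable b3]
    exact ENNReal.toReal_le_of_le_ofReal (tsum_nonneg hc0) b1
  · rw [← ENNReal.ofReal_le_iff_le_toReal ht.ne, ENNReal.ofReal_sum_of_nonneg fun j _ => h0 j t]
    exact ENNReal.sum_le_tsum J

/-- thresholds `0, s, 2 s, 4 s, …` -/
noncomputable def D0Lpp2_thr (s : ℝ) : ℕ → ℝ
  | 0 => 0
  | j + 1 => 2 ^ j * s

theorem D0Lpp2_layer {s x : ℝ} (hs : 0 < s) (hx : 0 < x) : ∃ j, D0Lpp2_thr s j < x ∧ x ≤ 2 ^ j * s := by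
  have hex : ∃ j : ℕ, x ≤ 2 ^ j * s := by
    obtain ⟨j, hj⟩ := pow_unbounded_of_one_lt (x / s) (one_lt_two (α := ℝ))
    exact ⟨j, ((div_lt_iff₀ hs).1 hj).le⟩
  classical
  refine ⟨Nat.find hex, ?_, Nat.find_spec hex⟩
  rcases h : Nat.find hex with _ | j
  · exact hx
  · exact not_le.1 (Nat.find_min hex (by omega))

variable {G : Measure ℝ} [IsProbabilityMeasure G] [NullSingletonClass G]

/-- (LPP) rows are independent, no assumption inside a row.  Put `s0 = M π0^(-1/γ)`.  Pointwise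
`Φ ≤ s0 1{0 < Φ} + ∑' j, 2^(j+1) s0 1{2^j s0 < Φ}`, and `P (2^j s0 < Φ) ≤ π0 2^(-jγ)`.  Let `g0`, `gj j` be given by `lpp_count` for these events
(the hypothesis on `k` is `LAdm n (β * n) k`), `g = s0 g0 + (∑' j, ofReal (2^(j+1) s0 gj j)).toReal`; `lintegral_tsum`;
`E g ≤ 15 n √β s0 √π0 (1 + 2 ∑ (2^(1-γ/2))^j)`, `s0 √π0 = M π0^(1/2 - 1/γ)`; the series is finite a.e. (`ae_lt_top`). -/
theorem lpp_field {γ : ℝ} (hγ : 2 < γ) : ∃ C > 0, ∀ (Φ : ℕ → ℤ → Env → ℝ) (U : ℕ → Set (Sym2 V)),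
    (∀ i k, Measurable (Φ i k)) → (∀ i k t, 0 ≤ Φ i k t) → (∀ i k, DependsOnly (Φ i k) (U i)) →
    (Pairwise fun i j => Disjoint (U i) (U j)) → ∀ M π0 : ℝ, 0 < M → 0 < π0 → π0 ≤ 1 →
    (∀ i k, (iidLaw G).real {t | 0 < Φ i k t} ≤ π0) →
    (∀ i k s, 0 < s → (iidLaw G).real {t | s < Φ i k t} ≤ (M / s) ^ γ) → ∀ (n : ℕ) (β : ℝ), 1 ≤ β →
      ∃ g : Env → ℝ, Measurable g ∧ (∀ t, 0 ≤ g t) ∧ Integrable g (iidLaw G) ∧
        ∫ t, g t ∂iidLaw G ≤ C * n * √β * M * π0 ^ (1 / 2 - 1 / γ) ∧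
        ∀ᵐ t ∂iidLaw G, ∀ k : ℕ → ℤ,
          (|k 0| : ℝ) + ∑ i ∈ Finset.range (n - 1), (|k (i + 1) - k i| : ℝ) ≤ β * n →
            ∑ i ∈ Finset.range n, Φ i (k i) t ≤ g t := by
  classical
  obtain ⟨ρ, hρ⟩ : ∃ ρ : ℝ, ρ = (2 : ℝ) ^ (-γ / 2) := ⟨_, rfl⟩
  have hρ0 : 0 < ρ := by rw [hρ]; positivity
  have hρ1 : 2 * ρ < 1 := by
    rw [hρ, ← Real.rpow_one_add' zero_le_two (by linarith)]
    exact Real.rpow_lt_one_of_one_lt_of_neg one_lt_two (by linarith)
  have hρ2 : ρ ^ 2 = (1 / 2 : ℝ) ^ γ := by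
    rw [hρ, ← Real.rpow_natCast, ← Real.rpow_mul zero_le_two, one_div, Real.inv_rpow zero_le_two,
      ← Real.rpow_neg zero_le_two]
    congr 1
    push_cast
    ring
  have hγ0 : 0 < γ := by linarith
  refine ⟨15 / ρ * (1 - 2 * ρ)⁻¹, by have := sub_pos.2 hρ1; positivity,
    fun Φ U hm h0 hU hd M π0 hM hπ0 _ hp0 hp n β hβ => ?_⟩
  obtain ⟨s, hs⟩ : ∃ s : ℝ, s = M * π0 ^ (-1 / γ) := ⟨_, rfl⟩
  have hs0 : 0 < s := by rw [hs]; positivity
  have e1 : (M / s) ^ γ = π0 := by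
    rw [hs, ← div_div, div_self hM.ne', one_div, ← Real.rpow_neg hπ0.le, ← Real.rpow_mul hπ0.le]
    rw [show -(-1 / γ) * γ = 1 by field_simp, Real.rpow_one]
  have e2 : s * √π0 = M * π0 ^ (1 / 2 - 1 / γ) := by
    rw [hs, Real.sqrt_eq_rpow, mul_assoc, ← Real.rpow_add hπ0]
    congr 2
    ring
  have key : ∀ j : ℕ, ∃ g : Env → ℝ, Measurable g ∧ (∀ t, 0 ≤ g t) ∧ Integrable g (iidLaw G) ∧
      ∫ t, g t ∂iidLaw G ≤ 15 * n * √(β * (π0 * (ρ ^ j / ρ) ^ 2)) ∧ ∀ t k, LAdm n (β * n) k →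
        (((Finset.range n).filter fun i => t ∈ {t | D0Lpp2_thr s j < Φ i (k i) t}).card : ℝ) ≤ g t :=
    fun j => by
      have := lpp_count G (fun i k => {t | D0Lpp2_thr s j < Φ i k t}) U
        (fun i k => measurableSet_lt measurable_const (hm i k))
        (fun i k t t' h => by simp only [Set.mem_ofPred_eq, hU i k t t' h]) hd
        (π := π0 * (ρ ^ j / ρ) ^ 2) (by positivity) (fun i k => ?_) hβ n
      · convert this
      · rcases j with _ | j
        · refine (hp0 i k).trans (le_mul_of_one_le_right hπ0.le (one_le_pow₀ ?_))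
          rw [pow_zero, le_div_iff₀ hρ0]
          linarith
        · refine (hp i k _ (by positivity : 0 < 2 ^ j * s)).trans (le_of_eq ?_)
          rw [pow_succ ρ j, mul_div_cancel_right₀ _ hρ0.ne', ← pow_mul, mul_comm j 2, pow_mul, hρ2, ← e1,
            Real.rpow_pow_comm (by norm_num), ← Real.mul_rpow (by positivity) (by positivity)]
          congr 1
          rw [one_div, inv_pow]
          field_simp
  choose g g1 g2 g3 g4 g5 using key
  have hβ0 : 0 ≤ β := by linarith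
  obtain ⟨f, f1, f2, f3, f4, f5⟩ := D0Lpp2_series (iidLaw G) (fun j t => 2 ^ j * s * g j t)
    (fun j => 15 / ρ * n * √β * (s * √π0) * (2 * ρ) ^ j) (fun j => (g1 j).const_mul _)
    (fun j t => by have := g2 j t; positivity) (fun j => (g3 j).const_mul _) (fun j => by
      rw [integral_const_mul]
      refine (mul_le_mul_of_nonneg_left (g4 j) (by positivity)).trans (le_of_eq ?_)
      rw [Real.sqrt_mul hβ0, Real.sqrt_mul hπ0.le, Real.sqrt_sq (by positivity), mul_pow]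
      field_simp)
    ((summable_geometric_of_lt_one (by positivity) hρ1).mul_left _)
  refine ⟨f, f1, f2, f3, f4.trans (le_of_eq ?_), f5.mono fun t ht k hk => ?_⟩
  · rw [tsum_mul_left, tsum_geometric_of_lt_one (by positivity) hρ1, e2]
    ring
  · have hj : ∀ i, ∃ j : ℕ, Φ i (k i) t ≤ if D0Lpp2_thr s j < Φ i (k i) t then 2 ^ j * s else 0 := fun i => by
      rcases (h0 i (k i) t).eq_or_lt with h | h
      · exact ⟨0, by rw [← h]; split_ifs <;> positivity⟩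
      · obtain ⟨j, a1, a2⟩ := D0Lpp2_layer hs0 h
        exact ⟨j, by rwa [if_pos a1]⟩
    choose J hJ using hj
    refine le_trans ?_ (ht ((Finset.range n).image J))
    calc _ ≤ ∑ i ∈ Finset.range n, ∑ j ∈ (Finset.range n).image J,
          if D0Lpp2_thr s j < Φ i (k i) t then 2 ^ j * s else 0 := Finset.sum_le_sum fun i hi =>
          (hJ i).trans (Finset.single_le_sum (f := fun j => if D0Lpp2_thr s j < Φ i (k i) t then 2 ^ j * s else 0)
            (fun j _ => by split_ifs <;> positivity) (Finset.mem_image_of_mem J hi))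
      _ ≤ _ := by
          rw [Finset.sum_comm]
          refine Finset.sum_le_sum fun j _ => ?_
          rw [← Finset.sum_filter, Finset.sum_const, nsmul_eq_mul, mul_comm]
          exact mul_le_mul_of_nonneg_left (g5 j t k hk) (by positivity)

end Crest.Agent.R151
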