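import Crest.Agent.R151.D0Logc
import Crest.Agent.R151.D0Lpp2
import Crest.Agent.R151.D0Bias
import Crest.Agent.R151.D0L2b

/-! R151 part D0 (blueprint `BlueD`, section D0): the tools.  Interface file of the D0 sub-lead.

* `nice_gamma`: `D0Logc`;  `logc_tail`: `D0Tail`;  `lpp_field`: `D0Lpp2`;  `strat`: `D0Cat`;  `var_tau`: `D0Var`;
* `bias`, `Face.Vb_apriori`: `D0Bias`;  `Face.L1`: `D0L1`;  `Face.L2`, `Face.integral_LL`, `Face.pos_prob`: `D0L2b`.
-/
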