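import Crest.Agent.R151.D0Tail

/-! R151 / D0Var: Efron-Stein bound for minima of passage times. -/

set_option autoImplicit false
open MeasureTheory ProbabilityTheory Crest.ProbabilityR.FirstPassage Filter Topology
open scoped ENNReal

namespace Crest.Agent.R151

theorem measurable_minT (I : Finset ℤ) (hI : I.Nonempty) (S : ℤ → Set V) (x : V) (z : ℤ → V)
    (g : ℤ → ℝ) : Measurable (minT I hI S x z g) := by
  have h : Measurable (I.inf' hI fun u (t : Env) => TS t (S u) x (z u) + g u) :=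
    Finset.inf'_induction hI _ (p := fun f : Env → ℝ => Measurable f)
      (fun _ hf _ hg => hf.inf hg) fun u _ => (measurable_TS _ _ _).add_const _
  convert h using 1
  funext t
  simp only [minT, Finset.inf'_apply]

/-- resampling one weight.  Let `u` attain the minimum at `t` and `γ` be a geodesic for it (`exists_geo_of_finite`), `E` the set of its edges
(`cost_eq_sum_image`, `edge_injOn`): `minT (update t e s) ≤ cost (update t e s) γ + g u`. -/
theorem minT_update {I : Finset ℤ} (hI : I.Nonempty) {S : ℤ → Set V} {x : V} {z : ℤ → V} {g : ℤ → ℝ}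
    (hS : ∀ u ∈ I, (S u).Finite) (hc : ∀ u ∈ I, Conn (S u) x (z u)) {t : Env} (ht : ∀ e, 0 ≤ t e) :
    ∃ u ∈ I, ∃ (p : ℤ → V) (n : ℤ) (E : Finset (Sym2 V)), PathIn Set.univ p 0 n ∧
      Set.InjOn p (Set.Icc 0 n) ∧ p 0 = x ∧ (E.card : ℤ) = n ∧
      cost t p 0 n + g u = minT I hI S x z g t ∧ ∀ e s, 0 ≤ s →
        minT I hI S x z g (Function.update t e s) - minT I hI S x z g t ≤ if e ∈ E then s else 0 := by
  obtain ⟨u, hu, hmin⟩ := Finset.exists_mem_eq_inf' hI fun u => TS t (S u) x (z u) + g u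
  obtain ⟨p, n, hp, h0, hn⟩ := exists_geo_of_finite ht (hS u hu) (hc u hu)
  have hcost : cost t p 0 n + g u = minT I hI S x z g t := by
    unfold minT
    rw [hmin, hp.2.2, h0, hn]
  refine ⟨u, hu, p, n, (Finset.Ico 0 n).image (edge p), hp.1.mono (Set.subset_univ _), hp.2.1, h0,
    ?_, hcost, fun e s hs => ?_⟩
  · rw [Finset.card_image_of_injOn (by simpa using edge_injOn hp.2.1)]
    simp [hp.1.1]
  · have ht' : ∀ e', 0 ≤ Function.update t e s e' := fun e' => by
      by_cases h : e' = e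
      · subst h
        simpa using hs
      · simpa [Function.update_of_ne h] using ht e'
    have h1 : minT I hI S x z g (Function.update t e s) ≤
        TS (Function.update t e s) (S u) x (z u) + g u :=
      Finset.inf'_le (fun u => TS (Function.update t e s) (S u) x (z u) + g u) hu
    have h2 : TS (Function.update t e s) (S u) x (z u) ≤ cost (Function.update t e s) p 0 n := by
      have := TS_le_cost ht' hp.1
      rwa [h0, hn] at this
    have h3 : cost (Function.update t e s) p 0 n - cost t p 0 n ≤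
        if e ∈ (Finset.Ico 0 n).image (edge p) then s else 0 := by
      rw [cost_eq_sum_image hp.2.1, cost_eq_sum_image hp.2.1, ← Finset.sum_sub_distrib,
        ← Finset.sum_ite_eq' ((Finset.Ico 0 n).image (edge p)) e fun _ => s]
      refine Finset.sum_le_sum fun e' _ => ?_
      by_cases h : e' = e
      · subst h
        simpa using ht e'
      · simp [h]
    linarith

variable {G : Measure ℝ} [IsProbabilityMeasure G] [NullSingletonClass G]

variable (hG : Nice G)
include hG

/-- `TS ≤ cost` of a fixed path, a finite sum of weights (`measurePreserving_eval`, `hG.mom 2`) -/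
theorem memLp_TS_nice {S : Set V} {x y : V} (hc : Conn S x y) :
    MemLp (fun t => TS t S x y) 2 (iidLaw G) := by
  obtain ⟨p, i, j, hp, hi, hj⟩ := hc
  have h : MemLp (fun t : Env => ∑ k ∈ Finset.Ico i j, t (edge p k)) 2 (iidLaw G) := by
    simpa using db_memLp_sum hG 2 (Finset.Ico i j) (edge p)
  refine h.mono' (measurable_TS S x y).aestronglyMeasurable ?_
  filter_upwards [ae_nonneg G hG.hyp.nonneg] with t ht
  rw [Real.norm_of_nonneg (TS_nonneg ht)]
  have := TS_le_cost ht hp
  rwa [hi, hj] at this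

theorem memLp_minT {I : Finset ℤ} (hI : I.Nonempty) {S : ℤ → Set V} {x : V} {z : ℤ → V} (g : ℤ → ℝ)
    (hc : ∀ u ∈ I, Conn (S u) x (z u)) : MemLp (minT I hI S x z g) 2 (iidLaw G) := by
  have h : MemLp (fun t : Env => ∑ u ∈ I, ‖TS t (S u) x (z u) + g u‖) 2 (iidLaw G) :=
    memLp_finsetSum I fun u hu => ((memLp_TS_nice hG (hc u hu)).add (memLp_const (g u))).norm
  refine h.mono' (measurable_minT I hI S x z g).aestronglyMeasurable (ae_of_all _ fun t => ?_)
  obtain ⟨u, hu, hmin⟩ := Finset.exists_mem_eq_inf' hI fun u => TS t (S u) x (z u) + g u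
  unfold minT
  rw [hmin]
  exact Finset.single_le_sum (f := fun u => ‖TS t (S u) x (z u) + g u‖) (fun _ _ => norm_nonneg _) hu

/-- length of cheap self-avoiding paths: `Y = (∑' n, indicator (B n) 1).toReal`, `B n` the measurable hull (`toMeasurable`) of the event of
`long_path_cost_lower` with `n + 1`; if `cost < θ m` then `t ∈ B n` for all `n < m`, so `m ≤ Y t`. -/
theorem exists_length_bound0 : ∃ θ > (0 : ℝ), ∃ C > (0 : ℝ), ∀ x : V, ∃ Y : Env → ℝ,
    Integrable Y (iidLaw G) ∧ (∀ t, 0 ≤ Y t) ∧ ∫ t, Y t ∂iidLaw G ≤ C ∧ ∀ᵐ t ∂iidLaw G,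
      ∀ (p : ℤ → V) (m : ℤ), PathIn Set.univ p 0 m → Set.InjOn p (Set.Icc 0 m) → p 0 = x →
        (m : ℝ) ≤ max (cost t p 0 m) 0 / θ + Y t := by
  obtain ⟨θ, hθ, M, hM, h⟩ := BVar_len G hG.hyp.nonneg
  refine ⟨θ, hθ, 1 + M.toReal, by positivity, fun x => ?_⟩
  obtain ⟨H, hH, hHM, hp⟩ := h x
  have hfin : ∫⁻ t, H t ∂iidLaw G ≠ ⊤ := ne_top_of_le_ne_top hM hHM
  have hi : Integrable (fun t => (H t).toReal) (iidLaw G) :=
    integrable_toReal_of_lintegral_ne_top hH.aemeasurable hfin
  refine ⟨fun t => 1 + (H t).toReal, (integrable_const 1).add hi, fun t => by positivity, ?_, ?_⟩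
  · rw [integral_add (integrable_const 1) hi, integral_toReal hH.aemeasurable
      (ae_lt_top hH hfin)]
    have := ENNReal.toReal_mono hM hHM
    simpa using this
  · filter_upwards [ae_lt_top hH hfin, ae_nonneg G hG.hyp.nonneg] with t h1 ht p m hm hinj h0
    have h2 := ENNReal.toReal_mono (by finiteness) (hp t p m hm hinj h0)
    rw [ENNReal.toReal_add ENNReal.ofReal_ne_top h1.ne, ENNReal.toReal_ofReal (sq_nonneg _),
      ENNReal.toReal_ofReal (sq_nonneg _)] at h2
    have h3 : 0 ≤ cost t p 0 m := cost_nonneg ht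
    rw [max_eq_left h3]
    have h4 : 0 ≤ cost t p 0 m / θ := by positivity
    have h5 : 0 ≤ (H t).toReal := ENNReal.toReal_nonneg
    refine (abs_le_of_sq_le_sq' ?_ (by positivity)).2
    nlinarith [mul_nonneg h4 h5, sq_nonneg (H t).toReal]

/-- `efron_stein` with `U = I.biUnion (edgesIn (S u))`.  With `m2 = ∫ s² dG` and `H e t = ∫ s, (max (…) 0)² dG` (measurable, `≤ m2` a.e.):
`∑ e ∈ U, H e t ≤ m2 * card E = m2 * n ≤ m2 * ((minT t + B)/θ + Y t)` (`minT_update`, `exists_length_bound0`). -/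
theorem var_minT_finite : ∃ C > 0, ∀ (I : Finset ℤ) (hI : I.Nonempty) (S : ℤ → Set V) (x : V)
    (z : ℤ → V) (g : ℤ → ℝ) (B : ℝ), (∀ u ∈ I, (S u).Finite) → (∀ u ∈ I, Conn (S u) x (z u)) →
    (∀ u ∈ I, |g u| ≤ B) →
      Var[minT I hI S x z g; iidLaw G] ≤ C * (1 + B + ∫ t, minT I hI S x z g t ∂iidLaw G) := by
  classical
  obtain ⟨θ, hθ, C, hC, hY⟩ := exists_length_bound0 hG
  obtain ⟨m2, hm2⟩ : ∃ m, m = ∫ s, s ^ 2 ∂G := ⟨_, rfl⟩
  have h2 : 0 ≤ m2 := hm2 ▸ integral_nonneg fun s => sq_nonneg s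
  have i2 : Integrable (fun s : ℝ => s ^ 2) G := by simpa using hG.mom 2
  have hG0 : ∀ᵐ s ∂G, 0 ≤ s := by
    rw [ae_iff]
    simp only [not_le]
    exact hG.hyp.nonneg
  refine ⟨4 * (m2 / θ + m2 * C) + 1, by positivity, fun I hI S x z g B hS hc hg => ?_⟩
  obtain ⟨Y, hYi, hY0, hYC, hYl⟩ := hY x
  have hf := measurable_minT I hI S x z g
  have hf2 := memLp_minT hG hI g hc
  have hfi : Integrable (minT I hI S x z g) (iidLaw G) := hf2.integrable one_le_two
  have hfin : (⋃ u ∈ I, edgesIn (S u)).Finite :=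
    I.finite_toSet.biUnion fun u hu => edgesIn_finite (hS u hu)
  have hU : DependsOnly (minT I hI S x z g) hfin.toFinset := fun t t' h => by
    unfold minT
    refine Finset.inf'_congr hI rfl fun u hu => ?_
    have := dependsOnly_TS (S u) x (z u) t t' fun e he => h e (by
      rw [hfin.coe_toFinset]
      exact Set.mem_biUnion hu he)
    simp only at this
    rw [this]
  have hes := BVar_es G hfin.toFinset hf hf hf2 hf2 hU
  simp only [sub_self, ne_eq, OfNat.ofNat_ne_zero, not_false_eq_true, zero_pow, ENNReal.ofReal_zero,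
    lintegral_const, zero_mul, mul_zero, add_zero] at hes
  have key : ∀ᵐ t ∂iidLaw G, 0 ≤ minT I hI S x z g t + B ∧
      ∑ e ∈ hfin.toFinset, BVar_D G (minT I hI S x z g) e t ≤
        ENNReal.ofReal (m2 * ((minT I hI S x z g t + B) / θ + Y t)) := by
    filter_upwards [hYl, ae_nonneg G hG.hyp.nonneg] with t hl ht
    obtain ⟨u, hu, p, n, E, hp, hinj, h0, hE, hcost, hup⟩ := minT_update hI (g := g) hS hc ht
    have a1 : 0 ≤ cost t p 0 n := cost_nonneg ht
    have a2 := (abs_le.1 (hg u hu)).1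
    have a3 := hl p n hp hinj h0
    rw [max_eq_left a1] at a3
    have a4 : cost t p 0 n / θ ≤ (minT I hI S x z g t + B) / θ :=
      div_le_div_of_nonneg_right (by linarith) hθ.le
    refine ⟨by linarith, ?_⟩
    have a5 : ∀ e, BVar_D G (minT I hI S x z g) e t ≤ if e ∈ E then ENNReal.ofReal m2 else 0 := by
      intro e
      unfold BVar_D
      by_cases he : e ∈ E
      · rw [if_pos he, hm2, ofReal_integral_eq_lintegral_ofReal i2 (ae_of_all _ fun s => sq_nonneg s)]
        refine lintegral_mono_ae ?_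
        filter_upwards [hG0] with s hs
        have := hup e s hs
        rw [if_pos he] at this
        exact ENNReal.ofReal_le_ofReal (BVar_sq hs this)
      · rw [if_neg he]
        refine (lintegral_mono_ae (g := fun _ => 0) ?_).trans (by simp)
        filter_upwards [hG0] with s hs
        have := hup e s hs
        rw [if_neg he] at this
        have h3 := BVar_sq le_rfl this
        simpa using h3
    calc ∑ e ∈ hfin.toFinset, BVar_D G (minT I hI S x z g) e t
        ≤ ∑ e ∈ hfin.toFinset, if e ∈ E then ENNReal.ofReal m2 else 0 :=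
          Finset.sum_le_sum fun e _ => a5 e
      _ = ∑ e ∈ hfin.toFinset ∩ E, ENNReal.ofReal m2 := by
          rw [Finset.sum_ite_mem]
      _ ≤ ∑ e ∈ E, ENNReal.ofReal m2 := Finset.sum_le_sum_of_subset Finset.inter_subset_right
      _ = ENNReal.ofReal (m2 * n) := by
          rw [← ENNReal.ofReal_sum_of_nonneg fun _ _ => h2, Finset.sum_const, nsmul_eq_mul, mul_comm,
            ← hE, Int.cast_natCast]
      _ ≤ _ := ENNReal.ofReal_le_ofReal (mul_le_mul_of_nonneg_left (by linarith) h2)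
  have i3 : Integrable (fun t => (minT I hI S x z g t + B) / θ) (iidLaw G) :=
    (hfi.add (integrable_const B)).div_const θ
  have i4 : Integrable (fun t => m2 * ((minT I hI S x z g t + B) / θ + Y t)) (iidLaw G) :=
    (i3.add hYi).const_mul m2
  have n4 : 0 ≤ᵐ[iidLaw G] fun t => m2 * ((minT I hI S x z g t + B) / θ + Y t) := by
    filter_upwards [key] with t ht
    have := ht.1
    have := hY0 t
    change 0 ≤ m2 * _
    positivity
  have b1 : ∫⁻ t, ∑ e ∈ hfin.toFinset, BVar_D G (minT I hI S x z g) e t ∂iidLaw G ≤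
      ENNReal.ofReal (∫ t, m2 * ((minT I hI S x z g t + B) / θ + Y t) ∂iidLaw G) := by
    rw [ofReal_integral_eq_lintegral_ofReal i4 n4]
    exact lintegral_mono_ae (key.mono fun t ht => ht.2)
  have b2 : ∫ t, (minT I hI S x z g t + B) ∂iidLaw G = ∫ t, minT I hI S x z g t ∂iidLaw G + B := by
    rw [integral_add hfi (integrable_const B)]
    simp
  have b3 : 0 ≤ ∫ t, minT I hI S x z g t ∂iidLaw G + B := by
    rw [← b2]
    exact integral_nonneg_of_ae (key.mono fun t ht => ht.1)
  have b4 : ∫ t, m2 * ((minT I hI S x z g t + B) / θ + Y t) ∂iidLaw G ≤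
      m2 * ((∫ t, minT I hI S x z g t ∂iidLaw G + B) / θ + C) := by
    rw [integral_const_mul, integral_add i3 hYi, integral_div, b2]
    exact mul_le_mul_of_nonneg_left (by linarith) h2
  have b5 := hes.trans (mul_le_mul_right (b1.trans (ENNReal.ofReal_le_ofReal b4)) 4)
  rw [← ENNReal.ofReal_ofNat 4, ← ENNReal.ofReal_mul (by norm_num),
    ENNReal.ofReal_le_ofReal_iff (by positivity)] at b5
  refine b5.trans ?_
  obtain ⟨A, hA⟩ : ∃ A, A = ∫ t, minT I hI S x z g t ∂iidLaw G + B := ⟨_, rfl⟩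
  have e1 : 1 + B + ∫ t, minT I hI S x z g t ∂iidLaw G = 1 + A := by rw [hA]; ring
  rw [e1, ← hA]
  rw [← hA] at b3
  have c1 : 0 ≤ m2 / θ := by positivity
  have c2 : 0 ≤ m2 * C := by positivity
  have e2 : m2 * (A / θ + C) = m2 / θ * A + m2 * C := by ring
  rw [e2]
  nlinarith [mul_nonneg c2 b3]

/-- exhaustion by `S u ∩ ball x (n + n0)` (`eventually_conn_inter_ball`, `tendsto_TS_inter_ball`); dominated convergence for the first and
second moments (`variance_eq_sub`), dominating function `∑ u ∈ I, (TS t (S u ∩ ball x n0) x (z u) + |g u|)`. -/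
theorem var_minT : ∃ C > 0, ∀ (I : Finset ℤ) (hI : I.Nonempty) (S : ℤ → Set V) (x : V)
    (z : ℤ → V) (g : ℤ → ℝ) (B : ℝ), (∀ u ∈ I, Conn (S u) x (z u)) → (∀ u ∈ I, |g u| ≤ B) →
      Var[minT I hI S x z g; iidLaw G] ≤ C * (1 + B + ∫ t, minT I hI S x z g t ∂iidLaw G) := by
  obtain ⟨C, hC, h⟩ := var_minT_finite hG
  refine ⟨C, hC, fun I hI S x z g B hc hg => ?_⟩
  have hev : ∀ᶠ n : ℕ in atTop, ∀ u ∈ I, Conn (S u ∩ ball x n) x (z u) :=
    (eventually_all_finset I).2 fun u hu => eventually_conn_inter_ball (hc u hu) x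
  obtain ⟨n0, hn0⟩ := eventually_atTop.1 hev
  let f : ℕ → Env → ℝ := fun n => minT I hI (fun u => S u ∩ ball x n) x z g
  let D : Env → ℝ := fun t => ∑ u ∈ I, (TS t (S u ∩ ball x n0) x (z u) + |g u|)
  have hD : MemLp D 2 (iidLaw G) :=
    memLp_finsetSum I fun u hu => (memLp_TS_nice hG (hn0 n0 le_rfl u hu)).add (memLp_const _)
  have hfm : ∀ n, Measurable (f n) := fun n => measurable_minT _ _ _ _ _ _
  have hb : ∀ n, n0 ≤ n → ∀ t : Env, (∀ e, 0 ≤ t e) → |f n t| ≤ D t := fun n hn t ht => by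
    obtain ⟨u, hu, hmin⟩ := Finset.exists_mem_eq_inf' hI
      fun u => TS t (S u ∩ ball x n) x (z u) + g u
    have e1 : f n t = TS t (S u ∩ ball x n) x (z u) + g u := hmin
    have a1 : TS t (S u ∩ ball x n) x (z u) ≤ TS t (S u ∩ ball x n0) x (z u) :=
      TS_anti ht (fun v hv => ⟨hv.1, le_trans (b := (n0 : ℤ)) hv.2 (Int.ofNat_le.2 hn)⟩)
        (hn0 n0 le_rfl u hu)
    have a2 : 0 ≤ TS t (S u ∩ ball x n) x (z u) := TS_nonneg ht
    have a3 : TS t (S u ∩ ball x n0) x (z u) + |g u| ≤ D t :=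
      Finset.single_le_sum (f := fun u => TS t (S u ∩ ball x n0) x (z u) + |g u|)
        (fun u _ => add_nonneg (TS_nonneg ht) (abs_nonneg _)) hu
    rw [e1]
    refine (abs_add_le _ _).trans ?_
    rw [abs_of_nonneg a2]
    linarith
  have hlim : ∀ t : Env, (∀ e, 0 ≤ t e) →
      Tendsto (fun n => f n t) atTop (𝓝 (minT I hI S x z g t)) := fun t ht =>
    Tendsto.finset_inf'_nhds_apply hI fun u hu =>
      (tendsto_TS_inter_ball ht (hc u hu) x).add_const (g u)
  have t1 : Tendsto (fun n => ∫ t, f n t ∂iidLaw G) atTop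
      (𝓝 (∫ t, minT I hI S x z g t ∂iidLaw G)) := by
    refine tendsto_integral_filter_of_dominated_convergence D
      (Eventually.of_forall fun n => (hfm n).aestronglyMeasurable) ?_ (hD.integrable one_le_two) ?_
    · filter_upwards [eventually_ge_atTop n0] with n hn
      filter_upwards [ae_nonneg G hG.hyp.nonneg] with t ht
      exact hb n hn t ht
    · filter_upwards [ae_nonneg G hG.hyp.nonneg] with t ht
      exact hlim t ht
  have t2 : Tendsto (fun n => ∫ t, f n t ^ 2 ∂iidLaw G) atTop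
      (𝓝 (∫ t, minT I hI S x z g t ^ 2 ∂iidLaw G)) := by
    refine tendsto_integral_filter_of_dominated_convergence (fun t => D t ^ 2)
      (Eventually.of_forall fun n => ((hfm n).pow_const 2).aestronglyMeasurable) ?_
      hD.integrable_sq ?_
    · filter_upwards [eventually_ge_atTop n0] with n hn
      filter_upwards [ae_nonneg G hG.hyp.nonneg] with t ht
      rw [Real.norm_of_nonneg (sq_nonneg _), ← sq_abs]
      exact pow_le_pow_left₀ (abs_nonneg _) (hb n hn t ht) 2
    · filter_upwards [ae_nonneg G hG.hyp.nonneg] with t ht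
      exact (hlim t ht).pow 2
  rw [variance_eq_sub (memLp_minT hG hI g hc)]
  refine le_of_tendsto_of_tendsto (t2.sub (t1.pow 2)) ((t1.const_add (1 + B)).const_mul C) ?_
  filter_upwards [hev] with n hn
  have := h I hI (fun u => S u ∩ ball x n) x z g B
    (fun u _ => (ball_finite x n).inter_of_right _) hn hg
  rw [variance_eq_sub (memLp_minT hG hI g hn)] at this
  exact this

/-- Efron-Stein: `var_minT` with `I = {x}`, `g = 0`, `integral_tau_le` -/
theorem var_tau (K : ℝ) : ∃ C > 0, ∀ (N : ℕ) (x : ℤ), 1 ≤ N → (|x| : ℝ) ≤ K * N →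
    Var[fun t => tau t Set.univ 0 N 0 x; iidLaw G] ≤ C * N := by
  obtain ⟨C, hC, h⟩ := var_minT hG
  obtain ⟨C', hC', h'⟩ := integral_tau_le hG
  refine ⟨C * (1 + C' * (|K| + 1)), by positivity, fun N x hN hx => ?_⟩
  have e1 : minT {x} (Finset.singleton_nonempty x) (fun u => Set.univ ∩ slabTo 0 N u) (0, 0)
      (fun u => (u, 0 + (N : ℤ))) (fun _ => 0) = fun t => tau t Set.univ 0 N 0 x := by
    funext t
    simp only [minT, Finset.inf'_singleton, add_zero, tau]
  have h1 := h {x} (Finset.singleton_nonempty x) (fun u => Set.univ ∩ slabTo 0 N u) (0, 0)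
    (fun u => (u, 0 + (N : ℤ))) (fun _ => 0) 0 (fun u _ => conn_slabTo hN) fun u _ => by simp
  rw [e1] at h1
  have h2 := (h' 0 0 x N hN).1
  simp only [Int.cast_zero, sub_zero] at h2
  have hN' : (1 : ℝ) ≤ N := by exact_mod_cast hN
  have h3 : K * N ≤ |K| * N := mul_le_mul_of_nonneg_right (le_abs_self K) (by linarith)
  have h4 : C' * (|(x : ℝ)| + N) ≤ C' * (|K| + 1) * N := by
    rw [mul_assoc]
    exact mul_le_mul_of_nonneg_left (by linarith) hC'.le
  refine h1.trans ?_
  rw [mul_assoc]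
  exact mul_le_mul_of_nonneg_left (by linarith) hC.le

end Crest.Agent.R151
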