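import Crest.Agent.R151.D0Exp
import Crest.Agent.R151.D0Var

/-! R151 / D0Box: slab passage times restricted to a box. -/

set_option autoImplicit false
open MeasureTheory ProbabilityTheory Crest.ProbabilityR.FirstPassage Filter Topology
open scoped ENNReal

namespace Crest.Agent.R151

section det
variable {t : Env} {y k x u : ℤ} {h R : ℕ}

theorem measurable_tauB (y : ℤ) (h : ℕ) (k : ℤ) (R : ℕ) (x u : ℤ) :
    Measurable fun t => tauB t y h k R x u := (measurable_TS _ _ _).add (measurable_pi_apply _)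

theorem dependsOnly_tauB (hh : 1 ≤ h) (x : ℤ) (hu : |u - k| ≤ R) :
    DependsOnly (fun t => tauB t y h k R x u) (boxEdges y h k R) := by
  intro t t' H
  have hu' := abs_le.1 hu
  have e1 := dependsOnly_TS (box (k - R) (k + R) y (y + h - 1)) (x, y) (u, y + h - 1) t t' fun e he =>
    H e ⟨⟨fun v hv => ⟨(he v hv).2.2.1, by have := (he v hv).2.2.2; omega⟩,
      e.out.1, Sym2.out_fst_mem e, by have := (he _ (Sym2.out_fst_mem e)).2.2.2; omega⟩,
      fun v hv => ⟨(he v hv).1, (he v hv).2.1, (he v hv).2.2.1, by have := (he v hv).2.2.2; omega⟩⟩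
  have e2 := H s((u, y + h - 1), (u, y + h)) ⟨⟨fun v hv => by
      rcases Sym2.mem_iff.1 hv with rfl | rfl <;> constructor <;> dsimp only <;> omega,
      _, Sym2.mem_mk_left _ _, by dsimp only; omega⟩, fun v hv => by
      rcases Sym2.mem_iff.1 hv with rfl | rfl <;> refine ⟨?_, ?_, ?_, ?_⟩ <;> dsimp only <;> omega⟩
  exact congrArg₂ (· + ·) e1 e2

theorem boxEdges_subset : boxEdges y h k R ⊆ slabEdges y h := Set.inter_subset_left

theorem disjoint_boxEdges {y' k' : ℤ} {h' R' : ℕ} (hk : k + R < k' - R') :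
    Disjoint (boxEdges y h k R) (boxEdges y' h' k' R') := by
  refine Set.disjoint_left.2 fun e he he' => ?_
  have h1 := (he.2 _ (Sym2.out_fst_mem e)).2.1
  have h2 := (he'.2 _ (Sym2.out_fst_mem e)).1
  omega

theorem D0Box_mem {c : ℤ} (hx : |x - k| ≤ R) (h1 : y ≤ c) (h2 : c ≤ y + h - 1) :
    (x, c) ∈ box (k - R) (k + R) y (y + h - 1) := by
  have := abs_le.1 hx
  refine ⟨?_, ?_, h1, h2⟩ <;> dsimp only <;> omega

theorem D0Box_conn (hh : 1 ≤ h) (hx : |x - k| ≤ R) (hu : |u - k| ≤ R) :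
    Conn (box (k - R) (k + R) y (y + h - 1)) (x, y) (u, y + h - 1) :=
  conn_box (D0Box_mem hx le_rfl (by omega)) (D0Box_mem hu (by omega) le_rfl)

/-- `tau_eq`, `TS_anti`, `conn_box` -/
theorem tau_le_tauB (ht : ∀ e, 0 ≤ t e) (hh : 1 ≤ h) (hx : |x - k| ≤ R) (hu : |u - k| ≤ R) :
    tau t Set.univ y h x u ≤ tauB t y h k R x u := by
  rw [tau_eq ht hh, tauB]
  exact add_le_add (TS_anti ht (fun v hv => hv.2.2) (D0Box_conn hh hx hu)) le_rfl

/-- `TS_shift_box` -/
theorem tauB_shift (v : V) :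
    tauB (shift v t) y h k R x u = tauB t (y + v.2) h (k + v.1) R (x + v.1) (u + v.1) := by
  unfold tauB
  rw [TS_shift_box, shift_apply]
  have e1 : k - R + v.1 = k + v.1 - R := by ring
  have e2 : k + R + v.1 = k + v.1 + R := by ring
  have e3 : y + h - 1 + v.2 = y + v.2 + h - 1 := by ring
  have e4 : (x, y) + v = (x + v.1, y + v.2) := rfl
  have e5 : (u, y + h - 1) + v = (u + v.1, y + v.2 + h - 1) := Prod.ext rfl e3
  have e6 : (u, y + h) + v = (u + v.1, y + v.2 + h) := Prod.ext rfl (by dsimp only [Prod.snd_add]; ring)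
  rw [e1, e2, e3, e4, e5, e6]

theorem D0Box_h (ht : ∀ e, 0 ≤ t e) {r : ℕ} (hr : r ≤ R) (hx : |x - k| ≤ r) {c : ℤ} (h1 : y ≤ c)
    (h2 : c ≤ y + h - 1) : TS t (box (k - R) (k + R) y (y + h - 1)) (x, c) (k, c) ≤ hseg t (k - r) (k + r) c := by
  have hx' := abs_le.1 hx
  rcases le_total x k with h3 | h3
  · refine (TS_le_hseg ht h3 fun l a b => D0Box_mem (abs_le.2 (by omega)) h1 h2).trans ?_
    exact Finset.sum_le_sum_of_subset_of_nonneg (Finset.Ico_subset_Ico (by omega) (by omega)) fun _ _ _ => ht _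
  · rw [TS_comm]
    refine (TS_le_hseg ht h3 fun l a b => D0Box_mem (abs_le.2 (by omega)) h1 h2).trans ?_
    exact Finset.sum_le_sum_of_subset_of_nonneg (Finset.Ico_subset_Ico (by omega) (by omega)) fun _ _ _ => ht _

/-- the three-segment path through column `k` (`TS_triangle`, `TS_comm`, `TS_le_hseg`, `TS_le_vseg`) -/
theorem TS_box_le (ht : ∀ e, 0 ≤ t e) (hh : 1 ≤ h) {r : ℕ} (hr : r ≤ R) (hx : |x - k| ≤ r)
    (hu : |u - k| ≤ r) : TS t (box (k - R) (k + R) y (y + h - 1)) (x, y) (u, y + h - 1) ≤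
      hseg t (k - r) (k + r) y + vseg t k y (y + h - 1) + hseg t (k - r) (k + r) (y + h - 1) := by
  have hk : |k - k| ≤ (R : ℤ) := by simp
  have hx' : |x - k| ≤ (R : ℤ) := hx.trans (by exact_mod_cast hr)
  have hu' : |u - k| ≤ (R : ℤ) := hu.trans (by exact_mod_cast hr)
  have hy : y ≤ y + h - 1 := by omega
  have a1 := D0Box_h (y := y) (h := h) ht hr hx le_rfl hy
  have a3 := D0Box_h (y := y) (h := h) ht hr hu hy le_rfl
  rw [TS_comm] at a3
  have a2 : TS t (box (k - R) (k + R) y (y + h - 1)) (k, y) (k, y + h - 1) ≤ vseg t k y (y + h - 1) :=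
    TS_le_vseg ht hy fun l a b => D0Box_mem hk a b
  have b1 := TS_triangle ht (D0Box_conn (y := y) hh hx' hk)
    (conn_box (D0Box_mem (y := y) (h := h) hk hy le_rfl) (D0Box_mem hu' hy le_rfl))
  have b2 := TS_triangle ht (conn_box (D0Box_mem (y := y) (h := h) hx' le_rfl hy) (D0Box_mem hk le_rfl hy))
    (D0Box_conn (y := y) hh hk hk)
  linarith

/-- `tau_eq` and `le_TS` for `rows y (y+h-1)`: a path either stays in the box (`PathIn.restrict`, `TS_le_cost`) or visits a point `q` with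
`|q.1 - x| ≥ R - r`, and then costs `≥ T (x,y) q ≥ c (R - r) - z` (`cost_sub_le`, `T_le_cost`). -/
theorem tauB_le_tau (ht : ∀ e, 0 ≤ t e) (hh : 1 ≤ h) {r : ℕ} (hr : r ≤ R) (hx : |x - k| ≤ r)
    (hu : |u - k| ≤ r) {c z Y : ℝ} (hc : 0 ≤ c) (hz : 0 ≤ z)
    (hZ : ∀ q : V, c * |(q.1 : ℝ) - x| ≤ T t (x, y) q + z)
    (hY : TS t (box (k - R) (k + R) y (y + h - 1)) (x, y) (u, y + h - 1) ≤ Y) :
    tauB t y h k R x u ≤ tau t Set.univ y h x u + z + max (Y - c * ((R : ℝ) - r)) 0 := by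
  rw [tau_eq ht hh, tauB]
  have hx' := abs_le.1 hx
  have m1 := le_max_left (Y - c * ((R : ℝ) - r)) 0
  have m2 := le_max_right (Y - c * ((R : ℝ) - r)) 0
  have key : TS t (box (k - R) (k + R) y (y + h - 1)) (x, y) (u, y + h - 1) - z - max (Y - c * ((R : ℝ) - r)) 0 ≤
      TS t (rows y (y + h - 1)) (x, y) (u, y + h - 1) := by
    refine le_TS (db1_conn hh) fun p i j hp hi hj => ?_
    by_cases hb : ∀ l, i ≤ l → l ≤ j → p l ∈ box (k - R) (k + R) y (y + h - 1)
    · have := TS_le_cost ht (hp.restrict hb)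
      rw [hi, hj] at this
      linarith
    · push Not at hb
      obtain ⟨l, h1, h2, h3⟩ := hb
      have h4 := hp.2.1 l h1 h2
      have h5 : (R : ℤ) - r ≤ |(p l).1 - x| := by
        by_contra h5
        have := abs_lt.1 (not_le.1 h5)
        exact h3 ⟨by omega, by omega, h4.1, h4.2⟩
      have h6 : (R : ℝ) - r ≤ |((p l).1 : ℝ) - x| := by exact_mod_cast h5
      have h7 := T_le_cost ht (hp.sub le_rfl h1 h2)
      rw [hi] at h7
      have h8 : cost t p i l ≤ cost t p i j := cost_sub_le ht le_rfl h2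
      have h9 := hZ (p l)
      have := mul_le_mul_of_nonneg_left h6 hc
      linarith
  linarith

end det

variable {G : Measure ℝ} [IsProbabilityMeasure G] [NullSingletonClass G]

variable (hG : Nice G)
include hG

/-- `memLp_TS_nice`, `conn_box` -/
theorem integrable_tauB {y k x u : ℤ} {h R : ℕ} (hh : 1 ≤ h) (hx : |x - k| ≤ R) (hu : |u - k| ≤ R) :
    Integrable (fun t => tauB t y h k R x u) (iidLaw G) := ((memLp_TS_nice hG (D0Box_conn hh hx hu)).integrable one_le_two).add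
    ((db_memLp_eval hG 1 _).integrable (by simp))

/-- `exists_ZA0` with `A = 0`, `hseg_tail0`, `vseg_tail0`; `C0 ≥ K` with `c (C0 - K) ≥ 4 K Ch + Cv`;
`Z' x = Z (x,y) + (hseg - Ch 2Kh)⁺ + (vseg - Cv (h-1))⁺ + (hseg - Ch 2Kh)⁺` (`ETail.add`), `tauB_le_tau`, `TS_box_le`. -/
theorem box_err0 (K : ℕ) : ∃ C0 : ℕ, K ≤ C0 ∧ ∃ C > 0, ∀ (y k : ℤ) (h : ℕ), 1 ≤ h →
    ∃ Z : ℤ → Env → ℝ, (∀ x, ETail (iidLaw G) C (Z x)) ∧ ∀ᵐ t ∂iidLaw G, (∀ e, 0 ≤ t e) ∧
      ∀ x u : ℤ, |x - k| ≤ K * h → |u - k| ≤ K * h →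
        tauB t y h k (C0 * h) x u ≤ tau t Set.univ y h x u + Z x t := by
  obtain ⟨c, hc, CZ, hCZ, Z0, hZ0, hZ⟩ := exists_ZA0 hG (A := 0) (symNorm_mu G hG.hyp).one_pos0
  obtain ⟨Ch, hCh, hh⟩ := hseg_tail0 hG
  obtain ⟨Cv, hCv, hv⟩ := vseg_tail0 hG
  obtain ⟨n, hn⟩ := exists_nat_ge ((4 * K * Ch + Cv) / c)
  rw [div_le_iff₀ hc] at hn
  refine ⟨K + n, Nat.le_add_right _ _, 2 * (2 * (2 * (CZ + Ch) + Cv) + Ch), by positivity, fun y k h h1 => ?_⟩
  have a1 : k - (K * h : ℕ) ≤ k + (K * h : ℕ) := by omega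
  refine ⟨_, fun x => ((((hZ0 (x, y)).add hCZ hCh (hh _ _ y a1)).add (by positivity) hCv
    (hv k y (y + h - 1) (by omega))).add (by positivity) hCh (hh _ _ (y + h - 1) a1)), ?_⟩
  filter_upwards [hZ] with t ht
  refine ⟨ht.1, fun x u hx hu => ?_⟩
  have hr : K * h ≤ (K + n) * h := Nat.mul_le_mul_right _ (Nat.le_add_right _ _)
  have hx' : |x - k| ≤ (K * h : ℕ) := by push_cast; exact hx
  have hu' : |u - k| ≤ (K * h : ℕ) := by push_cast; exact hu
  have h2 := tauB_le_tau ht.1 h1 hr hx' hu' hc.le ((hZ0 (x, y)).2.1 t)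
    (fun q => by simpa using ht.2 (x, y) q) (TS_box_le ht.1 h1 hr hx' hu')
  refine h2.trans ?_
  have h3 : (1 : ℝ) ≤ h := by exact_mod_cast h1
  have h4 := mul_le_mul_of_nonneg_right hn (zero_le_one.trans h3)
  have key : ∀ A B D a b d e : ℝ, a + b + d ≤ e →
      max (A + B + D - e) 0 ≤ max (A - a) 0 + max (B - b) 0 + max (D - d) 0 := fun A B D a b d e he =>
    max_le (by linarith [le_max_left (A - a) 0, le_max_left (B - b) 0, le_max_left (D - d) 0]) (by positivity)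
  rw [add_assoc, add_assoc (Z0 (x, y) t), add_assoc (Z0 (x, y) t)]
  refine add_le_add le_rfl (add_le_add le_rfl (key _ _ _ _ _ _ _ ?_))
  push_cast
  nlinarith

end Crest.Agent.R151
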