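import Crest.Agent.R151.DBasic

/-! R151 part D0 (sub-lead helper3): definitions shared by the files `D0*.lean`.  DO NOT CHANGE. -/

set_option autoImplicit false
open MeasureTheory ProbabilityTheory Crest.ProbabilityR.FirstPassage Filter Topology
open scoped ENNReal

namespace Crest.Agent.R151

/-- nonnegative random variables with the tail bound `C exp (-s / C)` -/
def ETail {Ω : Type} [MeasurableSpace Ω] (P : Measure Ω) (C : ℝ) (X : Ω → ℝ) : Prop :=
  Measurable X ∧ (∀ ω, 0 ≤ X ω) ∧ ∀ s, 0 ≤ s → P.real {ω | s < X ω} ≤ C * Real.exp (-s / C)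

/-- a strategy: a bounded random end column that reads only the slab `[0,h)` -/
structure IsStrat (h : ℕ) (M : ℤ) (D : Env → ℤ) : Prop where
  meas : Measurable D
  dep : DependsOnly D (slabEdges 0 h)
  bdd : ∀ t, |D t| ≤ M

/-- mean displacement of a strategy -/
noncomputable def sMean (G : Measure ℝ) (D : Env → ℤ) : ℝ := ∫ t, (D t : ℝ) ∂iidLaw G

/-- variance of the displacement of a strategy -/
noncomputable def sVar (G : Measure ℝ) (D : Env → ℤ) : ℝ :=
  ∫ t, ((D t : ℝ) - sMean G D) ^ 2 ∂iidLaw G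

/-- mean cost of a strategy -/
noncomputable def sCost (G : Measure ℝ) (h : ℕ) (D : Env → ℤ) : ℝ :=
  ∫ t, tau t Set.univ 0 h 0 (D t) ∂iidLaw G

/-- minimum of finitely many shifted passage times from the same point -/
noncomputable def minT (I : Finset ℤ) (hI : I.Nonempty) (S : ℤ → Set V) (x : V) (z : ℤ → V)
    (g : ℤ → ℝ) (t : Env) : ℝ :=
  I.inf' hI fun u => TS t (S u) x (z u) + g u

theorem icc_nonempty0 (R : ℕ) : (Finset.Icc (-(R : ℤ)) R).Nonempty :=
  ⟨0, Finset.mem_Icc.2 ⟨by omega, by omega⟩⟩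

/-- tilted0 point-to-line passage time through the slab `[y,y+n)` from `(x,y)`, displacements `≤ R` -/
noncomputable def psiT (a : ℝ) (R : ℕ) (t : Env) (y : ℤ) (n : ℕ) (x : ℤ) : ℝ :=
  (Finset.Icc (-(R : ℤ)) R).inf' (icc_nonempty0 R) fun u => tau t Set.univ y n x (x + u) - a * u

/-- its mean, for the window `K n` -/
noncomputable def ePsi (G : Measure ℝ) (a : ℝ) (K n : ℕ) : ℝ :=
  ∫ t, psiT a (K * n) t 0 n 0 ∂iidLaw G

/-- slab passage time inside the columns `k - R .. k + R` (compare `tau_eq`) -/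
noncomputable def tauB (t : Env) (y : ℤ) (h : ℕ) (k : ℤ) (R : ℕ) (x u : ℤ) : ℝ :=
  TS t (box (k - R) (k + R) y (y + h - 1)) (x, y) (u, y + h - 1) + t s((u, y + h - 1), (u, y + h))

/-- the pairs read by `tauB` -/
def boxEdges (y : ℤ) (h : ℕ) (k : ℤ) (R : ℕ) : Set (Sym2 V) :=
  slabEdges y h ∩ edgesIn (box (k - R) (k + R) y (y + h))

/-- sequences of columns of total variation `≤ L` over `n` rows -/
def LAdm (n : ℕ) (L : ℝ) (k : ℕ → ℤ) : Prop :=
  (|k 0| : ℝ) + ∑ i ∈ Finset.range (n - 1), (|k (i + 1) - k i| : ℝ) ≤ L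

end Crest.Agent.R151
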