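import Crest.Agent.R151.D0Tail

/-! R151 / D0Exp: exponential tails (edge weights, straight segments, the coercivity defect `Z`). -/

set_option autoImplicit false
open MeasureTheory ProbabilityTheory Crest.ProbabilityR.FirstPassage Filter Topology
open scoped ENNReal

namespace Crest.Agent.R151

/-- `(v.1, 0) = ½ v + ½ (v.1, -v.2)` -/
theorem SymNorm.fst_le0 {μ : ℝ × ℝ → ℝ} (h : SymNorm μ) (v : ℝ × ℝ) : μ (1, 0) * |v.1| ≤ μ v := by
  have h1 := h.add_le v (v.1, -v.2)
  rw [h.reflY, show v + (v.1, -v.2) = (2 * v.1, 0) from Prod.ext (by simp [two_mul]) (by simp),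
    db_horiz h, abs_mul, abs_two] at h1
  linarith

theorem SymNorm.one_pos0 {μ : ℝ × ℝ → ℝ} (h : SymNorm μ) : 0 < μ (1, 0) := by
  obtain ⟨c, hc, h1⟩ := h.lower
  refine lt_of_lt_of_le ?_ (h1 _)
  simpa using hc

variable {G : Measure ℝ} [IsProbabilityMeasure G] [NullSingletonClass G]

variable (hG : Nice G)
include hG

omit hG in
theorem D0Exp_edge {t : Env} (ht : ∀ e, 0 ≤ t e) :
    TS t {(0, 0), (1, 0)} (0, 0) (1, 0) = t s((0, 0), (1, 0)) := by
  have ha : Adj (0, 0) (1, 0) := by simp [adj_iff]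
  refine le_antisymm (TS_le_edge ht (by simp) (by simp) ha) (le_TS ?_ fun p i j hp hi hj => ?_)
  · simpa using (bts_edge (S := {(0, 0), (1, 0)}) (by simp) (by simp) ha).conn
  obtain ⟨k, h1, h2, h3, h4⟩ := hp.exists_first lip1_fst (c := 1) (by simp [hi]) (by simp [hj])
  have h5 : i < k := lt_of_le_of_ne h1 (by rintro rfl; simp [hi] at h3)
  have e1 : p k = (1, 0) := by
    rcases hp.2.1 k h1 h2 with h | h
    · simp [h] at h3
    · exact h
  have e2 : p (k - 1) = (0, 0) := by
    rcases hp.2.1 (k - 1) (by omega) (by omega) with h | h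
    · exact h
    · have := h4 (k - 1) (by omega) (by omega)
      rw [Set.mem_singleton_iff.1 h] at this
      simp at this
  have e3 : edge p (k - 1) = s((0, 0), (1, 0)) := by rw [edge, sub_add_cancel, e1, e2]
  rw [← e3]
  exact Finset.single_le_sum (f := fun k => t (edge p k)) (fun _ _ => ht _)
    (Finset.mem_Ico.2 ⟨by omega, by omega⟩)

omit [NullSingletonClass G] in
theorem D0Exp_law (u : ℝ) :
    (iidLaw G).real {t | u ≤ TS t {(0, 0), (1, 0)} (0, 0) (1, 0)} = G.real {s | u ≤ s} := by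
  rw [← (measurePreserving_eval G s((0, 0), (1, 0))).measureReal_preimage
    (s := {s | u ≤ s}) measurableSet_Ici.nullMeasurableSet]
  refine measureReal_congr ?_
  filter_upwards [ae_nonneg G hG.hyp.nonneg] with t ht
  change (u ≤ TS t _ _ _) = (u ≤ t _)
  rw [D0Exp_edge ht]

/-- For `S = {(0,0), (1,0)}` and `t ≥ 0`, `TS t S (0,0) (1,0) = t s((0,0),(1,0))` (`TS_le_edge`; `le_TS`: the step at the first visit of column
`1` (`PathIn.exists_first`) uses this edge).  `logc_tail` with `p = 1/2`, `u0 = 0`, `u1 = u` large (Markov, `hG.mom 1`) gives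
`G [u + k u, ∞) ≤ (3/4)^k` (`measurePreserving_eval`). -/
theorem Nice.geom_tail0 : ∃ u > (0 : ℝ), ∀ k : ℕ, G.real (Set.Ici (u + k * u)) ≤ (3 / 4) ^ k := by
  have hi : Integrable (fun s : ℝ => s) G :=
    (integrable_norm_iff measurable_id'.aestronglyMeasurable).1 (by simpa using hG.mom 1)
  set m := ∫ s, |s| ∂G + 1 with hm
  have hm0 : 0 < m := add_pos_of_nonneg_of_pos (integral_nonneg fun _ => abs_nonneg _) one_pos
  refine ⟨2 * m, by positivity, fun k => ?_⟩
  have h := (logc_tail G (X := fun s => s) measurable_id' (fun u v => by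
    simpa only [D0Exp_law hG] using hG.logc {(0, 0), (1, 0)} (0, 0) (1, 0) u v) (u0 := 0) (u1 := 2 * m)
    (p := 1 / 2) (by positivity) (by norm_num) (by norm_num) ?_ ?_).1 k
  · rw [sub_zero] at h
    exact h.trans_eq (by norm_num)
  · have := probReal_add_probReal_compl (μ := G) (s := Set.Iio 0) measurableSet_Iio
    rw [Set.compl_Iio, measureReal_def G (Set.Iio 0), hG.hyp.nonneg] at this
    change _ ≤ G.real (Set.Ici 0)
    simp only [ENNReal.toReal_zero] at this
    linarith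
  · refine (measureReal_mono fun s (hs : 2 * m ≤ s) => hs.trans (le_abs_self s)).trans
      ((markov_abs0 hi (m := m) (by linarith) (by positivity)).trans_eq ?_)
    field_simp
    norm_num

/-- with `lam = 1 / (10 u)`: `exp (lam s) ≤ exp (lam u) + ∑' k, exp (lam u (k+2)) 1{u + k u ≤ s}` and `exp (1/10) * 3/4 < 1` -/
theorem Nice.exp_mom0 : ∃ lam > (0 : ℝ), Integrable (fun s => Real.exp (lam * s)) G := by
  obtain ⟨u, hu, h⟩ := hG.geom_tail0
  refine ⟨1 / (10 * u), by positivity, ?_⟩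
  have hb : ∀ {A : Set ℝ} {b : ℝ}, MeasurableSet A → (∀ s ∈ A, s ≤ b * u) →
      IntegrableOn (fun s => Real.exp (1 / (10 * u) * s)) A G ∧
        ∫ s in A, ‖Real.exp (1 / (10 * u) * s)‖ ∂G ≤ Real.exp (b / 10) * G.real A := by
    intro A b hA hs
    have h1 : ∀ s ∈ A, ‖Real.exp (1 / (10 * u) * s)‖ ≤ Real.exp (b / 10) := fun s h => by
      rw [Real.norm_of_nonneg (Real.exp_pos _).le, Real.exp_le_exp]
      exact (mul_le_mul_of_nonneg_left (hs s h) (by positivity)).trans_eq (by field_simp)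
    exact ⟨Measure.integrableOn_of_bounded (measure_ne_top _ _) (by fun_prop)
      ((ae_restrict_iff' hA).2 (ae_of_all _ h1)), (le_abs_self _).trans
        (norm_setIntegral_le_of_norm_le_const (f := fun s => ‖Real.exp (1 / (10 * u) * s)‖)
          (measure_lt_top _ _) fun s hs => (norm_norm _).trans_le (h1 s hs))⟩
  have hk := fun k : ℕ => hb (A := Set.Ico (u + k * u) (u + (k + 1) * u)) (b := k + 2) measurableSet_Ico
    fun s hs => by linarith [hs.2]
  have hq : Real.exp (1 / 10) * (3 / 4) < 1 := by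
    have := Real.exp_bound_div_one_sub_of_interval' (x := 1 / 10) (by norm_num) (by norm_num)
    norm_num at this ⊢
    linarith
  have h1 := integrableOn_iUnion_of_summable_integral_norm (fun k => (hk k).1)
    (Summable.of_nonneg_of_le (fun k => integral_nonneg fun s => norm_nonneg (Real.exp _)) (fun k => ?_)
      ((summable_geometric_of_lt_one (by positivity) hq).mul_left (Real.exp (2 / 10))))
  · refine integrableOn_univ.1 (((hb (A := Set.Iio u) (b := 1) measurableSet_Iio fun s hs => by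
      linarith [Set.mem_Iio.1 hs]).1.union h1).mono_set fun s _ => ?_)
    rcases lt_or_ge s u with hs | hs
    · exact Or.inl hs
    refine Or.inr (Set.mem_iUnion.2 ⟨⌊(s - u) / u⌋₊, ?_, ?_⟩)
    · have := (le_div_iff₀ hu).1 (Nat.floor_le (a := (s - u) / u) (div_nonneg (by linarith) hu.le))
      linarith
    · have := (div_lt_iff₀ hu).1 (Nat.lt_floor_add_one ((s - u) / u))
      linarith
  · refine (hk k).2.trans ?_
    rw [mul_pow, ← Real.exp_nat_mul, ← mul_assoc, ← Real.exp_add,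
      show 2 / 10 + k * (1 / 10 : ℝ) = (k + 2) / 10 by ring]
    exact mul_le_mul_of_nonneg_left ((measureReal_mono Set.Ico_subset_Ici_self).trans (h k))
      (Real.exp_pos _).le

omit hG in
theorem D0Exp_exp {C c C' s : ℝ} (hc : 0 < c) (hC : 0 ≤ C) (h : C + 1 / c ≤ C') (hs : 0 ≤ s) :
    C * Real.exp (-c * s) ≤ C' * Real.exp (-s / C') := by
  have h1 : 0 < 1 / c := by positivity
  refine mul_le_mul (by linarith) (Real.exp_le_exp.2 ?_) (Real.exp_pos _).le (by linarith)
  rw [neg_mul, neg_div, neg_le_neg_iff, div_le_iff₀ (by linarith)]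
  calc s = c * s * (1 / c) := by field_simp
    _ ≤ _ := mul_le_mul_of_nonneg_left (by linarith) (by positivity)

/-- Chernoff: `M = ∫ exp (lam s) dG`, `E exp (lam ∑) = M ^ card` (`iIndepFun_eval`, `iIndepFun.mgf_sum` or induction), `C ≥ max (log M / lam) (1 / lam) 1`
(`measure_ge_le_exp_mul_mgf`). -/
theorem sum_tail0 : ∃ C > 0, ∀ E : Finset (Sym2 V),
    ETail (iidLaw G) C fun t => max (∑ e ∈ E, t e - C * E.card) 0 := by
  obtain ⟨lam, hl, hi⟩ := hG.exp_mom0
  set M := ∫ s, Real.exp (lam * s) ∂G with hM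
  have hM0 : 0 ≤ M := integral_nonneg fun _ => (Real.exp_pos _).le
  set C := 1 + 1 / lam + M / lam with hC
  refine ⟨C, by positivity, fun E => ⟨by fun_prop, fun _ => le_max_right _ _, fun s hs => ?_⟩⟩
  have h1 := measure_ge_le_exp_mul_mgf (μ := iidLaw G) (X := ∑ e ∈ E, fun t : Env => t e) (s + C * E.card)
    hl.le ((iIndepFun_eval G).integrable_exp_mul_sum (fun e => measurable_pi_apply e) fun e _ =>
      (measurePreserving_eval G e).integrable_comp_of_integrable hi)
  rw [(iIndepFun_eval G).mgf_sum (fun e => measurable_pi_apply e), Finset.prod_congr rfl (g := fun _ => M)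
    (f := fun e => mgf (fun t : Env => t e) (iidLaw G) lam) fun e _ => db_eval (f := fun s => Real.exp (lam * s)) (by fun_prop) e, Finset.prod_const] at h1
  refine (measureReal_mono fun t (ht : s < _) => ?_).trans (h1.trans ?_)
  · rcases lt_max_iff.1 ht with h | h
    · simp only [Set.mem_ofPred_eq, Finset.sum_apply]
      linarith
    · linarith
  have h2 : M ≤ Real.exp (lam * C) := by
    have : lam * C = lam + 1 + M := by rw [hC]; field_simp
    linarith [Real.add_one_le_exp (lam * C)]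
  calc _ ≤ Real.exp (-lam * (s + C * E.card)) * Real.exp (lam * C) ^ E.card := by gcongr
    _ = 1 * Real.exp (-lam * s) := by
        rw [← Real.exp_nat_mul, ← Real.exp_add, one_mul]
        congr 1
        ring
    _ ≤ _ := D0Exp_exp hl zero_le_one (by have := div_nonneg hM0 hl.le; linarith) hs

theorem D0Exp_seg : ∃ C > 0, ∀ e : ℤ → Sym2 V, Function.Injective e → ∀ a b : ℤ, a ≤ b →
    ETail (iidLaw G) C fun t => max (∑ k ∈ Finset.Ico a b, t (e k) - C * ((b : ℝ) - a)) 0 := by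
  obtain ⟨C, hC, h⟩ := sum_tail0 hG
  refine ⟨C, hC, fun e he a b hab => ?_⟩
  have h1 := h ((Finset.Ico a b).image e)
  simp only [Finset.sum_image he.injOn, Finset.card_image_of_injective _ he] at h1
  rwa [show ((Finset.Ico a b).card : ℝ) = (b : ℝ) - a by exact_mod_cast Int.card_Ico_of_le a b hab] at h1

/-- `sum_tail0` for the image of `Ico a b` under the injective map `k ↦ s((k,y),(k+1,y))` -/
theorem hseg_tail0 : ∃ C > 0, ∀ a b y : ℤ, a ≤ b →
    ETail (iidLaw G) C fun t => max (hseg t a b y - C * ((b : ℝ) - a)) 0 := by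
  obtain ⟨C, hC, h⟩ := D0Exp_seg hG
  refine ⟨C, hC, fun a b y hab => h (fun k => s((k, y), (k + 1, y))) (fun k l hkl => ?_) a b hab⟩
  simp only [Sym2.eq_iff, Prod.mk.injEq] at hkl
  omega

theorem vseg_tail0 : ∃ C > 0, ∀ x c d : ℤ, c ≤ d →
    ETail (iidLaw G) C fun t => max (vseg t x c d - C * ((d : ℝ) - c)) 0 := by
  obtain ⟨C, hC, h⟩ := D0Exp_seg hG
  refine ⟨C, hC, fun x c d hcd => h (fun k => s((x, k), (x, k + 1))) (fun k l hkl => ?_) c d hcd⟩
  simp only [Sym2.eq_iff, Prod.mk.injEq] at hkl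
  omega

/-- `Z p t = (⨆ q, ofReal ((1-ε) μ (q-p) - T t p q)).toReal`.  `{s < Z p} ⊆ {∃ q, T < (1-ε) μ - s}` (`lowLD_from`); the supremum is finite
a.e. because `{⨆ = ⊤}` lies in all these sets. -/
theorem exists_Z0 {ε : ℝ} (hε : 0 < ε) : ∃ C > 0, ∃ Z : V → Env → ℝ, (∀ p, ETail (iidLaw G) C (Z p)) ∧
    ∀ᵐ t ∂iidLaw G, ∀ p q : V, (1 - ε) * mu G (toR (q - p)) ≤ T t p q + Z p t := by
  obtain ⟨C, hC, c, hc, h⟩ := lowLD_from G hG.hyp hε
  refine ⟨C + 1 / c, by positivity, fun p t =>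
    (⨆ q : V, ENNReal.ofReal ((1 - ε) * mu G (toR (q - p)) - T t p q)).toReal,
    fun p => ⟨(Measurable.iSup fun q => (measurable_const.sub (measurable_T p q)).ennreal_ofReal).ennreal_toReal,
      fun _ => ENNReal.toReal_nonneg, fun s hs => ?_⟩, ?_⟩
  · refine (measureReal_mono fun t (ht : s < _) => ?_).trans ((h p s hs).trans
      (D0Exp_exp hc hC.le le_rfl hs))
    obtain ⟨q, hq⟩ := lt_iSup_iff.1 ((ENNReal.ofReal_lt_iff_lt_toReal hs fun h0 => by
      simp only [h0, ENNReal.toReal_top] at ht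
      linarith).2 ht)
    exact ⟨q, by linarith [(ENNReal.ofReal_lt_ofReal_iff_of_nonneg hs).1 hq]⟩
  · filter_upwards [bsh_lower1 G hG.hyp hε] with t ⟨r0, hr⟩ p q
    have h1 : (⨆ q : V, ENNReal.ofReal ((1 - ε) * mu G (toR (q - p)) - T t p q)) ≠ ⊤ :=
      ne_top_of_le_ne_top (ENNReal.ofReal_ne_top (r := ε * nrm p + r0))
        (iSup_le fun q => ENNReal.ofReal_le_ofReal (by linarith [hr p q]))
    linarith [(ENNReal.ofReal_le_iff_le_toReal h1).1 (le_iSup
      (fun q : V => ENNReal.ofReal ((1 - ε) * mu G (toR (q - p)) - T t p q)) q)]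

/-- `c = (μ₁ - max A 0)/2`, `ε = c / μ₁`, `SymNorm.fst_le0`, `ae_nonneg` -/
theorem exists_ZA0 {A : ℝ} (hA : A < mu G (1, 0)) : ∃ c > 0, ∃ C > 0, ∃ Z : V → Env → ℝ,
    (∀ p, ETail (iidLaw G) C (Z p)) ∧ ∀ᵐ t ∂iidLaw G, (∀ e, 0 ≤ t e) ∧
      ∀ p q : V, (max A 0 + c) * |(q.1 : ℝ) - p.1| ≤ T t p q + Z p t := by
  have hμ := symNorm_mu G hG.hyp
  have h1 := hμ.one_pos0
  have h2 : max A 0 < mu G (1, 0) := max_lt hA h1
  have h3 := le_max_right A 0
  obtain ⟨C, hC, Z, hZ, h⟩ := exists_Z0 hG (ε := (mu G (1, 0) - max A 0) / 2 / mu G (1, 0))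
    (div_pos (by linarith) h1)
  refine ⟨(mu G (1, 0) - max A 0) / 2, by linarith, C, hC, Z, hZ, ?_⟩
  filter_upwards [h, ae_nonneg G hG.hyp.nonneg] with t ht h0
  refine ⟨h0, fun p q => le_trans ?_ (ht p q)⟩
  have h4 := hμ.fst_le0 (toR (q - p))
  rw [show (toR (q - p)).1 = (q.1 : ℝ) - p.1 by simp [toR]] at h4
  refine le_trans (le_of_eq ?_) (mul_le_mul_of_nonneg_left h4 (sub_nonneg.2 ((div_le_one h1).2 (by linarith))))
  field_simp
  ring

end Crest.Agent.R151
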