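import Crest.Agent.R151.D0Box
import Crest.Agent.R151.D0Cat

/-! R151 / D0L1: first moment and upper tail of reduced slab passage times. -/

set_option autoImplicit false
open MeasureTheory ProbabilityTheory Crest.ProbabilityR.FirstPassage Filter Topology
open scoped ENNReal

namespace Crest.Agent.R151

variable {G : Measure ℝ} [IsProbabilityMeasure G] [NullSingletonClass G]

variable (hG : Nice G)
include hG

variable (F : Face (mu G))

omit hG [NullSingletonClass G] [IsProbabilityMeasure G] in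
theorem D0L1_add3 {f g k : Env → ℝ} (hf : Integrable f (iidLaw G)) (hg : Integrable g (iidLaw G))
    (hk : Integrable k (iidLaw G)) : ∫ t, (f t + g t + k t) ∂iidLaw G =
      ∫ t, f t ∂iidLaw G + ∫ t, g t ∂iidLaw G + ∫ t, k t ∂iidLaw G :=
  (integral_add (hf.add hg) hk).trans (by rw [← integral_add hf hg]; rfl)

omit hG in
theorem D0L1_bd {H : ℕ} (hH : 1 ≤ H) : ∃ M : ℤ, ∀ ζ : ℤ, F.Mid H ζ → |ζ| ≤ M := by
  refine ⟨⌈(|F.ξm| + F.τ1 + 1) * H⌉, fun ζ hζ => ?_⟩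
  have := (Face.Mid.abs_le0 F hH hζ).trans (Int.le_ceil _)
  exact_mod_cast this

theorem D0L1_int {X Y : Env → ℤ} (hX : Measurable X) (hY : Measurable Y) {M : ℤ}
    (bX : ∀ t, |X t| ≤ M) (bY : ∀ t, |Y t| ≤ M) (y : ℤ) {h : ℕ} (hh : 1 ≤ h) :
    Integrable (fun t => F.c t Set.univ y h (X t) (Y t)) (iidLaw G) := by
  have i1 : ∀ {Z : Env → ℤ}, Measurable Z → (∀ t, |Z t| ≤ M) →
      Integrable (fun t => (Z t : ℝ)) (iidLaw G) := fun {Z} hZ bZ =>
    Integrable.of_bound ((measurable_from_top (f := fun z : ℤ => (z : ℝ))).comp hZ).aestronglyMeasurable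
      (M : ℝ) (ae_of_all _ fun t => by rw [Real.norm_eq_abs]; exact_mod_cast bZ t)
  unfold Face.c
  exact ((integrable_tau_rand0 hG hX hY bX bY y hh).sub
    (((i1 hY bY).sub (i1 hX bX)).const_mul _)).sub (integrable_const _)

/-- mean of a connector whose random end reads an independent set of pairs -/
theorem D0L1_conn {D : Env → ℤ} (hD : Measurable D) {U : Set (Sym2 V)} (dD : DependsOnly D U) {M : ℤ}
    (bD : ∀ t, |D t| ≤ M) {y : ℤ} {H : ℕ} (hH : 1 ≤ H) (hd : Disjoint U (slabEdges y H))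
    (a b : ℤ → ℤ) (hm : ∀ t, F.Mid H (b (D t) - a (D t))) :
    Integrable (fun t => F.c t Set.univ y H (a (D t)) (b (D t))) (iidLaw G) ∧
      ∫ t, F.c t Set.univ y H (a (D t)) (b (D t)) ∂iidLaw G ≤ F.Vb G H := by
  obtain ⟨h1, h2⟩ := integral_freeze G (F := fun d t => F.c t Set.univ y H (a d) (b d)) hD
    (Finset.Icc (-M) M) (fun t => Finset.mem_Icc.2 (abs_le.1 (bD t)))
    (fun d => F.measurable_c0 _ _ _ _ _) (fun d _ => F.integrable_c hG (conn_slabTo hH)) dD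
    (fun d => F.dependsOnly_c0 _ _ _ _ _) hd
  refine ⟨h1, h2.trans_le ?_⟩
  simp only [F.integral_c hG]
  have hb : ∀ t, F.ec G Set.univ H (b (D t) - a (D t)) ≤ F.Vb G H := fun t =>
    F.ec_le_Vb hG hH le_rfl (hm t)
  calc _ ≤ ∫ _ : Env, F.Vb G H ∂iidLaw G :=
        integral_mono_of_nonneg (ae_of_all _ fun t => F.ec_nonneg hG hH _) (integrable_const _)
          (ae_of_all _ hb)
    _ = _ := by simp

/-- `0 ≤ E c(-H, H+h+H; x0, x3)` (`integral_c`, `ec_nonneg`); `c_concat0` twice at `D1 t`, `D2 t`; the connectors read the slabs `[-H,0)`, `[h,h+H)`, so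
`integral_freeze`, `integral_c`, `ec_le_Vb` bound their means by `Vb H`.  (`Mid.abs_le0` bounds `D1, D2`; `integrable_tau_rand0`.) -/
theorem Face.sandwich0 {h H : ℕ} (hh : 1 ≤ h) (hH : 1 ≤ H) {D1 D2 : Env → ℤ} (m1 : Measurable D1)
    (m2 : Measurable D2) (d1 : DependsOnly D1 (slabEdges 0 h)) (d2 : DependsOnly D2 (slabEdges 0 h))
    {x0 x3 : ℤ} (c1 : ∀ t, F.Mid H (D1 t - x0)) (c2 : ∀ t, F.Mid H (x3 - D2 t)) :
    Integrable (fun t => F.c t Set.univ 0 h (D1 t) (D2 t)) (iidLaw G) ∧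
      -(2 * F.Vb G H) ≤ ∫ t, F.c t Set.univ 0 h (D1 t) (D2 t) ∂iidLaw G := by
  have hμ := symNorm_mu G hG.hyp
  obtain ⟨M, hM⟩ := D0L1_bd F hH
  have b1 : ∀ t, |D1 t| ≤ M + |x0| + |x3| := fun t => by
    have := hM _ (c1 t)
    have h2 := abs_add_le (D1 t - x0) x0
    rw [sub_add_cancel] at h2
    linarith [abs_nonneg x3]
  have b2 : ∀ t, |D2 t| ≤ M + |x0| + |x3| := fun t => by
    have := hM _ (c2 t)
    have h2 := abs_sub x3 (x3 - D2 t)
    rw [sub_sub_cancel] at h2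
    linarith [abs_nonneg x0]
  have i0 := D0L1_int hG F m1 m2 b1 b2 0 hh
  refine ⟨i0, ?_⟩
  obtain ⟨i1, e1⟩ := D0L1_conn hG F m1 d1 b1 (y := -(H : ℤ)) hH
    (disjoint_slabEdges (by simp)).symm (fun _ => x0) id c1
  obtain ⟨i2, e2⟩ := D0L1_conn hG F m2 d2 b2 (y := (h : ℤ)) hH
    (disjoint_slabEdges (by simp)) id (fun _ => x3) c2
  have hT : 1 ≤ H + (h + H) := by omega
  have e0 : 0 ≤ ∫ t, F.c t Set.univ (-(H : ℤ)) (H + (h + H)) x0 x3 ∂iidLaw G := by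
    rw [F.integral_c hG]; exact F.ec_nonneg hG hT _
  have e3 : ∫ t, F.c t Set.univ (-(H : ℤ)) (H + (h + H)) x0 x3 ∂iidLaw G ≤
      ∫ t, (F.c t Set.univ (-(H : ℤ)) H x0 (D1 t) + F.c t Set.univ 0 h (D1 t) (D2 t) +
        F.c t Set.univ h H (D2 t) x3) ∂iidLaw G := by
    refine integral_mono_ae (F.integrable_c hG (conn_slabTo hT)) ((i1.add i0).add i2) ?_
    filter_upwards [ae_nonneg G hG.hyp.nonneg] with t ht
    have a1 := F.c_concat0 ht (-(H : ℤ)) hH (h2 := h + H) (by omega) x0 (D1 t) x3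
    have a2 := F.c_concat0 ht 0 hh hH (D1 t) (D2 t) x3
    rw [neg_add_cancel] at a1
    rw [zero_add] at a2
    linarith
  simp only [id] at e1 e2 i1 i2
  rw [D0L1_add3 i1 i0 i2] at e3
  linarith

/-- `C0, Z` from `box_err0 K`, `L = (2 C0 + 1) h`, `H = C2 h` with `τ1 C2 ≥ 2 C0 + 1`.  `X1 = tauB t 0 h 0 (C0 h) 0 ζ - a0 ζ - b0 h`,
`X2 = tauB t 0 h L (C0 h) L (L + ζ) - a0 ζ - b0 h` (independent: `disjoint_boxEdges`), `A = {X1 < 0}`, `D1 = if X1 < 0 then 0 else L`, `D2 = D1 + ζ`,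
`x0 = -⌊ξm H⌋`, `x3 = ζ + L + ⌊ξm H⌋`.  `sandwich0`: `-2V ≤ E[X1; A] + P(Aᶜ) E X2` (`tau_le_tauB`, `integral_indicator_indep0`), `0 ≤ ec ≤ E X2 ≤ ec + C`, so
`E X1⁻ ≤ 2V + ec + C`; `c ≥ X1 - Z 0`, `|c| = c + 2 c⁻`, `V ≥ 1`. -/
theorem Face.L1_abs (K : ℕ) : ∃ C > 0, ∃ C2 : ℕ, 1 ≤ C2 ∧ ∀ (h : ℕ) (ζ : ℤ), 1 ≤ h → |ζ| ≤ K * h →
    ∫ t, |F.c t Set.univ 0 h 0 ζ| ∂iidLaw G ≤ 3 * F.ec G Set.univ h ζ + C * F.Vb G (C2 * h) := by
  have hμ := symNorm_mu G hG.hyp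
  have hτ := F.τ1_pos hμ
  obtain ⟨C0, hC0, C, hC, hbox⟩ := box_err0 hG K
  obtain ⟨C', hC', hmom⟩ := etail_moments (P := iidLaw G) hC
  obtain ⟨C2, hC2⟩ := exists_nat_ge ((2 * C0 + 1) / F.τ1)
  refine ⟨4 + 4 * C', by positivity, C2 + 1, by omega, fun h ζ hh hζ => ?_⟩
  have hc : (2 * C0 + 1 : ℝ) ≤ F.τ1 * ((C2 + 1 : ℕ) : ℝ) := by
    rw [div_le_iff₀ hτ] at hC2
    push_cast
    nlinarith
  generalize hc' : C2 + 1 = c at hc
  have hc1 : 1 ≤ c := by omega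
  set H : ℕ := c * h with hHdef
  have hH : 1 ≤ H := Nat.mul_pos hc1 hh
  set L : ℤ := (2 * C0 + 1) * h with hL
  have hh' : (1 : ℤ) ≤ h := by exact_mod_cast hh
  have hR : |ζ| ≤ ((C0 * h : ℕ) : ℤ) := by
    push_cast
    exact hζ.trans (mul_le_mul_of_nonneg_right (by exact_mod_cast hC0) (by omega))
  have hK0 : (0 : ℤ) ≤ K * h := by positivity
  obtain ⟨Z1, hZ1, ae1⟩ := hbox 0 0 h hh
  obtain ⟨Z2, hZ2, ae2⟩ := hbox 0 L h hh
  set X1 : Env → ℝ := fun t => tauB t 0 h 0 (C0 * h) 0 ζ - (F.a0 * ζ + F.b0 * h) with hX1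
  set X2 : Env → ℝ := fun t => tauB t 0 h L (C0 * h) L (L + ζ) - (F.a0 * ζ + F.b0 * h) with hX2
  have r0 : ∀ k : ℤ, |k - k| ≤ ((C0 * h : ℕ) : ℤ) := fun k => by simp; positivity
  have r1 : |ζ - 0| ≤ ((C0 * h : ℕ) : ℤ) := by rwa [sub_zero]
  have r2 : |L + ζ - L| ≤ ((C0 * h : ℕ) : ℤ) := by rwa [add_sub_cancel_left]
  have mX1 : Measurable X1 := (measurable_tauB _ _ _ _ _ _).sub_const _
  have mX2 : Measurable X2 := (measurable_tauB _ _ _ _ _ _).sub_const _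
  have iX1 : Integrable X1 (iidLaw G) := (integrable_tauB hG hh (r0 0) r1).sub (integrable_const _)
  have iX2 : Integrable X2 (iidLaw G) := (integrable_tauB hG hh (r0 L) r2).sub (integrable_const _)
  have dX1 : DependsOnly X1 (boxEdges 0 h 0 (C0 * h)) := fun t t' e => by
    have := dependsOnly_tauB hh 0 r1 t t' e
    simp only [hX1] at this ⊢
    rw [this]
  have dX2 : DependsOnly X2 (boxEdges 0 h L (C0 * h)) := fun t t' e => by
    have := dependsOnly_tauB hh L r2 t t' e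
    simp only [hX2] at this ⊢
    rw [this]
  set D1 : Env → ℤ := fun t => if X1 t < 0 then 0 else L with hD1
  have mD1 : Measurable D1 :=
    Measurable.ite (measurableSet_lt mX1 measurable_const) measurable_const measurable_const
  have dD1 : DependsOnly D1 (slabEdges 0 h) := fun t t' e => by
    have := dX1 t t' fun x hx => e x (boxEdges_subset hx)
    simp only [hD1, this]
  have hm1 := F.exists_mid hμ H
  have hm2 : F.Mid H (⌊F.ξm * H⌋ + L) := by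
    have f1 := Int.floor_le (F.ξm * H)
    have f2 := Int.lt_floor_add_one (F.ξm * H)
    have f3 : (0 : ℝ) ≤ h := Nat.cast_nonneg _
    have f4 := mul_le_mul_of_nonneg_right hc f3
    have f5 : (0 : ℝ) ≤ (2 * C0 + 1) * h := by positivity
    have f6 : (H : ℝ) = c * h := by rw [hHdef]; push_cast; ring
    unfold Face.Mid
    rw [hL]
    push_cast
    rw [abs_le]
    constructor <;> nlinarith
  obtain ⟨i0, e0⟩ := F.sandwich0 hG hh hH mD1 (D2 := fun t => D1 t + ζ) (mD1.add_const ζ) dD1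
    (fun t t' e => by simp only [dD1 t t' e]) (x0 := -⌊F.ξm * H⌋) (x3 := ζ + L + ⌊F.ξm * H⌋)
    (fun t => by
      simp only [hD1]
      split_ifs
      · simpa using hm1
      · convert hm2 using 1; ring)
    (fun t => by
      simp only [hD1]
      split_ifs
      · convert hm2 using 1; ring
      · convert hm1 using 1; ring)
  set A : Set Env := {t | 0 ≤ X1 t} with hA
  have mA : MeasurableSet A := measurableSet_le measurable_const mX1
  have e1 : ∫ t, A.indicator X2 t ∂iidLaw G = (iidLaw G).real A * ∫ t, X2 t ∂iidLaw G :=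
    integral_indicator_indep0 G mA mX2 (U := boxEdges 0 h 0 (C0 * h))
      (fun t t' e => by simp only [hA, Set.mem_setOf_eq, dX1 t t' e]) dX2
      (disjoint_boxEdges (by rw [hL]; push_cast; nlinarith))
  have ic := F.integrable_c hG (U := Set.univ) (y := 0) (x := 0) (u := ζ) (conn_slabTo hh)
  have icL := F.integrable_c hG (U := Set.univ) (y := 0) (x := L) (u := L + ζ) (conn_slabTo hh)
  have ecL : ∫ t, F.c t Set.univ 0 h L (L + ζ) ∂iidLaw G = F.ec G Set.univ h ζ := by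
    rw [F.integral_c hG, add_sub_cancel_left]
  have iZ1 := (hmom _ (hZ1 0)).1.integrable one_le_two
  have iZ2 := (hmom _ (hZ2 L)).1.integrable one_le_two
  have eZ1 := (hmom _ (hZ1 0)).2.1
  have eZ2 := (hmom _ (hZ2 L)).2.1
  have hec := F.ec_nonneg hG hh ζ
  have e2 : F.ec G Set.univ h ζ ≤ ∫ t, X2 t ∂iidLaw G := by
    rw [← ecL]
    refine integral_mono_ae icL iX2 ?_
    filter_upwards [ae_nonneg G hG.hyp.nonneg] with t ht
    have := tau_le_tauB ht hh (y := 0) (r0 L) r2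
    simp only [Face.c, hX2]
    push_cast
    linarith
  have e3 : ∫ t, X2 t ∂iidLaw G ≤ F.ec G Set.univ h ζ + C' := by
    calc _ ≤ ∫ t, (F.c t Set.univ 0 h L (L + ζ) + Z2 L t) ∂iidLaw G := by
          refine integral_mono_ae iX2 (icL.add iZ2) ?_
          filter_upwards [ae2] with t ht
          have := ht.2 L (L + ζ) (by simpa using hK0) (by rwa [add_sub_cancel_left])
          simp only [Face.c, hX2]
          push_cast
          linarith
      _ ≤ _ := by rw [integral_add icL iZ2, ecL]; linarith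
  have iN : Integrable (fun t => max (-X1 t) 0) (iidLaw G) := iX1.neg.pos_part
  have e4 : ∫ t, F.c t Set.univ 0 h (D1 t) (D1 t + ζ) ∂iidLaw G ≤
      ∫ t, (A.indicator X2 t - max (-X1 t) 0) ∂iidLaw G := by
    refine integral_mono_ae i0 ((iX2.indicator mA).sub iN) ?_
    filter_upwards [ae_nonneg G hG.hyp.nonneg] with t ht
    have a1 := tau_le_tauB ht hh (y := 0) (r0 0) r1
    have a2 := tau_le_tauB ht hh (y := 0) (r0 L) r2
    by_cases hx : X1 t < 0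
    · have : t ∉ A := not_le.2 hx
      rw [Set.indicator_of_notMem this, max_eq_left (by linarith)]
      simp only [hD1, if_pos hx, Face.c, zero_add]
      simp only [hX1]
      push_cast
      linarith
    · have : t ∈ A := not_lt.1 hx
      rw [Set.indicator_of_mem this, max_eq_right (by linarith [not_lt.1 hx])]
      simp only [hD1, if_neg hx, Face.c, hX2]
      push_cast
      linarith
  rw [integral_sub (iX2.indicator mA) iN, e1] at e4
  have e5 : (iidLaw G).real A * ∫ t, X2 t ∂iidLaw G ≤ ∫ t, X2 t ∂iidLaw G :=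
    mul_le_of_le_one_left (hec.trans e2) measureReal_le_one
  have e6 : ∫ t, |F.c t Set.univ 0 h 0 ζ| ∂iidLaw G ≤
      ∫ t, (F.c t Set.univ 0 h 0 ζ + 2 * max (-X1 t) 0 + 2 * Z1 0 t) ∂iidLaw G := by
    refine integral_mono_ae ic.abs ((ic.add (iN.const_mul 2)).add (iZ1.const_mul 2)) ?_
    filter_upwards [ae1] with t ht
    have a1 := ht.2 0 ζ (by simpa using hK0) (by rwa [sub_zero])
    have a2 : X1 t ≤ F.c t Set.univ 0 h 0 ζ + Z1 0 t := by
      simp only [Face.c, hX1]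
      push_cast
      linarith
    have a3 := (hZ1 0).2.1 t
    have a4 := le_max_left (-X1 t) 0
    have a5 := le_max_right (-X1 t) 0
    rw [abs_le]
    constructor <;> linarith
  rw [D0L1_add3 ic (iN.const_mul 2) (iZ1.const_mul 2), integral_const_mul, integral_const_mul] at e6
  have e7 : ∫ t, F.c t Set.univ 0 h 0 ζ ∂iidLaw G = F.ec G Set.univ h ζ := rfl
  have e8 := F.one_le_Vb hG H
  have e9 := mul_le_mul_of_nonneg_left e8 hC'.le
  linarith

/-- (L1) with the exponential upper tail.  `L1_abs ⌈K⌉₊`, `Vb (C2 h) ≤ Vb ((C2 n) hmax) ≤ W (C2 n)^0.9 ≤ C2 W n^0.9`; `logc_exp`, `logc_c0`. -/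
theorem Face.L1 (K : ℝ) : ∃ C > 0, ∀ (hmax : ℕ) (W : ℝ), F.Scale G hmax W → ∀ (n h : ℕ) (ζ : ℤ) (U : ℝ),
    1 ≤ n → 1 ≤ h → h ≤ n * hmax → (|ζ| : ℝ) ≤ K * h → 0 ≤ U → F.ec G Set.univ h ζ ≤ U →
      ∫ t, |F.c t Set.univ 0 h 0 ζ| ∂iidLaw G ≤ C * (U + W * (n : ℝ) ^ (9 / 10 : ℝ)) ∧
      ∀ s, 0 ≤ s → (iidLaw G).real {t | s ≤ F.c t Set.univ 0 h 0 ζ} ≤
        2 * Real.exp (-s / (C * (U + W * (n : ℝ) ^ (9 / 10 : ℝ)))) := by
  obtain ⟨C, hC, C2, hC2, hL⟩ := F.L1_abs hG ⌈K⌉₊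
  refine ⟨40 * (3 + C * C2), by positivity, fun hmax W hS n h ζ U hn hh hhm hζ hU hec => ?_⟩
  have hW := hS.one_le
  have hn' : (1 : ℝ) ≤ n := by exact_mod_cast hn
  have hC2' : (1 : ℝ) ≤ C2 := by exact_mod_cast hC2
  have hp : (1 : ℝ) ≤ (n : ℝ) ^ (9 / 10 : ℝ) := Real.one_le_rpow hn' (by norm_num)
  have hζ' : |ζ| ≤ (⌈K⌉₊ : ℤ) * h := by
    have : (|ζ| : ℝ) ≤ (⌈K⌉₊ : ℝ) * h :=
      hζ.trans (mul_le_mul_of_nonneg_right (Nat.le_ceil K) (Nat.cast_nonneg _))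
    exact_mod_cast this
  have h1 := hL h ζ hh hζ'
  have h2 : F.Vb G (C2 * h) ≤ C2 * (W * (n : ℝ) ^ (9 / 10 : ℝ)) := by
    have a1 : F.Vb G (C2 * h) ≤ F.Vb G (C2 * n * hmax) :=
      F.Vb_mono hG (by rw [mul_assoc]; exact Nat.mul_le_mul_left _ hhm)
    have a2 := hS.Vb_le (C2 * n) (Nat.mul_pos hC2 hn)
    rw [Nat.cast_mul, Real.mul_rpow (by positivity) (by positivity)] at a2
    have a3 : (C2 : ℝ) ^ (9 / 10 : ℝ) ≤ C2 := Real.rpow_le_self_of_one_le hC2' (by norm_num)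
    have a4 := mul_le_mul_of_nonneg_right a3 (show 0 ≤ W * (n : ℝ) ^ (9 / 10 : ℝ) by positivity)
    linarith
  have hpos : 0 < W * (n : ℝ) ^ (9 / 10 : ℝ) := by positivity
  generalize W * (n : ℝ) ^ (9 / 10 : ℝ) = w at h2 hpos ⊢
  have h3 : ∫ t, |F.c t Set.univ 0 h 0 ζ| ∂iidLaw G ≤ (3 + C * C2) * (U + w) := by
    have a1 := mul_le_mul_of_nonneg_left h2 hC.le
    have a2 : 0 ≤ C * C2 * U := by positivity
    nlinarith
  have hm : 0 < (3 + C * C2) * (U + w) := by positivity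
  refine ⟨by linarith, fun s hs => ?_⟩
  rw [mul_assoc]
  exact logc_exp (F.measurable_c0 _ _ _ _ _) (F.logc_c0 hG _ _ _ _ _)
    (F.integrable_c hG (conn_slabTo hh)) hm h3 hs

/-- `L1` for mid-face displacements, translated (`Mid.abs_le0`, `ec_le_Vb`, `Vb_mono`, `U = W n^0.9`, `prob_c0`) -/
theorem Face.L1_mid : ∃ C > 0, ∀ (hmax : ℕ) (W : ℝ), F.Scale G hmax W → ∀ (n h : ℕ) (y x u : ℤ),
    1 ≤ n → 1 ≤ h → h ≤ n * hmax → F.Mid h (u - x) →
      ∫ t, |F.c t Set.univ 0 h 0 (u - x)| ∂iidLaw G ≤ C * W * (n : ℝ) ^ (9 / 10 : ℝ) ∧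
      ∀ s, 0 ≤ s → (iidLaw G).real {t | s ≤ F.c t Set.univ y h x u} ≤
        2 * Real.exp (-s / (C * W * (n : ℝ) ^ (9 / 10 : ℝ))) := by
  obtain ⟨C, hC, hL⟩ := F.L1 hG (|F.ξm| + F.τ1 + 1)
  refine ⟨2 * C, by positivity, fun hmax W hS n h y x u hn hh hhm hm => ?_⟩
  have hW := hS.one_le
  have := hL hmax W hS n h (u - x) (W * (n : ℝ) ^ (9 / 10 : ℝ)) hn hh hhm (Face.Mid.abs_le0 F hh hm)
    (by positivity) ((F.ec_le_Vb hG hh hhm hm).trans (hS.Vb_le n hn))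
  have e : C * (W * (n : ℝ) ^ (9 / 10 : ℝ) + W * (n : ℝ) ^ (9 / 10 : ℝ)) =
      2 * C * W * (n : ℝ) ^ (9 / 10 : ℝ) := by ring
  rw [e] at this
  refine ⟨this.1, fun s hs => ?_⟩
  rw [F.prob_c0]
  exact this.2 s hs

end Crest.Agent.R151
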