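import Crest.Agent.R151.D0L1

/-! R151 / D0L2a: harvesting one of `n` rows. -/

set_option autoImplicit false
open MeasureTheory ProbabilityTheory Crest.ProbabilityR.FirstPassage Filter Topology
open scoped ENNReal

namespace Crest.Agent.R151

/-- the geometry of the connectors -/
theorem Face.mid_rows0 {μ : ℝ × ℝ → ℝ} (hμ : SymNorm μ) (F : Face μ) (K : ℕ) : ∃ C2 : ℕ, 1 ≤ C2 ∧
    ∀ n h i : ℕ, 1 ≤ n → 1 ≤ h → i < n → ∀ x : ℤ,
      |x - ⌊F.ξm * (C2 * n * h + i * h : ℕ)⌋| ≤ (K * n * h : ℕ) →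
        F.Mid (C2 * n * h + i * h) x ∧
        F.Mid (C2 * n * h + (n - 1 - i) * h) (⌊F.ξm * (2 * C2 * n * h + n * h : ℕ)⌋ - x) := by
  have hτ := F.τ1_pos hμ
  obtain ⟨C2, hC2⟩ := exists_nat_ge ((K + |F.ξm|) / F.τ1)
  have hc : (K : ℝ) + |F.ξm| ≤ F.τ1 * ((C2 + 1 : ℕ) : ℝ) := by
    rw [div_le_iff₀ hτ] at hC2
    push_cast
    nlinarith
  refine ⟨C2 + 1, by omega, fun n h i hn hh hi x hx => ?_⟩
  generalize C2 + 1 = c at hc hx ⊢
  obtain ⟨j, rfl⟩ : ∃ j, n = i + 1 + j := ⟨n - (i + 1), by omega⟩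
  have ej : i + 1 + j - 1 - i = j := by omega
  rw [ej]
  have hx' : |(x : ℝ) - (⌊F.ξm * ((c * (i + 1 + j) * h + i * h : ℕ) : ℝ)⌋ : ℤ)| ≤
      ((K * (i + 1 + j) * h : ℕ) : ℝ) := by exact_mod_cast hx
  have f1 := Int.floor_le (F.ξm * ((c * (i + 1 + j) * h + i * h : ℕ) : ℝ))
  have f2 := Int.lt_floor_add_one (F.ξm * ((c * (i + 1 + j) * h + i * h : ℕ) : ℝ))
  have f3 := Int.floor_le (F.ξm * ((2 * c * (i + 1 + j) * h + (i + 1 + j) * h : ℕ) : ℝ))
  have f4 := Int.lt_floor_add_one (F.ξm * ((2 * c * (i + 1 + j) * h + (i + 1 + j) * h : ℕ) : ℝ))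
  unfold Face.Mid
  generalize ⌊F.ξm * ((c * (i + 1 + j) * h + i * h : ℕ) : ℝ)⌋ = k at hx' f1 f2 ⊢
  generalize ⌊F.ξm * ((2 * c * (i + 1 + j) * h + (i + 1 + j) * h : ℕ) : ℝ)⌋ = x3 at f3 f4 ⊢
  push_cast at hx' f1 f2 f3 f4 ⊢
  have hh' : (1 : ℝ) ≤ h := by exact_mod_cast hh
  have hi0 : (0 : ℝ) ≤ i := Nat.cast_nonneg _
  have hj0 : (0 : ℝ) ≤ j := Nat.cast_nonneg _
  have hK0 : (0 : ℝ) ≤ K := Nat.cast_nonneg _
  have a0 := abs_nonneg F.ξm
  have hN : (0 : ℝ) ≤ ((i : ℝ) + 1 + j) * h := by positivity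
  have b1 := mul_le_mul_of_nonneg_right hc hN
  have b2 : |F.ξm| * h ≤ |F.ξm| * (((i : ℝ) + 1 + j) * h) :=
    mul_le_mul_of_nonneg_left (by nlinarith) a0
  have b3 : 0 ≤ F.τ1 * ((i : ℝ) * h) := by positivity
  have b4 : 0 ≤ F.τ1 * ((j : ℝ) * h) := by positivity
  have b5 : F.ξm * h ≤ |F.ξm| * h := mul_le_mul_of_nonneg_right (le_abs_self _) (by linarith)
  have b6 : -F.ξm * h ≤ |F.ξm| * h := mul_le_mul_of_nonneg_right (neg_le_abs _) (by linarith)
  have b7 : 0 ≤ |F.ξm| * h := by positivity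
  rw [abs_le] at hx'
  obtain ⟨x1, x2⟩ := hx'
  refine ⟨abs_le.2 ⟨?_, ?_⟩, abs_le.2 ⟨?_, ?_⟩⟩ <;> linarith

/-- `log (40 n) ≤ C n^(11/210)` (`Real.log_le_rpow_div`), `9/10 + 11/210 = 20/21` -/
theorem log_rpow_le0 (C2 : ℕ) : ∃ C > (0 : ℝ), ∀ n : ℕ, 1 ≤ n →
    (((2 * C2 + 1) * n : ℕ) : ℝ) ^ (9 / 10 : ℝ) * (2 * Real.log (40 * n) + 10) ≤
      C * (n : ℝ) ^ (20 / 21 : ℝ) := by
  refine ⟨((2 * C2 + 1 : ℕ) : ℝ) ^ (9 / 10 : ℝ) *
    (2 * ((40 : ℝ) ^ (11 / 210 : ℝ) / (11 / 210)) + 10), by positivity, fun n hn => ?_⟩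
  have hn' : (1 : ℝ) ≤ n := by exact_mod_cast hn
  have h1 : Real.log (40 * n) ≤ (40 * (n : ℝ)) ^ (11 / 210 : ℝ) / (11 / 210) :=
    Real.log_le_rpow_div (by positivity) (by norm_num)
  rw [Real.mul_rpow (by norm_num) (by positivity)] at h1
  have h2 : (1 : ℝ) ≤ (n : ℝ) ^ (11 / 210 : ℝ) := Real.one_le_rpow hn' (by norm_num)
  have h3 : (n : ℝ) ^ (20 / 21 : ℝ) = (n : ℝ) ^ (9 / 10 : ℝ) * (n : ℝ) ^ (11 / 210 : ℝ) := by
    rw [← Real.rpow_add (by positivity)]; norm_num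
  rw [Nat.cast_mul, Real.mul_rpow (by positivity) (by positivity), h3]
  have h4 : 2 * Real.log (40 * n) + 10 ≤
      (2 * ((40 : ℝ) ^ (11 / 210 : ℝ) / (11 / 210)) + 10) * (n : ℝ) ^ (11 / 210 : ℝ) := by
    have : (40 : ℝ) ^ (11 / 210 : ℝ) * (n : ℝ) ^ (11 / 210 : ℝ) / (11 / 210) =
        (40 : ℝ) ^ (11 / 210 : ℝ) / (11 / 210) * (n : ℝ) ^ (11 / 210 : ℝ) := by ring
    nlinarith
  calc _ ≤ ((2 * C2 + 1 : ℕ) : ℝ) ^ (9 / 10 : ℝ) * (n : ℝ) ^ (9 / 10 : ℝ) *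
        ((2 * ((40 : ℝ) ^ (11 / 210 : ℝ) / (11 / 210)) + 10) * (n : ℝ) ^ (11 / 210 : ℝ)) :=
        mul_le_mul_of_nonneg_left h4 (by positivity)
    _ = _ := by ring

variable {G : Measure ℝ} [IsProbabilityMeasure G] [NullSingletonClass G]

variable (hG : Nice G)
include hG

variable (F : Face (mu G))

/-- the connectors of one row: `(x t, u t)` minimises `c(y,h;·,·)` over the window (`exists_argmin0` on `ℤ × ℤ`, reads `slabEdges y h`), so
`LL ≤ max 0 (-c (x t) (u t))` (`LL_le0`), and `prob_freeze0` with `disjoint_slabEdges`. -/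
theorem Face.row_select0 (y h h' R : ℕ) (k x3 : ℤ) {r q : ℝ}
    (h1 : ∀ x : ℤ, |x - k| ≤ R → (iidLaw G).real {t | r ≤ F.c t Set.univ 0 y 0 x} ≤ q)
    (h2 : ∀ u : ℤ, |u - k| ≤ R → (iidLaw G).real {t | r ≤ F.c t Set.univ (y + h) h' u x3} ≤ q) :
    ∃ x u : Env → ℤ, (∀ t, F.LL t y h k R ≤ max 0 (-F.c t Set.univ y h (x t) (u t))) ∧
      (iidLaw G).real {t | r ≤ F.c t Set.univ 0 y 0 (x t)} ≤ q ∧
      (iidLaw G).real {t | r ≤ F.c t Set.univ (y + h) h' (u t) x3} ≤ q := by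
  obtain ⟨D, hD, hU, hm⟩ := exists_argmin0 (Finset.Icc (k - R) (k + R) ×ˢ Finset.Icc (k - R) (k + R))
    ⟨(k, k), by simp⟩ (fun a t => F.c t Set.univ y h a.1 a.2)
    (fun a => F.measurable_c0 _ _ _ _ _) (slabEdges y h) fun a _ => F.dependsOnly_c0 _ _ _ _ _
  have hw : ∀ t, |(D t).1 - k| ≤ R ∧ |(D t).2 - k| ≤ R := fun t => by
    have := (hm t).1
    simp only [Finset.mem_product, Finset.mem_Icc] at this
    rw [abs_le, abs_le]
    omega
  refine ⟨fun t => (D t).1, fun t => (D t).2, fun t => ?_, ?_, ?_⟩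
  · refine F.LL_le0 (le_max_left _ _) fun x u hx hu => le_max_of_le_right (neg_le_neg ?_)
    refine (hm t).2 (x, u) ?_
    simp only [Finset.mem_product, Finset.mem_Icc]
    rw [abs_le] at hx hu
    omega
  · exact prob_freeze0 G (A := fun a : ℤ × ℤ => {t | r ≤ F.c t Set.univ 0 y 0 a.1}) hD
      (fun a => measurableSet_le measurable_const (F.measurable_c0 _ _ _ _ _)) hU
      (W := slabEdges 0 y)
      (fun a t t' h => by
        have := F.dependsOnly_c0 Set.univ 0 y 0 a.1 t t' h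
        simp only [Set.mem_setOf_eq] at this ⊢
        rw [this])
      (disjoint_slabEdges (by simp)).symm fun t => h1 _ (hw t).1
  · exact prob_freeze0 G (A := fun a : ℤ × ℤ => {t | r ≤ F.c t Set.univ (y + h) h' a.2 x3}) hD
      (fun a => measurableSet_le measurable_const (F.measurable_c0 _ _ _ _ _)) hU
      (W := slabEdges (y + h) h')
      (fun a t t' h => by
        have := F.dependsOnly_c0 Set.univ _ h' a.2 x3 t t' h
        simp only [Set.mem_setOf_eq] at this ⊢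
        rw [this])
      (disjoint_slabEdges le_rfl) fun t => h2 _ (hw t).2

/-- W.l.o.g. `s > 0`.  `C2` from `mid_rows0`, `H = C2 n h`, rows `y i = H + i h`, `k i = ⌊ξm y i⌋`, `Ht = 2H + n h`, `x3 = ⌊ξm Ht⌋`, `n' = (2 C2 + 1) n`,
`σ = C W n'^0.9` (`L1_mid`), `r = σ log (40 n)`, `q = 2/(40 n)`.  Bad events: some connector `≥ r` (`row_select0`, union bound: `≤ 1/10`),
`|c(0,Ht;0,x3)| ≥ 10 σ` (`markov_abs0`, `exists_mid`: `≤ 1/10`), no row with `s < LL (y i) h (k i)` (`prob_none_le0`, `prob_LL0`: `≤ exp (-1) ≤ 2/5`), some `t e < 0` (null).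
Outside them `c_concat0` twice gives `-10σ < r - s + r`; `log_rpow_le0`. -/
theorem Face.L2_wide (K : ℕ) : ∃ C > 0, ∀ (hmax : ℕ) (W : ℝ), F.Scale G hmax W → ∀ (h n : ℕ) (s : ℝ),
    1 ≤ h → h ≤ hmax → 1 ≤ n → 1 ≤ n * (iidLaw G).real {t | s < F.LL t 0 h 0 (K * n * h)} →
      s ≤ C * W * (n : ℝ) ^ (20 / 21 : ℝ) := by
  have hμ := symNorm_mu G hG.hyp
  obtain ⟨c, hc, hmid⟩ := F.mid_rows0 hμ K
  obtain ⟨C1, hC1, hL1⟩ := F.L1_mid hG
  obtain ⟨C3, hC3, hlog⟩ := log_rpow_le0 c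
  refine ⟨C1 * C3, by positivity, fun hmax W hS h n s hh hhm hn hp => ?_⟩
  have hW := hS.one_le
  have hn' : (1 : ℝ) ≤ n := by exact_mod_cast hn
  rcases le_or_gt s 0 with hs | hs
  · exact hs.trans (by positivity)
  set n' : ℕ := (2 * c + 1) * n with hn'def
  have hn'1 : 1 ≤ n' := Nat.mul_pos (by omega) hn
  set σ : ℝ := C1 * W * (n' : ℝ) ^ (9 / 10 : ℝ) with hσ
  have hσ0 : 0 < σ := by
    have : (0 : ℝ) < n' := by exact_mod_cast hn'1
    positivity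
  set r : ℝ := σ * Real.log (40 * n) with hr
  have hr0 : 0 ≤ r := mul_nonneg hσ0.le (Real.log_nonneg (by linarith))
  have hq : 2 * Real.exp (-r / σ) = 1 / (20 * n) := by
    have : -r / σ = -Real.log (40 * n) := by rw [hr]; field_simp
    rw [this, Real.exp_neg, Real.exp_log (by positivity)]
    field_simp
    norm_num
  set y : ℕ → ℕ := fun i => c * n * h + i * h with hy
  set H' : ℕ → ℕ := fun i => c * n * h + (n - 1 - i) * h with hH'
  set k : ℕ → ℤ := fun i => ⌊F.ξm * (y i : ℝ)⌋ with hk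
  set Ht : ℕ := 2 * c * n * h + n * h with hHt
  set x3 : ℤ := ⌊F.ξm * (Ht : ℝ)⌋ with hx3
  have hcnh : 1 ≤ c * n * h := Nat.mul_pos (Nat.mul_pos hc hn) hh
  have hy1 : ∀ i, 1 ≤ y i := fun i => le_add_right hcnh
  have hH1 : ∀ i, 1 ≤ H' i := fun i => le_add_right hcnh
  have hHt' : Ht ≤ n' * hmax := by
    have : Ht = n' * h := by rw [hHt, hn'def]; ring
    rw [this]; exact Nat.mul_le_mul_left _ hhm
  have hsum : ∀ i, i < n → Ht = y i + (h + H' i) := fun i hi => by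
    obtain ⟨j, hj⟩ : ∃ j, n = i + 1 + j := ⟨n - (i + 1), by omega⟩
    have ej : n - 1 - i = j := by omega
    simp only [hHt, hy, hH', ej]
    rw [hj]; ring
  have hsel : ∀ i, i < n → ∃ x u : Env → ℤ,
      (∀ t, F.LL t (y i) h (k i) (K * n * h) ≤ max 0 (-F.c t Set.univ (y i) h (x t) (u t))) ∧
      (iidLaw G).real {t | r ≤ F.c t Set.univ 0 (y i) 0 (x t)} ≤ 1 / (20 * n) ∧
      (iidLaw G).real {t | r ≤ F.c t Set.univ (y i + h) (H' i) (u t) x3} ≤ 1 / (20 * n) := by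
    intro i hi
    have := hsum i hi
    refine F.row_select0 hG (y i) h (H' i) (K * n * h) (k i) x3 (fun x hx => ?_) fun u hu => ?_
    · rw [← hq]
      exact (hL1 hmax W hS n' (y i) 0 0 x hn'1 (hy1 i) (by omega)
        (by rw [sub_zero]; exact (hmid n h i hn hh hi x hx).1)).2 r hr0
    · rw [← hq]
      exact (hL1 hmax W hS n' (H' i) _ u x3 hn'1 (hH1 i) (by omega)
        (hmid n h i hn hh hi u hu).2).2 r hr0
  choose! x u hLL hx hu using hsel
  set B1 : Set Env := ⋃ i ∈ Finset.range n, {t | r ≤ F.c t Set.univ 0 (y i) 0 (x i t)} with hB1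
  set B2 : Set Env := ⋃ i ∈ Finset.range n, {t | r ≤ F.c t Set.univ (y i + h) (H' i) (u i t) x3}
    with hB2
  set B3 : Set Env := {t | 10 * σ ≤ |F.c t Set.univ 0 Ht 0 x3|} with hB3
  set B4 : Set Env := {t | ∀ i ∈ Finset.range n,
    t ∉ {t | s < F.LL t (y i) h (k i) (K * n * h)}} with hB4
  have hun : ∀ A : ℕ → Set Env, (∀ i, i < n → (iidLaw G).real (A i) ≤ 1 / (20 * n)) →
      (iidLaw G).real (⋃ i ∈ Finset.range n, A i) ≤ 1 / 20 := fun A hA => by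
    refine (measureReal_biUnion_finset_le _ _).trans ?_
    refine (Finset.sum_le_card_nsmul _ _ _ fun i hi => hA i (Finset.mem_range.1 hi)).trans ?_
    rw [Finset.card_range, nsmul_eq_mul]
    exact le_of_eq (by field_simp)
  have p1 : (iidLaw G).real B1 ≤ 1 / 20 := hun _ hx
  have p2 : (iidLaw G).real B2 ≤ 1 / 20 := hun _ hu
  have hHt1 : 1 ≤ Ht := by have := hsum 0 (by omega); omega
  have p3 : (iidLaw G).real B3 ≤ 1 / 10 := by
    have h1 := (hL1 hmax W hS n' Ht 0 0 x3 hn'1 hHt1 hHt'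
      (by rw [sub_zero]; exact F.exists_mid hμ Ht)).1
    rw [sub_zero] at h1
    have h2 := markov_abs0 (F.integrable_c hG (conn_slabTo hHt1)) h1 (s := 10 * σ) (by positivity)
    refine h2.trans (le_of_eq ?_)
    rw [← hσ]; field_simp
  have p4 : (iidLaw G).real B4 ≤ 2 / 5 := by
    have h1 := prob_none_le0 G (Finset.range n) (fun i => {t | s < F.LL t (y i) h (k i) (K * n * h)})
      (fun i => slabEdges (y i) h)
      (fun i _ => measurableSet_lt measurable_const (F.measurable_LL _ _ _ _))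
      (fun i _ t t' h' => by
        have := F.dependsOnly_LL (y i) h (k i) (K * n * h) t t' h'
        simp only [Set.mem_setOf_eq] at this ⊢
        rw [this])
      (fun i _ j _ hij => by
        have key : ∀ a b : ℕ, a < b → ((y a : ℕ) : ℤ) + h ≤ (y b : ℕ) := fun a b hab => by
          have : (a + 1) * h ≤ b * h := Nat.mul_le_mul_right _ hab
          have e : y a + h ≤ y b := by simp only [hy]; nlinarith
          exact_mod_cast e
        rcases lt_or_gt_of_ne hij with h' | h'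
        · exact disjoint_slabEdges (key _ _ h')
        · exact (disjoint_slabEdges (key _ _ h')).symm)
      (π := (iidLaw G).real {t | s < F.LL t 0 h 0 (K * n * h)})
      (fun i _ => (F.prob_LL0 hG _ _ _ _ _).ge)
    rw [Finset.card_range] at h1
    refine h1.trans ((Real.exp_le_exp.2 (neg_le_neg hp)).trans ?_)
    rw [Real.exp_neg]
    have := Real.exp_one_gt_d9
    rw [inv_le_comm₀ (by positivity) (by norm_num)]
    linarith
  have p5 : (iidLaw G).real {t : Env | ¬ ∀ e, 0 ≤ t e} = 0 := by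
    have := ae_iff.1 (ae_nonneg G hG.hyp.nonneg)
    rw [measureReal_def, this]; rfl
  have hne : ∃ t, t ∉ B1 ∪ B2 ∪ B3 ∪ B4 ∪ {t : Env | ¬ ∀ e, 0 ≤ t e} := by
    by_contra hcon
    have e : B1 ∪ B2 ∪ B3 ∪ B4 ∪ {t : Env | ¬ ∀ e, 0 ≤ t e} = Set.univ :=
      Set.eq_univ_of_forall fun t => by_contra fun h => hcon ⟨t, h⟩
    have u1 := measureReal_union_le (μ := iidLaw G) (B1 ∪ B2 ∪ B3 ∪ B4) {t : Env | ¬ ∀ e, 0 ≤ t e}
    have u2 := measureReal_union_le (μ := iidLaw G) (B1 ∪ B2 ∪ B3) B4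
    have u3 := measureReal_union_le (μ := iidLaw G) (B1 ∪ B2) B3
    have u4 := measureReal_union_le (μ := iidLaw G) B1 B2
    rw [e, probReal_univ] at u1
    linarith
  obtain ⟨t, ht⟩ := hne
  simp only [Set.mem_union, not_or, hB1, hB2, hB3, hB4, Set.mem_iUnion, Set.mem_setOf_eq,
    not_exists, not_le, not_forall, not_not, Finset.mem_range, not_lt] at ht
  obtain ⟨⟨⟨⟨t1, t2⟩, t3⟩, i, hi, t4⟩, t5⟩ := ht
  have t5' : ∀ e, 0 ≤ t e := t5
  have a1 := t1 i hi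
  have a2 := t2 i hi
  have a3 : s < -F.c t Set.univ (y i) h (x i t) (u i t) := by
    have := t4.trans_le (hLL i hi t)
    rcases lt_max_iff.1 this with h' | h'
    · exact absurd h' (not_lt.2 hs.le)
    · exact h'
  have a4 := F.c_concat0 t5' 0 (hy1 i) (h2 := h + H' i) (by omega) 0 (x i t) x3
  have a5 := F.c_concat0 t5' (y i) hh (hH1 i) (x i t) (u i t) x3
  rw [← hsum i hi, zero_add] at a4
  have a6 := (abs_lt.1 t3).1
  have a7 := mul_le_mul_of_nonneg_left (hlog n hn) (show 0 ≤ C1 * W by positivity)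
  have a8 : C1 * W * ((n' : ℝ) ^ (9 / 10 : ℝ) * (2 * Real.log (40 * n) + 10)) = 2 * r + 10 * σ := by
    rw [hr, hσ]; ring
  calc s ≤ 2 * r + 10 * σ := by linarith
    _ ≤ C1 * W * (C3 * (n : ℝ) ^ (20 / 21 : ℝ)) := by rw [← a8]; exact a7
    _ = _ := by ring

end Crest.Agent.R151
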