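import Crest.Agent.R151.D0Defs
import Crest.Agent.Lib.Prekopa.Basic

/-! R151 / D0Logc: log-concavity of passage times for exponential weights. -/

set_option autoImplicit false
open MeasureTheory ProbabilityTheory Crest.ProbabilityR.FirstPassage Filter Topology
open scoped ENNReal

namespace Crest.Agent.R151

/-- Prékopa-Leindler for the exponential law: `gammaMeasure 1 r = volume.withDensity (gammaPDF 1 r)`, density
`ρ s = ofReal (r exp (-r s))` for `s ≥ 0` and `0` for `s < 0`, `ρ x * ρ y = ρ ((x+y)/2)²` for `x, y ≥ 0`; `pl_one` for `ρ f, ρ g, ρ h`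
(`lintegral_withDensity_eq_lintegral_mul`). -/
theorem pl_gamma {r : ℝ} (hr : 0 < r) {f g h : ℝ → ℝ≥0∞} (hf : Measurable f) (hg : Measurable g)
    (hh : Measurable h) (H : ∀ x y, 0 ≤ x → 0 ≤ y → f x * g y ≤ h ((x + y) / 2) ^ 2) :
    (∫⁻ x, f x ∂gammaMeasure 1 r) * ∫⁻ x, g x ∂gammaMeasure 1 r ≤
      (∫⁻ x, h x ∂gammaMeasure 1 r) ^ 2 := by
  have hρ : Measurable (gammaPDF 1 r) := (measurable_gammaPDFReal 1 r).ennreal_ofReal
  rw [gammaMeasure, lintegral_withDensity_eq_lintegral_mul _ hρ hf,
    lintegral_withDensity_eq_lintegral_mul _ hρ hg, lintegral_withDensity_eq_lintegral_mul _ hρ hh]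
  refine Crest.Agent.Lib.Prekopa.pl_one (hρ.mul hf) (hρ.mul hg) (hρ.mul hh) fun x y => ?_
  simp only [Pi.mul_apply]
  rcases lt_or_ge x 0 with hx | hx
  · simp [gammaPDF_of_neg hx]
  rcases lt_or_ge y 0 with hy | hy
  · simp [gammaPDF_of_neg hy]
  have e : gammaPDF 1 r x * gammaPDF 1 r y = gammaPDF 1 r ((x + y) / 2) ^ 2 := by
    rw [gammaPDF_of_nonneg hx, gammaPDF_of_nonneg hy, gammaPDF_of_nonneg (by positivity), sq]
    simp only [Real.rpow_one, Real.Gamma_one, div_one, sub_self, Real.rpow_zero, mul_one]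
    rw [← ENNReal.ofReal_mul (by positivity), ← ENNReal.ofReal_mul (by positivity),
      mul_mul_mul_comm, mul_mul_mul_comm r _ r, ← Real.exp_add, ← Real.exp_add]
    congr 3
    ring
  rw [mul_mul_mul_comm, mul_pow, e]
  exact mul_le_mul_right (H x y hx hy) _

/-- Induction on `U`.  Empty: `f, g, h` are constants (values at `0`).  Step `insert e U`: `f' t = ∫⁻ s, f (update t e s) ∂G` is
measurable (`Measurable.lintegral_prod_right'`), reads `U`, `∫⁻ f' = ∫⁻ f` (`measurePreserving_update`, `lintegral_prod`), and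
`f' t * g' t' ≤ h' (mid t t')²` by `pl_gamma`. -/
theorem pl_env {r : ℝ} (hr : 0 < r) (U : Finset (Sym2 V)) : ∀ {f g h : Env → ℝ≥0∞}, Measurable f →
    Measurable g → Measurable h → DependsOnly f U → DependsOnly g U → DependsOnly h U →
    (∀ t t' : Env, (∀ e, 0 ≤ t e) → (∀ e, 0 ≤ t' e) →
      f t * g t' ≤ h (fun e => (t e + t' e) / 2) ^ 2) →
    (∫⁻ t, f t ∂iidLaw (gammaMeasure 1 r)) * ∫⁻ t, g t ∂iidLaw (gammaMeasure 1 r) ≤
      (∫⁻ t, h t ∂iidLaw (gammaMeasure 1 r)) ^ 2 := by
  classical
  have := isProbabilityMeasure_gammaMeasure one_pos hr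
  induction U using Finset.induction_on with
  | empty =>
    intro f g h _ _ _ df dg dh H
    have c : ∀ {f : Env → ℝ≥0∞}, DependsOnly f (↑(∅ : Finset (Sym2 V))) →
        ∫⁻ t, f t ∂iidLaw (gammaMeasure 1 r) = f 0 := fun {f} df => by
      rw [lintegral_congr fun t => df t 0 (by simp)]
      simp
    rw [c df, c dg, c dh, dh 0 (fun e => ((0 : Env) e + (0 : Env) e) / 2) (by simp)]
    exact H 0 0 (fun _ => le_rfl) fun _ => le_rfl
  | insert e U _ ih =>
    intro f g h mf mg mh df dg dh H
    have hu := measurePreserving_update (gammaMeasure 1 r) e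
    have m : ∀ {f : Env → ℝ≥0∞}, Measurable f →
        Measurable fun t : Env => ∫⁻ s, f (Function.update t e s) ∂gammaMeasure 1 r := fun mf =>
      (mf.comp hu.measurable).lintegral_prod_right'
    have d : ∀ {f : Env → ℝ≥0∞}, DependsOnly f (↑(insert e U)) →
        DependsOnly (fun t : Env => ∫⁻ s, f (Function.update t e s) ∂gammaMeasure 1 r) U :=
      fun df t t' ht => lintegral_congr fun s => df _ _ fun e' he' => by
        rcases eq_or_ne e' e with rfl | hne
        · simp
        · rw [Function.update_of_ne hne, Function.update_of_ne hne]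
          exact ht e' ((Finset.mem_insert.1 he').resolve_left hne)
    have c : ∀ {f : Env → ℝ≥0∞}, Measurable f → ∫⁻ t, f t ∂iidLaw (gammaMeasure 1 r) =
        ∫⁻ t, (∫⁻ s, f (Function.update t e s) ∂gammaMeasure 1 r) ∂iidLaw (gammaMeasure 1 r) :=
      fun mf => by
        rw [← hu.lintegral_comp mf]
        exact lintegral_prod _ (mf.comp hu.measurable).aemeasurable
    rw [c mf, c mg, c mh]
    refine ih (m mf) (m mg) (m mh) (d df) (d dg) (d dh) fun t t' ht ht' => ?_
    refine pl_gamma hr (mf.comp (measurable_update t)) (mg.comp (measurable_update t'))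
      (mh.comp (measurable_update _)) fun x y hx hy => ?_
    have p : ∀ (t : Env) (x : ℝ), (∀ e, 0 ≤ t e) → 0 ≤ x → ∀ e', 0 ≤ Function.update t e x e' :=
      fun t x ht hx e' => by
        rcases eq_or_ne e' e with rfl | hne
        · simpa
        · rw [Function.update_of_ne hne]
          exact ht e'
    refine (H _ _ (p t x ht hx) (p t' y ht' hy)).trans (le_of_eq ?_)
    congr 2
    funext e'
    rcases eq_or_ne e' e with rfl | hne
    · simp
    · simp [Function.update_of_ne hne]

/-- indicators in `pl_env`, `U = (edgesIn_finite hS).toFinset`, `TS_concave` with `a = b = 1/2` -/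
theorem logc_finite {r : ℝ} (hr : 0 < r) {S : Set V} (hS : S.Finite) (x y : V) (u v : ℝ) :
    (iidLaw (gammaMeasure 1 r)).real {t | u ≤ TS t S x y} *
        (iidLaw (gammaMeasure 1 r)).real {t | v ≤ TS t S x y} ≤
      (iidLaw (gammaMeasure 1 r)).real {t | (u + v) / 2 ≤ TS t S x y} ^ 2 := by
  have := isProbabilityMeasure_gammaMeasure one_pos hr
  have m : ∀ u : ℝ, MeasurableSet {t : Env | u ≤ TS t S x y} := fun u =>
    measurableSet_le measurable_const (measurable_TS S x y)
  have d : ∀ u : ℝ, DependsOnly ({t : Env | u ≤ TS t S x y}.indicator (1 : Env → ℝ≥0∞))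
      (edgesIn_finite hS).toFinset := fun u t t' ht => by
    have : TS t S x y = TS t' S x y := dependsOnly_TS S x y t t' fun e he => ht e (by simpa using he)
    simp [Set.indicator, this]
  have h := pl_env hr _ (measurable_one.indicator (m u)) (measurable_one.indicator (m v))
    (measurable_one.indicator (m ((u + v) / 2))) (d u) (d v) (d _) fun t t' ht ht' => ?_
  · rw [lintegral_indicator_one (m _), lintegral_indicator_one (m _),
      lintegral_indicator_one (m _)] at h
    simp only [measureReal_def, ← ENNReal.toReal_mul, ← ENNReal.toReal_pow]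
    exact ENNReal.toReal_mono (ENNReal.pow_ne_top (measure_ne_top _ _)) h
  · by_cases h1 : u ≤ TS t S x y
    swap
    · simp [h1]
    by_cases h2 : v ≤ TS t' S x y
    swap
    · simp [h2]
    have h3 := TS_concave (S := S) (x := x) (y := y) ht ht' (a := 1 / 2) (b := 1 / 2) (by norm_num)
      (by norm_num)
    have h4 : (u + v) / 2 ≤ TS (fun e => (t e + t' e) / 2) S x y := by
      rw [show (fun e => (t e + t' e) / 2) = fun e => 1 / 2 * t e + 1 / 2 * t' e from
        funext fun e => by ring]
      linarith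
    simp [h1, h2, h4]

/-- `gamma_hyp`, `gamma_integrable_pow`.  `logc`: if `¬ Conn S x y` then `TS t S x y = sInf ∅ = 0` for all `t`.  Otherwise let
`f n t = TS t (S ∩ ball x (n + n0)) x y` (`eventually_conn_inter_ball`); for `t ≥ 0` it decreases to `TS t S x y` (`TS_anti`,
`tendsto_TS_inter_ball`); `P(u ≤ TS) P(v ≤ TS) ≤ P(u ≤ f n) P(v ≤ f n) ≤ P(B n)²` with the decreasing sets
`B n = {t | (∀ e, 0 ≤ t e) ∧ (u+v)/2 ≤ f n t}`, whose intersection lies in `{(u+v)/2 ≤ TS}` (`tendsto_measure_iInter_atTop`). -/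
theorem nice_gamma {r : ℝ} (hr : 0 < r) : Nice (gammaMeasure 1 r) := by
  have := isProbabilityMeasure_gammaMeasure one_pos hr
  refine ⟨gamma_hyp one_pos hr, gamma_integrable_pow one_pos hr, fun S x y u v => ?_⟩
  by_cases hc : Conn S x y
  swap
  · have h0 : ∀ t, TS t S x y = 0 := fun t => by
      rw [TS, Set.eq_empty_of_forall_notMem (s := {c | _}), Real.sInf_empty]
      rintro c ⟨p, i, j, h1, h2, h3, -⟩
      exact hc ⟨p, i, j, h1, h2, h3⟩
    simp only [h0]
    by_cases h1 : u ≤ 0
    swap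
    · simp [h1]
    by_cases h2 : v ≤ 0
    swap
    · simp [h2]
    simp [h1, h2, show (u + v) / 2 ≤ 0 by linarith]
  obtain ⟨n0, hn0⟩ := eventually_atTop.1 (eventually_conn_inter_ball hc x)
  have hae := ae_nonneg (gammaMeasure 1 r) (gamma_hyp one_pos hr).nonneg
  set B : ℕ → Set Env := fun n =>
    {t | (∀ e, 0 ≤ t e) ∧ (u + v) / 2 ≤ TS t (S ∩ ball x (n + n0 : ℕ)) x y} with hB
  have h1 : ∀ (n : ℕ) (w : ℝ), (iidLaw (gammaMeasure 1 r)).real {t | w ≤ TS t S x y} ≤
      (iidLaw (gammaMeasure 1 r)).real {t | w ≤ TS t (S ∩ ball x (n + n0 : ℕ)) x y} := fun n w => by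
    refine ENNReal.toReal_mono (measure_ne_top _ _) (measure_mono_ae ?_)
    filter_upwards [hae] with t ht h
    exact le_trans h (TS_anti ht Set.inter_subset_left (hn0 _ (Nat.le_add_left _ _)))
  have h2 : ∀ n, (iidLaw (gammaMeasure 1 r)).real {t | u ≤ TS t S x y} *
      (iidLaw (gammaMeasure 1 r)).real {t | v ≤ TS t S x y} ≤
      (iidLaw (gammaMeasure 1 r)).real (B n) ^ 2 := fun n => by
    refine (mul_le_mul (h1 n u) (h1 n v) measureReal_nonneg measureReal_nonneg).trans
      ((logc_finite hr ((ball_finite x _).inter_of_right S) x y u v).trans ?_)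
    refine pow_le_pow_left₀ measureReal_nonneg
      (ENNReal.toReal_mono (measure_ne_top _ _) (measure_mono_ae ?_)) 2
    filter_upwards [hae] with t ht h
    exact ⟨ht, h⟩
  have h3 : Tendsto (fun n => (iidLaw (gammaMeasure 1 r)) (B n)) atTop
      (𝓝 ((iidLaw (gammaMeasure 1 r)) (⋂ n, B n))) := by
    refine tendsto_measure_iInter_atTop (fun n => MeasurableSet.nullMeasurableSet ?_)
      (fun m n hmn t ht => ⟨ht.1, ht.2.trans ?_⟩) ⟨0, measure_ne_top _ _⟩
    · refine MeasurableSet.inter ?_ (measurableSet_le measurable_const (measurable_TS _ x y))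
      exact measurableSet_setOfPred.2 (Measurable.forall fun e =>
        measurableSet_setOfPred.1 (measurableSet_le measurable_const (measurable_pi_apply e)))
    · refine TS_anti ht.1 (Set.inter_subset_inter_right _ fun z hz => ?_)
        (hn0 _ (Nat.le_add_left _ _))
      exact le_trans (b := ((m + n0 : ℕ) : ℤ)) hz (by exact_mod_cast Nat.add_le_add_right hmn n0)
  have h4 := ge_of_tendsto' (((ENNReal.tendsto_toReal (measure_ne_top _ _)).comp h3).pow 2) h2
  refine h4.trans (pow_le_pow_left₀ ENNReal.toReal_nonneg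
    (ENNReal.toReal_mono (measure_ne_top _ _) (measure_mono fun t ht => ?_)) 2)
  rw [Set.mem_iInter] at ht
  exact ge_of_tendsto' ((tendsto_TS_inter_ball (ht 0).1 hc x).comp (tendsto_add_atTop_nat n0))
    fun n => (ht n).2

end Crest.Agent.R151
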