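import Crest.Agent.R151.D0Sel

/-! R151 / D0Lpp1: last passage counting by the first moment method. -/

set_option autoImplicit false
open MeasureTheory ProbabilityTheory Crest.ProbabilityR.FirstPassage Filter Topology
open scoped ENNReal

namespace Crest.Agent.R151

theorem D0Lpp1_geom {θ : ℝ} (hθ : 0 < θ) (N : ℕ) :
    ∑ z ∈ Finset.Icc (-(N : ℤ)) N, Real.exp (-θ * |(z : ℝ)|) ≤
      1 + 2 * (1 - Real.exp (-θ * N)) / θ := by
  induction N with
  | zero => simp
  | succ N ih =>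
    have e : Finset.Icc (-((N + 1 : ℕ) : ℤ)) ((N + 1 : ℕ) : ℤ) =
        insert (-((N + 1 : ℕ) : ℤ)) (insert ((N + 1 : ℕ) : ℤ) (Finset.Icc (-(N : ℤ)) N)) := by
      ext z
      simp only [Finset.mem_Icc, Finset.mem_insert]
      omega
    rw [e, Finset.sum_insert (by simp only [Finset.mem_Icc, Finset.mem_insert]; omega),
      Finset.sum_insert (by simp only [Finset.mem_Icc]; omega), Int.cast_neg, abs_neg,
      Int.cast_natCast, Nat.abs_cast]
    have h1 : Real.exp (-θ * N) = Real.exp (-θ * ((N + 1 : ℕ) : ℝ)) * Real.exp θ := by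
      rw [← Real.exp_add]
      push_cast
      ring_nf
    have h2 := mul_le_mul_of_nonneg_left (Real.add_one_le_exp θ)
      (Real.exp_pos (-θ * ((N + 1 : ℕ) : ℝ))).le
    have h3 : Real.exp (-θ * ((N + 1 : ℕ) : ℝ)) ≤
        (Real.exp (-θ * N) - Real.exp (-θ * ((N + 1 : ℕ) : ℝ))) / θ := by
      rw [le_div_iff₀ hθ]
      linarith
    have h4 : 2 * (1 - Real.exp (-θ * ((N + 1 : ℕ) : ℝ))) / θ = 2 * (1 - Real.exp (-θ * N)) / θ +
        2 * ((Real.exp (-θ * N) - Real.exp (-θ * ((N + 1 : ℕ) : ℝ))) / θ) := by ring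
    linarith

/-- integer points of an `ℓ¹` ball.  `D` = the `d ∈ Fintype.piFinset fun _ => Icc (-⌊L⌋) ⌊L⌋` with `∑ |d j| ≤ L`.  With `θ = m / L ≤ 1`:
`card D ≤ ∑_{d ∈ piFinset} exp (θ L) ∏ j, exp (-θ |d j|) = exp m * (∑_z exp (-θ |z|))^m` (`Finset.prod_univ_sum`) and
`∑_z exp (-θ|z|) ≤ 1 + 2 / (exp θ - 1) ≤ 1 + 2/θ ≤ 3/θ`. -/
theorem card_l1_le0 {m : ℕ} {L : ℝ} (hm : 1 ≤ m) (hL : (m : ℝ) ≤ L) :
    ∃ D : Finset (Fin m → ℤ), (D.card : ℝ) ≤ (3 * Real.exp 1 * L / m) ^ m ∧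
      ∀ d : Fin m → ℤ, ∑ j, (|d j| : ℝ) ≤ L → d ∈ D := by
  classical
  have hm0 : (0 : ℝ) < m := by exact_mod_cast hm
  have hL0 : 0 < L := hm0.trans_le hL
  have hθ : 0 < m / L := div_pos hm0 hL0
  refine ⟨(Fintype.piFinset fun _ => Finset.Icc (-(⌊L⌋₊ : ℤ)) ⌊L⌋₊).filter
    fun d => ∑ j, (|d j| : ℝ) ≤ L, ?_, fun d hd => Finset.mem_filter.2 ⟨Fintype.mem_piFinset.2
      fun j => Finset.mem_Icc.2 (abs_le.1 ?_), hd⟩⟩
  · have h1 : ∑ z ∈ Finset.Icc (-(⌊L⌋₊ : ℤ)) ⌊L⌋₊, Real.exp (-(m / L) * |(z : ℝ)|) ≤ 3 * L / m := by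
      refine (D0Lpp1_geom hθ _).trans ?_
      have a1 : 2 * (1 - Real.exp (-(m / L) * (⌊L⌋₊ : ℕ))) / (m / L) ≤ 2 / (m / L) :=
        div_le_div_of_nonneg_right (by linarith [Real.exp_pos (-(m / L) * (⌊L⌋₊ : ℕ))]) hθ.le
      have a2 : 1 ≤ L / m := (one_le_div hm0).2 hL
      have a3 : 2 / (m / L) = 2 * (L / m) := by field_simp
      rw [mul_div_assoc 3]
      linarith
    calc _ = ∑ d ∈ (Fintype.piFinset fun _ : Fin m => Finset.Icc (-(⌊L⌋₊ : ℤ)) ⌊L⌋₊).filter
          fun d => ∑ j, (|d j| : ℝ) ≤ L, (1 : ℝ) := by simp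
      _ ≤ ∑ d ∈ (Fintype.piFinset fun _ : Fin m => Finset.Icc (-(⌊L⌋₊ : ℤ)) ⌊L⌋₊).filter
          fun d => ∑ j, (|d j| : ℝ) ≤ L, Real.exp m * ∏ j, Real.exp (-(m / L) * |(d j : ℝ)|) := by
        refine Finset.sum_le_sum fun d hd => ?_
        rw [← Real.exp_sum, ← Real.exp_add, ← Finset.mul_sum]
        refine Real.one_le_exp ?_
        have a1 := mul_le_mul_of_nonneg_left (Finset.mem_filter.1 hd).2 hθ.le
        rw [div_mul_cancel₀ _ hL0.ne'] at a1
        linarith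
      _ ≤ ∑ d ∈ (Fintype.piFinset fun _ : Fin m => Finset.Icc (-(⌊L⌋₊ : ℤ)) ⌊L⌋₊),
          Real.exp m * ∏ j, Real.exp (-(m / L) * |(d j : ℝ)|) :=
        Finset.sum_le_sum_of_subset_of_nonneg (Finset.filter_subset _ _) fun _ _ _ => by positivity
      _ = Real.exp 1 ^ m * (∑ z ∈ Finset.Icc (-(⌊L⌋₊ : ℤ)) ⌊L⌋₊,
          Real.exp (-(m / L) * |(z : ℝ)|)) ^ m := by
        rw [← Finset.mul_sum, ← Finset.prod_univ_sum (fun _ : Fin m => Finset.Icc (-(⌊L⌋₊ : ℤ)) ⌊L⌋₊)
          fun _ z => Real.exp (-(m / L) * |(z : ℝ)|), Real.exp_one_pow]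
        simp
      _ ≤ Real.exp 1 ^ m * (3 * L / m) ^ m := by gcongr
      _ = _ := by
        rw [← mul_pow]
        congr 1
        ring
  · have h1 : (|d j| : ℝ) ≤ L := (Finset.single_le_sum (f := fun j => (|d j| : ℝ))
      (fun _ _ => abs_nonneg _) (Finset.mem_univ j)).trans hd
    rw [← Int.natCast_natAbs, Int.ofNat_le]
    refine Nat.le_floor ?_
    rwa [Nat.cast_natAbs, Int.cast_abs]

/-- increments of an admissible sequence along an increasing chain of rows.  With `Vr i = |k 0| + ∑_{l<i} |k (l+1) - k l|`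
(monotone) one has `|k i| ≤ Vr i` and `|k i' - k i| ≤ Vr i' - Vr i` for `i ≤ i'`; take `d 0 = k (f 0)`,
`d (j+1) = k (f (j+1)) - k (f j)` and telescope (easiest: prove it for `f : ℕ → ℕ` by induction on `m`). -/
theorem LAdm.chain {n : ℕ} {L : ℝ} {k : ℕ → ℤ} (hk : LAdm n L k) {m : ℕ} (f : Fin m → ℕ)
    (hf : StrictMono f) (hn : ∀ j, f j < n) :
    ∃ d : Fin m → ℤ, ∑ j, (|d j| : ℝ) ≤ L ∧
      ∀ j, k (f j) = ∑ l ∈ Finset.univ.filter (fun l => l ≤ j), d l := by
  let Vr : ℕ → ℝ := fun i => (|k 0| : ℝ) + ∑ l ∈ Finset.range i, (|k (l + 1) - k l| : ℝ)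
  have hV : ∀ i i', i ≤ i' → (|k i' - k i| : ℝ) ≤ Vr i' - Vr i := fun i i' h => by
    induction i', h using Nat.le_induction with
    | base => simp
    | succ i' _ ih =>
      have := abs_sub_le (k (i' + 1) : ℝ) (k i') (k i)
      simp only [Vr, Finset.sum_range_succ] at ih ⊢
      linarith
  let g : ℕ → ℕ := fun l => if h : l < m then f ⟨l, h⟩ else 0
  obtain ⟨e, e0, e1⟩ : ∃ e : ℕ → ℤ, e 0 = k (g 0) ∧ ∀ l, e (l + 1) = k (g (l + 1)) - k (g l) :=
    ⟨fun l => Nat.casesOn l (k (g 0)) fun l => k (g (l + 1)) - k (g l), rfl, fun _ => rfl⟩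
  have h1 : ∀ j, ∑ l ∈ Finset.range (j + 1), e l = k (g j) := fun j => by
    induction j with
    | zero => simp [e0]
    | succ j ih =>
      rw [Finset.sum_range_succ, ih]
      simp [e1]
  have h2 : ∀ j, j < m → ∑ l ∈ Finset.range (j + 1), (|e l| : ℝ) ≤ Vr (g j) := fun j => by
    induction j with
    | zero =>
      intro _
      have a1 := hV 0 (g 0) (Nat.zero_le _)
      have a2 := abs_sub_abs_le_abs_sub (k (g 0) : ℝ) (k 0)
      simp only [Vr, Finset.range_zero, Finset.sum_empty, add_zero] at a1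
      simp only [zero_add, Finset.range_one, Finset.sum_singleton, e0, Vr]
      linarith
    | succ j ih =>
      intro hj
      have a1 := hV (g j) (g (j + 1)) (by
        simp only [g, dif_pos hj, dif_pos (Nat.lt_of_succ_lt hj)]
        exact (hf (Fin.mk_lt_mk.2 (Nat.lt_succ_self j))).le)
      have a2 := ih (Nat.lt_of_succ_lt hj)
      rw [Finset.sum_range_succ, e1, Int.cast_sub]
      linarith
  refine ⟨fun j => e j, ?_, fun j => ?_⟩
  · rw [Fin.sum_univ_eq_sum_range (fun l => (|e l| : ℝ)) m]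
    refine le_trans ?_ hk
    rcases m with _ | m
    · simp only [Finset.range_zero, Finset.sum_empty]
      positivity
    · have a1 := hV (g m) (n - 1) (by
        simp only [g, dif_pos (Nat.lt_succ_self m)]
        exact Nat.le_sub_one_of_lt (hn _))
      have a2 := h2 m (Nat.lt_succ_self m)
      have a3 := abs_nonneg ((k (n - 1) : ℝ) - k (g m))
      change _ ≤ Vr (n - 1)
      linarith
  · have a1 := h1 j
    simp only [g, dif_pos j.2] at a1
    rw [← a1, Finset.sum_filter]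
    simp only [Fin.le_def]
    rw [Fin.sum_univ_eq_sum_range (fun l => if l ≤ j.1 then e l else 0) m, ← Finset.sum_filter]
    congr 1
    ext l
    simp only [Finset.mem_range, Finset.mem_filter]
    omega

variable (G : Measure ℝ) [IsProbabilityMeasure G]

open Classical in
/-- `B = ⋃ J ∈ powersetCard m (range n), ⋃ d ∈ D, ⋂ j : Fin m, A (J.orderEmbOfFin _ j) (∑ l ≤ j, d l)` with `D` from `card_l1_le0`
(`L = β n ≥ m`); each intersection has probability `≤ π^m` (`prob_forall_eq_prod0`);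
`n.choose m ≤ n^m / m! ≤ (e n / m)^m` (`Nat.choose_le_pow_div`, `Real.pow_div_factorial_le_exp`).
Given `k`, take an `m`-subset `J` of the marked rows (`Finset.exists_subset_card_eq`) and `LAdm.chain`. -/
theorem lpp_event (A : ℕ → ℤ → Set Env) (U : ℕ → Set (Sym2 V)) (hA : ∀ i k, MeasurableSet (A i k))
    (hU : ∀ i k, DependsOnly (fun t => t ∈ A i k) (U i))
    (hd : Pairwise fun i j => Disjoint (U i) (U j)) {π β : ℝ} (hπ : 0 ≤ π)
    (hp : ∀ i k, (iidLaw G).real (A i k) ≤ π) (hβ : 1 ≤ β) {n m : ℕ} (hm : 1 ≤ m) (hmn : m ≤ n) :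
    ∃ B : Set Env, MeasurableSet B ∧
      (iidLaw G).real B ≤ (3 * Real.exp 1 ^ 2 * β * n ^ 2 * π / m ^ 2) ^ m ∧
      ∀ t k, LAdm n (β * n) k → m ≤ ((Finset.range n).filter fun i => t ∈ A i (k i)).card → t ∈ B := by
  have hm0 : (0 : ℝ) < m := by exact_mod_cast hm
  obtain ⟨D, hD, hD'⟩ := card_l1_le0 hm (L := β * n)
    ((Nat.cast_le.2 hmn).trans (le_mul_of_one_le_left (Nat.cast_nonneg _) hβ))
  let F : Finset ℕ → Fin m → ℕ := fun J j => if h : J.card = m then J.orderEmbOfFin h j else 0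
  let E : Finset ℕ × (Fin m → ℤ) → Set Env := fun x => {t | ∀ j ∈ Finset.univ,
    t ∈ A (F x.1 j) (∑ l ∈ Finset.univ.filter (fun l => l ≤ j), x.2 l)}
  refine ⟨⋃ x ∈ Finset.powersetCard m (Finset.range n) ×ˢ D, E x,
    Finset.measurableSet_biUnion _ fun x _ => ?_, (measureReal_biUnion_finset_le _ _).trans ?_,
    fun t k hk h => ?_⟩
  · exact measurableSet_setOfPred.2 (Measurable.forall fun j => measurable_const.imp
      (measurableSet_setOfPred.1 (hA _ _)))
  · refine (Finset.sum_le_card_nsmul _ _ (π ^ m) fun x hx => ?_).trans ?_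
    · have h1 := (Finset.mem_powersetCard.1 (Finset.mem_product.1 hx).1).2
      rw [prob_forall_eq_prod0 G Finset.univ _ (fun j => U (F x.1 j)) (fun j _ => hA _ _)
        (fun j _ => hU _ _) fun i _ j _ hij => hd (by
          simp only [F, dif_pos h1]
          exact (x.1.orderEmbOfFin h1).injective.ne hij)]
      refine (Finset.prod_le_prod (fun j _ => measureReal_nonneg) fun j _ => hp _ _).trans ?_
      simp
    · rw [Finset.card_product, Finset.card_powersetCard, Finset.card_range, nsmul_eq_mul,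
        Nat.cast_mul]
      have h1 : (n.choose m : ℝ) ≤ (Real.exp 1 * n / m) ^ m := by
        refine (Nat.choose_le_pow_div m n).trans ?_
        have h2 := Real.pow_div_factorial_le_exp _ hm0.le m
        rw [div_le_iff₀ (by positivity)] at h2
        rw [div_pow, mul_pow, Real.exp_one_pow, div_le_div_iff₀ (by positivity) (by positivity)]
        calc _ ≤ (n : ℝ) ^ m * (Real.exp m * m.factorial) := by gcongr
          _ = _ := by ring
      calc _ ≤ (Real.exp 1 * n / m) ^ m * (3 * Real.exp 1 * (β * n) / m) ^ m * π ^ m := by gcongr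
        _ = _ := by
          rw [← mul_pow, ← mul_pow]
          congr 1
          ring
  · obtain ⟨J, hJ, hc⟩ := Finset.exists_subset_card_eq h
    have h1 := fun j => Finset.mem_filter.1 (hJ (J.orderEmbOfFin_mem hc j))
    obtain ⟨d, hd1, hd2⟩ := hk.chain (J.orderEmbOfFin hc) (J.orderEmbOfFin hc).strictMono
      fun j => Finset.mem_range.1 (h1 j).1
    refine Set.mem_biUnion (x := (J, d)) (Finset.mem_coe.2 (Finset.mem_product.2
      ⟨Finset.mem_powersetCard.2 ⟨hJ.trans (Finset.filter_subset _ _), hc⟩, hD' d hd1⟩))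
      fun j _ => ?_
    simp only [F, dif_pos hc, ← hd2]
    exact (h1 j).2

theorem D0Lpp1_num {x y : ℝ} (hx : 0 ≤ x) (hy : 0 ≤ y) (h : y ≤ x ^ 2) {m : ℕ} (hm : 1 ≤ m)
    (h2 : 2 * x ≤ m) : (y / (m : ℝ) ^ 2) ^ m ≤ x * (1 / 2) ^ m := by
  have hm1 : (1 : ℝ) ≤ m := by exact_mod_cast hm
  have h3 : x / m ≤ 1 / 2 := by
    rw [div_le_iff₀ (by linarith)]
    linarith
  have h4 : 0 ≤ x / m := by positivity
  calc _ ≤ ((x / m) ^ 2) ^ m := by
        rw [div_pow x]
        gcongr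
    _ = (x / m) ^ m * (x / m) ^ m := by ring
    _ ≤ x * (1 / 2) ^ m := by
        gcongr
        exact (pow_le_of_le_one h4 (by linarith) (by omega)).trans (div_le_self hx hm1)

open Classical in
/-- `g = ∑ m ∈ Icc 1 n, indicator (B m) 1` with `B m` from `lpp_event`.  With `x = 5 n √(βπ)` (`3 e² ≤ 25`):
`P (B m) ≤ ((x/m)²)^m`; for `m ≥ 2x` this is `≤ (x/m) (1/2)^(2m-1) ≤ x (1/2)^m`, and at most `2x` values `m ≥ 1` are `< 2x`. -/
theorem lpp_count (A : ℕ → ℤ → Set Env) (U : ℕ → Set (Sym2 V)) (hA : ∀ i k, MeasurableSet (A i k))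
    (hU : ∀ i k, DependsOnly (fun t => t ∈ A i k) (U i))
    (hd : Pairwise fun i j => Disjoint (U i) (U j)) {π β : ℝ} (hπ : 0 ≤ π)
    (hp : ∀ i k, (iidLaw G).real (A i k) ≤ π) (hβ : 1 ≤ β) (n : ℕ) :
    ∃ g : Env → ℝ, Measurable g ∧ (∀ t, 0 ≤ g t) ∧ Integrable g (iidLaw G) ∧
      ∫ t, g t ∂iidLaw G ≤ 15 * n * √(β * π) ∧
      ∀ t k, LAdm n (β * n) k → (((Finset.range n).filter fun i => t ∈ A i (k i)).card : ℝ) ≤ g t := by
  have h0 : ∀ m : ℕ, ∃ B : Set Env, MeasurableSet B ∧ (1 ≤ m → m ≤ n →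
      (iidLaw G).real B ≤ (3 * Real.exp 1 ^ 2 * β * n ^ 2 * π / m ^ 2) ^ m ∧
      ∀ t k, LAdm n (β * n) k → m ≤ ((Finset.range n).filter fun i => t ∈ A i (k i)).card →
        t ∈ B) := fun m => by
    by_cases h : 1 ≤ m ∧ m ≤ n
    · obtain ⟨B, h1, h2⟩ := lpp_event G A U hA hU hd hπ hp hβ h.1 h.2
      exact ⟨B, h1, fun _ _ => h2⟩
    · exact ⟨∅, MeasurableSet.empty, fun h1 h2 => absurd ⟨h1, h2⟩ h⟩
  choose B hB hB' using h0
  have hi : ∀ m ∈ Finset.Icc 1 n, Integrable ((B m).indicator (1 : Env → ℝ)) (iidLaw G) :=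
    fun m _ => (integrable_const _).indicator (hB m)
  have hn : ∀ m t, 0 ≤ (B m).indicator (1 : Env → ℝ) t := fun m t =>
    Set.indicator_nonneg (fun _ _ => zero_le_one) t
  refine ⟨fun t => ∑ m ∈ Finset.Icc 1 n, (B m).indicator 1 t,
    Finset.measurable_sum _ fun m _ => measurable_one.indicator (hB m),
    fun t => Finset.sum_nonneg fun m _ => hn m t, integrable_finsetSum _ hi, ?_, fun t k hk => ?_⟩
  · rw [integral_finsetSum _ hi]
    set x := 5 * n * √(β * π) with hx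
    have hx0 : 0 ≤ x := by positivity
    have hy : 3 * Real.exp 1 ^ 2 * β * n ^ 2 * π ≤ x ^ 2 := by
      have a1 : 3 * Real.exp 1 ^ 2 ≤ 25 := by
        have := pow_le_pow_left₀ (Real.exp_pos 1).le Real.exp_one_lt_d9.le 2
        linarith
      rw [hx, mul_pow, mul_pow, Real.sq_sqrt (by positivity)]
      have a2 := mul_le_mul_of_nonneg_right a1 (show 0 ≤ (n : ℝ) ^ 2 * (β * π) by positivity)
      linarith
    have h1 : ∀ m ∈ Finset.Icc 1 n, ∫ t, (B m).indicator (1 : Env → ℝ) t ∂iidLaw G ≤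
        (if (m : ℝ) < 2 * x then 1 else 0) + x * (1 / 2) ^ m := fun m hm => by
      obtain ⟨a1, a2⟩ := Finset.mem_Icc.1 hm
      rw [integral_indicator_one (hB m)]
      split_ifs with h
      · exact measureReal_le_one.trans (le_add_of_nonneg_right (by positivity))
      · rw [zero_add]
        exact (hB' m a1 a2).1.trans (D0Lpp1_num hx0 (by positivity) hy a1 (not_lt.1 h))
    refine (Finset.sum_le_sum h1).trans ?_
    rw [Finset.sum_add_distrib, Finset.sum_boole, ← Finset.mul_sum]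
    have h2 : (((Finset.Icc 1 n).filter fun m : ℕ => (m : ℝ) < 2 * x).card : ℝ) ≤ 2 * x := by
      refine le_trans ?_ (Nat.floor_le (by positivity))
      have : ((Finset.Icc 1 n).filter fun m : ℕ => (m : ℝ) < 2 * x) ⊆ Finset.Icc 1 ⌊2 * x⌋₊ :=
        fun m hm => Finset.mem_Icc.2 ⟨(Finset.mem_Icc.1 (Finset.mem_filter.1 hm).1).1,
          Nat.le_floor (Finset.mem_filter.1 hm).2.le⟩
      exact_mod_cast (Finset.card_le_card this).trans (by simp)
    have h3 : ∀ N : ℕ, ∑ m ∈ Finset.Icc 1 N, (1 / 2 : ℝ) ^ m = 1 - (1 / 2) ^ N := fun N => by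
      induction N with
      | zero => simp
      | succ N ih =>
        rw [Finset.sum_Icc_succ_top (by omega), ih]
        ring
    have h4 : 0 ≤ x * (1 / 2 : ℝ) ^ n := by positivity
    rw [h3]
    linarith
  · have h1 : ((Finset.range n).filter fun i => t ∈ A i (k i)).card ≤ n :=
      (Finset.card_filter_le _ _).trans (by simp)
    refine le_trans (le_of_eq ?_) (Finset.sum_le_sum_of_subset_of_nonneg
      (Finset.Icc_subset_Icc_right h1) fun m _ _ => hn m t)
    rw [Finset.sum_congr rfl fun m hm => Set.indicator_of_mem ((hB' m (Finset.mem_Icc.1 hm).1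
      ((Finset.mem_Icc.1 hm).2.trans h1)).2 t k hk (Finset.mem_Icc.1 hm).2) _]
    simp

end Crest.Agent.R151
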