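import Crest.Agent.R151.D0Psi
import Crest.Agent.R151.D0Exp

/-! R151 / D0Net: approximate superadditivity of `ePsi`. -/

set_option autoImplicit false
open MeasureTheory ProbabilityTheory Crest.ProbabilityR.FirstPassage Filter Topology
open scoped ENNReal

namespace Crest.Agent.R151

theorem D0Net_cube {n : ℕ} (hn : 1 ≤ n) : ∃ r : ℝ, 1 ≤ r ∧ (n : ℝ) = r ^ 3 ∧ (n : ℝ) ^ (1 / 3 : ℝ) = r ∧
    (n : ℝ) ^ (2 / 3 : ℝ) = r ^ 2 := by
  have h0 : (0 : ℝ) ≤ n := Nat.cast_nonneg n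
  refine ⟨(n : ℝ) ^ (1 / 3 : ℝ), Real.one_le_rpow (by exact_mod_cast hn) (by norm_num), ?_, rfl, ?_⟩
  · rw [← Real.rpow_natCast, ← Real.rpow_mul h0]
    norm_num
  · rw [← Real.rpow_natCast, ← Real.rpow_mul h0]
    norm_num

theorem D0Net_sup {Ω ι : Type} [MeasurableSpace Ω] {P : Measure Ω} [IsProbabilityMeasure P] (I : Finset ι)
    (X : ι → Ω → ℝ) (hX : ∀ i ∈ I, MemLp (X i) 2 P) {M D r : ℝ} (hM : ∀ i ∈ I, ∫ ω, X i ω ^ 2 ∂P ≤ M)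
    (hD : 0 ≤ D) (h : I.card * M ≤ D * r ^ 4) :
    ∃ g : Ω → ℝ, Integrable g P ∧ (∀ ω, 0 ≤ g ω) ∧ ∫ ω, g ω ∂P ≤ √D * r ^ 2 ∧
      ∀ i ∈ I, ∀ ω, |X i ω| ≤ g ω := by
  obtain ⟨g, h1, h2, h3, h4⟩ := exists_sup_bound0 I X hX hM
  refine ⟨g, h1, h2, h3.trans ((Real.sqrt_le_sqrt h).trans (le_of_eq ?_)), h4⟩
  rw [Real.sqrt_mul hD, show r ^ 4 = (r ^ 2) ^ 2 by ring, Real.sqrt_sq (sq_nonneg r)]

theorem D0Net_etail {Ω ι : Type} [MeasurableSpace Ω] {P : Measure Ω} [IsProbabilityMeasure P] {C D : ℝ}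
    (hC : 0 < C) (hD : 0 ≤ D) : ∃ C' : ℝ, 0 ≤ C' ∧ ∀ (I : Finset ι) (X : ι → Ω → ℝ) (r : ℝ),
      (∀ i ∈ I, ETail P C (X i)) → (I.card : ℝ) ≤ D * r ^ 4 →
      ∃ g : Ω → ℝ, Integrable g P ∧ (∀ ω, 0 ≤ g ω) ∧ ∫ ω, g ω ∂P ≤ C' * r ^ 2 ∧
        ∀ i ∈ I, ∀ ω, X i ω ≤ g ω := by
  obtain ⟨M, hM, H⟩ := etail_moments (P := P) hC
  refine ⟨√(D * M), Real.sqrt_nonneg _, fun I X r hX hI => ?_⟩
  obtain ⟨g, h1, h2, h3, h4⟩ := D0Net_sup I X (fun i hi => (H _ (hX i hi)).1) (fun i hi => (H _ (hX i hi)).2.2)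
    (mul_nonneg hD hM.le) (r := r) (by nlinarith [mul_le_mul_of_nonneg_right hI hM.le])
  exact ⟨g, h1, h2, h3, fun i hi ω => (le_abs_self _).trans (h4 i hi ω)⟩

theorem D0Net_int {Ω : Type} [MeasurableSpace Ω] {P : Measure Ω} [IsProbabilityMeasure P] {f g h k : Ω → ℝ}
    (hf : Integrable f P) (hg : Integrable g P) (hh : Integrable h P) (hk : Integrable k P) (c : ℝ) :
    ∫ ω, f ω + g ω + h ω + k ω + c ∂P = ∫ ω, f ω ∂P + ∫ ω, g ω ∂P + ∫ ω, h ω ∂P + ∫ ω, k ω ∂P + c := by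
  rw [integral_add (f := fun ω => f ω + g ω + h ω + k ω) (((hf.add hg).add hh).add hk) (integrable_const _),
    integral_add (f := fun ω => f ω + g ω + h ω) ((hf.add hg).add hh) hk,
    integral_add (f := fun ω => f ω + g ω) (hf.add hg) hh, integral_add hf hg]
  simp

theorem D0Net_num {T0 T H H' P Z W E a u w w0 s A Ch g1 g2 g3 g4 r : ℝ} (e1 : T0 ≤ H + T) (e2 : H ≤ H')
    (e3 : P - Z - W ≤ T0 - a * (u - w0)) (f1 : -g1 ≤ P - E) (f2 : Z ≤ g2) (f3 : W ≤ g3)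
    (f4 : H' - Ch * (w0 + s - w0) ≤ g4) (ha : |a| ≤ A) (hCh : 0 ≤ Ch) (w1 : w0 ≤ w) (w2 : w ≤ w0 + s)
    (hs : s ≤ 2 * r ^ 2) : E - (g1 + g2 + g3 + g4 + 2 * (Ch + A) * r ^ 2) ≤ T - a * (u - w) := by
  have hA := (abs_nonneg a).trans ha
  nlinarith [mul_le_mul_of_nonneg_right (abs_le.1 ha).1 (sub_nonneg.2 w1),
    mul_le_mul_of_nonneg_left (sub_le_iff_le_add'.2 w2) hA, mul_le_mul_of_nonneg_left hs (add_nonneg hCh hA)]

/-- net of spacing `s = ⌈n^(2/3)⌉₊`: `J = Icc (-(K' n / s) - 1) (K' n / s)`, `j = w / s` (integer division) -/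
theorem exists_net0 (K' : ℕ) : ∃ C > (0 : ℝ), ∀ n : ℕ, 1 ≤ n → ∃ (s : ℕ) (J : Finset ℤ),
    (s : ℝ) ≤ 2 * (n : ℝ) ^ (2 / 3 : ℝ) ∧ (J.card : ℝ) ≤ C * (n : ℝ) ^ (1 / 3 : ℝ) ∧
      ∀ w : ℤ, |w| ≤ K' * n → ∃ j ∈ J, s * j ≤ w ∧ w ≤ s * j + s := by
  refine ⟨2 * K' + 2, by positivity, fun n hn => ?_⟩
  obtain ⟨r, hr, h3, h1, h2⟩ := D0Net_cube hn
  rw [h1, h2]
  have hr2 : 1 ≤ r ^ 2 := one_le_pow₀ hr
  obtain ⟨s, hs1, hs2⟩ : ∃ s : ℕ, r ^ 2 ≤ s ∧ (s : ℝ) ≤ 2 * r ^ 2 :=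
    ⟨⌈r ^ 2⌉₊, Nat.le_ceil _, by linarith [Nat.ceil_lt_add_one (sq_nonneg r)]⟩
  have hs0 : 0 < s := by
    have : (0 : ℝ) < s := by linarith
    exact_mod_cast this
  obtain ⟨m, hm1, hm2⟩ : ∃ m : ℕ, s * m ≤ K' * n ∧ K' * n < s * m + s :=
    ⟨K' * n / s, Nat.mul_div_le _ _, Nat.lt_mul_div_succ _ hs0⟩
  refine ⟨s, Finset.Icc (-(m : ℤ) - 1) m, hs2, ?_, fun w hw => ?_⟩
  · have hc : (Finset.Icc (-(m : ℤ) - 1) m).card = 2 * m + 2 := by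
      rw [Int.card_Icc]
      omega
    have hm : (s : ℝ) * m ≤ K' * n := by exact_mod_cast hm1
    have hm' : (m : ℝ) ≤ K' * r := by
      refine le_of_mul_le_mul_left ?_ (by positivity : 0 < r ^ 2)
      rw [h3] at hm
      nlinarith [mul_le_mul_of_nonneg_right hs1 (Nat.cast_nonneg (α := ℝ) m)]
    rw [hc]
    push_cast
    linarith
  · have hs : (0 : ℤ) < s := by exact_mod_cast hs0
    have e1 : (s : ℤ) * (w / s) ≤ w := Int.mul_ediv_self_le hs.ne'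
    have e2 : w < s * (w / s) + s := Int.lt_mul_ediv_self_add hs
    have hm : (K' : ℤ) * n < s * m + s := by exact_mod_cast hm2
    obtain ⟨w1, w2⟩ := abs_le.1 hw
    refine ⟨w / s, Finset.mem_Icc.2 ⟨?_, ?_⟩, e1, e2.le⟩
    · have : (s : ℤ) * (-(m : ℤ) - 1) < s * (w / s + 1) := by linarith
      have := lt_of_mul_lt_mul_left this hs.le
      omega
    · have : (s : ℤ) * (w / s) < s * (m + 1) := by linarith
      have := lt_of_mul_lt_mul_left this hs.le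
      omega

variable {G : Measure ℝ} [IsProbabilityMeasure G] [NullSingletonClass G]

variable (hG : Nice G)
include hG

/-- Let `c, Z` be from `exists_ZA0`, `Cv, Ch` from `vseg_tail0, hseg_tail0`, `K0 = ⌈Cv / c⌉₊`.  For `w0 = s j ≤ w ≤ w0 + s` (`exists_net0`):
`tau w u - a (u - w) ≥ tau w0 u - a (u - w0) - hseg w0 (w0+s) - A s` (`tau_le_hseg_add0`, `hseg_mono0`) `≥ psiT w0 - Z (w0,y) - (vseg w0 - Cv n)⁺ - (hseg - Ch s)⁺ - (Ch + A) s`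
(`psi_trunc`).  Bound the four families indexed by `j ∈ J` (`psiT - ePsi`: `var_psi`; the other three: `etail_moments`) by
`exists_sup_bound0`: means `≤ √(C n^(1/3) C n) = C n^(2/3)`. -/
theorem psi_net {A : ℝ} (hA : A < mu G (1, 0)) : ∃ K0 : ℕ, ∀ K : ℕ, K0 ≤ K → ∀ K' : ℕ, ∃ C > 0,
    ∀ (a : ℝ) (n : ℕ) (y : ℤ), |a| ≤ A → 1 ≤ n → ∃ g : Env → ℝ, Integrable g (iidLaw G) ∧
      (∀ t, 0 ≤ g t) ∧ ∫ t, g t ∂iidLaw G ≤ C * (n : ℝ) ^ (2 / 3 : ℝ) ∧ ∀ᵐ t ∂iidLaw G,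
        ∀ w u : ℤ, |w| ≤ K' * n →
          ePsi G a K n - g t ≤ tau t Set.univ y n w u - a * ((u : ℝ) - w) := by
  obtain ⟨c, hc, CZ, hCZ, Z, hZ, hae⟩ := exists_ZA0 hG hA
  obtain ⟨Cv, hCv, hV⟩ := vseg_tail0 hG
  obtain ⟨Ch, hCh, hH⟩ := hseg_tail0 hG
  refine ⟨⌈Cv / c⌉₊, fun K hK K' => ?_⟩
  have hcK : Cv ≤ c * K := by
    have := (Nat.le_ceil (Cv / c)).trans (Nat.cast_le.2 hK)
    rwa [div_le_iff₀' hc] at this
  obtain ⟨D, hD, hnet⟩ := exists_net0 K'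
  obtain ⟨Cp, hCp, hvar⟩ := var_psi hG A K
  obtain ⟨C2, hC2, H2⟩ := D0Net_etail (ι := ℤ) (P := iidLaw G) hCZ hD.le
  obtain ⟨C3, hC3, H3⟩ := D0Net_etail (ι := ℤ) (P := iidLaw G) hCv hD.le
  obtain ⟨C4, hC4, H4⟩ := D0Net_etail (ι := ℤ) (P := iidLaw G) hCh hD.le
  have hA0 : 0 ≤ max A 0 := le_max_right _ _
  refine ⟨√(D * Cp) + C2 + C3 + C4 + 2 * (Ch + max A 0), by positivity, fun a n y ha hn => ?_⟩
  obtain ⟨s, J, hs, hJ, hcov⟩ := hnet n hn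
  obtain ⟨r, hr, h3, h1, h2⟩ := D0Net_cube hn
  rw [h1] at hJ
  rw [h2] at hs ⊢
  have hJ4 : (J.card : ℝ) ≤ D * r ^ 4 :=
    hJ.trans (mul_le_mul_of_nonneg_left (le_self_pow₀ hr (by norm_num)) hD.le)
  obtain ⟨g1, i1, p1, m1, b1⟩ := D0Net_sup J (fun j t => psiT a (K * n) t y n (s * j) - ePsi G a K n)
    (fun j _ => (memLp_psi hG a _ y hn _).sub (memLp_const _)) (fun j _ => hvar a n y _ ha hn)
    (mul_pos hD hCp).le (r := r) (by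
      rw [h3]
      nlinarith [mul_le_mul_of_nonneg_right hJ (by positivity : 0 ≤ Cp * r ^ 3)])
  obtain ⟨g2, i2, p2, m2, b2⟩ := H2 J (fun j => Z (s * j, y)) r (fun j _ => hZ _) hJ4
  obtain ⟨g3, i3, p3, m3, b3⟩ := H3 J _ r (fun j _ => hV (s * j) y (y + n) (by omega)) hJ4
  obtain ⟨g4, i4, p4, m4, b4⟩ := H4 J _ r (fun j _ => hH (s * j) (s * j + s) y (by omega)) hJ4
  refine ⟨fun t => g1 t + g2 t + g3 t + g4 t + 2 * (Ch + max A 0) * r ^ 2,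
    (((i1.add i2).add i3).add i4).add (integrable_const _), fun t => ?_, ?_, ?_⟩
  · have := p1 t
    have := p2 t
    have := p3 t
    have := p4 t
    positivity
  · refine (D0Net_int i1 i2 i3 i4 _).le.trans ?_
    linarith
  filter_upwards [hae] with t ⟨ht, hT⟩ w u hw
  obtain ⟨j, hj, w1, w2⟩ := hcov w hw
  have e1 := tau_le_hseg_add0 (y := y) ht hn w1 u
  have e2 := hseg_mono0 (y := y) (w := s * j) ht w2
  have e3 := psi_trunc (R := K * n) (x := s * j) (y := y) ht hn (ha.trans (le_max_left A 0)) hc.le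
    ((hZ (s * j, y)).2.1 t) (fun q => hT (s * j, y) q) u
  have f5 : max (vseg t (s * j) y (y + n) - c * ((K * n : ℕ) : ℝ)) 0 ≤ g3 t := by
    refine (max_le_max_right _ ?_).trans (b3 j hj t)
    have := mul_le_mul_of_nonneg_right hcK (Nat.cast_nonneg (α := ℝ) n)
    push_cast
    linarith only [this]
  refine D0Net_num e1 e2 e3 (abs_le.1 (b1 j hj t)).1 (b2 j hj t) f5 (s := s) ?_ (ha.trans (le_max_left A 0)) hCh.le
    (by exact_mod_cast w1) (by exact_mod_cast w2) hs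
  have := (le_max_left _ _).trans (b4 j hj t)
  rwa [Int.cast_add, Int.cast_natCast] at this

/-- `tau_double0` with `A' = max A 0 + c`, `R' = K' n`, `R2 = K (2n)`, `K'` so large that `A' K' - 2 A K ≥ 2 C` (`ePsi_le`), `m = ePsi - g1 t` (`psi_net` at
`y = n`), `m' = ePsi - g0 t` (`y = 0`, `w = 0`), `z0 = Z 0 t`, `z1 = g2 t ≥ Z (v,n) t` for `|v| ≤ K' n` (`exists_sup_bound0`, mean `≤ C √n`); so
`psiT (2n) ≥ 2 ePsi - g0 - g1 - g2 - Z 0` a.e. (`le_psi`); integrate. -/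
theorem psi_doubling {A : ℝ} (hA : A < mu G (1, 0)) : ∃ K0 : ℕ, ∀ K : ℕ, K0 ≤ K → ∃ C > 0,
    ∀ (a : ℝ) (n : ℕ), |a| ≤ A → 1 ≤ n →
      2 * ePsi G a K n - C * (n : ℝ) ^ (2 / 3 : ℝ) ≤ ePsi G a K (2 * n) := by
  obtain ⟨c, hc, CZ, hCZ, Z, hZ, hae⟩ := exists_ZA0 hG hA
  obtain ⟨K0, hK0⟩ := psi_net hG hA
  obtain ⟨Ce, hCe, hE⟩ := ePsi_le hG
  refine ⟨K0, fun K hK => ?_⟩
  have hA0 : 0 ≤ max A 0 := le_max_right _ _
  have hA' : 0 < max A 0 + c := by positivity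
  obtain ⟨K', hK'⟩ : ∃ K' : ℕ, 2 * Ce + 2 * max A 0 * K ≤ (max A 0 + c) * K' :=
    ⟨⌈(2 * Ce + 2 * max A 0 * K) / (max A 0 + c)⌉₊, (div_le_iff₀' hA').1 (Nat.le_ceil _)⟩
  obtain ⟨C1, hC1, H1⟩ := hK0 K hK K'
  obtain ⟨C2, hC2, H2⟩ := D0Net_etail (ι := ℤ) (P := iidLaw G) (D := 2 * K' + 1) hCZ (by positivity)
  obtain ⟨C3, hC3, H3⟩ := etail_moments (P := iidLaw G) hCZ
  refine ⟨2 * C1 + C2 + C3, by positivity, fun a n ha hn => ?_⟩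
  obtain ⟨g0, i0, p0, m0, b0⟩ := H1 a n 0 ha hn
  obtain ⟨g1, i1, p1, m1, b1⟩ := H1 a n n ha hn
  obtain ⟨r, hr, h3, -, h2⟩ := D0Net_cube hn
  rw [h2] at m0 m1 ⊢
  have hn' : (1 : ℝ) ≤ n := by exact_mod_cast hn
  obtain ⟨g2, i2, p2, m2, b2⟩ := H2 (Finset.Icc (-(K' * n : ℤ)) (K' * n)) (fun v => Z (v, n)) r (fun j _ => hZ _) (by
    have hc : (Finset.Icc (-(K' * n : ℤ)) (K' * n)).card = 2 * (K' * n) + 1 := by
      rw [Int.card_Icc, ← Nat.cast_mul]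
      omega
    have h4 : (n : ℝ) ≤ r ^ 4 := h3 ▸ pow_le_pow_right₀ hr (by norm_num)
    rw [hc]
    push_cast
    nlinarith [mul_le_mul_of_nonneg_left h4 (Nat.cast_nonneg (α := ℝ) K')])
  obtain ⟨l3, m3, -⟩ := H3 _ (hZ (0, 0))
  have i3 := l3.integrable one_le_two
  have key : ∫ t, 2 * ePsi G a K n - (g0 t + g1 t + g2 t + Z (0, 0) t) ∂iidLaw G ≤ ePsi G a K (2 * n) := by
    refine integral_mono_ae ((integrable_const _).sub (((i0.add i1).add i2).add i3))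
      ((memLp_psi hG a _ 0 (by omega) 0).integrable one_le_two) ?_
    filter_upwards [hae, b0, b1] with t ⟨ht, hT⟩ c0 c1
    refine le_psi fun u hu => ?_
    have := tau_double0 (A := max A 0) (A' := max A 0 + c) (z0 := Z (0, 0) t) (z1 := g2 t)
      (m := ePsi G a K n - g1 t) (m' := ePsi G a K n - g0 t) (R' := K' * n) (R2 := K * (2 * n)) ht hn
      (ha.trans (le_max_left A 0)) hA'.le (fun q => by simpa using hT (0, 0) q) (fun v w hv => ?_)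
      (fun w u hw => c1 w u (by exact_mod_cast hw)) (fun u => by simpa using c0 0 u (by positivity)) (u := u)
      (by exact_mod_cast hu)
    · rw [zero_add]
      refine le_trans (le_min ?_ ?_) this
      · linarith [(hZ (0, 0)).2.1 t]
      · nlinarith [mul_le_mul_of_nonneg_right hK' (Nat.cast_nonneg (α := ℝ) n), hE a K n hn, p0 t, p1 t, p2 t]
    · have hv' : |v| ≤ K' * n := by exact_mod_cast hv
      have e1 := b2 v (Finset.mem_Icc.2 (abs_le.1 hv')) t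
      have e2 := hT (v, n) (w, n)
      simp only at e1 e2
      nlinarith [mul_nonneg hc.le (abs_nonneg ((w : ℝ) - v))]
  rw [integral_sub (g := fun t => g0 t + g1 t + g2 t + Z (0, 0) t) (integrable_const _)
    (((i0.add i1).add i2).add i3)] at key
  have e := D0Net_int i0 i1 i2 i3 0
  simp only [integral_const, probReal_univ, one_smul, add_zero] at key e
  nlinarith [mul_le_mul_of_nonneg_left (one_le_pow₀ hr (n := 2)) hC3.le]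

end Crest.Agent.R151
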