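import Crest.Agent.R151.D0Defs

/-! R151 / D0Sel: measurable selection, freezing, independence, stationarity. -/

set_option autoImplicit false
set_option linter.unusedSectionVars false
set_option linter.unusedVariables false
open MeasureTheory ProbabilityTheory Crest.ProbabilityR.FirstPassage Filter Topology
open scoped ENNReal

namespace Crest.Agent.R151

/-- induction on the nonempty finset `I`: `D' t = if F a t < F (D t) t then a else D t` (`measurable_comp_countable`) -/
theorem exists_argmin0 {α : Type} [MeasurableSpace α] [Countable α] [MeasurableSingletonClass α]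
    (I : Finset α) (hI : I.Nonempty) (F : α → Env → ℝ) (hF : ∀ a, Measurable (F a))
    (U : Set (Sym2 V)) (hU : ∀ a ∈ I, DependsOnly (F a) U) :
    ∃ D : Env → α, Measurable D ∧ DependsOnly D U ∧ ∀ t, D t ∈ I ∧ ∀ a ∈ I, F (D t) t ≤ F a t := by
  classical
  induction hI using Finset.Nonempty.cons_induction with
  | singleton a => exact ⟨fun _ => a, measurable_const, fun _ _ _ => rfl, fun t => by simp⟩
  | cons a s ha hs ih =>
    obtain ⟨D, h1, h2, h3⟩ := ih fun b hb => hU b (Finset.mem_cons_of_mem hb)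
    refine ⟨fun t => if F a t < F (D t) t then a else D t,
      Measurable.ite (measurableSet_lt (hF a) (measurable_comp_countable h1 hF)) measurable_const h1,
      fun t t' h => ?_, fun t => ?_⟩
    · have e1 := h2 t t' h
      have e2 := hU a (Finset.mem_cons_self _ _) t t' h
      have e3 := hU (D t) (Finset.mem_cons_of_mem (h3 t).1) t t' h
      simp only [← e1, e2, e3]
    · simp only [Finset.mem_cons, forall_eq_or_imp]
      split_ifs with h
      · exact ⟨Or.inl rfl, le_rfl, fun b hb => h.le.trans ((h3 t).2 b hb)⟩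
      · exact ⟨Or.inr (h3 t).1, not_lt.1 h, (h3 t).2⟩

theorem DependsOnly.mono0 {α : Type} {f : Env → α} {U W : Set (Sym2 V)} (h : DependsOnly f U)
    (hUW : U ⊆ W) : DependsOnly f W := by
  exact fun t t' h' => h t t' fun e he => h' e (hUW he)

/-- a function reading the slab `[0,h)`, evaluated in a shifted environment, reads the shifted slab -/
theorem DependsOnly.shift_slab0 {α : Type} {f : Env → α} {y : ℤ} {h : ℕ}
    (hf : DependsOnly f (slabEdges y h)) (v : V) :
    DependsOnly (fun t => f (shift v t)) (slabEdges (y + v.2) h) := by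
  intro t t' h'
  refine hf _ _ fun e he => h' _ ?_
  obtain ⟨h1, w, hw, h2⟩ := he
  refine ⟨fun z hz => ?_, w + v, Sym2.mem_map.2 ⟨w, hw, rfl⟩, by simp; omega⟩
  obtain ⟨z', hz', rfl⟩ := Sym2.mem_map.1 hz
  have := h1 z' hz'
  simp; omega

variable (G : Measure ℝ) [IsProbabilityMeasure G]

/-- `lintegral_freeze` for the indicators of the `A a` -/
theorem prob_freeze0 {α : Type} [MeasurableSpace α] [Countable α] [MeasurableSingletonClass α]
    {X : Env → α} {A : α → Set Env} {U W : Set (Sym2 V)} (hX : Measurable X)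
    (hA : ∀ a, MeasurableSet (A a)) (hU : DependsOnly X U)
    (hW : ∀ a, DependsOnly (fun t => t ∈ A a) W) (h : Disjoint U W) {q : ℝ}
    (hq : ∀ t, (iidLaw G).real (A (X t)) ≤ q) : (iidLaw G).real {t | t ∈ A (X t)} ≤ q := by
  have hm : MeasurableSet {t | t ∈ A (X t)} :=
    measurableSet_setOfPred.2 (measurable_comp_countable (F := fun a t => t ∈ A a) hX fun a =>
      measurableSet_setOfPred.1 (hA a))
  have := lintegral_freeze G (F := fun a => (A a).indicator 1) hX (fun a => measurable_one.indicator (hA a)) hU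
    (fun a t t' h' => by
      have := hW a t t' h'
      simp only [eq_iff_iff] at this
      by_cases h1 : t ∈ A a
      · simp [h1, this.1 h1]
      · simp [h1, mt this.2 h1]) h
  have e1 : ∫⁻ t, (A (X t)).indicator 1 t ∂iidLaw G = iidLaw G {t | t ∈ A (X t)} := by
    rw [← lintegral_indicator_one hm]; rfl
  have hq0 : 0 ≤ q := measureReal_nonneg.trans (hq 0)
  rw [e1] at this
  refine ENNReal.toReal_le_of_le_ofReal hq0 (this.le.trans ?_)
  calc _ ≤ ∫⁻ _, ENNReal.ofReal q ∂iidLaw G := lintegral_mono fun t => by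
        rw [lintegral_indicator_one (hA _), ← ofReal_measureReal]
        exact ENNReal.ofReal_le_ofReal (hq t)
    _ = _ := by simp

/-- `iIndepFun_of_dependsOnly` on the subtype `I` (or induction on `I` with `indepFun_of_dependsOnly`) -/
theorem prob_forall_eq_prod0 {ι : Type} (I : Finset ι) (A : ι → Set Env) (U : ι → Set (Sym2 V))
    (hA : ∀ i ∈ I, MeasurableSet (A i)) (hU : ∀ i ∈ I, DependsOnly (fun t => t ∈ A i) (U i))
    (h : ∀ i ∈ I, ∀ j ∈ I, i ≠ j → Disjoint (U i) (U j)) :
    (iidLaw G).real {t | ∀ i ∈ I, t ∈ A i} = ∏ i ∈ I, (iidLaw G).real (A i) := by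
  classical
  induction I using Finset.induction_on with
  | empty => simp
  | insert a s ha ih =>
    rw [Finset.prod_insert ha, ← ih (fun i hi => hA i (Finset.mem_insert_of_mem hi))
      (fun i hi => hU i (Finset.mem_insert_of_mem hi))
      fun i hi j hj => h i (Finset.mem_insert_of_mem hi) j (Finset.mem_insert_of_mem hj)]
    have hm : MeasurableSet {t | ∀ i ∈ s, t ∈ A i} := by
      have := Finset.measurableSet_biInter s fun i hi => hA i (Finset.mem_insert_of_mem hi)
      convert this using 1; ext; simp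
    have hi := indepFun_of_dependsOnly G (f := fun t => t ∈ A a) (g := fun t => ∀ i ∈ s, t ∈ A i)
      (W := ⋃ i ∈ s, U i) (measurableSet_setOfPred.1 (hA a (Finset.mem_insert_self _ _)))
      (measurableSet_setOfPred.1 hm) (hU a (Finset.mem_insert_self _ _))
      (fun t t' h' => by
        refine propext (forall₂_congr fun i hi => iff_of_eq ?_)
        exact hU i (Finset.mem_insert_of_mem hi) t t' fun e he => h' e (Set.mem_biUnion hi he))
      (by
        simp only [Set.disjoint_iUnion_right]
        exact fun i hi => h a (Finset.mem_insert_self _ _) i (Finset.mem_insert_of_mem hi)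
          fun e => ha (e ▸ hi))
    have := hi.measure_inter_preimage_eq_mul {True} {True} trivial trivial
    simp only [Measure.real, ← ENNReal.toReal_mul]
    congr 1
    convert this using 2
    · ext; simp
    · congr 1; ext; simp
    · congr 1; ext; simp

/-- `prob_forall_eq_prod0` for the complements, `1 - π ≤ exp (-π)` -/
theorem prob_none_le0 {ι : Type} (I : Finset ι) (A : ι → Set Env) (U : ι → Set (Sym2 V))
    (hA : ∀ i ∈ I, MeasurableSet (A i)) (hU : ∀ i ∈ I, DependsOnly (fun t => t ∈ A i) (U i))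
    (h : ∀ i ∈ I, ∀ j ∈ I, i ≠ j → Disjoint (U i) (U j)) {π : ℝ}
    (hπ : ∀ i ∈ I, π ≤ (iidLaw G).real (A i)) :
    (iidLaw G).real {t | ∀ i ∈ I, t ∉ A i} ≤ Real.exp (-(I.card * π)) := by
  have := prob_forall_eq_prod0 G I (fun i => (A i)ᶜ) U (fun i hi => (hA i hi).compl)
    (fun i hi t t' h' => congrArg Not (hU i hi t t' h')) h
  refine this.le.trans ((Finset.prod_le_prod (g := fun _ => Real.exp (-π)) (fun i _ => measureReal_nonneg)
    fun i hi => ?_).trans ?_)
  · rw [probReal_compl_eq_one_sub (hA i hi)]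
    linarith [hπ i hi, Real.one_sub_le_exp_neg π]
  · rw [Finset.prod_const, ← Real.exp_nat_mul, mul_neg]

/-- `measurePreserving_shift` -/
theorem prob_shift0 (v : V) {A : Set Env} (hA : MeasurableSet A) :
    (iidLaw G).real {t | shift v t ∈ A} = (iidLaw G).real A := by
  exact (measurePreserving_shift G v).measureReal_preimage hA.nullMeasurableSet

theorem integral_shift0 (v : V) {f : Env → ℝ} (hf : Measurable f) :
    ∫ t, f (shift v t) ∂iidLaw G = ∫ t, f t ∂iidLaw G := by
  have mp := measurePreserving_shift G v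
  rw [← integral_map mp.measurable.aemeasurable hf.aestronglyMeasurable, mp.map_eq]

/-- product rule for an event and an independent variable (`indepFun_of_dependsOnly`, `IndepFun.integral_mul_eq_mul_integral`) -/
theorem integral_indicator_indep0 {A : Set Env} {f : Env → ℝ} {U W : Set (Sym2 V)}
    (hA : MeasurableSet A) (hf : Measurable f) (hU : DependsOnly (fun t => t ∈ A) U)
    (hW : DependsOnly f W) (h : Disjoint U W) :
    ∫ t, A.indicator f t ∂iidLaw G = (iidLaw G).real A * ∫ t, f t ∂iidLaw G := by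
  have hi := indepFun_of_dependsOnly G (f := A.indicator (1 : Env → ℝ)) (measurable_one.indicator hA) hf
    (fun t t' h' => by
      have := hU t t' h'
      simp only [eq_iff_iff] at this
      by_cases h1 : t ∈ A
      · simp [h1, this.1 h1]
      · simp [h1, mt this.2 h1]) hW h
  have := hi.integral_mul_eq_mul_integral (measurable_one.indicator hA).aestronglyMeasurable
    hf.aestronglyMeasurable
  rw [integral_indicator_one hA] at this
  rw [← this]
  refine integral_congr_ae (Eventually.of_forall fun t => ?_)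
  by_cases h1 : t ∈ A <;> simp [h1]

variable {G} [NullSingletonClass G] (F : Face (mu G))

theorem Face.measurable_c0 (U : Set V) (y : ℤ) (h : ℕ) (x u : ℤ) :
    Measurable fun t => F.c t U y h x u := by
  exact ((measurable_tau _ _ _ _ _).sub_const _).sub_const _

theorem Face.dependsOnly_c0 (U : Set V) (y : ℤ) (h : ℕ) (x u : ℤ) :
    DependsOnly (fun t => F.c t U y h x u) (slabEdges y h) := by
  intro t t' h'
  have := dependsOnly_tau U y h x u t t' fun e he => h' e he.1
  simp only [Face.c, this]

/-- `tau_shift_univ` with `v = (x,y)` -/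
theorem Face.prob_c0 (y : ℤ) (h : ℕ) (x u : ℤ) (s : ℝ) :
    (iidLaw G).real {t | s ≤ F.c t Set.univ y h x u} =
      (iidLaw G).real {t | s ≤ F.c t Set.univ 0 h 0 (u - x)} := by
  rw [← prob_shift0 G (x, y) (measurableSet_le measurable_const (F.measurable_c0 _ 0 h 0 (u - x)))]
  congr 1; ext t
  simp [Face.c, tau_shift_univ]

/-- `Face.LL_shift` -/
theorem Face.prob_LL0 (hG : Nice G) (y : ℤ) (h : ℕ) (k : ℤ) (R : ℕ) (s : ℝ) :
    (iidLaw G).real {t | s < F.LL t y h k R} = (iidLaw G).real {t | s < F.LL t 0 h 0 R} := by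
  rw [← prob_shift0 G (k, y) (measurableSet_lt measurable_const (F.measurable_LL 0 h 0 R))]
  congr 1; ext t
  simp [Face.LL_shift]

/-- `tau_concat` -/
theorem Face.c_concat0 {t : Env} (ht : ∀ e, 0 ≤ t e) (y : ℤ) {h1 h2 : ℕ} (a1 : 1 ≤ h1) (a2 : 1 ≤ h2)
    (x v u : ℤ) : F.c t Set.univ y (h1 + h2) x u ≤
      F.c t Set.univ y h1 x v + F.c t Set.univ (y + h1) h2 v u := by
  have := tau_concat (y := y) (x := x) (u := u) ht a1 a2 v
  simp only [Face.c]; push_cast; linarith

/-- `csSup_le` -/
theorem Face.LL_le0 {t : Env} {y : ℤ} {h : ℕ} {k : ℤ} {R : ℕ} {s : ℝ} (hs : 0 ≤ s)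
    (hb : ∀ x u : ℤ, |x - k| ≤ R → |u - k| ≤ R → -F.c t Set.univ y h x u ≤ s) :
    F.LL t y h k R ≤ s := by
  refine csSup_le ⟨0, Or.inl rfl⟩ ?_
  rintro _ (rfl | ⟨x, u, hx, hu, rfl⟩)
  · exact hs
  · exact hb x u hx hu

/-- `Nice.logc` shifted by a constant -/
theorem Face.logc_c0 (hG : Nice G) (U : Set V) (y : ℤ) (h : ℕ) (x z : ℤ) (u v : ℝ) :
    (iidLaw G).real {t | u ≤ F.c t U y h x z} * (iidLaw G).real {t | v ≤ F.c t U y h x z} ≤
      (iidLaw G).real {t | (u + v) / 2 ≤ F.c t U y h x z} ^ 2 := by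
  have := hG.logc (U ∩ slabTo y h z) (x, y) (z, y + h) (u + (F.a0 * ((z : ℝ) - x) + F.b0 * h))
    (v + (F.a0 * ((z : ℝ) - x) + F.b0 * h))
  simp only [Face.c, tau]
  convert this using 4 <;> (ext t; constructor <;> intro h <;> linarith)

theorem Face.Mid.abs_le0 {h : ℕ} {ζ : ℤ} (hh : 1 ≤ h) (hm : F.Mid h ζ) :
    (|ζ| : ℝ) ≤ (|F.ξm| + F.τ1 + 1) * h := by
  have h1 : (1 : ℝ) ≤ h := by exact_mod_cast hh
  have h2 := abs_sub_abs_le_abs_sub (ζ : ℝ) (F.ξm * h)
  rw [abs_mul, Nat.abs_cast] at h2
  have : |(ζ : ℝ) - F.ξm * h| ≤ F.τ1 * h + 1 := hm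
  linarith

end Crest.Agent.R151
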