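import Crest.Agent.R151.D0Var
import Crest.Agent.R151.D0Sel

/-! R151 / D0Psi: the tilted0 point-to-line passage time `psiT`. -/

set_option autoImplicit false
open MeasureTheory ProbabilityTheory Crest.ProbabilityR.FirstPassage Filter Topology
open scoped ENNReal

namespace Crest.Agent.R151

section det
variable {t : Env} {a : ℝ} {R n : ℕ} {x y : ℤ}

theorem psi_le (a : ℝ) (t : Env) (y : ℤ) (n : ℕ) (x : ℤ) {u : ℤ} (hu : |u| ≤ R) :
    psiT a R t y n x ≤ tau t Set.univ y n x (x + u) - a * u :=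
  Finset.inf'_le (fun u : ℤ => tau t Set.univ y n x (x + u) - a * u) (Finset.mem_Icc.2 (abs_le.1 hu))

theorem le_psi {s : ℝ} (h : ∀ u : ℤ, |u| ≤ R → s ≤ tau t Set.univ y n x (x + u) - a * u) :
    s ≤ psiT a R t y n x :=
  Finset.le_inf' _ _ fun u hu => h u (abs_le.2 (Finset.mem_Icc.1 hu))

theorem D0Psi_eq (a : ℝ) (R : ℕ) (y : ℤ) (n : ℕ) (x : ℤ) : (fun t => psiT a R t y n x) =
    minT (Finset.Icc (-(R : ℤ)) R) (icc_nonempty0 R) (fun u => Set.univ ∩ slabTo y n (x + u)) (x, y)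
      (fun u => (x + u, y + n)) (fun u => -(a * u)) := by
  funext t
  simp only [psiT, minT, tau, sub_eq_add_neg]

theorem measurable_psi (a : ℝ) (R : ℕ) (y : ℤ) (n : ℕ) (x : ℤ) :
    Measurable fun t => psiT a R t y n x := by
  rw [D0Psi_eq]
  exact measurable_minT _ _ _ _ _ _

theorem psi_shift (v : V) : psiT a R (shift v t) y n x = psiT a R t (y + v.2) n (x + v.1) := by
  simp only [psiT, tau_shift_univ, add_right_comm x _ v.1]

/-- `u = 0`, `tau_le_seg` -/
theorem psi_le_vseg (ht : ∀ e, 0 ≤ t e) (hn : 1 ≤ n) : psiT a R t y n x ≤ vseg t x y (y + n) := by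
  have h1 := psi_le (R := R) a t y n x (u := 0) (by simp)
  have h2 := tau_le_seg (y := y) (x := x) (u := x) ht hn
  simp only [add_zero, Int.cast_zero, mul_zero, sub_zero] at h1
  simp only [min_self, max_self, hseg, Finset.Ico_self, Finset.sum_empty, zero_add] at h2
  exact h1.trans h2

/-- triangle inequality inside the slab (`TS_triangle`, `TS_le_hseg`) -/
theorem tau_le_hseg_add0 (ht : ∀ e, 0 ≤ t e) (hn : 1 ≤ n) {w w' : ℤ} (hw : w ≤ w') (u : ℤ) :
    tau t Set.univ y n w u ≤ hseg t w w' y + tau t Set.univ y n w' u := by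
  have hm : ∀ k : ℤ, (k, y) ∈ Set.univ ∩ slabTo y n u := fun k =>
    ⟨trivial, db1_mem.2 (Or.inl ⟨le_rfl, by simp only; omega⟩)⟩
  have hc : Conn (Set.univ ∩ slabTo y n u) (w, y) (w', y) :=
    (pathIn_hseg hw fun k _ _ => hm k).conn
  exact (TS_triangle ht hc (conn_slabTo hn)).trans
    (add_le_add (TS_le_hseg ht hw fun k _ _ => hm k) le_rfl)

theorem hseg_mono0 (ht : ∀ e, 0 ≤ t e) {w w' w'' : ℤ} (h : w' ≤ w'') : hseg t w w' y ≤ hseg t w w'' y :=
  Finset.sum_le_sum_of_subset_of_nonneg (Finset.Ico_subset_Ico_right h) fun _ _ _ => ht _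

/-- far end points are expensive: for `|u - x| > R`, `tau - a (u - x) ≥ c R - z` (`T_le_tau`) and `psiT ≤ vseg` -/
theorem psi_trunc (ht : ∀ e, 0 ≤ t e) (hn : 1 ≤ n) {A c z : ℝ} (ha : |a| ≤ A) (hc : 0 ≤ c) (hz : 0 ≤ z)
    (hZ : ∀ q : V, (A + c) * |(q.1 : ℝ) - x| ≤ T t (x, y) q + z) (u : ℤ) :
    psiT a R t y n x - z - max (vseg t x y (y + n) - c * R) 0 ≤
      tau t Set.univ y n x u - a * ((u : ℝ) - x) := by
  by_cases hu : |u - x| ≤ R
  · have h1 := psi_le a t y n x hu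
    rw [add_sub_cancel, Int.cast_sub] at h1
    have := le_max_right (vseg t x y (y + n) - c * R) 0
    linarith
  · have h1 : (R : ℝ) ≤ |(u : ℝ) - x| := by exact_mod_cast (not_le.1 hu).le
    have h2 := hZ (u, y + n)
    have h3 := T_le_tau (y := y) (x := x) (u := u) ht (conn_slabTo hn)
    have h4 := psi_le_vseg (a := a) (R := R) (x := x) (y := y) ht hn
    have h5 := le_max_left (vseg t x y (y + n) - c * R) 0
    have h6 : a * ((u : ℝ) - x) ≤ A * |(u : ℝ) - x| :=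
      (le_abs_self _).trans (by rw [abs_mul]; exact mul_le_mul_of_nonneg_right ha (abs_nonneg _))
    have h7 := mul_le_mul_of_nonneg_left h1 hc
    simp only at h2
    linarith

/-- `le_TS`: let `p` on `i..j` go from `(0,0)` to `(u,2n)` in `slabTo 0 (2n) u`; `k` = first visit of row `n`, at `(v,n)`, `l ≥ k` = last visit,
at `(w,n)` (`PathIn.exists_first`, `exists_last`, `lip1_snd`).  If `|v| > R'` or `|w| > R'`, `cost ≥ T (0,0) (v,n) ≥ A' R' - z0` (resp. `w`).  Otherwise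
`Cross 0 n p i k`, `Cross n n p l j` (`Cross.tau_le`), `cost p k l ≥ T (v,n) (w,n)`, `cost_add`. -/
theorem tau_double0 (ht : ∀ e, 0 ≤ t e) (hn : 1 ≤ n) {A A' z0 z1 m m' R' R2 : ℝ} (ha : |a| ≤ A)
    (hA' : 0 ≤ A') (h0 : ∀ q : V, A' * |(q.1 : ℝ)| ≤ T t (0, 0) q + z0)
    (h1 : ∀ v w : ℤ, (|v| : ℝ) ≤ R' → A * |(w : ℝ) - v| ≤ T t (v, n) (w, n) + z1)
    (h2 : ∀ w u : ℤ, (|w| : ℝ) ≤ R' → m ≤ tau t Set.univ n n w u - a * ((u : ℝ) - w))
    (h3 : ∀ u : ℤ, m' ≤ tau t Set.univ 0 n 0 u - a * u) {u : ℤ} (hu : (|u| : ℝ) ≤ R2) :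
    min (m' - z1 + m) (A' * R' - z0 - A * R2) ≤ tau t Set.univ 0 (2 * n) 0 u - a * u := by
  rw [le_sub_iff_add_le]
  refine le_TS (conn_slabTo (by omega)) fun p i j hp hi hj => ?_
  have hi2 : (p i).2 = 0 := by rw [hi]
  have hj2 : (p j).2 = 2 * n := by rw [hj]; simp
  have hj1 : (p j).1 = u := by rw [hj]
  have hi1 : (p i).1 = 0 := by rw [hi]
  obtain ⟨k, hk1, hk2, hk3, hk4⟩ := hp.exists_first lip1_snd (c := n) (by omega) (by omega)
  obtain ⟨l, hl1, hl2, hl3, hl4⟩ := hp.exists_last lip1_snd (c := n) (by omega) (by omega)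
  have hkl : k ≤ l := by
    by_contra h
    have := hl4 k (not_le.1 h) hk2
    omega
  have hau : a * u ≤ A * R2 := (le_abs_self _).trans (by
    rw [abs_mul]; exact mul_le_mul ha hu (abs_nonneg _) ((abs_nonneg _).trans ha))
  have far : ∀ r, i ≤ r → r ≤ j → R' < |((p r).1 : ℝ)| →
      min (m' - z1 + m) (A' * R' - z0 - A * R2) + a * u ≤ cost t p i j := fun r h1 h2 h3 => by
    have e1 := h0 (p r)
    have e2 := T_le_cost ht (hp.sub le_rfl h1 h2)
    have e3 := cost_sub_le (p := p) ht (le_refl i) h2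
    have e4 := min_le_right (m' - z1 + m) (A' * R' - z0 - A * R2)
    have e5 := mul_le_mul_of_nonneg_left h3.le hA'
    rw [hi] at e2
    linarith
  by_cases hv : R' < |((p k).1 : ℝ)|
  · exact far k hk1 hk2 hv
  by_cases hw : R' < |((p l).1 : ℝ)|
  · exact far l hl1 hl2 hw
  have hmem : ∀ r, i ≤ r → r ≤ j →
      (0 ≤ (p r).2 ∧ (p r).2 ≤ 2 * n - 1) ∨ ((p r).1 = u ∧ (p r).2 = 2 * n) := fun r h1 h2 => by
    have := db1_mem.1 (hp.2.1 r h1 h2).2
    push_cast at this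
    omega
  have c1 : Cross 0 n p i k := by
    refine ⟨(hp.sub le_rfl hk1 hk2).restrict fun r h1 h2 => db1_mem.2 ?_, hi2, by omega⟩
    rcases h2.eq_or_lt with rfl | h2
    · exact Or.inr ⟨rfl, by omega⟩
    · have := hmem r h1 (h2.le.trans hk2)
      have := hk4 r h1 h2
      omega
  have c2 : Cross n n p l j := by
    refine ⟨(hp.sub hl1 hl2 le_rfl).restrict fun r h1 h2 => db1_mem.2 ?_, hl3, by omega⟩
    have := hmem r (hl1.trans h1) h2
    rcases h1.eq_or_lt with rfl | h1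
    · omega
    · have := hl4 r h1 h2
      omega
  have e1 := c1.tau_le ht
  have e2 := c2.tau_le ht
  have e3 := T_le_cost ht (hp.sub hk1 hkl hl2)
  have e4 := h1 (p k).1 (p l).1 (not_lt.1 hv)
  have e5 := h2 (p l).1 u (not_lt.1 hw)
  have e6 := h3 (p k).1
  have e7 : a * (((p l).1 : ℝ) - (p k).1) ≤ A * |((p l).1 : ℝ) - (p k).1| :=
    (le_abs_self _).trans (by rw [abs_mul]; exact mul_le_mul_of_nonneg_right ha (abs_nonneg _))
  have e8 := min_le_left (m' - z1 + m) (A' * R' - z0 - A * R2)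
  have f1 : ((p k).1, (n : ℤ)) = p k := Prod.ext rfl hk3.symm
  have f2 : ((p l).1, (n : ℤ)) = p l := Prod.ext rfl hl3.symm
  rw [f1, f2] at e4
  rw [hi1] at e1
  rw [hj1] at e2
  rw [cost_add hk1 hk2, cost_add hkl hl2]
  linarith

end det

variable {G : Measure ℝ} [IsProbabilityMeasure G] [NullSingletonClass G]

variable (hG : Nice G)
include hG

/-- `psiT` is a `minT` (`memLp_minT`, `conn_slabTo`) -/
theorem memLp_psi (a : ℝ) (R : ℕ) (y : ℤ) {n : ℕ} (hn : 1 ≤ n) (x : ℤ) :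
    MemLp (fun t => psiT a R t y n x) 2 (iidLaw G) := by
  rw [D0Psi_eq]
  exact memLp_minT hG _ _ fun u _ => conn_slabTo hn

omit hG [NullSingletonClass G] in
theorem integral_psi (a : ℝ) (K : ℕ) (y : ℤ) (n : ℕ) (x : ℤ) :
    ∫ t, psiT a (K * n) t y n x ∂iidLaw G = ePsi G a K n := by
  rw [ePsi, ← integral_shift0 G (x, y) (measurable_psi a (K * n) 0 n 0)]
  simp only [psi_shift, zero_add]

/-- `psi_le` with `u = 0`, `integral_tau_le` -/
theorem ePsi_le : ∃ C > 0, ∀ (a : ℝ) (K n : ℕ), 1 ≤ n → ePsi G a K n ≤ C * n := by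
  obtain ⟨C, hC, h⟩ := integral_tau_le hG
  refine ⟨C, hC, fun a K n hn => ?_⟩
  have h1 := (h 0 0 0 n hn).1
  simp only [sub_self, abs_zero, zero_add] at h1
  refine le_trans (integral_mono ((memLp_psi hG a _ 0 hn 0).integrable one_le_two)
    (memLp_one_iff_integrable.1 (by simpa using memLp_tau hG (conn_slabTo hn) 1)) fun t => ?_) h1
  simpa using psi_le (R := K * n) a t 0 n 0 (u := 0) (by simp only [abs_zero]; positivity)

/-- `var_minT` with `B = A K n`, `ePsi_le`, `integral_psi`, `variance_eq_integral` -/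
theorem var_psi (A : ℝ) (K : ℕ) : ∃ C > 0, ∀ (a : ℝ) (n : ℕ) (y x : ℤ), |a| ≤ A → 1 ≤ n →
    ∫ t, (psiT a (K * n) t y n x - ePsi G a K n) ^ 2 ∂iidLaw G ≤ C * n := by
  obtain ⟨C, hC, h⟩ := var_minT hG
  obtain ⟨C', hC', h'⟩ := ePsi_le hG
  refine ⟨C * (1 + |A| * K + C'), by positivity, fun a n y x ha hn => ?_⟩
  have h1 := h (Finset.Icc (-((K * n : ℕ) : ℤ)) (K * n : ℕ)) (icc_nonempty0 _)
    (fun u => Set.univ ∩ slabTo y n (x + u)) (x, y) (fun u => (x + u, y + n)) (fun u => -(a * u))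
    (|A| * (K * n)) (fun u _ => conn_slabTo hn) (fun u hu => by
      have : |(u : ℝ)| ≤ K * n := by exact_mod_cast abs_le.2 (Finset.mem_Icc.1 hu)
      rw [abs_neg, abs_mul]
      exact mul_le_mul (ha.trans (le_abs_self A)) this (abs_nonneg _) (abs_nonneg _))
  rw [← D0Psi_eq, variance_eq_integral (measurable_psi _ _ _ _ _).aemeasurable] at h1
  simp only [integral_psi] at h1
  refine h1.trans ?_
  have h2 := h' a K n hn
  have h3 : (1 : ℝ) ≤ n := by exact_mod_cast hn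
  rw [mul_assoc]
  exact mul_le_mul_of_nonneg_left (by nlinarith) hC.le

/-- the minimiser (`exists_argmin0`) is a strategy -/
theorem exists_strat_psi (a : ℝ) (K : ℕ) {n : ℕ} (hn : 1 ≤ n) : ∃ D, IsStrat n (K * n) D ∧
    sCost G n D - a * sMean G D = ePsi G a K n := by
  obtain ⟨D, h1, h2, h3⟩ := exists_argmin0 (Finset.Icc (-((K * n : ℕ) : ℤ)) (K * n : ℕ))
    (icc_nonempty0 _) (fun u t => tau t Set.univ 0 n 0 u - a * u)
    (fun u => (measurable_tau _ _ _ _ _).sub_const _) (slabEdges 0 n)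
    (fun u _ t t' h => by
      have := dependsOnly_tau Set.univ 0 n 0 u t t' fun e he => h e he.1
      simp only at this ⊢
      rw [this])
  have hb : ∀ t, |D t| ≤ (K * n : ℕ) := fun t => abs_le.2 (Finset.mem_Icc.1 (h3 t).1)
  refine ⟨D, ⟨h1, h2, fun t => by exact_mod_cast hb t⟩, ?_⟩
  have e : ∀ t, tau t Set.univ 0 n 0 (D t) = psiT a (K * n) t 0 n 0 + a * D t := fun t => by
    have a1 := psi_le a t 0 n 0 (hb t)
    have a2 : tau t Set.univ 0 n 0 (D t) - a * D t ≤ psiT a (K * n) t 0 n 0 :=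
      le_psi fun u hu => by
        rw [zero_add]
        exact (h3 t).2 u (Finset.mem_Icc.2 (abs_le.1 hu))
    rw [zero_add] at a1
    linarith
  have hD : Integrable (fun t => (D t : ℝ)) (iidLaw G) := by
    refine Integrable.of_bound ((measurable_of_countable (fun z : ℤ => (z : ℝ))).comp
      h1).aestronglyMeasurable ((K * n : ℕ) : ℝ) (Eventually.of_forall fun t => ?_)
    rw [Real.norm_eq_abs]
    exact_mod_cast hb t
  rw [sCost, sMean, ePsi]
  simp only [e]
  rw [integral_add ((memLp_psi hG a _ 0 hn 0).integrable one_le_two) (hD.const_mul a),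
    integral_const_mul]
  ring

end Crest.Agent.R151
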