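import Crest.Agent.R151.D0Net

/-! R151 / D0Ptl: the point-to-line bias is `O(n^(2/3))`. -/

set_option autoImplicit false
open MeasureTheory ProbabilityTheory Crest.ProbabilityR.FirstPassage Filter Topology
open scoped ENNReal

namespace Crest.Agent.R151

/-- `ψ n = φ n - 3 C n^(2/3)` satisfies `ψ (2n) ≥ 2 ψ n` (`2^(2/3) ≤ 5/3`), so `φ (2^k n) ≥ ψ (2^k n) ≥ 2^k ψ n`; if `ψ n > 0` take `ε = ψ n / (2n)`. -/
theorem le_of_doubling0 {φ : ℕ → ℝ} {C : ℝ} (hC : 0 ≤ C)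
    (h2 : ∀ n : ℕ, 1 ≤ n → 2 * φ n - C * (n : ℝ) ^ (2 / 3 : ℝ) ≤ φ (2 * n))
    (hs : ∀ ε > (0 : ℝ), ∀ᶠ N : ℕ in atTop, φ N ≤ ε * N) {n : ℕ} (hn : 1 ≤ n) :
    φ n ≤ 3 * C * (n : ℝ) ^ (2 / 3 : ℝ) := by
  have a1 : (2 : ℝ) ^ (2 / 3 : ℝ) ≤ 5 / 3 := le_of_pow_le_pow_left₀ three_ne_zero (by norm_num) (by
    rw [← Real.rpow_natCast, ← Real.rpow_mul zero_le_two]
    norm_num)
  obtain ⟨ψ, hψ⟩ : ∃ ψ : ℕ → ℝ, ∀ m, ψ m = φ m - 3 * C * (m : ℝ) ^ (2 / 3 : ℝ) := ⟨_, fun _ => rfl⟩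
  have a2 : ∀ k : ℕ, 2 ^ k * ψ n ≤ ψ (2 ^ k * n) := fun k => by
    induction k with
    | zero => simp
    | succ k ih =>
      have b1 := h2 (2 ^ k * n) (Nat.mul_pos (Nat.two_pow_pos k) hn)
      have b2 := mul_le_mul_of_nonneg_right a1 (mul_nonneg hC
        (Real.rpow_nonneg (Nat.cast_nonneg (2 ^ k * n)) (2 / 3)))
      rw [pow_succ' 2 k, pow_succ' 2 k, mul_assoc, mul_assoc, hψ (2 * _), Nat.cast_mul 2,
        Real.mul_rpow (Nat.cast_nonneg _) (Nat.cast_nonneg _), Nat.cast_ofNat]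
      rw [hψ (2 ^ k * n)] at ih
      linarith
  by_contra hc
  have n0 : (0 : ℝ) < n := by exact_mod_cast hn
  have a3 : 0 < ψ n := by rw [hψ]; linarith
  obtain ⟨k, hk⟩ := (((tendsto_pow_atTop_atTop_of_one_lt (one_lt_two (α := ℕ))).atTop_mul_const'
    hn).eventually (hs (ψ n / (2 * n)) (by positivity))).exists
  have a4 : ψ n / (2 * n) * (2 ^ k * n : ℕ) = 2 ^ k * ψ n / 2 := by push_cast; field_simp
  have a5 : 0 ≤ 3 * C * ((2 ^ k * n : ℕ) : ℝ) ^ (2 / 3 : ℝ) := by positivity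
  have a6 : 0 < 2 ^ k * ψ n := by positivity
  linarith [a2 k, hψ (2 ^ k * n)]

/-- `μ₁ |ξ| ≤ μ (ξ,1) = a ξ + b` (`SymNorm.fst_le0`) and `b ≤ μ (0,1) = μ₁` -/
theorem Supp.abs_le0 {μ : ℝ × ℝ → ℝ} (hμ : SymNorm μ) {ξ a b : ℝ} (h : Supp μ ξ a b) :
    (μ (1, 0) - |a|) * |ξ| ≤ μ (1, 0) := by
  have h1 := hμ.fst_le0 (ξ, 1)
  have h2 := h.2 (0, 1)
  have h3 := hμ.swap (1, 0)
  have h4 := le_abs_self (a * ξ)
  rw [abs_mul] at h4
  dsimp only at h1 h2 h3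
  linarith [h.1]

/-- `ξ` minimises the continuous function `g ξ = μ (ξ,1) - a ξ ≥ (μ₁ - |a|) |ξ|` (compactness of `Icc (-R) R`, outside `g > g 0`), `b = g ξ ≥ 0`.
For `v.2 > 0` scale; for `v.2 = 0` use `fst_le0`; for `v.2 < 0` use `reflY` and `b ≥ 0`. -/
theorem exists_supp0 {μ : ℝ × ℝ → ℝ} (hμ : SymNorm μ) {a : ℝ} (ha : |a| < μ (1, 0)) :
    ∃ ξ b, Supp μ ξ a b := by
  have h1 : ∀ ξ, (μ (1, 0) - |a|) * ‖ξ‖ ≤ μ (ξ, 1) - a * ξ := fun ξ => by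
    have h2 := hμ.fst_le0 (ξ, 1)
    have h4 := le_abs_self (a * ξ)
    rw [abs_mul] at h4
    rw [Real.norm_eq_abs]
    linarith
  obtain ⟨ξ, hξ⟩ := Continuous.exists_forall_le (f := fun ξ : ℝ => μ (ξ, 1) - a * ξ)
    ((hμ.continuous.comp (by fun_prop)).sub (by fun_prop))
    (tendsto_atTop_mono h1 (tendsto_norm_cocompact_atTop.const_mul_atTop (sub_pos.2 ha)))
  have hb : 0 ≤ μ (ξ, 1) - a * ξ := (mul_nonneg (sub_pos.2 ha).le (norm_nonneg _)).trans (h1 ξ)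
  have key : ∀ x y : ℝ, 0 < y → a * x + (μ (ξ, 1) - a * ξ) * y ≤ μ (x, y) := fun x y hy => by
    have h2 := hμ.smul y (x / y, 1)
    have h3 := mul_le_mul_of_nonneg_right (hξ (x / y)) hy.le
    rw [Prod.smul_mk, smul_eq_mul, smul_eq_mul, mul_one, mul_div_cancel₀ _ hy.ne', abs_of_pos hy] at h2
    rw [sub_mul (μ (x / y, 1)), mul_assoc a, div_mul_cancel₀ _ hy.ne'] at h3
    linarith
  refine ⟨ξ, μ (ξ, 1) - a * ξ, by ring, fun ⟨x, y⟩ => ?_⟩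
  rcases lt_trichotomy y 0 with h | rfl | h
  · have h2 := hμ.reflY (x, y)
    have h3 := key x (-y) (neg_pos.2 h)
    dsimp only at h2 ⊢
    nlinarith
  · have h2 := hμ.fst_le0 (x, 0)
    have h4 := le_abs_self (a * x)
    rw [abs_mul] at h4
    dsimp only at h2 ⊢
    nlinarith [abs_nonneg x]
  · exact key x y h

variable {G : Measure ℝ} [IsProbabilityMeasure G] [NullSingletonClass G]

variable (hG : Nice G)
include hG

/-- `tau_eq`, `strip_mean` for `N - 1` rows (`|u| ≤ 2 |K| (N - 1)` for `N ≥ 2`), `SymNorm.lip`, mean of one edge (`measurePreserving_eval`) -/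
theorem tau_mean_le0 (K : ℝ) {ε : ℝ} (hε : 0 < ε) : ∀ᶠ N : ℕ in atTop, ∀ u : ℤ, (|u| : ℝ) ≤ K * N →
    ∫ t, tau t Set.univ 0 N 0 u ∂iidLaw G ≤ mu G ((u : ℝ), (N : ℝ)) + ε * N := by
  obtain ⟨C, -, hC⟩ := (symNorm_mu G hG.hyp).lip
  filter_upwards [(tendsto_sub_atTop_nat 1).eventually (strip_mean G hG.hyp (2 * |K|) (half_pos hε)),
    eventually_ge_atTop 2, tendsto_natCast_atTop_atTop.eventually_ge_atTop
      ((C + ∫ s, s ∂G) / (ε / 2))] with N h1 h2 h3 u hu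
  obtain ⟨M, rfl⟩ : ∃ M, N = M + 1 := ⟨N - 1, by omega⟩
  have M1 : (1 : ℝ) ≤ M := by exact_mod_cast (by omega : 1 ≤ M)
  rw [Nat.add_sub_cancel] at h1
  rw [div_le_iff₀' (half_pos hε)] at h3
  push_cast at hu h3 ⊢
  obtain ⟨a1, -, a2⟩ := h1 u (by nlinarith [le_abs_self K, abs_nonneg K])
  have a3 := (abs_le.1 (hC (u, M) (u, M + 1))).2
  have e : (0 : ℤ) + (M + 1 : ℕ) - 1 = M := by omega
  rw [integral_congr_ae ((ae_nonneg G hG.hyp.nonneg).mono fun t ht => tau_eq ht (by omega)), e,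
    integral_add a1 ((db_memLp_eval hG 1 _).integrable (by simp)), db_eval (f := fun s => s) measurable_id]
  simp only [Prod.mk_sub_mk, sub_self, sub_add_cancel_left, Prod.norm_mk, norm_zero, norm_neg, norm_one,
    zero_le_one, max_eq_right, mul_one] at a3
  linarith

/-- `psi_le` with `u = ⌊ξ N⌋`, `tau_mean_le0`, `μ (u,N) ≤ N μ (ξ,1) + C` -/
theorem ePsi_sublin {ξ a b : ℝ} (h : Supp (mu G) ξ a b) {K : ℕ} (hK : |ξ| + 1 ≤ K) {ε : ℝ}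
    (hε : 0 < ε) : ∀ᶠ N : ℕ in atTop, ePsi G a K N - b * N ≤ ε * N := by
  obtain ⟨C, hC0, hC⟩ := (symNorm_mu G hG.hyp).lip
  filter_upwards [tau_mean_le0 hG K (half_pos hε), eventually_ge_atTop 1,
    tendsto_natCast_atTop_atTop.eventually_ge_atTop ((C + |a|) / (ε / 2))] with N h1 h2 h3
  have N1 : (1 : ℝ) ≤ N := by exact_mod_cast h2
  rw [div_le_iff₀' (half_pos hε)] at h3
  obtain ⟨u, hu⟩ : ∃ u : ℤ, |(u : ℝ) - ξ * N| ≤ 1 := ⟨⌊ξ * N⌋, abs_le.2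
    ⟨by linarith [Int.lt_floor_add_one (ξ * N)], by linarith [Int.floor_le (ξ * N)]⟩⟩
  have a1 : |(u : ℝ)| ≤ K * N := by
    have := abs_sub_abs_le_abs_sub (u : ℝ) (ξ * N)
    rw [abs_mul, Nat.abs_cast] at this
    nlinarith [abs_nonneg ξ]
  have i1 := (memLp_tau hG (conn_slabTo (y := 0) (x := 0) (u := u) h2) 1).integrable (by simp)
  have a2 : ePsi G a K N ≤ ∫ t, (tau t Set.univ 0 N 0 u - a * u) ∂iidLaw G :=
    integral_mono ((memLp_psi hG a _ 0 h2 0).integrable one_le_two) (i1.sub (integrable_const _))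
      fun t => by simpa using psi_le a t 0 N 0 (R := K * N) (u := u) (by exact_mod_cast a1)
  rw [integral_sub i1 (integrable_const _), integral_const, probReal_univ, one_smul] at a2
  have a3 := (abs_le.1 (hC (u, N) (ξ * N, N))).2
  have a4 := (symNorm_mu G hG.hyp).smul N (ξ, 1)
  rw [Prod.smul_mk, smul_eq_mul, smul_eq_mul, mul_one, Nat.abs_cast, mul_comm, ← h.1] at a4
  simp only [Prod.mk_sub_mk, sub_self, Prod.norm_mk, norm_zero, Real.norm_eq_abs, abs_nonneg,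
    max_eq_left] at a3
  have a5 := neg_abs_le (a * (u - ξ * N))
  rw [abs_mul] at a5
  nlinarith [h1 u a1, mul_le_mul_of_nonneg_left hu hC0.le, mul_le_mul_of_nonneg_left hu (abs_nonneg a)]

/-- `K ≥ K0` (`psi_doubling`) and `K ≥ μ₁/(μ₁ - A) + 1` (`Supp.abs_le0`); `le_of_doubling0` for `φ n = ePsi G a K n - b n`; `exists_strat_psi` -/
theorem ptl0 {A : ℝ} (hA : A < mu G (1, 0)) : ∃ K : ℕ, ∃ C > 0, ∀ ξ a b : ℝ, |a| ≤ A →
    Supp (mu G) ξ a b → ∀ n : ℕ, 1 ≤ n → ∃ D, IsStrat n (K * n) D ∧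
      sCost G n D - a * sMean G D - b * n ≤ C * (n : ℝ) ^ (2 / 3 : ℝ) := by
  obtain ⟨K0, hK0⟩ := psi_doubling hG hA
  have hμ := symNorm_mu G hG.hyp
  obtain ⟨K, hK1, hK2⟩ : ∃ K : ℕ, K0 ≤ K ∧ mu G (1, 0) / (mu G (1, 0) - A) + 1 ≤ K :=
    ⟨max K0 ⌈mu G (1, 0) / (mu G (1, 0) - A) + 1⌉₊, le_max_left _ _,
      (Nat.le_ceil _).trans (Nat.cast_le.2 (le_max_right _ _))⟩
  obtain ⟨C, hC, h⟩ := hK0 K hK1
  refine ⟨K, 3 * C, by positivity, fun ξ a b ha hs n hn => ?_⟩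
  obtain ⟨D, hD, e⟩ := exists_strat_psi hG a K hn
  have h1 : |ξ| ≤ mu G (1, 0) / (mu G (1, 0) - A) := by
    rw [le_div_iff₀' (sub_pos.2 hA)]
    exact (mul_le_mul_of_nonneg_right (by linarith) (abs_nonneg ξ)).trans (hs.abs_le0 hμ)
  refine ⟨D, hD, e ▸ le_of_doubling0 (φ := fun n => ePsi G a K n - b * n) hC.le (fun m hm => ?_)
    (fun ε hε => ePsi_sublin hG hs (by linarith) hε) hn⟩
  push_cast
  linarith [h a m ha hm]

end Crest.Agent.R151
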