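import Crest.Agent.R151.D0Defs

/-! R151 / D0Tail: tails and moments on a general probability space. -/

set_option autoImplicit false
open MeasureTheory ProbabilityTheory Crest.ProbabilityR.FirstPassage Filter Topology
open scoped ENNReal

namespace Crest.Agent.R151

theorem D0Tail_series {Ω : Type} [MeasurableSpace Ω] {P : Measure Ω} [IsProbabilityMeasure P]
    {Z : Ω → ℝ} {c b : ℕ → ℝ} {A : ℕ → Set Ω} {S : ℝ} (hZ : Measurable Z) (h0 : ∀ ω, 0 ≤ Z ω)
    (hc : ∀ k, 0 ≤ c k) (hA : ∀ k, MeasurableSet (A k)) (hb : ∀ k, P.real (A k) ≤ b k)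
    (hS : HasSum (fun k => c k * b k) S)
    (h : ∀ ω, ∃ n, (∀ k < n, ω ∈ A k) ∧ Z ω ≤ ∑ k ∈ Finset.range n, c k) :
    Integrable Z P ∧ ∫ ω, Z ω ∂P ≤ S := by
  have hb0 : ∀ k, 0 ≤ c k * b k := fun k => mul_nonneg (hc k) (measureReal_nonneg.trans (hb k))
  have h1 : ∫⁻ ω, ENNReal.ofReal (Z ω) ∂P ≤ ENNReal.ofReal S := by
    calc _ ≤ ∫⁻ ω, ∑' k, (A k).indicator (fun _ => ENNReal.ofReal (c k)) ω ∂P := by
          refine lintegral_mono fun ω => ?_
          obtain ⟨n, h1, h2⟩ := h ω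
          refine (ENNReal.ofReal_le_ofReal h2).trans (le_trans ?_ (ENNReal.sum_le_tsum (Finset.range n)))
          rw [ENNReal.ofReal_sum_of_nonneg fun k _ => hc k]
          exact Finset.sum_le_sum fun k hk => by
            rw [Set.indicator_of_mem (h1 k (Finset.mem_range.1 hk))]
      _ = ∑' k, ENNReal.ofReal (c k) * P (A k) := by
          rw [lintegral_tsum fun k => (measurable_const.indicator (hA k)).aemeasurable]
          exact tsum_congr fun k => lintegral_indicator_const (hA k) _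
      _ ≤ ∑' k, ENNReal.ofReal (c k * b k) := ENNReal.tsum_le_tsum fun k => by
          rw [ENNReal.ofReal_mul (hc k), ← ofReal_measureReal]
          exact mul_le_mul_right (ENNReal.ofReal_le_ofReal (hb k)) _
      _ = _ := by rw [← ENNReal.ofReal_tsum_of_nonneg hb0 hS.summable, hS.tsum_eq]
  refine ⟨⟨hZ.aestronglyMeasurable, (hasFiniteIntegral_iff_ofReal (.of_forall h0)).2
    (h1.trans_lt ENNReal.ofReal_lt_top)⟩, ?_⟩
  rw [integral_eq_lintegral_of_nonneg_ae (.of_forall h0) hZ.aestronglyMeasurable]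
  exact ENNReal.toReal_le_of_le_ofReal (hS.nonneg hb0) h1

/-- consequence of midpoint log-concavity of the survival function.
Put `d = u1 - u0`, `a k = P (u0 + k d ≤ X)` (antitone), `q = 1 - p/2`.  `a 1 ≤ 1 - p ≤ q (1 - p/4) ≤ q * a 0`; `hl` gives
`a k * a (k+2) ≤ a (k+1)²`, so by induction `a (k+1) ≤ q * a k` (if `a k = 0` use monotonicity), so `a (k+1) ≤ q^(k+1) ≤ q^k`.
Pointwise `max (X - u1) 0 ≤ ∑' k, d * 1{u1 + k d ≤ X}` (in `ℝ≥0∞`; `lintegral_tsum`, geometric series `∑ q^k = 2/p`). -/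
theorem logc_tail {Ω : Type} [MeasurableSpace Ω] (P : Measure Ω) [IsProbabilityMeasure P] {X : Ω → ℝ}
    (hX : Measurable X)
    (hl : ∀ u v, P.real {ω | u ≤ X ω} * P.real {ω | v ≤ X ω} ≤ P.real {ω | (u + v) / 2 ≤ X ω} ^ 2)
    {u0 u1 p : ℝ} (hu : u0 < u1) (hp : 0 < p) (hp1 : p ≤ 1) (h0 : 1 - p / 4 ≤ P.real {ω | u0 ≤ X ω})
    (h1 : P.real {ω | u1 ≤ X ω} ≤ 1 - p) :
    (∀ k : ℕ, P.real {ω | u1 + k * (u1 - u0) ≤ X ω} ≤ (1 - p / 2) ^ k) ∧
      Integrable (fun ω => max (X ω - u1) 0) P ∧ ∫ ω, max (X ω - u1) 0 ∂P ≤ 2 * (u1 - u0) / p := by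
  obtain ⟨d, hd⟩ : ∃ d, d = u1 - u0 := ⟨_, rfl⟩
  have hd0 : 0 < d := by linarith
  obtain ⟨a, ha⟩ : ∃ a : ℕ → ℝ, a = fun k : ℕ => P.real {ω | u0 + k * d ≤ X ω} := ⟨_, rfl⟩
  have a0 : ∀ k, 0 ≤ a k := fun k => by rw [ha]; exact measureReal_nonneg
  have a1 : ∀ k, a (k + 1) ≤ a k := fun k => by
    rw [ha]
    refine measureReal_mono fun ω hω => ?_
    simp only [Set.mem_ofPred_eq] at hω ⊢
    push_cast at hω
    linarith
  have a2 : ∀ k, a k * a (k + 2) ≤ a (k + 1) ^ 2 := fun k => by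
    have := hl (u0 + k * d) (u0 + (k + 2 : ℕ) * d)
    rw [show (u0 + k * d + (u0 + (k + 2 : ℕ) * d)) / 2 = u0 + (k + 1 : ℕ) * d by
      push_cast; ring] at this
    rw [ha]; exact this
  have hq : 0 ≤ 1 - p / 2 := by linarith
  have a3 : ∀ k, a (k + 1) ≤ (1 - p / 2) * a k := by
    intro k
    induction k with
    | zero =>
      have b0 : 1 - p / 4 ≤ a 0 := by rw [ha]; simpa using h0
      have b1 : a (0 + 1) ≤ 1 - p := by rw [ha]; simpa [hd] using h1
      nlinarith [mul_le_mul_of_nonneg_left b0 hq]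
    | succ k ih =>
      rcases (a0 k).eq_or_lt with h | h
      · have := (a1 (k + 1)).trans ((a1 k).trans h.ge)
        exact this.trans (mul_nonneg hq (a0 _))
      · refine le_of_mul_le_mul_left ((a2 k).trans ?_) h
        nlinarith [mul_le_mul_of_nonneg_left ih (a0 (k + 1))]
  have a4 : ∀ k, a (k + 1) ≤ (1 - p / 2) ^ k := by
    intro k
    induction k with
    | zero => rw [ha]; simp
    | succ k ih => rw [pow_succ']; exact (a3 _).trans (mul_le_mul_of_nonneg_left ih hq)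
  have a5 : ∀ k : ℕ, P.real {ω | u1 + k * d ≤ X ω} ≤ (1 - p / 2) ^ k := fun k => by
    have := a4 k
    rw [ha] at this
    rwa [show u1 + k * d = u0 + (k + 1 : ℕ) * d by rw [hd]; push_cast; ring]
  rw [← hd]
  refine ⟨a5, D0Tail_series (c := fun _ => d) (A := fun k : ℕ => {ω | u1 + k * d ≤ X ω})
    (by fun_prop) (fun _ => le_max_right _ _) (fun _ => hd0.le)
    (fun k => measurableSet_le measurable_const hX) a5 ?_ fun ω => ?_⟩
  · have := (hasSum_geometric_of_lt_one hq (by linarith)).mul_left d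
    rwa [sub_sub_cancel, show d * (p / 2)⁻¹ = 2 * d / p by field_simp] at this
  · rcases le_total (X ω - u1) 0 with h | h
    · exact ⟨0, by simp, by simp [h]⟩
    refine ⟨⌊(X ω - u1) / d⌋₊ + 1, fun k hk => ?_, ?_⟩
    · have h2 : (k : ℝ) ≤ (X ω - u1) / d :=
        (Nat.le_floor_iff (div_nonneg h hd0.le)).1 (by omega)
      rw [le_div_iff₀ hd0] at h2
      show u1 + k * d ≤ X ω
      linarith
    · have h2 := Nat.lt_floor_add_one ((X ω - u1) / d)
      rw [div_lt_iff₀ hd0] at h2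
      rw [max_eq_left h, Finset.sum_const, Finset.card_range, nsmul_eq_mul]
      push_cast
      exact h2.le

variable {Ω : Type} [MeasurableSpace Ω] {P : Measure Ω} [IsProbabilityMeasure P] {X Y : Ω → ℝ}

/-- Markov in the form used here (`mul_meas_ge_le_integral_of_nonneg`) -/
theorem markov_abs0 (hi : Integrable X P) {m s : ℝ} (hb : ∫ ω, |X ω| ∂P ≤ m) (hs : 0 < s) :
    P.real {ω | s ≤ |X ω|} ≤ m / s := by
  rw [le_div_iff₀ hs, mul_comm]
  exact (mul_meas_ge_le_integral_of_nonneg (.of_forall fun ω => abs_nonneg (X ω)) hi.abs s).trans hb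

/-- `logc_tail` with `p = 1/2`, `u0 = -8m`, `u1 = 2m` (`markov_abs0`): `P (2m + 10 m k ≤ X) ≤ (3/4)^k ≤ exp (-k/4)`;
for `s ≥ 2m` take `k = ⌊(s - 2m)/(10m)⌋₊ ≥ s/(10m) - 6/5` and `exp (3/10) ≤ 2`; for `s ≤ 2m` the bound is `≥ 2 (1 - 1/20) ≥ 1`. -/
theorem logc_exp (hX : Measurable X)
    (hl : ∀ u v, P.real {ω | u ≤ X ω} * P.real {ω | v ≤ X ω} ≤ P.real {ω | (u + v) / 2 ≤ X ω} ^ 2)
    (hi : Integrable X P) {m : ℝ} (hm : 0 < m) (hb : ∫ ω, |X ω| ∂P ≤ m) {s : ℝ} (hs : 0 ≤ s) :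
    P.real {ω | s ≤ X ω} ≤ 2 * Real.exp (-s / (40 * m)) := by
  have h0 : 1 - 1 / 2 / 4 ≤ P.real {ω | -(8 * m) ≤ X ω} := by
    have h1 := markov_abs0 hi hb (s := 8 * m) (by positivity)
    have h2 : P.real {ω | -(8 * m) ≤ X ω}ᶜ ≤ P.real {ω | 8 * m ≤ |X ω|} :=
      measureReal_mono fun ω hω => by
        simp only [Set.mem_compl_iff, Set.mem_ofPred_eq, not_le] at hω ⊢
        linarith [neg_le_abs (X ω)]
    rw [probReal_compl_eq_one_sub (measurableSet_le measurable_const hX)] at h2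
    rw [show m / (8 * m) = 1 / 8 by field_simp] at h1
    linarith
  have h1 : P.real {ω | 2 * m ≤ X ω} ≤ 1 - 1 / 2 := by
    have h1 := markov_abs0 hi hb (s := 2 * m) (by positivity)
    have h2 : P.real {ω | 2 * m ≤ X ω} ≤ P.real {ω | 2 * m ≤ |X ω|} :=
      measureReal_mono fun ω hω => show 2 * m ≤ |X ω| from le_trans hω (le_abs_self _)
    rw [show m / (2 * m) = 1 / 2 by field_simp] at h1
    linarith
  have h2 := (logc_tail P hX hl (by linarith) (by norm_num) (by norm_num) h0 h1).1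
  obtain ⟨k, hk⟩ : ∃ k, k = ⌊(s - 2 * m) / (10 * m)⌋₊ := ⟨_, rfl⟩
  have h3 : P.real {ω | s ≤ X ω} ≤ (1 - 1 / 2 / 2) ^ k := by
    rcases le_total s (2 * m) with h | h
    · rw [hk, Nat.floor_of_nonpos (div_nonpos_of_nonpos_of_nonneg (by linarith) (by positivity))]
      simp
    · refine le_trans (measureReal_mono fun ω hω => ?_) (h2 k)
      have h4 : (k : ℝ) ≤ (s - 2 * m) / (10 * m) :=
        hk ▸ Nat.floor_le (div_nonneg (by linarith) (by positivity))
      rw [le_div_iff₀ (by positivity)] at h4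
      simp only [Set.mem_ofPred_eq] at hω ⊢
      linarith
  have h4 : (s - 2 * m) / (10 * m) < k + 1 := hk ▸ Nat.lt_floor_add_one _
  have h5 : (1 - 1 / 2 / 2 : ℝ) ^ k ≤ Real.exp (k * (-(1 / 4))) := by
    rw [Real.exp_nat_mul]
    exact pow_le_pow_left₀ (by norm_num) (by linarith [Real.add_one_le_exp (-(1 / 4))]) k
  have h6 : Real.exp (3 / 10) ≤ 2 := by
    have := Real.add_one_le_exp (-(3 / 10))
    rw [Real.exp_neg, le_inv_comm₀ (by norm_num) (Real.exp_pos _)] at this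
    exact this.trans (by norm_num)
  refine h3.trans (h5.trans (le_trans ?_ (mul_le_mul_of_nonneg_right h6 (Real.exp_pos _).le)))
  rw [← Real.exp_add]
  refine Real.exp_le_exp.2 ?_
  have e : (s - 2 * m) / (10 * m) = -4 * (-s / (40 * m)) - 1 / 5 := by field_simp; ring
  linarith

/-- layer cake (`lintegral_eq_lintegral_meas_lt`, split at `M`, `(M/s)^γ ≤ (M/s)^2` for `s ≥ M`), or dyadically
`X ≤ M + ∑' j, 2^(j+1) M 1{2^j M < X}` -/
theorem mean_of_pow_tail0 (hX : Measurable X) (h0 : ∀ ω, 0 ≤ X ω) {M γ : ℝ} (hM : 0 < M) (hγ : 2 ≤ γ)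
    (h : ∀ s, 0 < s → P.real {ω | s < X ω} ≤ (M / s) ^ γ) :
    Integrable X P ∧ ∫ ω, X ω ∂P ≤ 5 * M := by
  have key := D0Tail_series (P := P) (Z := fun ω => max (X ω - M) 0) (c := fun j => 2 ^ j * M)
    (A := fun j : ℕ => {ω | 2 ^ j * M < X ω}) (b := fun j => (1 / 4) ^ j) (S := 2 * M)
    (by fun_prop) (fun _ => le_max_right _ _) (fun _ => by positivity)
    (fun k => measurableSet_lt measurable_const hX) (fun j => by
      refine (h _ (by positivity)).trans ?_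
      rw [show M / (2 ^ j * M) = (1 / 2) ^ j by rw [one_div, inv_pow]; field_simp]
      refine (Real.rpow_le_rpow_of_exponent_ge (by positivity)
        (pow_le_one₀ (by norm_num) (by norm_num)) hγ).trans_eq ?_
      rw [Real.rpow_two, ← pow_mul, mul_comm, pow_mul]
      norm_num) (by
      have e : ∀ j : ℕ, (2 : ℝ) ^ j * M * (1 / 4) ^ j = (1 / 2) ^ j * M := fun j => by
        rw [mul_right_comm, ← mul_pow]
        norm_num
      simpa only [e] using hasSum_geometric_two.mul_right M) fun ω => by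
      have hex : ∃ n : ℕ, X ω ≤ 2 ^ n * M := by
        obtain ⟨n, hn⟩ := pow_unbounded_of_one_lt (X ω / M) (one_lt_two (α := ℝ))
        exact ⟨n, ((div_lt_iff₀ hM).1 hn).le⟩
      refine ⟨Nat.find hex, fun k hk => not_le.1 (Nat.find_min hex hk), ?_⟩
      have h1 := Nat.find_spec hex
      have h2 : (1 : ℝ) ≤ 2 ^ Nat.find hex := one_le_pow₀ one_le_two
      rw [← Finset.sum_mul, geom_sum_eq (by norm_num)]
      exact max_le (by linarith) (mul_nonneg (by linarith) hM.le)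
  have hi := (integrable_const (μ := P) M).add key.1
  have hle : ∀ ω, X ω ≤ M + max (X ω - M) 0 := fun ω => by linarith [le_max_left (X ω - M) 0]
  have hXi : Integrable X P := hi.mono' hX.aestronglyMeasurable
    (.of_forall fun ω => by rw [Real.norm_of_nonneg (h0 ω)]; exact hle ω)
  refine ⟨hXi, (integral_mono hXi hi hle).trans ?_⟩
  rw [integral_add' (integrable_const M) key.1, integral_const, probReal_univ, one_smul]
  linarith [key.2]

omit [IsProbabilityMeasure P] in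
theorem ETail.mono {C C' : ℝ} (hC : 0 < C) (h : C ≤ C') (hX : ETail P C X) : ETail P C' X := by
  refine ⟨hX.1, hX.2.1, fun s hs => (hX.2.2 s hs).trans ?_⟩
  refine mul_le_mul h (Real.exp_le_exp.2 ?_) (Real.exp_pos _).le (by linarith)
  rw [neg_div, neg_div, neg_le_neg_iff]
  gcongr

/-- `{s < X + Y} ⊆ {s/2 < X} ∪ {s/2 < Y}` -/
theorem ETail.add {C C' : ℝ} (hC : 0 < C) (hC' : 0 < C') (hX : ETail P C X) (hY : ETail P C' Y) :
    ETail P (2 * (C + C')) fun ω => X ω + Y ω := by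
  refine ⟨hX.1.add hY.1, fun ω => add_nonneg (hX.2.1 ω) (hY.2.1 ω), fun s hs => ?_⟩
  have h1 : P.real {ω | s < X ω + Y ω} ≤ P.real ({ω | s / 2 < X ω} ∪ {ω | s / 2 < Y ω}) :=
    measureReal_mono fun ω hω => by
      by_contra h
      simp only [Set.mem_union, Set.mem_ofPred_eq, not_or, not_lt] at h hω
      linarith [h.1, h.2]
  have h2 := (hX.mono hC (C' := C + C') (by linarith)).2.2 (s / 2) (by linarith)
  have h3 := (hY.mono hC' (C' := C + C') (by linarith)).2.2 (s / 2) (by linarith)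
  rw [show -(s / 2) / (C + C') = -s / (2 * (C + C')) by field_simp] at h2 h3
  linarith [measureReal_union_le (μ := P) {ω | s / 2 < X ω} {ω | s / 2 < Y ω}]

/-- `mean_of_pow_tail0` for `X` and `X²` with `γ = 2`: `exp (-x) ≤ 2/x²`, `exp (-x) ≤ 24/x⁴` (`Real.pow_div_factorial_le_exp`) -/
theorem etail_moments {C : ℝ} (hC : 0 < C) : ∃ C' > 0, ∀ X : Ω → ℝ, ETail P C X →
    MemLp X 2 P ∧ ∫ ω, X ω ∂P ≤ C' ∧ ∫ ω, X ω ^ 2 ∂P ≤ C' := by
  have key : ∀ (n : ℕ) (x : ℝ), 0 < x → Real.exp (-x) ≤ n.factorial / x ^ n := fun n x hx => by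
    have := Real.pow_div_factorial_le_exp x hx.le n
    rw [Real.exp_neg, ← inv_div]
    exact inv_anti₀ (by positivity) this
  have hsq : ∀ a s : ℝ, 0 ≤ a → a / s ^ 2 ≤ ((a + 1) / s) ^ (2 : ℝ) := fun a s ha => by
    rw [Real.rpow_two, div_pow]
    gcongr
    nlinarith
  refine ⟨5 * (2 * C ^ 3 + 1) + 5 * (24 * C ^ 5 + 1), by positivity, fun X hX => ?_⟩
  have h1 := mean_of_pow_tail0 (P := P) hX.1 hX.2.1 (M := 2 * C ^ 3 + 1) (γ := 2) (by positivity)
    le_rfl fun s hs => by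
      refine (hX.2.2 s hs.le).trans (le_trans ?_ (hsq _ s (by positivity)))
      rw [neg_div]
      refine (mul_le_mul_of_nonneg_left (key 2 _ (div_pos hs hC)) hC.le).trans_eq ?_
      simp only [Nat.factorial]
      field_simp
      norm_num
  have h2 := mean_of_pow_tail0 (P := P) (X := fun ω => X ω ^ 2) (hX.1.pow_const 2)
    (fun ω => sq_nonneg _) (M := 24 * C ^ 5 + 1) (γ := 2) (by positivity) le_rfl fun s hs => by
      have e : {ω | s < X ω ^ 2} = {ω | √s < X ω} := by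
        ext ω
        simp only [Set.mem_ofPred_eq]
        rw [← Real.sqrt_lt_sqrt_iff hs.le, Real.sqrt_sq (hX.2.1 ω)]
      have hs' := Real.sqrt_pos.2 hs
      rw [e]
      refine (hX.2.2 _ hs'.le).trans (le_trans ?_ (hsq _ s (by positivity)))
      rw [neg_div]
      refine (mul_le_mul_of_nonneg_left (key 4 _ (div_pos hs' hC)) hC.le).trans_eq ?_
      rw [div_pow, show √s ^ 4 = s ^ 2 by rw [show 4 = 2 * 2 from rfl, pow_mul, Real.sq_sqrt hs.le]]
      simp only [Nat.factorial]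
      field_simp
      norm_num
  have : 0 ≤ C ^ 3 := by positivity
  have : 0 ≤ C ^ 5 := by positivity
  exact ⟨(memLp_two_iff_integrable_sq hX.1.aestronglyMeasurable).2 h2.1, by linarith [h1.2],
    by linarith [h2.2]⟩

/-- `g = √(∑ i ∈ I, X i ²)`, `E g ≤ √(E g²)` -/
theorem exists_sup_bound0 {ι : Type} (I : Finset ι) (X : ι → Ω → ℝ) (hX : ∀ i ∈ I, MemLp (X i) 2 P)
    {M : ℝ} (hM : ∀ i ∈ I, ∫ ω, X i ω ^ 2 ∂P ≤ M) :
    ∃ g : Ω → ℝ, Integrable g P ∧ (∀ ω, 0 ≤ g ω) ∧ ∫ ω, g ω ∂P ≤ √(I.card * M) ∧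
      ∀ i ∈ I, ∀ ω, |X i ω| ≤ g ω := by
  have h1 : ∀ i ∈ I, Integrable (fun ω => X i ω ^ 2) P := fun i hi => (hX i hi).integrable_sq
  have h2 : Integrable (fun ω => ∑ i ∈ I, X i ω ^ 2) P := integrable_finsetSum _ h1
  have h3 : ∀ ω, √(∑ i ∈ I, X i ω ^ 2) ^ 2 = ∑ i ∈ I, X i ω ^ 2 := fun ω =>
    Real.sq_sqrt (Finset.sum_nonneg fun _ _ => sq_nonneg _)
  have h4 : MemLp (fun ω => √(∑ i ∈ I, X i ω ^ 2)) 2 P :=
    (memLp_two_iff_integrable_sq
      (Real.continuous_sqrt.comp_aestronglyMeasurable h2.aestronglyMeasurable)).2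
      (by simpa only [h3] using h2)
  refine ⟨_, h4.integrable one_le_two, fun _ => Real.sqrt_nonneg _, Real.le_sqrt_of_sq_le ?_,
    fun i hi ω => Real.abs_le_sqrt (Finset.single_le_sum (f := fun i => X i ω ^ 2)
      (fun _ _ => sq_nonneg _) hi)⟩
  have h5 := variance_nonneg (fun ω => √(∑ i ∈ I, X i ω ^ 2)) P
  rw [variance_eq_sub h4] at h5
  simp only [Pi.pow_apply, h3] at h5
  rw [integral_finsetSum _ h1] at h5
  have h6 := Finset.sum_le_card_nsmul I _ M hM
  rw [nsmul_eq_mul] at h6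
  linarith

end Crest.Agent.R151
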