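import Crest.Agent.R151.D1One

/-! R151 part D1 (blueprint `BlueD`, section D1): highways.

`coer_prob`, `small_sums`, `one_highway`.  For `r1 W ≤ 2^i ≤ 2^m` let `ρ i`, `ρ' i` be the classes of `(2^i, W)` and `(2^i, λ1 W)` (strictly increasing in `i`, `≥ ρ1` for `r1 = λ1 2^{ρ1}` large),
`e i = th(C3 λ1 W/2^i) - th(C3 W/2^i) + D(ρ i) + 2 B(ρ' i)`, and `e i = 0` for the other `i`.  The first differences are at most `th(C3 λ1/2^{ρ i}) - th(C3/2^{ρ i+1})`, a tail of a summable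
sequence (`summable_incr`).  `Adm (2^i) W`: `K^dep` is a power of two and `≤ K (2^i/W)^{1/3} ≤ 2^i` (`pow_dep_le`).  Slope: `ζ/2^i - ξp = th(C3 W/2^i) - del`. -/

set_option autoImplicit false
open MeasureTheory ProbabilityTheory Crest.ProbabilityR.FirstPassage Filter Topology
open scoped ENNReal

namespace Crest.Agent.R151

theorem D1_log {W : ℝ} (hW : 1 ≤ W) : ∃ a : ℕ, W ≤ 2 ^ a ∧ (2 : ℝ) ^ a < 2 * W := by
  have hex : ∃ a : ℕ, W ≤ 2 ^ a := by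
    obtain ⟨a, ha⟩ := pow_unbounded_of_one_lt W (by norm_num : (1 : ℝ) < 2)
    exact ⟨a, ha.le⟩
  classical
  refine ⟨Nat.find hex, Nat.find_spec hex, ?_⟩
  rcases Nat.eq_zero_or_pos (Nat.find hex) with h0 | h0
  · rw [h0]; linarith
  · obtain ⟨k, hk⟩ : ∃ k, Nat.find hex = k + 1 := ⟨_, (Nat.succ_pred_eq_of_pos h0).symm⟩
    have := Nat.find_min hex (m := k) (by omega)
    rw [hk, pow_succ]; push Not at this; linarith

theorem D1_shift_sum (g : ℕ → ℝ) (hg : ∀ ρ, 0 ≤ g ρ) (ρ1 a m : ℕ) :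
    ∑ i ∈ Finset.range m, (if ρ1 + a ≤ i then g (i - a) else 0) ≤ ∑ ρ ∈ Finset.Ico ρ1 m, g ρ := by
  rw [← Finset.sum_filter]
  rw [← Finset.sum_image (s := (Finset.range m).filter fun i => ρ1 + a ≤ i) (g := fun i => i - a) (f := g)]
  · refine Finset.sum_le_sum_of_subset_of_nonneg ?_ fun ρ _ _ => hg ρ
    intro ρ hρ
    simp only [Finset.mem_image, Finset.mem_filter, Finset.mem_range, Finset.mem_Ico] at hρ ⊢
    obtain ⟨i, ⟨h1, h2⟩, rfl⟩ := hρ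
    omega
  · intro i hi j hj hij
    simp only [Finset.coe_filter, Finset.mem_range, Set.mem_ofPred_eq] at hi hj
    dsimp only at hij
    omega

theorem D1_tail {f : ℕ → ℝ} (hf : Summable f) {ε : ℝ} (hε : 0 < ε) :
    ∃ ρ0 : ℕ, ∀ ρ1, ρ0 ≤ ρ1 → ∀ R, ∑ ρ ∈ Finset.Ico ρ1 R, f ρ ≤ ε := by
  obtain ⟨s, hs⟩ := summable_iff_vanishing_norm.1 hf ε hε
  refine ⟨s.sup id + 1, fun ρ1 h1 R => ?_⟩
  have := hs (Finset.Ico ρ1 R) (Finset.disjoint_left.2 fun ρ hρ hρs => by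
    have := Finset.le_sup (f := id) hρs
    simp only [Finset.mem_Ico, id] at hρ this
    omega)
  exact (le_abs_self _).trans this.le

theorem D1_adm {P : Par} (hK : P.K = 2 ^ 40) {i : ℕ} {W : ℝ} (hW : 1 ≤ W) (hi : 40 ≤ i) :
    P.Adm (2 ^ i) W := by
  refine ⟨Nat.one_le_two_pow, ?_⟩
  rw [hK, ← pow_mul]
  apply pow_dvd_pow
  rcases Nat.lt_or_ge (P.dep (2 ^ i) W) 2 with h | h
  · omega
  · have h1 := Par.lt_of_lt_dep (P := P) (h := 2 ^ i) (u := W) (d := P.dep (2 ^ i) W - 1) (by omega)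
    rw [hK] at h1
    push_cast at h1
    have h2 : ((((2 : ℝ) ^ 40) ^ 3) ^ (P.dep (2 ^ i) W - 1)) < 2 ^ i := by
      refine lt_of_le_of_lt (le_mul_of_one_le_right (by positivity) hW) ?_
      norm_num at h1 ⊢
      exact h1
    rw [← pow_mul, ← pow_mul, pow_lt_pow_iff_right₀ (by norm_num)] at h2
    omega

theorem D1_cls {m i a : ℕ} {W u : ℝ} (him : i ≤ m) (hu : W ≤ u) (h1 : u ≤ 2 ^ a) (h2 : (2 : ℝ) ^ a < 2 * u)
    (hai : a ≤ i) : Par.Cls (2 ^ m) W (i - a) (2 ^ i) u := by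
  obtain ⟨k, rfl⟩ : ∃ k, i = k + a := ⟨i - a, by omega⟩
  have hk : (0 : ℝ) < 2 ^ k := by positivity
  refine ⟨Nat.one_le_two_pow, Nat.pow_le_pow_right (by norm_num) him, hu, ?_, ?_⟩
  · rw [Nat.add_sub_cancel]; push_cast; rw [pow_add]
    exact mul_le_mul_of_nonneg_left h1 hk.le
  · rw [Nat.add_sub_cancel]; push_cast; rw [pow_add, pow_succ, mul_assoc]
    exact mul_lt_mul_of_pos_left h2 hk

theorem D1_idx {i a ρ1 : ℕ} {u : ℝ} (h2 : (2 : ℝ) ^ a < 2 * u) (h : 2 ^ ρ1 * (2 * u) ≤ 2 ^ i) : ρ1 + a ≤ i := by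
  have : (2 : ℝ) ^ (ρ1 + a) < 2 ^ i := by
    rw [pow_add]
    exact lt_of_lt_of_le (mul_lt_mul_of_pos_left h2 (by positivity)) h
  rw [pow_lt_pow_iff_right₀ (by norm_num)] at this
  omega

theorem highway {G : Measure ℝ} [IsProbabilityMeasure G] [NullSingletonClass G] (hG : Nice G)
    (F : Face (mu G)) : HighwayStmt G F := by
  have hμ := symNorm_mu G hG.hyp
  obtain ⟨c1, hc1, CE, hCE, hco⟩ := F.coer_prob hG
  obtain ⟨P, hP, hM, hK, hC0, hsm⟩ := small_sums hG F hc1 hCE hco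
  obtain ⟨CH, hCH, lam, r0, hlam, hr0, hone⟩ := one_highway hG F hc1 hCE hco P hP hM hC0
  refine ⟨CH, hCH, fun ε hε => ?_⟩
  have hC3 : 1 ≤ P.C3 := hP.one_le_C2.trans hP.C2_le
  obtain ⟨ρa, hρa⟩ := hsm (ε / 4) (by positivity)
  obtain ⟨f, hf⟩ : ∃ f : ℕ → ℝ, f = fun ρ => F.th (P.C3 * lam / 2 ^ ρ) - F.th (P.C3 / 2 / 2 ^ ρ) := ⟨_, rfl⟩
  have hAa : P.C3 / 2 ≤ P.C3 * lam := by nlinarith
  have hf0 : ∀ ρ, 0 ≤ f ρ := fun ρ => by
    rw [hf]
    exact sub_nonneg.2 (F.th_mono hμ (by positivity) (div_le_div_of_nonneg_right hAa (by positivity)))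
  have hfs : Summable f := by
    rw [hf]
    exact summable_incr (fun c hc => F.th_nonneg hμ hc) (fun c c' hc h => F.th_mono hμ hc h) (by positivity) hAa
  obtain ⟨ρb, hρb⟩ := D1_tail hfs (ε := ε / 4) (by positivity)
  obtain ⟨c0, hc0, hth⟩ := F.th_small hμ hε
  obtain ⟨ρ1, h1a, h1b⟩ : ∃ ρ1, ρa ≤ ρ1 ∧ ρb ≤ ρ1 := ⟨max ρa ρb, le_max_left _ _, le_max_right _ _⟩
  have hp1 : (0 : ℝ) < 2 ^ ρ1 * (2 * lam) := by positivity
  have hp2 : 0 < P.C3 / c0 := by positivity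
  refine ⟨2 ^ ρ1 * (2 * lam) + r0 + P.C3 / c0 + 2 ^ 40, by linarith [show (0 : ℝ) < 2 ^ 40 by positivity],
    fun m W hS => ?_⟩
  have hW := hS.one_le
  have hW0 : 0 < W := by linarith
  obtain ⟨D, B, hD0, hB0, hsum, hcls⟩ := hρa (2 ^ m) W hS
  have hsum' : ∀ R, ∑ ρ ∈ Finset.Ico ρ1 R, (D ρ + B ρ) ≤ ε / 4 := fun R =>
    (Finset.sum_le_sum_of_subset_of_nonneg (Finset.Ico_subset_Ico_left h1a)
      fun ρ _ _ => add_nonneg (hD0 ρ) (hB0 ρ)).trans (hsum R)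
  have hD : ∀ R, ∑ ρ ∈ Finset.Ico ρ1 R, D ρ ≤ ε / 4 := fun R =>
    (Finset.sum_le_sum fun ρ _ => le_add_of_nonneg_right (hB0 ρ)).trans (hsum' R)
  have hB : ∀ R, ∑ ρ ∈ Finset.Ico ρ1 R, B ρ ≤ ε / 4 := fun R =>
    (Finset.sum_le_sum fun ρ _ => le_add_of_nonneg_left (hD0 ρ)).trans (hsum' R)
  have hlW : W ≤ lam * W := le_mul_of_one_le_left hW0.le hlam
  obtain ⟨a, ha1, ha2⟩ := D1_log hW
  obtain ⟨a', hb1, hb2⟩ := D1_log (hW.trans hlW)
  refine ⟨fun i => (if ρ1 + a ≤ i then f (i - a) else 0) + (if ρ1 + a ≤ i then D (i - a) else 0) +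
    2 * (if ρ1 + a' ≤ i then B (i - a') else 0), fun i => ?_, ?_, fun i him hi => ?_⟩
  · have := hf0 (i - a); have := hD0 (i - a); have := hB0 (i - a')
    dsimp only
    split_ifs <;> linarith
  · rw [Finset.sum_add_distrib, Finset.sum_add_distrib, ← Finset.mul_sum]
    have := (D1_shift_sum f hf0 ρ1 a (m + 1)).trans (hρb ρ1 h1b _)
    have := (D1_shift_sum D hD0 ρ1 a (m + 1)).trans (hD _)
    have := (D1_shift_sum B hB0 ρ1 a' (m + 1)).trans (hB _)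
    linarith
  have hq : ∀ x : ℝ, x ≤ 2 ^ ρ1 * (2 * lam) + r0 + P.C3 / c0 + 2 ^ 40 → x * W ≤ 2 ^ i := fun x hx =>
    (mul_le_mul_of_nonneg_right hx hW0.le).trans hi
  have h40 : (0 : ℝ) < 2 ^ 40 := by positivity
  have q1 := hq (2 ^ ρ1 * (2 * lam)) (by linarith)
  have q2 := hq r0 (by linarith)
  have q3 := hq (P.C3 / c0) (by linarith)
  have q4 := hq (2 ^ 40) (by linarith)
  have i2 : ρ1 + a' ≤ i := D1_idx hb2 (by linarith)
  have i1 : ρ1 + a ≤ i := D1_idx ha2 (le_trans (by gcongr) (by linarith : 2 ^ ρ1 * (2 * (lam * W)) ≤ 2 ^ i))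
  have i3 : 40 ≤ i := by
    have : (2 : ℝ) ^ 40 ≤ 2 ^ i := (le_mul_of_one_le_right h40.le hW).trans q4
    exact (pow_le_pow_iff_right₀ (by norm_num)).1 this
  have hadm := D1_adm hK hW i3
  have cl1 := D1_cls him le_rfl ha1 ha2 (by omega : a ≤ i)
  have cl2 := D1_cls him hlW hb1 hb2 (by omega : a' ≤ i)
  have d1 := (hcls _ _ _ cl1).1
  have d2 := (hcls _ _ _ cl2).2 (hadm.mono hP.two_le hW0 hlW)
  have hz := Par.zed_nonneg P F (2 ^ i) (lam * W)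
  have hi0 : (0 : ℝ) < 2 ^ i := by positivity
  have hWi : W ≤ ((2 ^ i : ℕ) : ℝ) := by
    push_cast; exact (le_mul_of_one_le_left hW0.le (one_le_pow₀ (by norm_num))).trans q4
  have d3 : F.th (P.C3 * (lam * W) / (2 ^ i : ℕ)) - F.th (P.C3 * W / (2 ^ i : ℕ)) ≤ f (i - a) := by
    rw [hf]
    obtain ⟨-, -, -, c4, c5⟩ := cl1
    have hk : (0 : ℝ) < 2 ^ (i - a) := by positivity
    have hi0' : (0 : ℝ) < (2 ^ i : ℕ) := by positivity
    refine sub_le_sub (F.th_mono hμ (by positivity) ?_) (F.th_mono hμ (by positivity) ?_)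
    · rw [div_le_div_iff₀ hi0' hk]
      have := mul_le_mul_of_nonneg_left c4 (by positivity : 0 ≤ P.C3 * lam)
      linarith
    · rw [div_le_div_iff₀ hk hi0']
      have := mul_le_mul_of_nonneg_left c5.le (by positivity : 0 ≤ P.C3 / 2)
      rw [pow_succ] at this
      linarith
  obtain ⟨hconn, hec⟩ := hone (2 ^ m) W hS (2 ^ i) cl1.2.1 (by push_cast; exact q2) hadm
    ((f (i - a) + D (i - a) + 2 * B (i - a')) * 2 ^ i) (by
      rw [mul_comm]; push_cast at d1 d2 d3 hz ⊢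
      exact mul_le_mul_of_nonneg_right (by linarith) hi0.le)
  simp only [if_pos i1, if_pos i2]
  refine ⟨_, ?_, hconn, F.integrable_c hG (by rw [zero_add]; exact hconn), hec⟩
  have e0 := Par.del_nonneg hG hP hS cl1.1 cl1.2.1 le_rfl hWi hM
  have e1 : D (i - a) ≤ ε / 4 := (Finset.single_le_sum (f := D) (fun ρ _ => hD0 ρ)
    (Finset.mem_Ico.2 ⟨by omega, Nat.lt_succ_self (i - a)⟩)).trans (hD _)
  have e2 : F.th (P.C3 * W / (2 ^ i : ℕ)) ≤ ε := by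
    refine (F.th_mono hμ (by positivity) ?_).trans hth
    push_cast
    rw [div_le_iff₀ hi0]
    rw [div_mul_eq_mul_div, div_le_iff₀ hc0] at q3
    linarith
  have e3 : 0 ≤ F.th (P.C3 * W / (2 ^ i : ℕ)) := F.th_nonneg hμ (by positivity)
  unfold Par.del Par.slope at e0 d1
  push_cast at e0 d1 e2 e3
  rw [abs_le]
  constructor <;> linarith

end Crest.Agent.R151
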