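import Crest.Agent.R151.D1Good

/-! R151 part D1: the deterministic multi-level decomposition of a crossing. -/

set_option autoImplicit false
open MeasureTheory ProbabilityTheory Crest.ProbabilityR.FirstPassage Filter Topology
open scoped ENNReal

namespace Crest.Agent.R151

variable {μ : ℝ × ℝ → ℝ}

/-- `a q .. b q`, `q < n`, are consecutive crossings of the slabs `[y + q h, y + (q+1) h)` by `p`, from `i` to `j`,
each ending at its first visit of the top row -/
structure Split (p : ℤ → V) (y : ℤ) (h n : ℕ) (i j : ℤ) (a b : ℕ → ℤ) : Prop where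
  first : a 0 = i
  last : b (n - 1) = j
  cross : ∀ q < n, Cross (y + q * h) h p (a q) (b q)
  top : ∀ q < n, ∀ l, a q ≤ l → l < b q → (p l).2 < y + (q + 1) * h
  gap : ∀ q, q + 1 < n → b q ≤ a (q + 1)

theorem d1dec_row {p : ℤ → V} {y i j m : ℤ} {h : ℕ} (hp : Cross y h p i j) (h1 : i ≤ m) (h2 : m ≤ j) :
    y ≤ (p m).2 ∧ (p m).2 ≤ y + h := by
  rcases hp.1.2.1 m h1 h2 with h | h
  · exact ⟨h.1, by have := h.2; omega⟩
  · rw [Set.mem_singleton_iff.1 h]
    exact ⟨by simp, le_rfl⟩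

theorem d1dec_cc_add (F : Face μ) (t : Env) (p : ℤ → V) {i j k : ℤ} (h1 : i ≤ j) (h2 : j ≤ k) :
    F.cc t p i k = F.cc t p i j + F.cc t p j k := by
  simp only [Face.cc, cost_add h1 h2]
  ring

/-- `b q` is the first visit to row `y+(q+1)h`, `a q` the last visit to row `y+qh` before it (`a 0 = i`);
`PathIn.exists_cross` -/
theorem exists_split {p : ℤ → V} {y i j : ℤ} {h n : ℕ} (hh : 1 ≤ h) (hn : 1 ≤ n)
    (hp : Cross y (n * h) p i j) (ht : ∀ l, i ≤ l → l < j → (p l).2 < y + n * h) :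
    ∃ a b, Split p y h n i j a b := by
  have key : ∀ q : ℕ, ∃ i' j', q < n → i ≤ i' ∧ i' < j' ∧ j' ≤ j ∧ Cross (y + q * h) h p i' j' ∧
      (∀ l, i ≤ l → l < j' → (p l).2 < y + q * h + h) ∧ ∀ l, i' < l → l ≤ j' → y + q * h < (p l).2 := by
    intro q
    by_cases hq : q < n
    · have h1 : (q : ℤ) + 1 ≤ n := by exact_mod_cast hq
      obtain ⟨i', j', H⟩ := hp.1.exists_cross (y' := y + q * h) hh
        (by rw [hp.2.1]; exact le_add_of_nonneg_right (by positivity))
        (by rw [hp.2.2]; push_cast; nlinarith [Int.natCast_nonneg h])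
      exact ⟨i', j', fun _ => H⟩
    · exact ⟨0, 0, fun h => absurd h hq⟩
  choose A B H using key
  refine ⟨fun q => if q = 0 then i else A q, B, ⟨if_pos rfl, ?_, fun q hq => ?_, fun q hq l h1 h2 => ?_,
    fun q hq => ?_⟩⟩
  · obtain ⟨h1, h2, h3, h4, -⟩ := H (n - 1) (by omega)
    refine h3.eq_or_lt.resolve_right fun h5 => ?_
    have h6 := ht _ (h1.trans h2.le) h5
    rw [h4.2.2, Nat.cast_sub hn] at h6
    push_cast at h6
    linarith
  · obtain ⟨h1, h2, h3, h4, h5, -⟩ := H q hq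
    split_ifs with h0
    · subst h0
      refine ⟨(hp.1.sub le_rfl (h1.trans h2.le) h3).restrict fun k a1 a2 => ?_, by simpa using hp.2.1,
        h4.2.2⟩
      rcases a2.eq_or_lt with rfl | a2
      · exact Or.inr (Prod.ext rfl h4.2.2)
      · exact Or.inl ⟨by simpa using (d1dec_row hp a1 (a2.le.trans h3)).1, by
          have := h5 k a1 a2; omega⟩
    · exact h4
  · obtain ⟨a1, -, -, -, h5, -⟩ := H q hq
    have := h5 l (by split_ifs at h1 <;> omega) h2
    linarith
  · obtain ⟨a1, -, -, a4, -⟩ := H (q + 1) hq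
    obtain ⟨-, -, -, -, h5, -⟩ := H q (by omega)
    rw [if_neg (Nat.succ_ne_zero q)]
    refine not_lt.1 fun h6 => ?_
    have := h5 _ a1 h6
    rw [a4.2.1] at this
    push_cast at this
    linarith

/-- refine every piece of a split into `K` pieces -/
theorem Split.refine {p : ℤ → V} {y i j : ℤ} {h n K : ℕ} {a b : ℕ → ℤ} (hK : 1 ≤ K) (hh : 1 ≤ h)
    (hs : Split p y (K * h) n i j a b) :
    ∃ a' b', Split p y h (n * K) i j a' b' ∧
      ∀ q < n, a' (q * K) = a q ∧ b' (q * K + (K - 1)) = b q := by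
  rcases Nat.eq_zero_or_pos n with rfl | hn
  · exact ⟨fun _ => i, fun _ => j, ⟨rfl, rfl, by simp, by simp, by simp⟩, by simp⟩
  have key : ∀ q : ℕ, ∃ A B, q < n → Split p (y + q * (K * h : ℕ)) h K (a q) (b q) A B := by
    intro q
    by_cases hq : q < n
    · obtain ⟨A, B, H⟩ := exists_split hh hK (hs.cross q hq) fun l h1 h2 => by
        have := hs.top q hq l h1 h2
        push_cast at this ⊢
        linarith
      exact ⟨A, B, fun _ => H⟩
    · exact ⟨a, b, fun h => absurd h hq⟩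
  choose A B H using key
  have e1 : ∀ q k, k < K → (q * K + k) / K = q := fun q k hk => by
    rw [mul_comm, Nat.mul_add_div hK, Nat.div_eq_of_lt hk, add_zero]
  have e2 : ∀ q k, k < K → (q * K + k) % K = k := fun q k hk => by
    rw [mul_comm, Nat.mul_add_mod, Nat.mod_eq_of_lt hk]
  have e3 : ∀ r < n * K, ∃ q < n, ∃ k < K, r = q * K + k := fun r hr =>
    ⟨r / K, (Nat.div_lt_iff_lt_mul hK).2 hr, r % K, Nat.mod_lt _ hK, (Nat.div_add_mod' r K).symm⟩
  have e4 : ∀ q < n, A (q * K / K) (q * K % K) = a q ∧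
      B ((q * K + (K - 1)) / K) ((q * K + (K - 1)) % K) = b q := fun q hq => by
    rw [e1 _ _ (by omega), e2 _ _ (by omega), Nat.mul_div_cancel _ hK, Nat.mul_mod_left]
    exact ⟨(H q hq).first, (H q hq).last⟩
  refine ⟨fun r => A (r / K) (r % K), fun r => B (r / K) (r % K), ⟨?_, ?_, fun r hr => ?_,
    fun r hr => ?_, fun r hr => ?_⟩, e4⟩
  · simpa [hs.first] using (e4 0 hn).1
  · have : n * K - 1 = (n - 1) * K + (K - 1) := by
      obtain ⟨m, rfl⟩ := Nat.exists_eq_add_of_le' hn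
      rw [add_tsub_cancel_right, add_mul]
      omega
    rw [this, ← hs.last]
    exact (e4 _ (by omega)).2
  · obtain ⟨q, hq, k, hk, rfl⟩ := e3 r hr
    simp only [e1 q k hk, e2 q k hk]
    convert (H q hq).cross k hk using 1
    push_cast
    ring
  · obtain ⟨q, hq, k, hk, rfl⟩ := e3 r hr
    simp only [e1 q k hk, e2 q k hk]
    intro l h1 h2
    convert (H q hq).top k hk l h1 h2 using 1
    push_cast
    ring
  · obtain ⟨q, hq, k, hk, rfl⟩ := e3 r (by omega)
    by_cases hk' : k + 1 < K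
    · simp only [add_assoc, e1 q k hk, e2 q k hk, e1 q _ hk', e2 q _ hk']
      exact (H q hq).gap k hk'
    · obtain rfl : k = K - 1 := by omega
      have e5 : q * K + (K - 1) + 1 = (q + 1) * K := by rw [add_mul]; omega
      rw [e5] at hr ⊢
      have hq' := Nat.lt_of_mul_lt_mul_right hr
      simp only [(e4 q hq).2, (e4 _ hq').1]
      exact hs.gap q hq'

theorem d1dec_mono {p : ℤ → V} {y i j : ℤ} {h n : ℕ} {a b : ℕ → ℤ} (hs : Split p y h n i j a b) {q q' : ℕ}
    (h1 : q ≤ q') (h2 : q' < n) : a q ≤ a q' ∧ b q ≤ b q' := by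
  induction q', h1 using Nat.le_induction with
  | base => exact ⟨le_rfl, le_rfl⟩
  | succ m hm ih =>
    obtain ⟨a1, a2⟩ := ih (by omega)
    have a3 := hs.gap m h2
    exact ⟨a1.trans ((hs.cross m (by omega)).1.1.trans a3), a2.trans (a3.trans (hs.cross _ h2).1.1)⟩

theorem Split.mem {p : ℤ → V} {y i j : ℤ} {h n : ℕ} {a b : ℕ → ℤ} (hs : Split p y h n i j a b) {q : ℕ}
    (hq : q < n) : i ≤ a q ∧ a q ≤ b q ∧ b q ≤ j := by
  exact ⟨hs.first ▸ (d1dec_mono hs (Nat.zero_le q) hq).1, (hs.cross q hq).1.1,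
    hs.last ▸ (d1dec_mono hs (by omega) (by omega : n - 1 < n)).2⟩

theorem Split.cc_eq (F : Face μ) (t : Env) {p : ℤ → V} {y i j : ℤ} {h n : ℕ} {a b : ℕ → ℤ} (hn : 1 ≤ n)
    (hs : Split p y h n i j a b) :
    F.cc t p i j = ∑ q ∈ Finset.range n, F.cc t p (a q) (b q) +
      ∑ q ∈ Finset.range (n - 1), F.cc t p (b q) (a (q + 1)) := by
  have key : ∀ m < n, F.cc t p i (b m) = ∑ q ∈ Finset.range (m + 1), F.cc t p (a q) (b q) +
      ∑ q ∈ Finset.range m, F.cc t p (b q) (a (q + 1)) := by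
    intro m
    induction m with
    | zero => simp [hs.first]
    | succ m ih =>
      intro hm
      obtain ⟨a1, a2, -⟩ := hs.mem (q := m) (by omega)
      have a3 := hs.gap m hm
      have a4 := (hs.mem hm).2.1
      rw [d1dec_cc_add F t p (a1.trans a2) (a3.trans a4), d1dec_cc_add F t p a3 a4, ih (by omega),
        Finset.sum_range_succ _ (m + 1), Finset.sum_range_succ (fun q => F.cc t p (b q) (a (q + 1))) m]
      ring
  have := key (n - 1) (by omega)
  rwa [hs.last, Nat.sub_add_cancel hn] at this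

/-- the splits at all levels `l ≤ d` -/
structure Tower (K : ℕ) (p : ℤ → V) (h n d : ℕ) (i j : ℤ) (a b : ℕ → ℕ → ℤ) : Prop where
  split : ∀ l ≤ d, Split p 0 (h / K ^ l) (n * K ^ l) i j (a l) (b l)
  nest : ∀ l < d, ∀ q < n * K ^ l, a (l + 1) (q * K) = a l q ∧ b (l + 1) (q * K + (K - 1)) = b l q

theorem d1dec_div {K h l : ℕ} (hK : 1 ≤ K) (hd : K ^ (l + 1) ∣ h) : h / K ^ l = K * (h / K ^ (l + 1)) := by
  obtain ⟨c, rfl⟩ := hd
  rw [Nat.mul_div_cancel_left _ (by positivity), pow_succ, mul_assoc,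
    Nat.mul_div_cancel_left _ (by positivity)]

theorem exists_tower {K h n d : ℕ} (hK : 1 ≤ K) (hh : 1 ≤ h) (hd : K ^ d ∣ h) (hn : 1 ≤ n) {p : ℤ → V}
    {i j : ℤ} (hp : Cross 0 (n * h) p i j) (ht : ∀ l, i ≤ l → l < j → (p l).2 < n * h) :
    ∃ a b, Tower K p h n d i j a b := by
  induction d with
  | zero =>
    obtain ⟨a, b, H⟩ := exists_split hh hn hp (by simpa using ht)
    exact ⟨fun _ => a, fun _ => b, ⟨fun l hl => by
      obtain rfl : l = 0 := by omega
      simpa using H, by simp⟩⟩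
  | succ d ih =>
    obtain ⟨a, b, H⟩ := ih ((pow_dvd_pow K (Nat.le_succ d)).trans hd)
    have h1 := H.split d le_rfl
    rw [d1dec_div hK hd] at h1
    obtain ⟨a', b', h2, h3⟩ := h1.refine hK (Nat.div_pos (Nat.le_of_dvd hh hd) (by positivity))
    refine ⟨fun l => if l ≤ d then a l else a', fun l => if l ≤ d then b l else b', ⟨fun l hl => ?_,
      fun l hl q hq => ?_⟩⟩
    · split_ifs with h4
      · exact H.split l h4
      · obtain rfl : l = d + 1 := by omega
        rwa [pow_succ K d, ← mul_assoc, ← pow_succ]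
    · rw [if_pos (by omega : l ≤ d), if_pos (by omega : l ≤ d)]
      split_ifs with h4
      · exact H.nest l h4 q hq
      · obtain rfl : l = d := by omega
        exact h3 q hq

theorem d1dec_base (F : Face μ) {P : Par} {c1 CE W : ℝ} (hc1 : 0 < c1) (hCE : 0 < CE)
    (hW : 0 ≤ W) (hC0 : (1 + 2 * CE) / c1 ≤ P.C0) {N h : ℕ} {t : Env} (ht : F.Coer c1 CE W N t) {p : ℤ → V}
    {y i j : ℤ} (hp : Cross y h p i j) (hN : ∀ m, i ≤ m → m ≤ j → (nrm (p m) : ℝ) ≤ (N : ℝ) ^ 2)
    {v : ℝ} (hv : W ≤ v) (hc : F.cc t p i j ≤ v) : P.Base F t p y h v i j := by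
  refine ⟨hp, hc, fun m h1 h2 => ?_⟩
  have hu := hp.1.mono (Set.subset_univ _)
  have a1 := (ht.2 p i m (hu.sub le_rfl h1 h2) (hN i le_rfl hu.1)).2.1
  have a2 := (ht.2 p m j (hu.sub h1 h2 le_rfl) (hN m h1 h2)).2.1
  have a3 := d1dec_cc_add F t p h1 h2
  obtain ⟨b1, b2⟩ := d1dec_row hp h1 h2
  have b3 : |((p m).2 : ℝ) - (p i).2| ≤ h := by
    rw [hp.2.1]
    exact_mod_cast abs_le.2 ⟨by omega, by omega⟩
  have b4 : |((p j).2 : ℝ) - (p m).2| ≤ h := by
    rw [hp.2.2]
    exact_mod_cast abs_le.2 ⟨by omega, by omega⟩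
  have b5 : (0 : ℝ) ≤ h := by positivity
  refine le_trans ?_ (mul_le_mul_of_nonneg_right hC0 (by linarith))
  rw [div_mul_eq_mul_div, le_div_iff₀ hc1]
  have c2 := mul_le_mul_of_nonneg_left b3 hCE.le
  have c3 := mul_le_mul_of_nonneg_left b4 hCE.le
  have c4 := mul_le_mul_of_nonneg_left hv hCE.le
  have c5 := mul_nonneg hc1.le (abs_nonneg (((p j).1 : ℝ) - (p m).1))
  linarith

/-- If all descendants of the level-`l` piece `q` are cheap, it is good (induction on the depth `e`).  The lateral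
bounds come from `Coer`: for a piece of height `h_l` with `cc ≤ v`, `W ≤ v`: `cc(a,m) = cc(a,b) - cc(m,b) ≤ v + CE(h_l + W)`, so
`c1 |Δx| ≤ v + 2 CE (h_l + W)`; for a return (same row at both ends) with `cc ≤ v`: `c1 nrm ≤ v + CE W`. -/
theorem Tower.good (F : Face μ) {P : Par} (hK : 2 ≤ P.K) {c1 CE W : ℝ} (hc1 : 0 < c1) (hCE : 0 < CE)
    (hW : 0 ≤ W) (hC0 : (1 + 2 * CE) / c1 ≤ P.C0) {N h n d : ℕ} {t : Env} (ht : F.Coer c1 CE W N t) {p : ℤ → V}
    {i j : ℤ} {a b : ℕ → ℕ → ℤ} (hT : Tower P.K p h n d i j a b) (hd : P.K ^ d ∣ h)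
    (hN : ∀ m, i ≤ m → m ≤ j → (nrm (p m) : ℝ) ≤ (N : ℝ) ^ 2) (e l q : ℕ) (hl : l + e ≤ d)
    (hq : q < n * P.K ^ l) {v : ℝ} (hv : W ≤ v)
    (hpiece : ∀ s ≤ e, ∀ q', q * P.K ^ s ≤ q' → q' < (q + 1) * P.K ^ s →
      F.cc t p (a (l + s) q') (b (l + s) q') ≤ ((P.K : ℝ) ^ 2) ^ s * v)
    (hgap : ∀ s ≤ e, ∀ q', q * P.K ^ s ≤ q' → q' + 1 < (q + 1) * P.K ^ s →
      F.cc t p (b (l + s) q') (a (l + s) (q' + 1)) ≤ ((P.K : ℝ) ^ 2) ^ s * v) :
    P.Good F t p e (q * (h / P.K ^ l : ℕ)) (h / P.K ^ l) v (a l q) (b l q) := by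
  have hb : ∀ l q v, l ≤ d → q < n * P.K ^ l → W ≤ v → F.cc t p (a l q) (b l q) ≤ v →
      P.Base F t p (q * (h / P.K ^ l : ℕ)) (h / P.K ^ l) v (a l q) (b l q) := fun l q v hl hq hv hc => by
    obtain ⟨a1, -, a2⟩ := (hT.split l hl).mem hq
    exact d1dec_base F hc1 hCE hW hC0 ht (by simpa using (hT.split l hl).cross q hq)
      (fun m h1 h2 => hN m (a1.trans h1) (h2.trans a2)) hv hc
  induction e generalizing l q v with
  | zero => exact hb l q v hl hq hv (by simpa using hpiece 0 le_rfl q (by simp) (by simp))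
  | succ e ih =>
    have hB := hb l q v (by omega) hq hv (by simpa using hpiece 0 (by omega) q (by simp) (by simp))
    obtain ⟨n1, n2⟩ := hT.nest l (by omega) q hq
    have hS := hT.split (l + 1) (by omega)
    have hK2 : (1 : ℝ) ≤ (P.K : ℝ) ^ 2 := one_le_pow₀ (by exact_mod_cast (by omega : 1 ≤ P.K))
    have hv' : W ≤ (P.K : ℝ) ^ 2 * v := hv.trans (le_mul_of_one_le_left (hW.trans hv) hK2)
    have hq' : ∀ k < P.K, q * P.K + k < n * P.K ^ (l + 1) := fun k hk => by
      have := Nat.mul_le_mul_right P.K (Nat.succ_le_of_lt hq)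
      rw [pow_succ, ← mul_assoc]
      rw [Nat.succ_mul] at this
      omega
    refine ⟨hB, fun k => a (l + 1) (q * P.K + k), fun k => b (l + 1) (q * P.K + k), n1, n2,
      fun k hk => ?_, fun k hk => ⟨hS.gap _ (hq' _ hk), fun m h1 h2 => ?_⟩⟩
    · have e1 : ∀ s q', (q * P.K + k) * P.K ^ s ≤ q' → q * P.K ^ (s + 1) ≤ q' := fun s q' h => by
        rw [add_mul, mul_assoc, ← pow_succ'] at h
        omega
      have e2 : ∀ s, (q * P.K + k + 1) * P.K ^ s ≤ (q + 1) * P.K ^ (s + 1) := fun s => by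
        rw [pow_succ', ← mul_assoc]
        exact Nat.mul_le_mul_right _ (by rw [add_mul]; omega)
      have := ih (l + 1) (q * P.K + k) (by omega) (hq' k hk) hv'
        (fun s hs q' h1 h2 => by
          have := hpiece (s + 1) (by omega) q' (e1 s q' h1) (h2.trans_le (e2 s))
          rwa [pow_succ, mul_assoc, ← add_assoc, add_right_comm] at this)
        (fun s hs q' h1 h2 => by
          have := hgap (s + 1) (by omega) q' (e1 s q' h1) (h2.trans_le (e2 s))
          rwa [pow_succ, mul_assoc, ← add_assoc, add_right_comm] at this)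
      rw [Nat.div_div_eq_div_mul, ← pow_succ]
      convert this using 1
      rw [d1dec_div (by omega) ((pow_dvd_pow P.K (by omega : l + 1 ≤ d)).trans hd)]
      push_cast
      ring
    · have hk0 : k < P.K := by omega
      obtain ⟨a1, a2, -⟩ := hS.mem (hq' _ hk0)
      obtain ⟨-, a3, a4⟩ := hS.mem (hq' _ hk)
      have a5 := (d1dec_mono hS (Nat.le_add_right _ k) (hq' _ hk0)).1
      have a6 := (d1dec_mono hS (by omega : q * P.K + (k + 1) ≤ q * P.K + (P.K - 1))
        (hq' _ (by omega))).2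
      have a7 := (hB.1.1.mono (Set.subset_univ _)).sub (n1 ▸ a5.trans a2) (h1.trans h2) (n2 ▸ a3.trans a6)
      have a8 := (ht.2 p _ _ a7 (hN _ (a1.trans a2) ((h1.trans h2).trans (a3.trans a4)))).2.2
        (by rw [(hS.cross _ (hq' _ hk)).2.1, (hS.cross _ (hq' _ hk0)).2.2]; push_cast; ring) m h1 h2
        (hN _ ((a1.trans a2).trans h1) (h2.trans (a3.trans a4)))
      have a9 := hgap 1 (by omega) (q * P.K + k) (by simp) (by rw [pow_one, add_mul]; omega)
      rw [pow_one, add_assoc] at a9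
      refine le_trans ?_ (mul_le_mul_of_nonneg_right hC0 (hW.trans hv'))
      rw [div_mul_eq_mul_div, le_div_iff₀ hc1]
      have c4 := mul_le_mul_of_nonneg_left hv' hCE.le
      have c5 := mul_nonneg hCE.le hW
      linarith

/-- total positive cost at level `l` -/
noncomputable def posCost (F : Face μ) (t : Env) (p : ℤ → V) (n : ℕ) (a b : ℕ → ℤ) : ℝ :=
  ∑ q ∈ Finset.range n, max (F.cc t p (a q) (b q)) 0 +
    ∑ q ∈ Finset.range (n - 1), max (F.cc t p (b q) (a (q + 1))) 0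

open Classical in
/-- Markov: a top-level piece that is not good owns an expensive descendant piece or gap -/
theorem Tower.card_bad_le (F : Face μ) {P : Par} (hK : 2 ≤ P.K) {c1 CE W : ℝ} (hc1 : 0 < c1) (hCE : 0 < CE)
    (hW : 0 < W) (hC0 : (1 + 2 * CE) / c1 ≤ P.C0) {N h n d : ℕ} {t : Env} (ht : F.Coer c1 CE W N t)
    {p : ℤ → V} {i j : ℤ} {a b : ℕ → ℕ → ℤ} (hT : Tower P.K p h n d i j a b) (hd : P.K ^ d ∣ h)
    (hN : ∀ m, i ≤ m → m ≤ j → (nrm (p m) : ℝ) ≤ (N : ℝ) ^ 2) {e : ℕ} (he : e ≤ d) {v : ℝ} (hv : W ≤ v) :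
    (((Finset.range n).filter fun q : ℕ => ¬ P.Good F t p e (q * h) h v (a 0 q) (b 0 q)).card : ℝ) * v ≤
      ∑ l ∈ Finset.range (d + 1), posCost F t p (n * P.K ^ l) (a l) (b l) / ((P.K : ℝ) ^ 2) ^ l := by
  have hK0 : ∀ s, 0 < P.K ^ s := fun s => by positivity
  have hK2 : ∀ s, (0 : ℝ) < ((P.K : ℝ) ^ 2) ^ s := fun s => by positivity
  let g : ℕ → ℕ → ℝ := fun q s =>
    (∑ r ∈ Finset.range (n * P.K ^ s) with r / P.K ^ s = q, max (F.cc t p (a s r) (b s r)) 0 +
      ∑ r ∈ Finset.range (n * P.K ^ s - 1) with r / P.K ^ s = q,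
        max (F.cc t p (b s r) (a s (r + 1))) 0) / ((P.K : ℝ) ^ 2) ^ s
  have p1 : ∀ (S : Finset ℕ) (f : ℕ → ℝ), 0 ≤ ∑ r ∈ S, max (f r) 0 := fun S f =>
    Finset.sum_nonneg fun r _ => le_max_right _ _
  have p2 : ∀ (S : Finset ℕ) (f : ℕ → ℝ), ∀ r ∈ S, f r ≤ ∑ r ∈ S, max (f r) 0 := fun S f r hr =>
    (le_max_left _ _).trans (Finset.single_le_sum (f := fun r => max (f r) 0)
      (fun r _ => le_max_right _ _) hr)
  have hg : ∀ q s, 0 ≤ g q s := fun q s => div_nonneg (add_nonneg (p1 _ _) (p1 _ _)) (hK2 s).le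
  calc _ ≤ ∑ q ∈ (Finset.range n).filter fun q : ℕ => ¬ P.Good F t p e (q * h) h v (a 0 q) (b 0 q),
        ∑ s ∈ Finset.range (d + 1), g q s := by
        rw [← nsmul_eq_mul, ← Finset.sum_const]
        refine Finset.sum_le_sum fun q hq => ?_
        obtain ⟨hq, hb⟩ := Finset.mem_filter.1 hq
        rw [Finset.mem_range] at hq
        by_contra hc
        have h1 : ∀ s ≤ e, g q s < v := fun s hs => ((Finset.single_le_sum (fun s _ => hg q s)
          (Finset.mem_range.2 (by omega : s < d + 1)))).trans_lt (not_le.1 hc)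
        have h2 : ∀ s, (q + 1) * P.K ^ s ≤ n * P.K ^ s := fun s => Nat.mul_le_mul_right _ hq
        have h3 := hT.good F hK hc1 hCE hW.le hC0 ht hd hN e 0 q (by omega) (by simpa using hq) hv
        rw [pow_zero, Nat.div_one] at h3
        refine hb (h3 (fun s hs r a1 a2 => ?_) fun s hs r a1 a2 => ?_)
        · have := (div_lt_iff₀' (hK2 s)).1 (h1 s hs)
          have a3 := p2 (Finset.filter (fun r => r / P.K ^ s = q) (Finset.range (n * P.K ^ s)))
            (fun r => F.cc t p (a s r) (b s r)) r (Finset.mem_filter.2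
            ⟨Finset.mem_range.2 (a2.trans_le (h2 s)), Nat.div_eq_of_lt_le a1 a2⟩)
          rw [zero_add]
          exact a3.trans ((le_add_of_nonneg_right (p1 _ _)).trans this.le)
        · have := (div_lt_iff₀' (hK2 s)).1 (h1 s hs)
          have a3 := p2 (Finset.filter (fun r => r / P.K ^ s = q) (Finset.range (n * P.K ^ s - 1)))
            (fun r => F.cc t p (b s r) (a s (r + 1))) r (Finset.mem_filter.2
            ⟨Finset.mem_range.2 (by have := h2 s; omega), Nat.div_eq_of_lt_le a1 (by omega)⟩)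
          rw [zero_add]
          exact a3.trans ((le_add_of_nonneg_left (p1 _ _)).trans this.le)
    _ ≤ ∑ q ∈ Finset.range n, ∑ s ∈ Finset.range (d + 1), g q s :=
        Finset.sum_le_sum_of_subset_of_nonneg (Finset.filter_subset _ _) fun q _ _ =>
          Finset.sum_nonneg fun s _ => hg q s
    _ = _ := by
        rw [Finset.sum_comm]
        refine Finset.sum_congr rfl fun s _ => ?_
        rw [← Finset.sum_div, Finset.sum_add_distrib, Finset.sum_fiberwise_of_maps_to,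
          Finset.sum_fiberwise_of_maps_to, posCost]
        all_goals
          intro r hr
          rw [Finset.mem_range] at hr ⊢
          exact (Nat.div_lt_iff_lt_mul (hK0 s)).2 (by omega)

end Crest.Agent.R151
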