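import Crest.Agent.R151.D1Reach
import Crest.Agent.R151.D1Dec

/-! R151 part D1: deterministic accounting of the displacement of a long crossing. -/

set_option autoImplicit false
open MeasureTheory ProbabilityTheory Crest.ProbabilityR.FirstPassage Filter Topology
open scoped ENNReal

namespace Crest.Agent.R151

namespace Par
variable (P : Par) {μ : ℝ × ℝ → ℝ} (F : Face μ) (G : Measure ℝ)

open Classical in
/-- excess displacement in a lucky cell -/
noncomputable def Phi0 (h : ℕ) (v a z : ℝ) (y g : ℤ) (t : Env) : ℝ :=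
  if P.Reach F t y h v g a then ((P.Rt F G t y h v g - g : ℤ) : ℝ) - z else 0

/-- excess displacement beyond the threshold `τ` -/
noncomputable def PhiS (h : ℕ) (v τ : ℝ) (y g : ℤ) (t : Env) : ℝ :=
  max (((P.Rt F G t y h v g - g : ℤ) : ℝ) - P.zeta F G h v - τ) 0

/-- offset of the `q`-th starting point from the line of slope `ζ0` per slab -/
noncomputable def offs (p : ℤ → V) (a : ℕ → ℤ) (j : ℤ) (n : ℕ) (ζ0 : ℤ) (q : ℕ) : ℝ :=
  if q < n then ((p (a q)).1 : ℝ) - q * ζ0 else ((p j).1 : ℝ) - n * ζ0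

theorem d1acc_first {B : ℕ → Prop} {m : ℕ} (h0 : B 0) (hm : ¬ B m) :
    ∃ s, 1 ≤ s ∧ s ≤ m ∧ B (s - 1) ∧ ¬ B s := by
  induction m with
  | zero => exact absurd h0 hm
  | succ k ih =>
    by_cases hk : B k
    · exact ⟨k + 1, by omega, le_rfl, hk, hm⟩
    · obtain ⟨s, a1, a2, a3⟩ := ih hk
      exact ⟨s, a1, by omega, a3⟩

theorem d1acc_Phi0_nonneg {h : ℕ} {v a z : ℝ} (hz : z ≤ a) (y g : ℤ) (t : Env) :
    0 ≤ P.Phi0 F G h v a z y g t := by
  unfold Phi0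
  split_ifs with hr
  · have := hr.le_Rt G
    push_cast
    linarith
  · exact le_rfl

theorem d1acc_good0 {h : ℕ} {v a z : ℝ} (hz : z ≤ a) {y g i j ζ0 : ℤ} {t : Env} {p : ℤ → V} {b1 : ℝ}
    (hg : P.GoodP F t p y h v i j) (h1 : (p i).1 ≤ g) (h2 : (g : ℝ) ≤ (p i).1 + b1) (hζ0 : a + b1 ≤ ζ0) :
    ((p j).1 : ℝ) - (p i).1 - ζ0 ≤ P.Phi0 F G h v a z y g t := by
  unfold Phi0
  split_ifs with hr
  · have : ((p j).1 : ℝ) ≤ P.Rt F G t y h v g := by exact_mod_cast hg.le_Rt G h1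
    push_cast
    linarith
  · have : ¬ (g : ℝ) + a ≤ (p j).1 := fun h3 => hr ⟨p, i, j, hg, h1, h3⟩
    linarith

theorem d1acc_goodS {h : ℕ} {v a z τ E : ℝ} (hz : z ≤ a) {y g i j ζ0 : ℤ} {t : Env} {p : ℤ → V} {b1 : ℝ}
    (hg : P.GoodP F t p y h v i j) (h1 : (p i).1 ≤ g) (h2 : (g : ℝ) ≤ (p i).1 + b1) (hζ0 : a + b1 ≤ ζ0)
    (hE : τ + P.zeta F G h v - z ≤ E) :
    ((p j).1 : ℝ) - (p i).1 - ζ0 ≤ P.PhiS F G h v τ y g t + E := by
  have a1 : ((p j).1 : ℝ) ≤ P.Rt F G t y h v g := by exact_mod_cast hg.le_Rt G h1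
  have a2 : ((P.Rt F G t y h v g - g : ℤ) : ℝ) - P.zeta F G h v - τ ≤ P.PhiS F G h v τ y g t :=
    le_max_left _ _
  push_cast at a2
  linarith

open Classical in
/-- the bound for one piece -/
theorem d1acc_piece {c1 CE W : ℝ} (hc1 : 0 < c1) (hCE : 0 < CE) {N h : ℕ} {t : Env}
    (ht : F.Coer c1 CE W N t) {p : ℤ → V} {y i j g : ℤ} (hWh : W ≤ h) (hc : Cross y h p i j)
    (hN : (nrm (p i) : ℝ) ≤ (N : ℝ) ^ 2) {u lam0 z za b1 : ℝ} {smax : ℕ}
    {ζ0 : ℤ} (hz : z ≤ za) (hζ0 : za + b1 ≤ ζ0) (τ E : ℕ → ℝ) (hE0 : ∀ s, 0 ≤ E s)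
    (hE : ∀ s, 1 ≤ s → s ≤ smax → τ s + P.zeta F G h (2 ^ s * lam0 * u) - z ≤ E s)
    (h1 : (p i).1 ≤ g) (h2 : (g : ℝ) ≤ (p i).1 + b1) :
    max (((p j).1 : ℝ) - (p i).1 - ζ0) 0 ≤ P.Phi0 F G h (lam0 * u) za z y g t +
      ∑ s ∈ Finset.Icc 1 smax, P.PhiS F G h (2 ^ s * lam0 * u) (τ s) y g t +
      ∑ s ∈ Finset.Icc 1 smax, E s *
        (if ¬ P.GoodP F t p y h (2 ^ (s - 1) * lam0 * u) i j then 1 else 0) +
      max (F.cc t p i j) 0 / c1 + (2 * CE * h / c1 + |(ζ0 : ℝ)|) *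
        (if ¬ P.GoodP F t p y h (2 ^ smax * lam0 * u) i j then 1 else 0) := by
  have hh0 : (0 : ℝ) ≤ h := Nat.cast_nonneg h
  have n1 := P.d1acc_Phi0_nonneg F G (h := h) (v := lam0 * u) hz y g t
  have m2 : ∀ s ∈ Finset.Icc 1 smax, 0 ≤ P.PhiS F G h (2 ^ s * lam0 * u) (τ s) y g t :=
    fun s _ => le_max_right _ _
  have m3 : ∀ s ∈ Finset.Icc 1 smax, 0 ≤ E s *
      (if ¬ P.GoodP F t p y h (2 ^ (s - 1) * lam0 * u) i j then (1 : ℝ) else 0) :=
    fun s _ => mul_nonneg (hE0 s) (by split_ifs <;> norm_num)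
  have n2 := Finset.sum_nonneg m2
  have n3 := Finset.sum_nonneg m3
  have n4 : 0 ≤ max (F.cc t p i j) 0 / c1 := div_nonneg (le_max_right _ _) hc1.le
  have n5 : 0 ≤ (2 * CE * h / c1 + |(ζ0 : ℝ)|) *
      (if ¬ P.GoodP F t p y h (2 ^ smax * lam0 * u) i j then (1 : ℝ) else 0) :=
    mul_nonneg (by positivity) (by split_ifs <;> norm_num)
  refine max_le ?_ (by linarith)
  by_cases g0 : P.GoodP F t p y h (lam0 * u) i j
  · have := P.d1acc_good0 F G hz g0 h1 h2 hζ0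
    linarith
  by_cases gm : P.GoodP F t p y h (2 ^ smax * lam0 * u) i j
  · obtain ⟨s, a1, a2, a3, a4⟩ := d1acc_first
      (B := fun s => ¬ P.GoodP F t p y h (2 ^ s * lam0 * u) i j) (m := smax) (by simpa using g0)
      (not_not.2 gm)
    have a5 := P.d1acc_goodS F G hz (not_not.1 a4) h1 h2 hζ0 (hE s a1 a2)
    have a6 := Finset.single_le_sum m2 (Finset.mem_Icc.2 ⟨a1, a2⟩)
    have a7 := Finset.single_le_sum m3 (Finset.mem_Icc.2 ⟨a1, a2⟩)
    rw [if_pos a3] at a7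
    linarith
  · rw [if_pos gm]
    have a1 := (ht.2 p i j (hc.1.mono (Set.subset_univ _)) hN).2.1
    have a2 : |((p j).2 : ℝ) - (p i).2| = h := by
      rw [hc.2.1, hc.2.2]
      push_cast
      rw [add_sub_cancel_left, abs_of_nonneg hh0]
    rw [a2] at a1
    have a3 : |((p j).1 : ℝ) - (p i).1| ≤ max (F.cc t p i j) 0 / c1 + 2 * CE * h / c1 := by
      rw [← add_div, le_div_iff₀ hc1]
      have := le_max_left (F.cc t p i j) 0
      have := mul_le_mul_of_nonneg_left hWh hCE.le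
      linarith
    have a4 := le_abs_self (((p j).1 : ℝ) - (p i).1)
    have a5 := neg_abs_le (ζ0 : ℝ)
    linarith

open Classical in
/-- Let `k q = ⌈offs q / b1⌉`, `γ q = q ζ0 + k q · b1`, so `x_q ≤ γ q < x_q + b1`.  The increment `offs (q+1) - offs q` is (displacement of piece `q`) `- ζ0`
plus the displacement of the following gap.  Piece `q` is either good with budget `λ0 u` (then the term is `≤ 0` if `¬ Reach`, `≤ Phi0` if `Reach`; `GoodP.le_Rt`),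
or there is `1 ≤ s ≤ smax` with: not good for `2^{s-1} λ0 u`, good for `2^s λ0 u` (term `≤ PhiS + E s`, at most `gv/(2^{s-1} λ0 u)` such `q`), or not good for
`2^smax λ0 u > h/2` (at most `2 gv/h` such `q`; term `≤ |Δx| + |ζ0|`, `c1 |Δx| ≤ cc⁺ + CE(h + W)` by `Coer`).  Gaps: `c1 |Δx| ≤ cc⁺ + CE W`. -/
theorem account {c1 CE W : ℝ} (hc1 : 0 < c1) (hCE : 0 < CE) (hW : 0 < W) {N h n : ℕ} {t : Env}
    (ht : F.Coer c1 CE W N t) {p : ℤ → V} {i j : ℤ} {a b : ℕ → ℤ} (hn : 1 ≤ n) (hh : 1 ≤ h) (hWh : W ≤ h)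
    (hp : PathIn Set.univ p i j) (hs : Split p 0 h n i j a b) (hN : ∀ m, i ≤ m → m ≤ j → (nrm (p m) : ℝ) ≤ (N : ℝ) ^ 2)
    {u lam0 gv z za : ℝ} (hu : 0 < u) (hlam : 1 ≤ lam0) {smax b1 : ℕ} (hb1 : 1 ≤ b1)
    (hsmax : (h : ℝ) ≤ 2 * (2 ^ smax * lam0 * u)) (hpos : posCost F t p n a b ≤ gv)
    (hcnt : ∀ lam : ℝ, 1 ≤ lam → (((Finset.range n).filter fun q : ℕ =>
      ¬ P.GoodP F t p (q * h) h (lam * u) (a q) (b q)).card : ℝ) * (lam * u) ≤ gv)
    {ζ0 : ℤ} (hz : z ≤ za) (hζ0 : za + b1 ≤ ζ0) (τ E : ℕ → ℝ) (hE0 : ∀ s, 0 ≤ E s)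
    (hE : ∀ s, 1 ≤ s → s ≤ smax → τ s + P.zeta F G h (2 ^ s * lam0 * u) - z ≤ E s) :
    ∑ q ∈ Finset.range n, max (offs p a j n ζ0 (q + 1) - offs p a j n ζ0 q) 0 ≤
      ∑ q ∈ Finset.range n, P.Phi0 F G h (lam0 * u) za z (q * h)
          (q * ζ0 + ⌈offs p a j n ζ0 q / b1⌉ * b1) t +
      ∑ s ∈ Finset.Icc 1 smax, ∑ q ∈ Finset.range n, P.PhiS F G h (2 ^ s * lam0 * u) (τ s) (q * h)
          (q * ζ0 + ⌈offs p a j n ζ0 q / b1⌉ * b1) t +
      ∑ s ∈ Finset.Icc 1 smax, E s * (2 * gv / (2 ^ s * lam0 * u)) +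
      ((1 + 4 * CE) * gv + CE * W * n) / c1 + 2 * |(ζ0 : ℝ)| * gv / h := by
  have hb0 : (0 : ℝ) < b1 := by exact_mod_cast hb1
  have hh0 : (0 : ℝ) < h := by exact_mod_cast hh
  have hl0 : 0 < lam0 := by linarith
  have hlam' : ∀ s : ℕ, 1 ≤ (2 : ℝ) ^ s * lam0 := fun s =>
    one_le_mul_of_one_le_of_one_le (one_le_pow₀ one_le_two) hlam
  set D : ℕ → ℝ := fun q => if q + 1 < n then (max (F.cc t p (b q) (a (q + 1))) 0 + CE * W) / c1 else 0
    with hD
  have hpc : ∀ q ∈ Finset.range n, max (offs p a j n ζ0 (q + 1) - offs p a j n ζ0 q) 0 ≤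
      (P.Phi0 F G h (lam0 * u) za z (q * h) (q * ζ0 + ⌈offs p a j n ζ0 q / b1⌉ * b1) t +
      ∑ s ∈ Finset.Icc 1 smax, P.PhiS F G h (2 ^ s * lam0 * u) (τ s) (q * h)
        (q * ζ0 + ⌈offs p a j n ζ0 q / b1⌉ * b1) t +
      ∑ s ∈ Finset.Icc 1 smax, E s *
        (if ¬ P.GoodP F t p (q * h) h (2 ^ (s - 1) * lam0 * u) (a q) (b q) then 1 else 0) +
      max (F.cc t p (a q) (b q)) 0 / c1 + (2 * CE * h / c1 + |(ζ0 : ℝ)|) *
        (if ¬ P.GoodP F t p (q * h) h (2 ^ smax * lam0 * u) (a q) (b q) then 1 else 0)) + D q := by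
    intro q hq
    have hq := Finset.mem_range.1 hq
    obtain ⟨m1, m2, m3⟩ := hs.mem hq
    have e0 : offs p a j n ζ0 q = ((p (a q)).1 : ℝ) - q * ζ0 := if_pos hq
    have c1' : offs p a j n ζ0 q ≤ ⌈offs p a j n ζ0 q / b1⌉ * b1 := by
      rw [← div_le_iff₀ hb0]
      exact Int.le_ceil _
    have c2 : (⌈offs p a j n ζ0 q / b1⌉ : ℝ) * b1 ≤ offs p a j n ζ0 q + b1 := by
      rw [← le_div_iff₀ hb0, add_div, div_self hb0.ne']
      exact (Int.ceil_lt_add_one _).le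
    have hcr : Cross (q * h) h p (a q) (b q) := by simpa using hs.cross q hq
    have key := P.d1acc_piece F G hc1 hCE ht (g := q * ζ0 + ⌈offs p a j n ζ0 q / b1⌉ * b1) hWh hcr
      (hN _ m1 (m2.trans m3)) (u := u) (lam0 := lam0) hz hζ0 τ E hE0 hE
      (by
        have : ((p (a q)).1 : ℝ) ≤ ((q * ζ0 + ⌈offs p a j n ζ0 q / b1⌉ * b1 : ℤ) : ℝ) := by
          push_cast
          linarith
        exact_mod_cast this)
      (by push_cast; linarith)
    have hgap : 0 ≤ D q ∧ offs p a j n ζ0 (q + 1) - offs p a j n ζ0 q ≤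
        ((p (b q)).1 : ℝ) - (p (a q)).1 - ζ0 + D q := by
      by_cases hq1 : q + 1 < n
      · have e1 : offs p a j n ζ0 (q + 1) = ((p (a (q + 1))).1 : ℝ) - ((q + 1 : ℕ) : ℝ) * ζ0 := if_pos hq1
        have e2 : D q = (max (F.cc t p (b q) (a (q + 1))) 0 + CE * W) / c1 := if_pos hq1
        obtain ⟨k1, k2, k3⟩ := hs.mem hq1
        have a1 := (ht.2 p _ _ (hp.sub (m1.trans m2) (hs.gap q hq1) (k2.trans k3))
          (hN _ (m1.trans m2) m3)).2.1
        have a2 : ((p (a (q + 1))).2 : ℝ) - (p (b q)).2 = 0 := by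
          rw [(hs.cross _ hq1).2.1, hcr.2.2]
          push_cast
          ring
        rw [a2, abs_zero, mul_zero, sub_zero] at a1
        have a3 : |((p (a (q + 1))).1 : ℝ) - (p (b q)).1| ≤ D q := by
          rw [e2, le_div_iff₀ hc1]
          have := le_max_left (F.cc t p (b q) (a (q + 1))) 0
          linarith
        refine ⟨(abs_nonneg _).trans a3, ?_⟩
        have a4 := le_abs_self (((p (a (q + 1))).1 : ℝ) - (p (b q)).1)
        rw [e1, e0]
        push_cast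
        linarith
      · have e1 : offs p a j n ζ0 (q + 1) = ((p j).1 : ℝ) - n * ζ0 := if_neg hq1
        have e2 : D q = 0 := if_neg hq1
        have e3 : n = q + 1 := by omega
        have e4 : b q = j := by rw [← hs.last, e3, add_tsub_cancel_right]
        have e5 : (n : ℝ) = q + 1 := by exact_mod_cast e3
        rw [e1, e0, e2, e4, e5]
        exact ⟨le_rfl, by linarith⟩
    have a1 := le_max_left (((p (b q)).1 : ℝ) - (p (a q)).1 - ζ0) 0
    have a2 := le_max_right (((p (b q)).1 : ℝ) - (p (a q)).1 - ζ0) 0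
    exact max_le (by linarith [hgap.2]) (by linarith [hgap.1])
  refine (Finset.sum_le_sum hpc).trans ?_
  simp only [Finset.sum_add_distrib]
  rw [Finset.sum_comm (s := Finset.range n) (t := Finset.Icc 1 smax),
    Finset.sum_comm (s := Finset.range n) (t := Finset.Icc 1 smax)]
  have hcount : ∀ s : ℕ, ∑ q ∈ Finset.range n,
      (if ¬ P.GoodP F t p (q * h) h (2 ^ s * lam0 * u) (a q) (b q) then (1 : ℝ) else 0) ≤
        gv / (2 ^ s * lam0 * u) := fun s => by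
    rw [Finset.sum_boole, le_div_iff₀ (by positivity)]
    exact hcnt _ (hlam' s)
  have b1' : ∑ s ∈ Finset.Icc 1 smax, ∑ q ∈ Finset.range n, E s *
      (if ¬ P.GoodP F t p (q * h) h (2 ^ (s - 1) * lam0 * u) (a q) (b q) then (1 : ℝ) else 0) ≤
      ∑ s ∈ Finset.Icc 1 smax, E s * (2 * gv / (2 ^ s * lam0 * u)) := by
    refine Finset.sum_le_sum fun s hs' => ?_
    rw [← Finset.mul_sum]
    refine mul_le_mul_of_nonneg_left ((hcount (s - 1)).trans (le_of_eq ?_)) (hE0 s)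
    obtain ⟨r, rfl⟩ := Nat.exists_eq_add_of_le' (Finset.mem_Icc.1 hs').1
    rw [add_tsub_cancel_right, pow_succ]
    field_simp
  have hgv : 0 ≤ gv := le_trans (by positivity) (hcnt 1 le_rfl)
  have b2 : ∑ q ∈ Finset.range n, (2 * CE * h / c1 + |(ζ0 : ℝ)|) *
      (if ¬ P.GoodP F t p (q * h) h (2 ^ smax * lam0 * u) (a q) (b q) then (1 : ℝ) else 0) ≤
      4 * CE * gv / c1 + 2 * |(ζ0 : ℝ)| * gv / h := by
    rw [← Finset.mul_sum]
    have a1 : gv / (2 ^ smax * lam0 * u) ≤ 2 * gv / h := by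
      rw [div_le_div_iff₀ (by positivity) hh0]
      nlinarith [mul_le_mul_of_nonneg_left hsmax hgv]
    refine (mul_le_mul_of_nonneg_left ((hcount smax).trans a1) (by positivity)).trans (le_of_eq ?_)
    field_simp
    ring
  have b3 : ∑ q ∈ Finset.range n, D q ≤
      (∑ q ∈ Finset.range (n - 1), max (F.cc t p (b q) (a (q + 1))) 0 + CE * W * n) / c1 := by
    obtain ⟨r, rfl⟩ := Nat.exists_eq_add_of_le' hn
    rw [Finset.sum_range_succ, add_tsub_cancel_right]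
    have a1 : D r = 0 := if_neg (lt_irrefl _)
    have a2 : ∑ q ∈ Finset.range r, D q =
        ∑ q ∈ Finset.range r, (max (F.cc t p (b q) (a (q + 1))) 0 + CE * W) / c1 :=
      Finset.sum_congr rfl fun q hq => if_pos (by simpa using hq)
    rw [a1, a2, add_zero, ← Finset.sum_div, Finset.sum_add_distrib]
    refine div_le_div_of_nonneg_right ?_ hc1.le
    have := mul_pos hCE hW
    simp only [Finset.sum_const, Finset.card_range, nsmul_eq_mul]
    push_cast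
    nlinarith
  rw [← Finset.sum_div]
  have b4 : (∑ q ∈ Finset.range n, max (F.cc t p (a q) (b q)) 0) / c1 +
      (∑ q ∈ Finset.range (n - 1), max (F.cc t p (b q) (a (q + 1))) 0 + CE * W * n) / c1 +
      4 * CE * gv / c1 ≤ ((1 + 4 * CE) * gv + CE * W * n) / c1 := by
    rw [← add_div, ← add_div]
    refine div_le_div_of_nonneg_right ?_ hc1.le
    unfold posCost at hpos
    linarith
  linarith
end Par

end Crest.Agent.R151
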