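import Crest.Agent.R151.D1Defs

/-! R151 part D1: the `L⁴` norm and greedy chains of independent random maps. -/

set_option autoImplicit false
open MeasureTheory ProbabilityTheory Crest.ProbabilityR.FirstPassage Filter Topology
open scoped ENNReal

namespace Crest.Agent.R151

variable {G : Measure ℝ} [IsProbabilityMeasure G]

/-- bounded and measurable -/
def Bdd (X : Env → ℝ) : Prop := Measurable X ∧ ∃ B, ∀ t, |X t| ≤ B

theorem Bdd.add {X Y : Env → ℝ} (hX : Bdd X) (hY : Bdd Y) : Bdd fun t => X t + Y t := by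
  obtain ⟨hX, B, hB⟩ := hX
  obtain ⟨hY, C, hC⟩ := hY
  exact ⟨hX.add hY, B + C, fun t => (abs_add_le _ _).trans (add_le_add (hB t) (hC t))⟩
theorem Bdd.const (c : ℝ) : Bdd fun _ => c := ⟨measurable_const, |c|, fun _ => le_rfl⟩
theorem d1chain_memLp {X : Env → ℝ} (hX : Bdd X) (p : ℝ≥0∞) : MemLp X p (iidLaw G) := by
  obtain ⟨hX, B, hB⟩ := hX
  exact MemLp.of_bound hX.aestronglyMeasurable B (ae_of_all _ hB)
theorem Bdd.integrable {X : Env → ℝ} (hX : Bdd X) : Integrable X (iidLaw G) :=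
  memLp_one_iff_integrable.1 (d1chain_memLp hX 1)
theorem d1chain_pow {X : Env → ℝ} (hX : Bdd X) (p : ℕ) : Bdd fun t => X t ^ p := by
  obtain ⟨hX, B, hB⟩ := hX
  exact ⟨hX.pow_const p, B ^ p, fun t => by
    rw [abs_pow]
    exact pow_le_pow_left₀ (abs_nonneg _) (hB t) p⟩
theorem d1chain_abs {X : Env → ℝ} (hX : Bdd X) : Bdd fun t => |X t| := by
  obtain ⟨hX, B, hB⟩ := hX
  exact ⟨hX.abs, B, fun t => by rw [abs_abs]; exact hB t⟩
omit [IsProbabilityMeasure G] in
theorem d1chain_nonneg (X : Env → ℝ) : 0 ≤ ∫ t, X t ^ 4 ∂iidLaw G :=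
  integral_nonneg fun t => by positivity
theorem n4_nonneg (X : Env → ℝ) : 0 ≤ n4 G X := Real.rpow_nonneg (d1chain_nonneg X) _
theorem n4_pow (X : Env → ℝ) : n4 G X ^ 4 = ∫ t, X t ^ 4 ∂iidLaw G := by
  rw [n4, ← Real.rpow_natCast, ← Real.rpow_mul (d1chain_nonneg X)]
  norm_num
theorem d1chain_le {X : Env → ℝ} {M : ℝ} (hM : 0 ≤ M) (h : ∫ t, X t ^ 4 ∂iidLaw G ≤ M ^ 4) :
    n4 G X ≤ M :=
  (pow_le_pow_iff_left₀ (n4_nonneg X) hM four_ne_zero).1 ((n4_pow X).le.trans h)
theorem d1chain_ge {X : Env → ℝ} {M : ℝ} (h : n4 G X ≤ M) : ∫ t, X t ^ 4 ∂iidLaw G ≤ M ^ 4 :=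
  (n4_pow X).ge.trans (pow_le_pow_left₀ (n4_nonneg X) h 4)
theorem d1chain_abs4 (x : ℝ) : |x| ^ 4 = x ^ 4 := Even.pow_abs (by decide) x
theorem n4_const (c : ℝ) : n4 G (fun _ => c) = |c| := by
  refine (pow_left_inj₀ (n4_nonneg _) (abs_nonneg c) four_ne_zero).1 ?_
  rw [n4_pow, d1chain_abs4, integral_const, probReal_univ, one_smul]
theorem n4_mono {X Y : Env → ℝ} (hX : Measurable X) (hY : Bdd Y) (h : ∀ t, |X t| ≤ Y t) :
    n4 G X ≤ n4 G Y := by
  refine d1chain_le (n4_nonneg Y) ?_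
  rw [n4_pow]
  refine integral_mono_of_nonneg (ae_of_all _ fun t => by positivity) (d1chain_pow hY 4).integrable
    (ae_of_all _ fun t => ?_)
  exact (d1chain_abs4 _).ge.trans (pow_le_pow_left₀ (abs_nonneg _) (h t) 4)
theorem d1chain_lp {X : Env → ℝ} (hX : Measurable X) : n4 G X = lpNorm X 4 (iidLaw G) := by
  rw [lpNorm_eq_integral_norm_rpow_toReal (by norm_num) (by norm_num) hX.aestronglyMeasurable, n4]
  simp only [ENNReal.toReal_ofNat, Real.rpow_ofNat, Real.norm_eq_abs, d1chain_abs4, one_div]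
/-- Minkowski (`eLpNorm_add_le`) -/
theorem n4_add_le {X Y : Env → ℝ} (hX : Bdd X) (hY : Bdd Y) :
    n4 G (fun t => X t + Y t) ≤ n4 G X + n4 G Y := by
  rw [d1chain_lp (hX.add hY).1, d1chain_lp hX.1, d1chain_lp hY.1]
  exact lpNorm_add_le (d1chain_memLp hX 4) (by norm_num)
theorem d1chain_sq {Y : Env → ℝ} (hY : Bdd Y) :
    (∫ t, Y t ∂iidLaw G) ^ 2 ≤ ∫ t, Y t ^ 2 ∂iidLaw G := by
  have h := variance_nonneg Y (iidLaw G)
  rw [variance_eq_sub (d1chain_memLp hY 2)] at h
  exact sub_nonneg.1 h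
theorem d1chain_two {X : Env → ℝ} (hX : Bdd X) : ∫ t, X t ^ 2 ∂iidLaw G ≤ n4 G X ^ 2 := by
  refine le_of_sq_le_sq ((d1chain_sq (d1chain_pow hX 2)).trans (le_of_eq ?_)) (sq_nonneg _)
  simp only [← pow_mul]
  exact (n4_pow X).symm
theorem integral_abs_le_n4 {X : Env → ℝ} (hX : Bdd X) : ∫ t, |X t| ∂iidLaw G ≤ n4 G X := by
  refine le_of_sq_le_sq ((d1chain_sq (d1chain_abs hX)).trans ?_) (n4_nonneg X)
  simpa only [sq_abs] using d1chain_two hX
theorem n4_markov {X : Env → ℝ} (hX : Bdd X) {M s : ℝ} (hM : n4 G X ≤ M) (hs : 0 < s) :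
    (iidLaw G).real {t | s ≤ X t} ≤ (M / s) ^ 4 := by
  have h := mul_meas_ge_le_integral_of_nonneg (μ := iidLaw G) (f := fun t => X t ^ 4)
    (ae_of_all _ fun t => by positivity) (d1chain_pow hX 4).integrable (s ^ 4)
  rw [div_pow, le_div_iff₀ (by positivity), mul_comm]
  refine le_trans (mul_le_mul_of_nonneg_left (measureReal_mono fun t ht => ?_) (by positivity))
    (h.trans (d1chain_ge hM))
  exact pow_le_pow_left₀ hs.le ht 4
/-- also when the norm vanishes -/
theorem n4_markov_two {X : Env → ℝ} (hX : Bdd X) :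
    (iidLaw G).real {t | 2 * n4 G X < X t} ≤ 1 / 16 := by
  rcases (n4_nonneg (G := G) X).eq_or_lt with h | h
  · have h1 := n4_pow (G := G) X
    rw [← h, zero_pow four_ne_zero, eq_comm, integral_eq_zero_iff_of_nonneg
      (fun t => by positivity) (d1chain_pow hX 4).integrable] at h1
    have h2 : iidLaw G {t | 2 * n4 G X < X t} = 0 := by
      refine measure_mono_null (fun t ht => ?_) (ae_iff.1 h1)
      rw [← h, mul_zero] at ht
      exact (pow_pos ht 4).ne'
    rw [Measure.real, h2]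
    norm_num
  · refine (measureReal_mono fun t ht => ?_).trans
      ((n4_markov hX le_rfl (mul_pos two_pos h)).trans (le_of_eq ?_))
    · exact le_of_lt (show 2 * n4 G X < X t from ht)
    · field_simp
      norm_num
theorem n4_comp {X : Env → ℝ} (hX : Measurable X) {φ : Env → Env}
    (hφ : MeasurePreserving φ (iidLaw G) (iidLaw G)) : n4 G (fun t => X (φ t)) = n4 G X := by
  unfold n4
  conv_rhs => rw [← hφ.map_eq,
    integral_map hφ.measurable.aemeasurable (hX.pow_const 4).aestronglyMeasurable]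
/-- `Y⁴ ≤ Σ X_k⁴` -/
theorem n4_le_of_exists {n : ℕ} {X : ℕ → Env → ℝ} {Y : Env → ℝ} (hX : ∀ k < n, Bdd (X k))
    (hY : Measurable Y) (h : ∀ t, Y t = 0 ∨ ∃ k < n, |Y t| ≤ |X k t|) {M : ℝ} (hM0 : 0 ≤ M)
    (hM : ∀ k < n, n4 G (X k) ≤ M) : n4 G Y ≤ (n : ℝ) ^ (1 / 4 : ℝ) * M := by
  refine d1chain_le (by positivity) ?_
  have hi : ∀ k ∈ Finset.range n, Integrable (fun t => X k t ^ 4) (iidLaw G) := fun k hk =>
    (d1chain_pow (hX k (Finset.mem_range.1 hk)) 4).integrable
  calc _ ≤ ∫ t, ∑ k ∈ Finset.range n, X k t ^ 4 ∂iidLaw G := by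
        refine integral_mono_of_nonneg (ae_of_all _ fun t => by positivity)
          (integrable_finsetSum _ hi) (ae_of_all _ fun t => ?_)
        rcases h t with h0 | ⟨k, hk, h1⟩
        · simp only [h0, zero_pow four_ne_zero]
          positivity
        · refine le_trans ?_ (Finset.single_le_sum (f := fun k => X k t ^ 4)
            (fun k _ => by positivity) (Finset.mem_range.2 hk))
          exact (d1chain_abs4 _).ge.trans
            ((pow_le_pow_left₀ (abs_nonneg _) h1 4).trans (d1chain_abs4 _).le)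
    _ ≤ ∑ k ∈ Finset.range n, M ^ 4 := by
        rw [integral_finsetSum _ hi]
        exact Finset.sum_le_sum fun k hk => d1chain_ge (hM k (Finset.mem_range.1 hk))
    _ = _ := by
        rw [Finset.sum_const, Finset.card_range, nsmul_eq_mul, mul_pow,
          ← Real.rpow_natCast ((n : ℝ) ^ (1 / 4 : ℝ)) 4, ← Real.rpow_mul (Nat.cast_nonneg n)]
        norm_num

/-- greedy chain `G_{k+1} = D_k (G_k + c)` -/
def chain (D : ℕ → ℤ → Env → ℤ) (c g : ℤ) (t : Env) : ℕ → ℤ
  | 0 => g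
  | k + 1 => D k (chain D c g t k + c) t

/-- independent random maps with bounded displacement -/
structure ChainData (D : ℕ → ℤ → Env → ℤ) (U : ℕ → Set (Sym2 V)) (B : ℝ) : Prop where
  meas : ∀ k g, Measurable (D k g)
  dep : ∀ k g, DependsOnly (D k g) (U k)
  disj : Pairwise fun k l => Disjoint (U k) (U l)
  bdd : ∀ k g t, |((D k g t - g : ℤ) : ℝ)| ≤ B

variable {D : ℕ → ℤ → Env → ℤ} {U : ℕ → Set (Sym2 V)} {B : ℝ}

theorem ChainData.measurable (h : ChainData D U B) (c g : ℤ) (k : ℕ) :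
    Measurable fun t => chain D c g t k := by
  induction k with
  | zero => exact measurable_const
  | succ k ih => exact bmeas_cc (ih.add_const c) (h.meas k)
theorem ChainData.dependsOnly (h : ChainData D U B) (c g : ℤ) (k : ℕ) :
    DependsOnly (fun t => chain D c g t k) (⋃ l ∈ {l | l < k}, U l) := by
  induction k with
  | zero => exact fun _ _ _ => rfl
  | succ k ih =>
    intro t t' htt
    have h1 : chain D c g t k = chain D c g t' k :=
      ih t t' fun e he => htt e (Set.biUnion_subset_biUnion_left (fun l hl => Nat.lt_succ_of_lt hl) he)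
    simp only [chain, h1]
    exact h.dep k _ t t' fun e he => htt e (Set.mem_biUnion (Nat.lt_succ_self k) he)
theorem ChainData.abs_le (h : ChainData D U B) (c g : ℤ) (k : ℕ) (t : Env) :
    |((chain D c g t k - g : ℤ) : ℝ)| ≤ k * (B + |c|) := by
  induction k with
  | zero => simp [chain]
  | succ k ih =>
    have h1 := _root_.abs_le.1 (h.bdd k (chain D c g t k + c) t)
    have h2 := _root_.abs_le.1 ih
    have h3 := le_abs_self (c : ℝ)
    have h4 := neg_abs_le (c : ℝ)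
    simp only [chain]
    push_cast at *
    rw [_root_.abs_le]
    constructor <;> linarith [h1.1, h1.2, h2.1, h2.2]

theorem d1chain_disj (h : ChainData D U B) (k : ℕ) : Disjoint (⋃ l ∈ {l | l < k}, U l) (U k) :=
  Set.disjoint_iUnion₂_left.2 fun _ hl => h.disj (ne_of_lt hl)

theorem d1chain_bdd {Γ : Env → ℤ} (hΓ : Measurable Γ) {X : ℤ → Env → ℝ} (hX : ∀ γ, Measurable (X γ))
    {C : ℝ} (hC : ∀ γ t, |X γ t| ≤ C) : Bdd fun t => X (Γ t) t :=
  ⟨bmeas_cc hΓ hX, C, fun t => hC _ t⟩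

/-- freezing of the past -/
theorem d1chain_freeze {W W' : Set (Sym2 V)} (hd : Disjoint W W') {Γ : Env → ℤ} (hΓ : Measurable Γ)
    (hΓd : DependsOnly Γ W) {S : Env → ℝ} (hS : Bdd S) (hSd : DependsOnly S W) {X : ℤ → Env → ℝ}
    (hX : ∀ γ, Measurable (X γ)) (hXd : ∀ γ, DependsOnly (X γ) W') {C : ℝ} (hC : ∀ γ t, |X γ t| ≤ C)
    (p : ℕ) : ∫ t, (S t + X (Γ t) t) ^ p ∂iidLaw G =
      ∫ s, ∫ t, (S s + X (Γ s) t) ^ p ∂iidLaw G ∂iidLaw G := by
  have hb := d1chain_pow (hS.add (d1chain_bdd hΓ hX hC)) p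
  have hp := measurePreserving_piecewise G W
  have h2 := hp.integrable_comp_of_integrable (hb.integrable (G := G))
  conv_lhs => rw [← hp.map_eq, integral_map hp.measurable.aemeasurable hb.1.aestronglyMeasurable]
  refine (integral_prod_symm _ h2).trans ?_
  simp only [Function.comp_apply, bmeas_left hΓd, bmeas_left hSd, bmeas_right (hXd _) hd]

theorem d1chain_mom {X : Env → ℝ} (hX : Bdd X) (h0 : ∫ t, X t ∂iidLaw G = 0) {σ : ℝ}
    (h4 : n4 G X ≤ σ) (a : ℝ) : ∫ t, (a + X t) ^ 2 ∂iidLaw G ≤ a ^ 2 + σ ^ 2 ∧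
      ∫ t, (a + X t) ^ 4 ∂iidLaw G ≤ a ^ 4 + 8 * σ ^ 2 * a ^ 2 + 3 * σ ^ 4 := by
  have h2 := (d1chain_two hX).trans (pow_le_pow_left₀ (n4_nonneg X) h4 2)
  have h4' := d1chain_ge h4
  have i1 := hX.integrable (G := G)
  have i2 := (d1chain_pow hX 2).integrable (G := G)
  have i4 := (d1chain_pow hX 4).integrable (G := G)
  have e : ∀ α β γ δ : ℝ, Integrable (fun t => α + β * X t + γ * X t ^ 2 + δ * X t ^ 4) (iidLaw G) ∧
      ∫ t, (α + β * X t + γ * X t ^ 2 + δ * X t ^ 4) ∂iidLaw G =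
        α + γ * ∫ t, X t ^ 2 ∂iidLaw G + δ * ∫ t, X t ^ 4 ∂iidLaw G := fun α β γ δ => by
    have j1 : Integrable (fun t => α + β * X t) (iidLaw G) := (integrable_const α).add (i1.const_mul β)
    have j2 : Integrable (fun t => α + β * X t + γ * X t ^ 2) (iidLaw G) := j1.add (i2.const_mul γ)
    refine ⟨j2.add (i4.const_mul δ), ?_⟩
    rw [integral_add j2 (i4.const_mul δ), integral_add j1 (i2.const_mul γ),
      integral_add (integrable_const α) (i1.const_mul β), integral_const_mul, integral_const_mul,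
      integral_const_mul, h0, integral_const, probReal_univ, one_smul, mul_zero, add_zero]
  constructor
  · obtain ⟨j, hj⟩ := e (a ^ 2) (2 * a) 1 0
    refine (integral_mono_of_nonneg (ae_of_all _ fun t => by positivity) j
      (ae_of_all _ fun t => le_of_eq (by ring))).trans ?_
    linarith
  · obtain ⟨j, hj⟩ := e (a ^ 4) (4 * a ^ 3) (8 * a ^ 2) 3
    refine (integral_mono_of_nonneg (ae_of_all _ fun t => by positivity) j
      (ae_of_all _ fun t => ?_)).trans ?_
    · nlinarith [sq_nonneg (a * X t - X t ^ 2)]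
    · nlinarith [mul_le_mul_of_nonneg_left h2 (sq_nonneg a)]

/-- Let `m k g = ∫ (D k g - g) ≤ m0`, `X_k = D k γ - γ - m k γ` at `γ = G_k + c`, `S_k = Σ_{l<k} X_l`, so
`G_k - g - k (c + m0) ≤ S_k`.  `n4 (D k γ - γ - m k γ) ≤ 2 z0 =: σ`.  Freeze the pair `(G_k, S_k)` (or the vector of the `G_l`, `l ≤ k`,
finitely many values; `integral_freeze`): `E S_{k+1}² ≤ E S_k² + σ²`,
`E S_{k+1}⁴ ≤ E S_k⁴ + 6 σ² E S_k² + 4 σ³ E|S_k| + σ⁴`, so `E S_k⁴ ≤ 11 k² σ⁴`. -/
theorem ChainData.n4_pos (h : ChainData D U B) (c g : ℤ) {m0 ζ0 z0 : ℝ}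
    (hm : ∀ k γ, ∫ t, ((D k γ t - γ : ℤ) : ℝ) ∂iidLaw G ≤ m0)
    (hz : ∀ k γ, n4 G (fun t => ((D k γ t - γ : ℤ) : ℝ) - ζ0) ≤ z0) (k : ℕ) :
    n4 G (fun t => max (((chain D c g t k - g : ℤ) : ℝ) - k * (c + m0)) 0) ≤ 4 * √k * z0 := by
  have hz0 : 0 ≤ z0 := (n4_nonneg _).trans (hz 0 0)
  have hb : ∀ k γ, Bdd fun t => ((D k γ t - γ : ℤ) : ℝ) := fun k γ =>
    ⟨(measurable_of_countable (Int.cast : ℤ → ℝ)).comp ((h.meas k γ).sub_const γ), B, h.bdd k γ⟩
  obtain ⟨m, hmd⟩ : ∃ m : ℕ → ℤ → ℝ, m = fun k γ => ∫ t, ((D k γ t - γ : ℤ) : ℝ) ∂iidLaw G :=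
    ⟨_, rfl⟩
  have hmB : ∀ k γ, |m k γ| ≤ B := fun k γ => by
    simpa [hmd] using norm_integral_le_of_norm_le_const (μ := iidLaw G) (C := B)
      (f := fun t => ((D k γ t - γ : ℤ) : ℝ)) (ae_of_all _ (h.bdd k γ))
  obtain ⟨X, hXd⟩ : ∃ X : ℕ → ℤ → Env → ℝ,
    X = fun k γ t => ((D k γ t - γ : ℤ) : ℝ) + -m k γ := ⟨_, rfl⟩
  have hXb : ∀ k γ, Bdd (X k γ) := fun k γ => hXd ▸ (hb k γ).add (Bdd.const _)
  have hXC : ∀ k γ t, |X k γ t| ≤ B + B := fun k γ t => by
    rw [hXd]
    exact (abs_add_le _ _).trans (add_le_add (h.bdd k γ t) ((abs_neg _).le.trans (hmB k γ)))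
  have hXU : ∀ k γ, DependsOnly (X k γ) (U k) := fun k γ t t' htt => by
    simp only [hXd, h.dep k γ t t' htt]
  have hX0 : ∀ k γ, ∫ t, X k γ t ∂iidLaw G = 0 := fun k γ => by
    simp only [hXd]
    rw [integral_add (hb k γ).integrable (integrable_const _), integral_const, probReal_univ,
      one_smul, hmd, add_neg_cancel]
  have hX4 : ∀ k γ, n4 G (X k γ) ≤ 2 * z0 := fun k γ => by
    have h1 : Bdd fun t => ((D k γ t - γ : ℤ) : ℝ) - ζ0 := by
      simpa only [sub_eq_add_neg] using (hb k γ).add (Bdd.const (-ζ0))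
    have h2 := n4_add_le (G := G) h1 (Bdd.const (ζ0 - m k γ))
    have h3 : |ζ0 - m k γ| ≤ z0 := by
      refine le_trans ?_ ((abs_integral_le_integral_abs.trans (integral_abs_le_n4 h1)).trans (hz k γ))
      rw [integral_sub (hb k γ).integrable (integrable_const _), integral_const, probReal_univ,
        one_smul, abs_sub_comm, hmd]
    have e : X k γ = fun t => ((D k γ t - γ : ℤ) : ℝ) - ζ0 + (ζ0 - m k γ) := by
      funext t
      simp only [hXd]
      ring
    rw [n4_const] at h2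
    rw [e]
    linarith [hz k γ]
  have key : ∀ k : ℕ, ∃ S : Env → ℝ, Bdd S ∧ DependsOnly S (⋃ l ∈ {l | l < k}, U l) ∧
      (∀ t, ((chain D c g t k - g : ℤ) : ℝ) - k * (c + m0) ≤ S t) ∧
      ∫ t, S t ^ 2 ∂iidLaw G ≤ k * (2 * z0) ^ 2 ∧
      ∫ t, S t ^ 4 ∂iidLaw G ≤ 4 * k ^ 2 * (2 * z0) ^ 4 := fun k => by
    induction k with
    | zero => exact ⟨fun _ => 0, Bdd.const 0, fun _ _ _ => rfl, fun t => by simp [chain], by simp, by simp⟩
    | succ k ih =>
      obtain ⟨S, hS, hSd, hle, h2, h4⟩ := ih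
      have hΓ := (h.measurable c g k).add_const c
      have hΓd : DependsOnly (fun t => chain D c g t k + c) (⋃ l ∈ {l | l < k}, U l) :=
        fun t t' htt => congrArg (· + c) (h.dependsOnly c g k t t' htt)
      have hf := d1chain_freeze (G := G) (d1chain_disj h k) hΓ hΓd hS hSd (fun γ => (hXb k γ).1)
        (hXU k) (hXC k)
      have i2 := (d1chain_pow hS 2).integrable (G := G)
      have i4 := (d1chain_pow hS 4).integrable (G := G)
      refine ⟨fun t => S t + X k (chain D c g t k + c) t,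
        hS.add (d1chain_bdd hΓ (fun γ => (hXb k γ).1) (hXC k)), fun t t' htt => ?_, fun t => ?_,
        ?_, ?_⟩
      · have h5 : ∀ e ∈ ⋃ l ∈ {l | l < k}, U l, t e = t' e := fun e he =>
          htt e (Set.biUnion_subset_biUnion_left (fun l hl => Nat.lt_succ_of_lt hl) he)
        have h6 := hΓd t t' h5
        simp only at h6 ⊢
        rw [hSd t t' h5, h6, hXU k _ t t' fun e he => htt e (Set.mem_biUnion (Nat.lt_succ_self k) he)]
      · have h5 := hle t
        have h6 : m k (chain D c g t k + c) ≤ m0 := hmd ▸ hm k _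
        simp only [hXd, chain]
        push_cast at *
        linarith
      · rw [hf]
        refine (integral_mono_of_nonneg (ae_of_all _ fun s => integral_nonneg fun t => by positivity)
          (i2.add (integrable_const ((2 * z0) ^ 2))) (ae_of_all _ fun s =>
            (d1chain_mom (hXb k _) (hX0 k _) (hX4 k _) (S s)).1)).trans ?_
        simp only [Pi.add_apply]
        rw [integral_add i2 (integrable_const _), integral_const, probReal_univ, one_smul]
        push_cast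
        linarith
      · rw [hf]
        have j : Integrable (fun s => S s ^ 4 + 8 * (2 * z0) ^ 2 * S s ^ 2) (iidLaw G) :=
          i4.add (i2.const_mul _)
        refine (integral_mono_of_nonneg (ae_of_all _ fun s => integral_nonneg fun t => by positivity)
          (j.add (integrable_const (3 * (2 * z0) ^ 4))) (ae_of_all _ fun s =>
            (d1chain_mom (hXb k _) (hX0 k _) (hX4 k _) (S s)).2)).trans ?_
        simp only [Pi.add_apply]
        rw [integral_add j (integrable_const _), integral_add i4 (i2.const_mul _), integral_const,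
          probReal_univ, one_smul, integral_const_mul]
        push_cast
        nlinarith [mul_le_mul_of_nonneg_left h2 (sq_nonneg (2 * z0)), pow_nonneg hz0 4]
  obtain ⟨S, hS, -, hle, -, h4⟩ := key k
  refine d1chain_le (by positivity) (le_trans (integral_mono_of_nonneg
    (ae_of_all _ fun t => by positivity) (d1chain_pow hS 4).integrable (ae_of_all _ fun t => ?_))
    (h4.trans ?_))
  · exact (pow_le_pow_left₀ (le_max_right _ _)
      (max_le ((hle t).trans (le_abs_self _)) (abs_nonneg _)) 4).trans (d1chain_abs4 _).le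
  · have : √(k : ℝ) ^ 4 = k ^ 2 := by
      rw [show 4 = 2 * 2 from rfl, pow_mul, Real.sq_sqrt (Nat.cast_nonneg k)]
    rw [mul_pow, mul_pow, mul_pow, this]
    nlinarith [mul_nonneg (sq_nonneg (k : ℝ)) (pow_nonneg hz0 4)]

/-- a field evaluated at the chain -/
theorem ChainData.n4_field (h : ChainData D U B) (c g : ℤ) (k : ℕ) {M : ℤ → Env → ℝ}
    (hM : ∀ γ, Measurable (M γ)) (hd : ∀ γ, DependsOnly (M γ) (U k)) {B' m1 : ℝ}
    (hb : ∀ γ t, |M γ t| ≤ B') (h4 : ∀ γ, n4 G (M γ) ≤ m1) :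
    Bdd (fun t => M (chain D c g t k + c) t) ∧ n4 G (fun t => M (chain D c g t k + c) t) ≤ m1 := by
  have hΓ := (h.measurable c g k).add_const c
  have hΓd : DependsOnly (fun t => chain D c g t k + c) (⋃ l ∈ {l | l < k}, U l) :=
    fun t t' htt => congrArg (· + c) (h.dependsOnly c g k t t' htt)
  refine ⟨d1chain_bdd hΓ hM hb, d1chain_le ((n4_nonneg _).trans (h4 0)) ?_⟩
  have hf := d1chain_freeze (G := G) (d1chain_disj h k) hΓ hΓd (Bdd.const 0) (fun _ _ _ => rfl)
    hM hd hb 4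
  simp only [zero_add] at hf
  rw [hf]
  refine (integral_mono_of_nonneg (ae_of_all _ fun s => d1chain_nonneg _)
    (integrable_const (m1 ^ 4)) (ae_of_all _ fun s => d1chain_ge (h4 _))).trans ?_
  rw [integral_const, probReal_univ, one_smul]

end Crest.Agent.R151
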