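import Crest.Agent.R151.D1Mean

/-! R151 part D1: recursion for the upper envelopes.

Notation: `h' = h/K`, `u' = K² u`, `c = ⌈C0 u'⌉`, `D k γ = Rt (k h') h' u' γ` (a `ChainData` with `U k = slabEdges (k h') h'`),
`G_k = chain D c 0 t k`, `m0 = h'(ξp + th(C3 u'/h'))` (`MeanOk`, `integral_Rt`; note `u'/h' = K³ u/h`), `z0 = zed h' u' · h'` (`n4_Rt`),
`Δ = th(C3 K³ u/h) - th(C3 u/h) ≥ 0`.  For a good crossing of `[0,h)` starting at a column `≤ 0` (`goodP_succ`), by induction on `k`: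
`(p (a k)).1 ≤ G_k + c` and `(p (b k)).1 ≤ G_{k+1}` (`GoodP.le_Rt`).  `K m0 - ζ = h (Δ + del)`, `K c ≤ 2 C0 K³ u`. -/

set_option autoImplicit false
open MeasureTheory ProbabilityTheory Crest.ProbabilityR.FirstPassage Filter Topology
open scoped ENNReal

namespace Crest.Agent.R151

theorem D1Env_bdd_max {X Y : Env → ℝ} (hX : Bdd X) (hY : Bdd Y) : Bdd fun t => max (X t) (Y t) := by
  obtain ⟨m1, B1, b1⟩ := hX
  obtain ⟨m2, B2, b2⟩ := hY
  refine ⟨m1.max m2, max B1 B2, fun t => ?_⟩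
  rcases le_total (X t) (Y t) with h | h
  · simp only [max_eq_right h]
    exact (b2 t).trans (le_max_right _ _)
  · simp only [max_eq_left h]
    exact (b1 t).trans (le_max_left _ _)

theorem D1Env_max {X : ℕ → Env → ℝ} (n : ℕ) (hX : ∀ k < n + 1, Bdd (X k)) :
    ∃ Y : Env → ℝ, Bdd Y ∧ (∀ k < n + 1, ∀ t, X k t ≤ Y t) ∧ ∀ t, ∃ k < n + 1, Y t = X k t := by
  induction n with
  | zero =>
    exact ⟨X 0, hX 0 (by omega), fun k hk t => by rw [show k = 0 by omega], fun t => ⟨0, by omega, rfl⟩⟩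
  | succ n ih =>
    obtain ⟨Y, h1, h2, h3⟩ := ih fun k hk => hX k (by omega)
    refine ⟨fun t => max (Y t) (X (n + 1) t), D1Env_bdd_max h1 (hX _ (by omega)), fun k hk t => ?_,
      fun t => ?_⟩
    · rcases Nat.lt_succ_iff_lt_or_eq.1 hk with h | h
      · exact (h2 k h t).trans (le_max_left _ _)
      · rw [h]
        exact le_max_right _ _
    · rcases le_total (Y t) (X (n + 1) t) with h | h
      · exact ⟨n + 1, by omega, max_eq_right h⟩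
      · obtain ⟨k, hk, e⟩ := h3 t
        exact ⟨k, by omega, (max_eq_left h).trans e⟩

/-- the maximum of `n` variables of norm `≤ M` -/
theorem D1Env_n4_max {G : Measure ℝ} [IsProbabilityMeasure G] {X : ℕ → Env → ℝ} {n : ℕ} (hn : 1 ≤ n)
    (hX : ∀ k < n, Bdd (X k)) {M : ℝ} (hM0 : 0 ≤ M) (hM : ∀ k < n, n4 G (X k) ≤ M) :
    ∃ Y : Env → ℝ, Bdd Y ∧ (∀ k < n, ∀ t, X k t ≤ Y t) ∧ n4 G Y ≤ (n : ℝ) ^ (1 / 4 : ℝ) * M := by
  obtain ⟨n, rfl⟩ : ∃ m, n = m + 1 := ⟨n - 1, by omega⟩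
  obtain ⟨Y, h1, h2, h3⟩ := D1Env_max n hX
  refine ⟨Y, h1, h2, n4_le_of_exists hX h1.1 (fun t => Or.inr ?_) hM0 hM⟩
  obtain ⟨k, hk, e⟩ := h3 t
  exact ⟨k, hk, by rw [e]⟩

theorem D1Env_bdd_pos {D : ℕ → ℤ → Env → ℤ} {U : ℕ → Set (Sym2 V)} {B : ℝ} (h : ChainData D U B)
    (c g : ℤ) (k : ℕ) (r : ℝ) : Bdd fun t => max (((chain D c g t k - g : ℤ) : ℝ) - r) 0 := by
  refine D1Env_bdd_max ⟨?_, k * (B + |c|) + |r|, fun t => ?_⟩ (Bdd.const 0)
  · exact ((measurable_of_countable fun z : ℤ => ((z - g : ℤ) : ℝ) - r).comp (h.measurable c g k))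
  · exact (abs_sub _ _).trans (add_le_add (h.abs_le c g k t) le_rfl)

theorem D1Env_nrm {x y : V} {r : ℝ} (h : (nrm (x - y) : ℝ) ≤ r) :
    |(x.1 : ℝ) - y.1| ≤ r ∧ |(x.2 : ℝ) - y.2| ≤ r := by
  have h1 : |x.1 - y.1| ≤ nrm (x - y) := le_max_left _ _
  have h2 : |x.2 - y.2| ≤ nrm (x - y) := le_max_right _ _
  constructor <;> refine le_trans ?_ h
  · exact_mod_cast h1
  · exact_mod_cast h2

theorem D1Env_rows {p : ℤ → V} {y i j m : ℤ} {h : ℕ} (hc : Cross y h p i j) (h1 : i ≤ m) (h2 : m ≤ j) :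
    y ≤ (p m).2 ∧ (p m).2 ≤ y + h := by
  rcases hc.1.2.1 m h1 h2 with e | e
  · exact ⟨e.1, by linarith [e.2]⟩
  · rw [Set.mem_singleton_iff.1 e]
    exact ⟨by simp, le_rfl⟩

theorem D1Env_rpow {K : ℝ} (hK : 0 < K) : √K / K = K ^ (-(1 / 2 : ℝ)) ∧
    K ^ (1 / 4 : ℝ) * √K / K = K ^ (-(1 / 4 : ℝ)) ∧ K ^ (1 / 4 : ℝ) / K = K ^ (-(3 / 4 : ℝ)) := by
  rw [Real.sqrt_eq_rpow, ← Real.rpow_add hK]
  refine ⟨?_, ?_, ?_⟩ <;> rw [← Real.rpow_sub_one hK.ne'] <;> norm_num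

namespace Par

theorem D1Env_data {μ : ℝ × ℝ → ℝ} (P : Par) (F : Face μ) (G : Measure ℝ) (hK : 1 ≤ P.K) (h : ℕ) (u : ℝ) :
    ChainData (fun k γ t => P.Rt F G t (0 + k * h) h u γ) (fun k => slabEdges (0 + k * h) h)
      (|(P.zeta F G h u : ℝ)| + |P.C0 * (h + u)|) := by
  have key : ∀ k l : ℕ, k < l → Disjoint (slabEdges (0 + k * h) h) (slabEdges (0 + l * h) h) :=
    fun k l hkl => disjoint_slabEdges (by
      have h1 : (k : ℤ) + 1 ≤ l := by exact_mod_cast hkl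
      nlinarith [Int.natCast_nonneg h])
  refine ⟨fun k g => measurable_Rt G hK _ _ _ _, fun k g => dependsOnly_Rt G _ _ _ _, fun k l hkl => ?_,
    fun k g t => ?_⟩
  · rcases lt_or_gt_of_ne hkl with e | e
    exacts [key k l e, (key l k e).symm]
  · have h1 : (g : ℝ) + P.zeta F G h u ≤ P.Rt F G t (0 + k * h) h u g := by
      exact_mod_cast add_zeta_le_Rt G
    have h2 := Rt_le (P := P) (F := F) G (t := t) (y := 0 + k * h) (h := h) (u := u) (g := g)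
    have h3 : max (P.zeta F G h u : ℝ) (P.C0 * (h + u)) ≤ |(P.zeta F G h u : ℝ)| + |P.C0 * (h + u)| :=
      max_le (by linarith [le_abs_self (P.zeta F G h u : ℝ), abs_nonneg (P.C0 * (h + u))])
        (by linarith [le_abs_self (P.C0 * (h + u)), abs_nonneg (P.zeta F G h u : ℝ)])
    push_cast
    rw [abs_le]
    constructor <;> linarith [neg_abs_le (P.zeta F G h u : ℝ), abs_nonneg (P.C0 * (h + u))]

theorem D1Env_chain {μ : ℝ × ℝ → ℝ} {P : Par} {F : Face μ} (G : Measure ℝ) {t : Env} {p : ℤ → V} {h : ℕ}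
    {u : ℝ} {c : ℤ} (hc0 : 0 ≤ c) (hc : P.C0 * u ≤ c) {a b : ℕ → ℤ} (h0 : (p (a 0)).1 ≤ 0)
    (h1 : ∀ k < P.K, P.GoodP F t p (0 + k * h) h u (a k) (b k))
    (h2 : ∀ k, k + 1 < P.K → b k ≤ a (k + 1) ∧
      ∀ m, b k ≤ m → m ≤ a (k + 1) → (nrm (p m - p (b k)) : ℝ) ≤ P.C0 * u) (k : ℕ) (hk : k < P.K) :
    (p (a k)).1 ≤ chain (fun k γ t => P.Rt F G t (0 + k * h) h u γ) c 0 t k + c ∧
    (p (b k)).1 ≤ chain (fun k γ t => P.Rt F G t (0 + k * h) h u γ) c 0 t (k + 1) := by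
  induction k with
  | zero =>
    have e : (p (a 0)).1 ≤ chain (fun k γ t => P.Rt F G t (0 + k * h) h u γ) c 0 t 0 + c := by
      simp only [chain]
      linarith
    exact ⟨e, (h1 0 hk).le_Rt G e⟩
  | succ k ih =>
    have a1 := (ih (by omega)).2
    have a2 := (abs_le.1 (D1Env_nrm ((h2 k hk).2 _ (h2 k hk).1 le_rfl)).1).2
    have a3 : (p (a (k + 1))).1 ≤ (p (b k)).1 + c := by
      have : ((p (a (k + 1))).1 : ℝ) ≤ (p (b k)).1 + c := by linarith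
      exact_mod_cast this
    have e := a3.trans (add_le_add a1 le_rfl)
    exact ⟨e, (h1 (k + 1) hk).le_Rt G e⟩

/-- the deterministic part of `mup_rec` -/
theorem D1Env_det {μ : ℝ × ℝ → ℝ} {P : Par} {F : Face μ} (G : Measure ℝ) (hK : 2 ≤ P.K) {h h' : ℕ}
    {u u' : ℝ} (hu : 0 < u) (hlt : u < h) (hd : P.K ∣ h) (eh : h' = h / P.K) (eu : u' = (P.K : ℝ) ^ 2 * u)
    {c : ℤ} (c0 : 0 ≤ c) (hc : P.C0 * u' ≤ c) (C0 : 0 ≤ P.C0 * u') {E Y1 Y2 : ℝ} (E0 : 0 ≤ E)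
    (hσ : |P.slope F G h u| ≤ P.Kr) (hσ' : P.slope F G h' u' ≤ P.slope F G h u + E) {t : Env}
    (Y10 : 0 ≤ Y1) (Y20 : 0 ≤ Y2)
    (hY1 : ∀ k < P.K, P.Mup F G t (0 + k * h') h' u'
      (chain (fun k γ t => P.Rt F G t (0 + k * h') h' u' γ) c 0 t k + c) ≤ Y1)
    (hY2 : ∀ k < P.K, (chain (fun k γ t => P.Rt F G t (0 + k * h') h' u' γ) c 0 t k : ℝ) -
      k * (c + h' * (P.slope F G h u + E)) ≤ Y2) :
    P.Mup F G t 0 h u 0 ≤ Y1 + Y2 + (P.K * c + P.Kr * (P.C0 * u') + h * E) := by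
  have c1 : (0 : ℝ) ≤ c := by exact_mod_cast c0
  have e1 : h = P.K * h' := by rw [eh, Nat.mul_div_cancel' hd]
  have e2 : (h : ℝ) = P.K * h' := by exact_mod_cast e1
  have h'0 : (0 : ℝ) ≤ h' := Nat.cast_nonneg _
  refine Mup_le_of G (by positivity) fun p i j m hp hi m1 m2 => ?_
  obtain ⟨-, a, b, rfl, rfl, hg, hr⟩ := (goodP_succ hK hu hlt hd).1 hp
  rw [← eh, ← eu] at hg
  rw [← eu] at hr
  have ind := D1Env_chain G c0 hc hi hg hr
  rcases cover_indices (a := a) (b := b) (m := m) (by omega : 1 ≤ P.K) m1 m2 with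
    ⟨k, k1, k2, k3⟩ | ⟨k, k1, k2, k3⟩
  · have a1 := ((hg k k1).le_Mup G (ind k k1).1 k2 k3).trans (hY1 k k1)
    obtain ⟨a2, a3⟩ := D1Env_rows (hg k k1).base.1 k2 k3
    have a4 : (k : ℝ) * h' ≤ (p m).2 := by rw [zero_add] at a2; exact_mod_cast a2
    have a5 : ((p m).2 : ℝ) ≤ k * h' + h' := by rw [zero_add] at a3; exact_mod_cast a3
    have a6 := hY2 k k1
    have a7 : (k : ℝ) + 1 ≤ P.K := by exact_mod_cast k1
    have a8 := mul_le_mul_of_nonneg_left hσ' (sub_nonneg.2 a4)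
    have a9 := mul_le_mul_of_nonneg_right (show ((p m).2 : ℝ) - k * h' ≤ h' by linarith) E0
    have a10 := mul_le_mul_of_nonneg_right a7 (mul_nonneg h'0 E0)
    have a11 := mul_le_mul_of_nonneg_right a7 c1
    have a12 : 0 ≤ P.Kr * (P.C0 * u') := by positivity
    push_cast at a1 ⊢
    rw [e2]
    linarith
  · obtain ⟨a2, a3⟩ := D1Env_nrm ((hr k k1).2 m k2 k3)
    rw [(hg k (by omega)).base.1.2.2] at a3
    have a4 : ((p (b k)).1 : ℝ) ≤ chain (fun k γ t => P.Rt F G t (0 + k * h') h' u' γ) c 0 t (k + 1) := by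
      exact_mod_cast (ind k (by omega)).2
    have a5 := (neg_le_abs _).trans ((abs_mul _ _).trans_le (mul_le_mul a3 hσ (abs_nonneg _) C0))
    have a6 := hY2 (k + 1) k1
    have a7 : (k : ℝ) + 1 + 1 ≤ P.K := by exact_mod_cast k1
    have a10 := mul_le_mul_of_nonneg_right a7 (mul_nonneg h'0 E0)
    have a11 := mul_le_mul_of_nonneg_right a7 c1
    push_cast at a5 a6 ⊢
    rw [e2]
    linarith [(abs_le.1 a2).2, mul_nonneg h'0 E0]

variable {G : Measure ℝ} [IsProbabilityMeasure G] [NullSingletonClass G] (hG : Nice G) {F : Face (mu G)}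
  {P : Par} (hP : P.Ok F) (hM : P.MeanOk F G) {hmax h : ℕ} {W u : ℝ} (hS : F.Scale G hmax W)
  (ha : P.Adm h u) (h2 : h ≤ hmax) (hu : W ≤ u) (huh : (P.K : ℝ) ^ 3 * u ≤ h)
include hG hP hM hS ha h2 hu huh

/-- the numerical set-up -/
theorem D1Env_setup : ∃ (c : ℤ) (E : ℝ), 0 < u ∧ u < h ∧ P.K ∣ h ∧ 1 ≤ h / P.K ∧
    (h : ℝ) = P.K * (h / P.K : ℕ) ∧ 0 ≤ c ∧ P.C0 * ((P.K : ℝ) ^ 2 * u) ≤ c ∧
    (P.K : ℝ) * c ≤ 2 * P.C0 * P.K ^ 3 * u ∧ 0 ≤ E ∧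
    E = P.del F G h u + (F.th (P.C3 * P.K ^ 3 * u / h) - F.th (P.C3 * u / h)) ∧
    P.slope F G (h / P.K) ((P.K : ℝ) ^ 2 * u) ≤ P.slope F G h u + E ∧
    ∫ t, (P.Rt F G t 0 (h / P.K) ((P.K : ℝ) ^ 2 * u) 0 : ℝ) ∂iidLaw G ≤
      (h / P.K : ℕ) * (P.slope F G h u + E) := by
  have hK2 := hP.two_le
  have hK : (2 : ℝ) ≤ P.K := by exact_mod_cast hK2
  have hu1 : 1 ≤ u := hS.one_le.trans hu
  have hu0 : 0 < u := by linarith
  have hC0 := hP.one_le_C0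
  have hC3 : 1 ≤ P.C3 := hP.one_le_C2.trans hP.C2_le
  have k2 : (1 : ℝ) ≤ (P.K : ℝ) ^ 2 := one_le_pow₀ (by linarith)
  have k3 : (2 : ℝ) ≤ (P.K : ℝ) ^ 3 := by rw [pow_succ']; nlinarith
  have hlt : u < h := by nlinarith
  have hd := ha.dvd hK2 hu0 hlt
  have hch := ha.child hK2 hu0 hlt
  have e : (h : ℝ) = P.K * (h / P.K : ℕ) := by exact_mod_cast (Nat.mul_div_cancel' hd).symm
  have h0 : (0 : ℝ) < (h / P.K : ℕ) := by exact_mod_cast hch.1
  have hh0 : (0 : ℝ) < h := by linarith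
  have hle : h / P.K ≤ hmax := (Nat.div_le_self _ _).trans h2
  have hW : W ≤ (P.K : ℝ) ^ 2 * u := hu.trans (le_mul_of_one_le_left hu0.le k2)
  have huh' : (P.K : ℝ) ^ 2 * u ≤ (h / P.K : ℕ) := by
    refine le_of_mul_le_mul_left ?_ (show (0 : ℝ) < P.K by linarith)
    rw [← e]
    linarith [show (P.K : ℝ) * (P.K ^ 2 * u) = P.K ^ 3 * u by ring]
  have e2 : P.C3 * ((P.K : ℝ) ^ 2 * u) / (h / P.K : ℕ) = P.C3 * P.K ^ 3 * u / h := by
    rw [div_eq_div_iff h0.ne' hh0.ne']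
    nth_rw 1 [e]
    ring
  have d1 := del_nonneg hG hP hS ha.1 h2 hu hlt.le hM
  have d2 := del_nonneg hG hP hS hch.1 hle hW huh' hM
  have d3 : F.th (P.C3 * u / h) ≤ F.th (P.C3 * P.K ^ 3 * u / h) :=
    F.th_mono (symNorm_mu G hG.hyp) (by positivity) (by
      refine div_le_div_of_nonneg_right ?_ hh0.le
      rw [mul_assoc]
      exact mul_le_mul_of_nonneg_left (le_mul_of_one_le_left hu0.le (by linarith)) (by linarith))
  have d4 := hM hmax W hS _ _ hch.1 hle hW huh'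
  rw [e2] at d4
  rw [del, e2] at d2
  have x1 : 1 ≤ P.C0 * ((P.K : ℝ) ^ 2 * u) :=
    one_le_mul_of_one_le_of_one_le hC0 (one_le_mul_of_one_le_of_one_le k2 hu1)
  refine ⟨⌈P.C0 * ((P.K : ℝ) ^ 2 * u)⌉, _, hu0, hlt, hd, hch.1, e, Int.ceil_nonneg (by linarith),
    Int.le_ceil _, ?_, by linarith, rfl, ?_, d4.trans_eq ?_⟩
  · have := mul_le_mul_of_nonneg_left (Int.ceil_lt_add_one (P.C0 * ((P.K : ℝ) ^ 2 * u))).le
      (show (0 : ℝ) ≤ P.K by linarith)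
    nlinarith
  · rw [del]
    linarith
  · rw [del]
    ring

/-- `0 ≤ Rt - ζ ≤ (G_K - K(c+m0))⁺ + K c + (K m0 - ζ)`, `ChainData.n4_pos` -/
theorem zed_rec : P.zed F G h u ≤ P.del F G h u +
    (F.th (P.C3 * P.K ^ 3 * u / h) - F.th (P.C3 * u / h)) + 2 * P.C0 * P.K ^ 3 * u / h +
      4 * (P.K : ℝ) ^ (-(1 / 2 : ℝ)) * P.zed F G (h / P.K) ((P.K : ℝ) ^ 2 * u) := by
  obtain ⟨c, E, hu0, hlt, hd, h1, e, c0, c1, c2, E0, eE, -, hm⟩ := D1Env_setup hG hP hM hS ha h2 hu huh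
  have hK2 := hP.two_le
  have hK1 : 1 ≤ P.K := by omega
  have hK0 : (0 : ℝ) < P.K := by exact_mod_cast hK1
  have hh0 : (0 : ℝ) < h := hu0.trans hlt
  have hD := D1Env_data P F G hK1 (h / P.K) ((P.K : ℝ) ^ 2 * u)
  have hn := hD.n4_pos (G := G) c 0 (fun k γ => (integral_Rt hK1 _ _ _ _).trans_le hm)
    (fun k γ => (n4_Rt hK1 _ _ _ _ h1).le) P.K
  have hb := D1Env_bdd_pos hD c 0 P.K (P.K * (c + (h / P.K : ℕ) * (P.slope F G h u + E)))
  have hσ : P.slope F G h u * h = P.zeta F G h u := div_mul_cancel₀ _ hh0.ne'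
  have hR : 0 ≤ 2 * P.C0 * P.K ^ 3 * u + h * E := by
    have := hP.one_le_C0
    positivity
  have k1 := n4_mono (G := G) (X := fun t => ((P.Rt F G t 0 h u 0 - P.zeta F G h u : ℤ) : ℝ))
    ((measurable_of_countable fun z : ℤ => ((z - P.zeta F G h u : ℤ) : ℝ)).comp (measurable_Rt G hK1 0 h u 0))
    (hb.add (Bdd.const (2 * P.C0 * P.K ^ 3 * u + h * E))) fun t => by
      have a1 : (0 : ℤ) ≤ P.Rt F G t 0 h u 0 - P.zeta F G h u := by
        linarith [add_zeta_le_Rt (P := P) (F := F) G (t := t) (y := 0) (h := h) (u := u) (g := 0)]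
      rw [abs_of_nonneg (by exact_mod_cast a1)]
      rcases Rt_spec (P := P) (F := F) G (t := t) (y := 0) (h := h) (u := u) (g := 0) with
        a2 | ⟨p, i, j, a2, a3, a4⟩
      · rw [a2, zero_add, sub_self, Int.cast_zero]
        exact add_nonneg (le_max_right _ _) hR
      · obtain ⟨-, a, b, rfl, rfl, a5, a6⟩ := (goodP_succ hK2 hu0 hlt hd).1 a2
        have a7 := (D1Env_chain G c0 c1 a3 a5 a6 (P.K - 1) (by omega)).2
        rw [Nat.sub_add_cancel hK1, a4, ← Int.cast_le (R := ℝ)] at a7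
        refine le_trans ?_ (add_le_add (le_max_left _ _) le_rfl)
        have a8 : (P.K : ℝ) * ((h / P.K : ℕ) * (P.slope F G h u + E)) = P.zeta F G h u + h * E := by
          rw [← mul_assoc, ← e, ← hσ]
          ring
        rw [Int.cast_sub, sub_zero, mul_add, a8]
        linarith
  have k2 := (k1.trans (n4_add_le hb (Bdd.const _))).trans (add_le_add hn le_rfl)
  rw [n4_const, abs_of_nonneg hR] at k2
  rw [← eE, ← (D1Env_rpow hK0).1, zed, div_le_iff₀ hh0]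
  refine k2.trans_eq ?_
  generalize P.zed F G (h / P.K) ((P.K : ℝ) ^ 2 * u) = z
  have e3 : ((h / P.K : ℕ) : ℝ) = h / P.K := by rw [eq_div_iff hK0.ne', mul_comm, ← e]
  rw [e3]
  field_simp
  ring

/-- For a vertex `(x,y)` of the `k`-th sub-piece, with `σ = slope h u`, `σ' = slope h' u' ≤ σ + Δ + del` (`del_nonneg` of the child):
`x - yσ = [x - (G_k+c) - (y - kh')σ'] + (y - kh')(σ' - σ) + [G_k - k(c+m0)] + (k+1)c + k(m0 - σh')`.
For a vertex of the return after piece `k`: `x ≤ G_{k+1} + c`, `|y - (k+1)h'| ≤ C0 u'`, `|σ| ≤ Kr`.  So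
`Mup ≤ max_k Mup_sub(G_k+c) + max_{k ≤ K} (G_k - k(c+m0))⁺ + (K+1)c + Kr C0 u' + 2h(Δ + del)`; `n4_le_of_exists`, `n4_field`, `n4_pos`
(index the second maximum by `k+1`, `k < K`). -/
theorem mup_rec : P.mup F G h u ≤ 2 * (P.del F G h u +
    (F.th (P.C3 * P.K ^ 3 * u / h) - F.th (P.C3 * u / h))) + (4 + P.Kr) * P.C0 * P.K ^ 3 * u / h +
      4 * (P.K : ℝ) ^ (-(1 / 4 : ℝ)) * P.zed F G (h / P.K) ((P.K : ℝ) ^ 2 * u) +
      (P.K : ℝ) ^ (-(3 / 4 : ℝ)) * P.mup F G (h / P.K) ((P.K : ℝ) ^ 2 * u) := by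
  obtain ⟨c, E, hu0, hlt, hd, h1, e, c0, c1, c2, E0, eE, hs, hm⟩ := D1Env_setup hG hP hM hS ha h2 hu huh
  have hK2 := hP.two_le
  have hK1 : 1 ≤ P.K := by omega
  have hK1' : (1 : ℝ) ≤ P.K := by exact_mod_cast hK1
  have hK0 : (0 : ℝ) < P.K := by linarith
  have hh0 : (0 : ℝ) < h := hu0.trans hlt
  have hC0 := hP.one_le_C0
  have c0' : (0 : ℝ) ≤ c := by exact_mod_cast c0
  have hσ := abs_slope_le hG hP hS ha.1 h2 hu
  obtain ⟨h', eh⟩ : ∃ h', h' = h / P.K := ⟨_, rfl⟩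
  obtain ⟨u', eu⟩ : ∃ u', u' = (P.K : ℝ) ^ 2 * u := ⟨_, rfl⟩
  rw [← eE]
  rw [← eh] at h1 e
  simp only [← eh, ← eu] at c1 hs hm ⊢
  have hu' : 0 ≤ u' := by rw [eu]; positivity
  have hh' : (0 : ℝ) ≤ h' := Nat.cast_nonneg _
  have hD := D1Env_data P F G hK1 h' u'
  have z0 := mul_nonneg (zed_nonneg P F h' u') hh'
  have hf := fun k => hD.n4_field (G := G) c 0 k (M := fun γ t => P.Mup F G t (0 + k * h') h' u' γ)
    (fun γ => measurable_Mup G hK1 _ _ _ _) (fun γ => dependsOnly_Mup G _ _ _ _)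
    (B' := P.C0 * (h' + u') + |P.slope F G h' u'| * h')
    (fun γ t => by
      rw [abs_of_nonneg (Mup_nonneg G)]
      exact Mup_le G (by positivity))
    (fun γ => (n4_Mup hK1 _ _ _ _ h1).le)
  obtain ⟨Y1, b1, y1, n1⟩ := D1Env_n4_max (G := G) hK1 (fun k _ => (hf k).1)
    (mul_nonneg (mup_nonneg P F h' u') hh') fun k _ => (hf k).2
  obtain ⟨Y2, b2, y2, n2⟩ := D1Env_n4_max (G := G) hK1
    (fun k _ => D1Env_bdd_pos hD c 0 k (k * (c + h' * (P.slope F G h u + E))))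
    (M := 4 * √P.K * (P.zed F G h' u' * h')) (by positivity) fun k hk =>
      (hD.n4_pos (G := G) c 0 (fun k γ => (integral_Rt hK1 _ _ _ _).trans_le hm)
        (fun k γ => (n4_Rt hK1 _ _ _ _ h1).le) k).trans (by gcongr)
  have hR : 0 ≤ (4 + P.Kr) * P.C0 * P.K ^ 3 * u + 2 * h * E := by positivity
  have p1 : ∀ t, 0 ≤ Y1 t := fun t => (Mup_nonneg G).trans (y1 0 hK1 t)
  have p2 : ∀ t, 0 ≤ Y2 t := fun t => (le_max_right _ _).trans (y2 0 hK1 t)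
  have r1 : 0 ≤ P.C0 * P.K ^ 3 * u := by positivity
  have r2 : P.C0 * u' ≤ P.C0 * P.K ^ 3 * u := by
    rw [eu, mul_assoc]
    gcongr
    norm_num
  have r3 : 0 ≤ h * E := by positivity
  have r4 := mul_le_mul_of_nonneg_left r2 (Nat.cast_nonneg (α := ℝ) P.Kr)
  have k1 := n4_mono (G := G) (measurable_Mup (P := P) (F := F) G hK1 0 h u 0)
    ((b1.add b2).add (Bdd.const ((4 + P.Kr) * P.C0 * P.K ^ 3 * u + 2 * h * E))) fun t => by
      rw [abs_of_nonneg (Mup_nonneg G)]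
      refine (D1Env_det G hK2 hu0 hlt hd eh eu c0 c1 (by positivity) E0 hσ hs (p1 t) (p2 t)
        (fun k hk => y1 k hk t) fun k hk => ?_).trans (by linarith)
      have := (le_max_left _ _).trans (y2 k hk t)
      rwa [sub_zero] at this
  have k2 := (k1.trans (n4_add_le (b1.add b2) (Bdd.const _))).trans
    (add_le_add ((n4_add_le b1 b2).trans (add_le_add n1 n2)) le_rfl)
  rw [n4_const, abs_of_nonneg hR] at k2
  rw [← (D1Env_rpow hK0).2.1, ← (D1Env_rpow hK0).2.2, mup, div_le_iff₀ hh0]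
  refine k2.trans_eq ?_
  generalize P.zed F G h' u' = z
  generalize P.mup F G h' u' = w
  have e3 : (h' : ℝ) = h / P.K := by rw [eq_div_iff hK0.ne', mul_comm, ← e]
  rw [e3]
  field_simp
  ring

end Par

end Crest.Agent.R151
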