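import Crest.Agent.R151.D1Mean

/-! R151 part D1: recursion for the lower envelope.  Mirror image of `mup_rec` in `D1Env` (read its docstrings) with the
backward chain `D k γ = -Lt ((K-1-k) h') h' u' (-γ)` for `k < K` (for `k ≥ K` put `D k γ = γ + ζ'`, `U k = ∅`, or use the slabs below `0`),
`G_k = chain D c 0 t k`: for a good crossing of `[0,h)` ending at a column `≥ 0`, `(p (b (K-1-k))).1 ≥ -(G_k + c)` and
`(p (a (K-1-k))).1 ≥ -G_{k+1}` (`GoodP.Lt_le`).  Mean and `L⁴` norm of `D k γ - γ` from `integral_Lt`, `n4_Lt`. -/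

set_option autoImplicit false
open MeasureTheory ProbabilityTheory Crest.ProbabilityR.FirstPassage Filter Topology
open scoped ENNReal

namespace Crest.Agent.R151

theorem d1e2_max {n : ℕ} {X : ℕ → Env → ℝ} (hX : ∀ k < n, Bdd (X k)) :
    ∃ Y : Env → ℝ, Bdd Y ∧ (∀ t, 0 ≤ Y t) ∧ (∀ t, ∀ k < n, X k t ≤ Y t) ∧
      ∀ t, Y t = 0 ∨ ∃ k < n, |Y t| ≤ |X k t| := by
  induction n with
  | zero => exact ⟨fun _ => 0, Bdd.const 0, fun _ => le_rfl, fun _ _ hk => absurd hk (by omega),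
      fun _ => Or.inl rfl⟩
  | succ n ih =>
    obtain ⟨Y, ⟨y1, B, y2⟩, y3, y4, y5⟩ := ih fun k hk => hX k (by omega)
    obtain ⟨x1, B', x2⟩ := hX n (by omega)
    refine ⟨fun t => max (Y t) (X n t), ⟨y1.max x1, max B B', fun t =>
      abs_max_le_max_abs_abs.trans (max_le_max (y2 t) (x2 t))⟩, fun t => (y3 t).trans (le_max_left _ _),
      fun t k hk => ?_, fun t => ?_⟩
    · rcases eq_or_ne k n with rfl | hkn
      · exact le_max_right _ _
      · exact (y4 t k (by omega)).trans (le_max_left _ _)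
    · beta_reduce
      rcases le_total (Y t) (X n t) with h | h
      · exact Or.inr ⟨n, by omega, by rw [max_eq_right h]⟩
      · rw [max_eq_left h]
        exact (y5 t).imp id fun ⟨k, k1, k2⟩ => ⟨k, by omega, k2⟩

theorem d1e2_cross {y : ℤ} {h : ℕ} {p : ℤ → V} {i j m : ℤ} (hp : Cross y h p i j) (h1 : i ≤ m) (h2 : m ≤ j) :
    y ≤ (p m).2 ∧ (p m).2 ≤ y + h := by
  rcases hp.1.2.1 m h1 h2 with h3 | h3
  · exact ⟨h3.1, by linarith [h3.2]⟩
  · rw [Set.mem_singleton_iff.1 h3]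
    exact ⟨by simp, le_rfl⟩

namespace Par

/-- the backward chain -/
noncomputable def d1e2D (P : Par) {μ : ℝ × ℝ → ℝ} (F : Face μ) (G : Measure ℝ) (h' : ℕ) (u' : ℝ) (k : ℕ)
    (γ : ℤ) (t : Env) : ℤ := -P.Lt F G t (((P.K : ℤ) - 1 - k) * h') h' u' (-γ)

theorem d1e2_data (P : Par) {μ : ℝ × ℝ → ℝ} (F : Face μ) (G : Measure ℝ) (hK : 1 ≤ P.K) (h' : ℕ) (u' : ℝ) :
    ChainData (P.d1e2D F G h' u') (fun k => slabEdges (((P.K : ℤ) - 1 - k) * h') h')
      (|(P.zeta F G h' u' : ℝ)| + |P.C0 * (h' + u')|) := by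
  refine ⟨fun k g => (measurable_Lt G hK _ _ _ _).neg, fun k g t t' h => ?_, fun k l hkl => ?_,
    fun k g t => ?_⟩
  · exact congrArg Neg.neg (dependsOnly_Lt G _ _ _ _ t t' h)
  · have key : ∀ k l : ℕ, k < l → ((P.K : ℤ) - 1 - l) * h' + h' ≤ ((P.K : ℤ) - 1 - k) * h' := fun k l h => by
      have : (k : ℤ) + 1 ≤ l := by exact_mod_cast h
      nlinarith [Int.natCast_nonneg h']
    rcases lt_or_gt_of_ne hkl with h | h
    · exact (disjoint_slabEdges (key k l h)).symm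
    · exact disjoint_slabEdges (key l k h)
  · have a1 := le_Lt (P := P) (F := F) G (t := t) (y := ((P.K : ℤ) - 1 - k) * h') (h := h') (u := u') (g := -g)
    have a2 : (P.Lt F G t (((P.K : ℤ) - 1 - k) * h') h' u' (-g) : ℝ) ≤ -g - P.zeta F G h' u' := by
      exact_mod_cast Lt_le_sub_zeta (P := P) (F := F) G (t := t) (y := ((P.K : ℤ) - 1 - k) * h') (h := h')
        (u := u') (g := -g)
    have a3 : max (P.zeta F G h' u' : ℝ) (P.C0 * (h' + u')) ≤
        |(P.zeta F G h' u' : ℝ)| + |P.C0 * (h' + u')| :=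
      max_le (by linarith [le_abs_self (P.zeta F G h' u' : ℝ), abs_nonneg (P.C0 * (h' + u'))])
        (by linarith [le_abs_self (P.C0 * (h' + u')), abs_nonneg (P.zeta F G h' u' : ℝ)])
    simp only [d1e2D]
    push_cast at a1 ⊢
    exact abs_le.2 ⟨by linarith [neg_abs_le (P.zeta F G h' u' : ℝ), abs_nonneg (P.C0 * (h' + u'))],
      by linarith⟩

/-- the deterministic part -/
theorem d1e2_det {P : Par} {μ : ℝ × ℝ → ℝ} {F : Face μ} (G : Measure ℝ) (hK : 2 ≤ P.K) {h h' : ℕ} {u u' : ℝ}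
    (hu : 0 < u) (hlt : u < h) (hd : P.K ∣ h) (eh : h' = h / P.K) (eu : u' = (P.K : ℝ) ^ 2 * u)
    {c : ℤ} (c0 : 0 ≤ c) (hc : P.C0 * u' ≤ c) (C0 : 0 ≤ P.C0 * u') {E m0 Y1 Y2 : ℝ} (E0 : 0 ≤ E)
    (hσ : |P.slope F G h u| ≤ P.Kr) (hσ' : P.slope F G h' u' ≤ P.slope F G h u + E)
    (hm : m0 = h' * (P.slope F G h u + E)) {t : Env} (Y10 : 0 ≤ Y1) (Y20 : 0 ≤ Y2)
    (hY1 : ∀ k < P.K, P.Mdn F G t (((P.K : ℤ) - 1 - k) * h') h' u'
      (-(chain (P.d1e2D F G h' u') c 0 t k + c)) ≤ Y1)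
    (hY2 : ∀ k < P.K, (chain (P.d1e2D F G h' u') c 0 t k : ℝ) - k * (c + m0) ≤ Y2) :
    P.Mdn F G t 0 h u 0 ≤ Y1 + Y2 + ((P.K + 1) * c + P.Kr * (P.C0 * u') + h * E) := by
  have c1 : (0 : ℝ) ≤ c := by exact_mod_cast c0
  have e1 : h = P.K * h' := by rw [eh, Nat.mul_div_cancel' hd]
  have e2 : (h : ℝ) = P.K * h' := by exact_mod_cast e1
  have h'0 : (0 : ℝ) ≤ h' := Nat.cast_nonneg _
  refine Mdn_le_of G (by positivity) fun p i j m hp hj m1 m2 => ?_
  obtain ⟨-, a, b, a0, b0, hg, hr⟩ := (goodP_succ hK hu hlt hd).1 hp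
  rw [← eh, ← eu] at hg
  rw [← eu] at hr
  have hg' : ∀ k < P.K, P.GoodP F t p (((P.K : ℤ) - 1 - k) * h') h' u' (a (P.K - 1 - k)) (b (P.K - 1 - k)) :=
    fun k hk => by
      have := hg (P.K - 1 - k) (by omega)
      rwa [zero_add, show ((P.K - 1 - k : ℕ) : ℤ) = (P.K : ℤ) - 1 - k by omega] at this
  have ind : ∀ k < P.K, -(chain (P.d1e2D F G h' u') c 0 t k + c) ≤ (p (b (P.K - 1 - k))).1 := by
    intro k
    induction k with
    | zero => intro _; rw [Nat.sub_zero, b0]; simp only [chain]; omega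
    | succ k ih =>
      intro hk
      have a1 := (hg' k (by omega)).Lt_le G (ih (by omega))
      obtain ⟨a2, a3⟩ := hr (P.K - 1 - (k + 1)) (by omega)
      have a4 := (a3 _ a2 le_rfl).trans hc
      rw [show P.K - 1 - (k + 1) + 1 = P.K - 1 - k by omega] at a4
      have a5 : nrm (p (a (P.K - 1 - k)) - p (b (P.K - 1 - (k + 1)))) ≤ c := by exact_mod_cast a4
      have a6 := (abs_le.1 ((le_max_left _ _).trans a5)).2
      simp only [chain, d1e2D, Prod.fst_sub] at a6 ⊢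
      omega
  rcases cover_indices (a := a) (b := b) (m := m) (by omega : 1 ≤ P.K) (a0 ▸ m1) (b0 ▸ m2) with
    ⟨κ, κ1, κ2, κ3⟩ | ⟨κ, κ1, κ2, κ3⟩
  · obtain ⟨k, k1, rfl⟩ : ∃ k < P.K, κ = P.K - 1 - k := ⟨P.K - 1 - κ, by omega, by omega⟩
    have a1 := ((hg' k k1).le_Mdn G (ind k k1) κ2 κ3).trans (hY1 k k1)
    obtain ⟨a2, a3⟩ := d1e2_cross (hg' k k1).base.1 κ2 κ3
    have a4 : ((P.K : ℝ) - 1 - k) * h' ≤ (p m).2 := by exact_mod_cast a2
    have a5 : ((p m).2 : ℝ) ≤ ((P.K : ℝ) - 1 - k) * h' + h' := by exact_mod_cast a3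
    have a6 := hY2 k k1
    have a7 : (k : ℝ) + 1 ≤ P.K := by exact_mod_cast k1
    have a8 := mul_le_mul_of_nonneg_left hσ' (sub_nonneg.2 a5)
    have a9 := mul_le_mul_of_nonneg_right (show ((P.K : ℝ) - 1 - k) * h' + h' - (p m).2 ≤ h' by linarith) E0
    have a10 := mul_le_mul_of_nonneg_right a7 (mul_nonneg h'0 E0)
    have a11 := mul_le_mul_of_nonneg_right a7 c1
    have a12 : 0 ≤ P.Kr * (P.C0 * u') := by positivity
    push_cast at a1 ⊢
    rw [hm] at a6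
    rw [e2]
    linarith
  · obtain ⟨k, k1, rfl⟩ : ∃ k < P.K, κ = P.K - 1 - k := ⟨P.K - 1 - κ, by omega, by omega⟩
    have a1 := (hr _ κ1).2 m κ2 κ3
    have a2 : |((p m).1 : ℝ) - (p (b (P.K - 1 - k))).1| ≤ P.C0 * u' :=
      le_trans (by exact_mod_cast le_max_left _ _) a1
    have a3 : |((p m).2 : ℝ) - (p (b (P.K - 1 - k))).2| ≤ P.C0 * u' :=
      le_trans (by exact_mod_cast le_max_right _ _) a1
    rw [(hg' k k1).base.1.2.2] at a3
    have a4 : -((chain (P.d1e2D F G h' u') c 0 t k : ℝ) + c) ≤ (p (b (P.K - 1 - k))).1 := by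
      exact_mod_cast ind k k1
    have a5 := (le_abs_self _).trans ((abs_mul _ _).trans_le
      (mul_le_mul a3 hσ (abs_nonneg _) C0))
    have a6 := hY2 k k1
    have a7 : (k : ℝ) + 1 ≤ P.K := by exact_mod_cast k1
    have a10 := mul_le_mul_of_nonneg_right a7 (mul_nonneg h'0 E0)
    have a11 := mul_le_mul_of_nonneg_right a7 c1
    push_cast at a5 ⊢
    rw [hm] at a6
    rw [e2]
    linarith [(abs_le.1 a2).1, mul_nonneg h'0 E0]

variable {G : Measure ℝ} [IsProbabilityMeasure G] [NullSingletonClass G] (hG : Nice G) {F : Face (mu G)}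
  {P : Par} (hP : P.Ok F) (hM : P.MeanOk F G) {hmax h : ℕ} {W u : ℝ} (hS : F.Scale G hmax W)
  (ha : P.Adm h u) (h2 : h ≤ hmax) (hu : W ≤ u) (huh : (P.K : ℝ) ^ 3 * u ≤ h)
include hG hP hM hS ha h2 hu huh

theorem mdn_rec : P.mdn F G h u ≤ 2 * (P.del F G h u +
    (F.th (P.C3 * P.K ^ 3 * u / h) - F.th (P.C3 * u / h))) + (4 + P.Kr) * P.C0 * P.K ^ 3 * u / h +
      4 * (P.K : ℝ) ^ (-(1 / 4 : ℝ)) * P.zed F G (h / P.K) ((P.K : ℝ) ^ 2 * u) +
      (P.K : ℝ) ^ (-(3 / 4 : ℝ)) * P.mdn F G (h / P.K) ((P.K : ℝ) ^ 2 * u) := by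
  have hμ := symNorm_mu G hG.hyp
  have hK := hP.two_le
  have hK1 : 1 ≤ P.K := by omega
  have K2 : (2 : ℝ) ≤ P.K := by exact_mod_cast hK
  have K0 : (0 : ℝ) < P.K := by linarith
  have u1 : 1 ≤ u := hS.one_le.trans hu
  have u0 : 0 < u := by linarith
  have C01 := hP.one_le_C0
  have C3 : 0 ≤ P.C3 := by linarith [hP.one_le_C2, hP.C2_le]
  have K3 : (2 : ℝ) ≤ P.K ^ 3 := K2.trans (le_self_pow₀ (by linarith) (by norm_num))
  have hlt : u < h := by nlinarith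
  have h0 : (0 : ℝ) < h := by linarith
  have hd := ha.dvd hK u0 hlt
  have ha' := ha.child hK u0 hlt
  obtain ⟨h', eh⟩ : ∃ h', h' = h / P.K := ⟨_, rfl⟩
  obtain ⟨u', eu⟩ : ∃ u', u' = (P.K : ℝ) ^ 2 * u := ⟨_, rfl⟩
  rw [← eh, ← eu] at ha' ⊢
  have e2 : (h : ℝ) = P.K * h' := by rw [eh]; exact_mod_cast (Nat.mul_div_cancel' hd).symm
  have h'1 := ha'.1
  have h'0 : (0 : ℝ) < h' := by exact_mod_cast h'1
  have h'2 : h' ≤ hmax := by rw [eh]; exact (Nat.div_le_self _ _).trans h2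
  have uu : u ≤ u' := by rw [eu]; exact le_mul_of_one_le_left u0.le (one_le_pow₀ (by linarith))
  have u'h : u' ≤ h' := by
    refine le_of_mul_le_mul_left ?_ K0
    rw [← e2, eu]
    linarith
  have e3 : P.C3 * u' / h' = P.C3 * P.K ^ 3 * u / h := by rw [e2, eu]; field_simp
  obtain ⟨E, hE⟩ : ∃ E, E = P.del F G h u + (F.th (P.C3 * P.K ^ 3 * u / h) - F.th (P.C3 * u / h)) :=
    ⟨_, rfl⟩
  rw [← hE]
  have E0 : 0 ≤ E := by
    have a1 := del_nonneg hG hP hS ha.1 h2 hu hlt.le hM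
    have a2 := F.th_mono hμ (c := P.C3 * u / h) (c' := P.C3 * P.K ^ 3 * u / h) (by positivity)
      (div_le_div_of_nonneg_right (mul_le_mul_of_nonneg_right
        (le_mul_of_one_le_right C3 (by linarith)) u0.le) h0.le)
    linarith
  have e4 : F.ξp + F.th (P.C3 * u' / h') = P.slope F G h u + E := by
    rw [hE, e3, del]; ring
  have hσ' : P.slope F G h' u' ≤ P.slope F G h u + E := by
    have := del_nonneg hG hP hS h'1 h'2 (hu.trans uu) u'h hM
    rw [del, e4] at this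
    linarith
  have Cu : 1 ≤ P.C0 * u' := one_le_mul_of_one_le_of_one_le C01 (u1.trans uu)
  obtain ⟨c, hc⟩ : ∃ c : ℤ, c = ⌈P.C0 * u'⌉ := ⟨_, rfl⟩
  have c1 : P.C0 * u' ≤ c := hc ▸ Int.le_ceil _
  have c2 : (c : ℝ) ≤ 2 * (P.C0 * u') := by linarith [hc ▸ Int.ceil_lt_add_one (P.C0 * u')]
  have c0 : 0 ≤ c := by exact_mod_cast (by linarith : (0 : ℝ) ≤ c)
  have c3 : (0 : ℝ) ≤ c := by linarith
  have hD := d1e2_data P F G hK1 h' u'
  have z0 := zed_nonneg P F h' u'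
  have z1 := mdn_nonneg P F h' u'
  have f1 := fun k : ℕ => hD.n4_field (G := G) c 0 k
    (M := fun γ t => P.Mdn F G t (((P.K : ℤ) - 1 - k) * h') h' u' (-γ))
    (fun γ => measurable_Mdn G hK1 _ _ _ _) (fun γ => dependsOnly_Mdn G _ _ _ _)
    (B' := 2 * P.C0 * (h' + u') + |P.slope F G h' u'| * h') (m1 := P.mdn F G h' u' * h')
    (fun γ t => by
      rw [abs_of_nonneg (Mdn_nonneg G)]
      exact Mdn_le G (by nlinarith)) fun γ => (n4_Mdn hK1 _ _ _ _ h'1).le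
  have eD : ∀ (k : ℕ) (γ : ℤ) (t : Env), P.d1e2D F G h' u' k γ t - γ =
      -γ - P.Lt F G t (((P.K : ℤ) - 1 - k) * h') h' u' (-γ) := fun k γ t => by rw [d1e2D]; ring
  have f2 := hD.n4_pos (G := G) c 0 (m0 := h' * (P.slope F G h u + E)) (ζ0 := P.zeta F G h' u')
    (z0 := P.zed F G h' u' * h') (fun k γ => by
      simp only [eD]
      rw [integral_Lt hK1, ← e4]
      exact hM hmax W hS h' u' h'1 h'2 (hu.trans uu) u'h) fun k γ => by
      simp only [eD]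
      exact (n4_Lt hK1 _ _ _ _ h'1).le
  have f3 : ∀ k : ℕ, Bdd fun t => max (((chain (P.d1e2D F G h' u') c 0 t k - 0 : ℤ) : ℝ) -
      k * (c + h' * (P.slope F G h u + E))) 0 := fun k => by
    refine ⟨(((measurable_of_countable _).comp ((hD.measurable c 0 k).sub measurable_const)).sub
      measurable_const).max measurable_const, _, fun t => abs_max_le_max_abs_abs.trans
        (max_le ((abs_sub _ _).trans (add_le_add (hD.abs_le c 0 k t) le_rfl)) ?_)⟩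
    rw [abs_zero]
    positivity
  obtain ⟨Y1, y1, y2, y3, y4⟩ := d1e2_max (n := P.K) fun k _ => (f1 k).1
  obtain ⟨Y2, w1, w2, w3, w4⟩ := d1e2_max (n := P.K) fun k _ => f3 k
  have n1 := n4_le_of_exists (G := G) (fun k _ => (f1 k).1) y1.1 y4 (by positivity) fun k _ => (f1 k).2
  have n2 := n4_le_of_exists (G := G) (fun k _ => f3 k) w1.1 w4
    (M := 4 * √P.K * (P.zed F G h' u' * h')) (by positivity) fun k hk => (f2 k).trans (by
      have : √(k : ℝ) ≤ √P.K := Real.sqrt_le_sqrt (by exact_mod_cast hk.le)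
      gcongr)
  have Q0 : 0 ≤ (P.K + 1) * (c : ℝ) + P.Kr * (P.C0 * u') + h * E := by positivity
  have n3 := n4_mono (G := G) (measurable_Mdn (P := P) (F := F) G hK1 0 h u 0)
    ((y1.add w1).add (Bdd.const ((P.K + 1) * c + P.Kr * (P.C0 * u') + h * E))) fun t => by
      rw [abs_of_nonneg (Mdn_nonneg G)]
      exact d1e2_det G hK u0 hlt hd eh eu c0 c1 (by linarith) E0 (abs_slope_le hG hP hS ha.1 h2 hu) hσ' rfl
        (y2 t) (w2 t) (y3 t) fun k hk => by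
          have := (le_max_left _ _).trans (w3 t k hk)
          rwa [sub_zero] at this
  have n4' := n4_add_le (G := G) (y1.add w1) (Bdd.const ((P.K + 1) * c + P.Kr * (P.C0 * u') + h * E))
  have n5 := n4_add_le (G := G) y1 w1
  rw [n4_const, abs_of_nonneg Q0] at n4'
  have r1 : (P.K : ℝ) ^ (-(3 / 4 : ℝ)) * P.K = P.K ^ (1 / 4 : ℝ) := by
    rw [← Real.rpow_add_one K0.ne']; norm_num
  have r2 : (P.K : ℝ) ^ (-(1 / 4 : ℝ)) * P.K = P.K ^ (1 / 4 : ℝ) * √P.K := by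
    rw [← Real.rpow_add_one K0.ne', Real.sqrt_eq_rpow, ← Real.rpow_add K0]; norm_num
  rw [mdn, div_le_iff₀ h0]
  have r3 : (4 + P.Kr) * P.C0 * P.K ^ 3 * u / h * h = (4 + P.Kr) * P.K * (P.C0 * u') := by
    rw [eu]; field_simp
  have r4 : 4 * (P.K : ℝ) ^ (-(1 / 4 : ℝ)) * P.zed F G h' u' * h =
      P.K ^ (1 / 4 : ℝ) * (4 * √P.K * (P.zed F G h' u' * h')) := by
    rw [e2]; linear_combination (4 * P.zed F G h' u' * h') * r2
  have r5 : (P.K : ℝ) ^ (-(3 / 4 : ℝ)) * P.mdn F G h' u' * h = P.K ^ (1 / 4 : ℝ) * (P.mdn F G h' u' * h') := by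
    rw [e2]; linear_combination (P.mdn F G h' u' * h') * r1
  have r6 : (P.K + 1) * (c : ℝ) ≤ 4 * P.K * (P.C0 * u') := by nlinarith
  have r7 : P.Kr * (P.C0 * u') ≤ P.Kr * P.K * (P.C0 * u') := by
    rw [mul_assoc]
    exact mul_le_mul_of_nonneg_left (le_mul_of_one_le_left (by linarith) (by linarith)) (Nat.cast_nonneg _)
  rw [add_mul, add_mul, add_mul, r3, r4, r5]
  linarith [mul_nonneg h0.le E0]
end Par

end Crest.Agent.R151
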