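import Crest.Agent.R151.D1Def
import Crest.Agent.R151.D1Env
import Crest.Agent.R151.D1Env2

/-! R151 part D1: dyadic classes of the ratio `h/u`; deficits and envelopes are summable and small.

Take `K = 2^40`, `κ = 120` (`K³ = 2^κ`), `η = 12 K^{-1/4}` (`η 2^{κ/24} = 12·2^{-10}·2^5 ≤ 1/2`), `Kr = ⌈2C0 + |ξn| + |ξp| + 4⌉`, `θ = 1/400`, `Smax = 100 Kr + 100`,
`C2` from `deficit`, `C3 = C2 + CM` (`meanOk`).  For a scale `(hmax,W)` let `D ρ`, `B ρ` be `clsD`, `clsB` (suprema of bounded nonnegative sets, `0` if empty).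
For `(h,u)` in the class `ρ ≥ ρb` apply `deficit` with
`S = D ρ + 2 Σ_{i ≤ ρ} 2^{-i/3} B(ρ-i) + Σ_{i ≤ ρ+1} 2^{-i/3}(th(2C3 2^i/2^ρ) - th(C3/2^{ρ+1})) + 2^{-ρ/2}`
(the pair `(h', 2^i u)` is in the class `ρ-i` or `ρ-i-1`, which is `≥ 0`; `S ≤ Smax` for `ρb` large because `th(·) ≤ 1` for small arguments and `th ≤ C(1+·)`);
the three recursions give `B ρ ≤ 5 D ρ + I ρ + η B(ρ-κ)` (the child `(h/K, K²u)` is admissible and in the class `ρ-κ`).  `closure`, `summable_incr`, `summable_incr2`. -/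

set_option autoImplicit false
open MeasureTheory ProbabilityTheory Crest.ProbabilityR.FirstPassage Filter Topology
open scoped ENNReal

namespace Crest.Agent.R151

namespace Par
variable (P : Par) {μ : ℝ × ℝ → ℝ} (F : Face μ) (G : Measure ℝ)

/-- `h/u ∈ [2^ρ, 2^{ρ+1})` -/
def Cls (hmax : ℕ) (W : ℝ) (ρ h : ℕ) (u : ℝ) : Prop :=
  1 ≤ h ∧ h ≤ hmax ∧ W ≤ u ∧ 2 ^ ρ * u ≤ h ∧ (h : ℝ) < 2 ^ (ρ + 1) * u

noncomputable def clsD (hmax : ℕ) (W : ℝ) (ρ : ℕ) : ℝ :=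
  sSup {x | x = 0 ∨ ∃ h u, Cls hmax W ρ h u ∧ x = P.del F G h u}

noncomputable def clsB (hmax : ℕ) (W : ℝ) (ρ : ℕ) : ℝ :=
  sSup {x | x = 0 ∨ ∃ h u, Cls hmax W ρ h u ∧ P.Adm h u ∧ x = P.zed F G h u + P.mup F G h u + P.mdn F G h u}

theorem Cls.up {hmax ρ h : ℕ} {W u : ℝ} (hc : Cls hmax W ρ h u) {A : ℝ} (hA : 0 ≤ A) :
    A * u / h ≤ A / 2 ^ ρ := by
  have h0 : (0 : ℝ) < h := by exact_mod_cast hc.1
  rw [div_le_div_iff₀ h0 (by positivity)]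
  nlinarith [mul_le_mul_of_nonneg_left hc.2.2.2.1 hA]

theorem Cls.down {hmax ρ h : ℕ} {W u : ℝ} (hc : Cls hmax W ρ h u) (hu : 0 < u) {A : ℝ} (hA : 1 ≤ A) :
    1 / 2 / 2 ^ ρ ≤ A * u / h := by
  have h0 : (0 : ℝ) < h := by exact_mod_cast hc.1
  have h1 := hc.2.2.2.2
  rw [pow_succ] at h1
  rw [div_le_div_iff₀ (by positivity) h0]
  nlinarith [mul_le_mul_of_nonneg_right hA (show 0 ≤ u * 2 ^ ρ by positivity)]

theorem Cls.le {hmax ρ h : ℕ} {W u : ℝ} (hc : Cls hmax W ρ h u) (hu : 0 < u) : u ≤ h :=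
  le_trans (le_mul_of_one_le_left hu.le (one_le_pow₀ one_le_two)) hc.2.2.2.1

end Par

theorem d1cls_geom (n : ℕ) : ∑ i ∈ Finset.range n, (2 : ℝ) ^ (-(i : ℝ) / 3) ≤ 5 := by
  have h1 : (2 : ℝ) ^ (-(1 : ℝ) / 3) ≤ 4 / 5 := by
    refine (pow_le_pow_iff_left₀ (by positivity) (by norm_num) three_ne_zero).1 ?_
    rw [← Real.rpow_natCast, ← Real.rpow_mul (by norm_num)]
    norm_num
  have h2 : ∀ i : ℕ, (2 : ℝ) ^ (-(i : ℝ) / 3) ≤ (4 / 5) ^ i := fun i => by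
    rw [show -(i : ℝ) / 3 = -(1 : ℝ) / 3 * i by ring, Real.rpow_mul (by norm_num), Real.rpow_natCast]
    exact pow_le_pow_left₀ (by positivity) h1 i
  refine (Finset.sum_le_sum fun i _ => h2 i).trans ?_
  have h3 := hasSum_geometric_of_lt_one (r := 4 / 5) (by norm_num) (by norm_num)
  refine (sum_le_hasSum _ (fun _ _ => by positivity) h3).trans (by norm_num)

theorem d1cls_mul {x S : ℝ} (i : ℕ) (h : (2 : ℝ) ^ (-(i : ℝ) / 3) * x ≤ S) :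
    x ≤ (2 : ℝ) ^ ((i : ℝ) / 3) * S := by
  have h1 := mul_le_mul_of_nonneg_left h (show 0 ≤ (2 : ℝ) ^ ((i : ℝ) / 3) by positivity)
  rwa [← mul_assoc, ← Real.rpow_add (by norm_num), show (i : ℝ) / 3 + -(i : ℝ) / 3 = 0 by ring,
    Real.rpow_zero, one_mul] at h1

theorem d1cls_pow {x : ℝ} (hx : 1 / 4 ≤ x) : (((2 ^ 40 : ℕ) : ℝ)) ^ (-x) ≤ 1 / 1024 := by
  refine (Real.rpow_le_rpow_of_exponent_le (by norm_num) (neg_le_neg hx)).trans (le_of_eq ?_)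
  rw [show (((2 ^ 40 : ℕ) : ℝ)) = 1024 ^ (4 : ℝ) by norm_num, ← Real.rpow_mul (by norm_num)]
  norm_num

variable {G : Measure ℝ} [IsProbabilityMeasure G] [NullSingletonClass G] (hG : Nice G) (F : Face (mu G))
include hG

section
variable {F} {P : Par} (hP : P.Ok F) {hmax : ℕ} {W : ℝ} (hS : F.Scale G hmax W)
include hP hS

theorem d1cls_D_bdd (ρ : ℕ) : ∀ x ∈ {x | x = 0 ∨ ∃ h u, Par.Cls hmax W ρ h u ∧ x = P.del F G h u},
    x ≤ F.th (P.C3 / 2 ^ ρ) + 2 * P.Kr := by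
  have hμ := symNorm_mu G hG.hyp
  have C3 : 0 ≤ P.C3 := by linarith [hP.one_le_C2, hP.C2_le]
  rintro x (rfl | ⟨h, u, hc, rfl⟩)
  · have := F.th_nonneg hμ (c := P.C3 / 2 ^ ρ) (by positivity)
    positivity
  · have u0 : 0 < u := by linarith [hS.one_le, hc.2.2.1]
    refine (Par.del_le hG hP hS hc.1 hc.2.1 hc.2.2.1 (hc.le u0)).trans (add_le_add ?_ le_rfl)
    exact F.th_mono hμ (by positivity) (hc.up C3)

theorem d1cls_B_bdd (ρ : ℕ) : ∀ x ∈ {x | x = 0 ∨ ∃ h u, Par.Cls hmax W ρ h u ∧ P.Adm h u ∧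
    x = P.zed F G h u + P.mup F G h u + P.mdn F G h u}, x ≤ 7 * (P.Kr : ℝ) := by
  rintro x (rfl | ⟨h, u, hc, -, rfl⟩)
  · positivity
  · have u0 : 0 < u := by linarith [hS.one_le, hc.2.2.1]
    exact Par.env_le hG hP hS hc.1 hc.2.1 hc.2.2.1 (hc.le u0)

theorem d1cls_D0 (ρ : ℕ) : 0 ≤ P.clsD F G hmax W ρ :=
  le_csSup ⟨_, d1cls_D_bdd hG hP hS ρ⟩ (Or.inl rfl)

theorem d1cls_B0 (ρ : ℕ) : 0 ≤ P.clsB F G hmax W ρ :=
  le_csSup ⟨_, d1cls_B_bdd hG hP hS ρ⟩ (Or.inl rfl)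

theorem d1cls_leD {ρ h : ℕ} {u : ℝ} (hc : Par.Cls hmax W ρ h u) : P.del F G h u ≤ P.clsD F G hmax W ρ :=
  le_csSup ⟨_, d1cls_D_bdd hG hP hS ρ⟩ (Or.inr ⟨h, u, hc, rfl⟩)

theorem d1cls_leB {ρ h : ℕ} {u : ℝ} (hc : Par.Cls hmax W ρ h u) (ha : P.Adm h u) :
    P.zed F G h u + P.mup F G h u + P.mdn F G h u ≤ P.clsB F G hmax W ρ :=
  le_csSup ⟨_, d1cls_B_bdd hG hP hS ρ⟩ (Or.inr ⟨h, u, hc, ha, rfl⟩)

theorem d1cls_Dle (ρ : ℕ) : P.clsD F G hmax W ρ ≤ F.th (P.C3 / 2 ^ ρ) + 2 * P.Kr :=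
  csSup_le ⟨0, Or.inl rfl⟩ (d1cls_D_bdd hG hP hS ρ)

theorem d1cls_Ble (ρ : ℕ) : P.clsB F G hmax W ρ ≤ 7 * (P.Kr : ℝ) :=
  csSup_le ⟨0, Or.inl rfl⟩ (d1cls_B_bdd hG hP hS ρ)

theorem d1cls_zed {ρ h : ℕ} {u : ℝ} (hc : Par.Cls hmax W ρ h u) {i h' : ℕ} (h1 : h' ≤ h) (h2 : h ≤ 2 * h')
    (ha : P.Adm h' (2 ^ i * u)) (h3 : 2 ^ i * u ≤ h') :
    (2 : ℝ) ^ (-(i : ℝ) / 3) * P.zed F G h' (2 ^ i * u) ≤
      2 * ∑ i ∈ Finset.range (ρ + 1), (2 : ℝ) ^ (-(i : ℝ) / 3) * P.clsB F G hmax W (ρ - i) := by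
  have u0 : 0 < u := by linarith [hS.one_le, hc.2.2.1]
  have v0 : 0 < 2 ^ i * u := by positivity
  obtain ⟨r, r1, r2⟩ := exists_nat_pow_near (x := (h' : ℝ) / (2 ^ i * u)) ((one_le_div v0).2 h3) one_lt_two
  rw [le_div_iff₀ v0] at r1
  rw [div_lt_iff₀ v0] at r2
  have hc' : Par.Cls hmax W r h' (2 ^ i * u) := ⟨ha.1, h1.trans hc.2.1,
    hc.2.2.1.trans (le_mul_of_one_le_left u0.le (one_le_pow₀ one_le_two)), r1, r2⟩
  have hz : P.zed F G h' (2 ^ i * u) ≤ P.clsB F G hmax W r := by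
    linarith [d1cls_leB hG hP hS hc' ha, Par.mup_nonneg P F h' (2 ^ i * u), Par.mdn_nonneg P F h' (2 ^ i * u)]
  have h1' : (h' : ℝ) ≤ h := by exact_mod_cast h1
  have h2' : (h : ℝ) ≤ 2 * h' := by exact_mod_cast h2
  have a1 : r + i < ρ + 1 := by
    rw [← pow_lt_pow_iff_right₀ (one_lt_two (α := ℝ))]
    refine lt_of_mul_lt_mul_right ?_ u0.le
    rw [pow_add, mul_assoc]
    linarith [hc.2.2.2.2]
  have a2 : ρ < r + 1 + i + 1 := by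
    rw [← pow_lt_pow_iff_right₀ (one_lt_two (α := ℝ))]
    refine lt_of_mul_lt_mul_right ?_ u0.le
    rw [pow_succ, pow_add]
    linarith [hc.2.2.2.1]
  have hterm : ∀ j ≤ ρ, (2 : ℝ) ^ (-(j : ℝ) / 3) * P.clsB F G hmax W (ρ - j) ≤
      ∑ i ∈ Finset.range (ρ + 1), (2 : ℝ) ^ (-(i : ℝ) / 3) * P.clsB F G hmax W (ρ - i) := fun j hj =>
    Finset.single_le_sum (f := fun i : ℕ => (2 : ℝ) ^ (-(i : ℝ) / 3) * P.clsB F G hmax W (ρ - i))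
      (fun i _ => mul_nonneg (by positivity) (d1cls_B0 hG hP hS _)) (Finset.mem_range.2 (by omega))
  have B0 := d1cls_B0 hG hP hS r
  have p0 : 0 < (2 : ℝ) ^ (-(i : ℝ) / 3) := by positivity
  refine (mul_le_mul_of_nonneg_left hz p0.le).trans ?_
  rcases (by omega : ρ = r + i ∨ ρ = r + (i + 1)) with e | e
  · have := hterm i (by omega)
    rw [show ρ - i = r by omega] at this
    nlinarith [mul_nonneg p0.le B0]
  · have := hterm (i + 1) (by omega)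
    rw [show ρ - (i + 1) = r by omega] at this
    have a3 : (2 : ℝ) ^ (-(i : ℝ) / 3) ≤ 2 * (2 : ℝ) ^ (-((i + 1 : ℕ) : ℝ) / 3) := by
      rw [mul_comm, ← Real.rpow_add_one (by norm_num)]
      refine Real.rpow_le_rpow_of_exponent_le one_le_two ?_
      push_cast
      linarith
    nlinarith [mul_le_mul_of_nonneg_right a3 B0]

theorem d1cls_Brec (hM : P.MeanOk F G) (hK : P.K = 2 ^ 40) {ρ : ℕ} (hρ : 120 ≤ ρ) :
    P.clsB F G hmax W ρ ≤ 5 * P.clsD F G hmax W ρ +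
      (5 * (F.th (P.C3 * P.K ^ 3 / 2 ^ ρ) - F.th (1 / 2 / 2 ^ ρ)) +
        (10 + 2 * P.Kr) * P.C0 * P.K ^ 3 * (1 / 2) ^ ρ) + 12 / 1024 * P.clsB F G hmax W (ρ - 120) := by
  have hμ := symNorm_mu G hG.hyp
  have C3 : 1 ≤ P.C3 := hP.one_le_C2.trans hP.C2_le
  have C0 : 0 ≤ P.C0 := zero_le_one.trans hP.one_le_C0
  have K1 : (1 : ℝ) ≤ P.K := by rw [hK]; norm_num
  have K3 : (P.K : ℝ) ^ 3 = 2 ^ 120 := by rw [hK]; norm_num
  have C3K : 1 ≤ P.C3 * P.K ^ 3 := one_le_mul_of_one_le_of_one_le C3 (one_le_pow₀ K1)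
  have e1 : (2 : ℝ) ^ ρ = 2 ^ (ρ - 120) * P.K ^ 3 := by rw [K3, ← pow_add]; congr 1; omega
  have K4 : (2 : ℝ) ≤ P.K ^ 3 := by rw [K3]; norm_num
  have k1 : (P.K : ℝ) ^ (-(1 / 2 : ℝ)) ≤ 1 / 1024 := by rw [hK]; exact d1cls_pow (by norm_num)
  have k2 : (P.K : ℝ) ^ (-(1 / 4 : ℝ)) ≤ 1 / 1024 := by rw [hK]; exact d1cls_pow (by norm_num)
  have k3 : (P.K : ℝ) ^ (-(3 / 4 : ℝ)) ≤ 1 / 1024 := by rw [hK]; exact d1cls_pow (by norm_num)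
  clear hK K3 hρ
  generalize ρ - 120 = ρ' at e1 ⊢
  have B0 := d1cls_B0 hG hP hS ρ'
  have D0 := d1cls_D0 hG hP hS ρ
  refine csSup_le ⟨0, Or.inl rfl⟩ ?_
  rintro x (rfl | ⟨h, u, hc, ha, rfl⟩)
  · have := F.th_mono hμ (c := 1 / 2 / 2 ^ ρ) (c' := P.C3 * P.K ^ 3 / 2 ^ ρ) (by positivity)
      (div_le_div_of_nonneg_right (by linarith) (by positivity))
    have := sub_nonneg.2 this
    positivity
  have u0 : 0 < u := by linarith [hS.one_le, hc.2.2.1]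
  have huh : (P.K : ℝ) ^ 3 * u ≤ h := by
    refine le_trans (mul_le_mul_of_nonneg_right ?_ u0.le) hc.2.2.2.1
    rw [e1]
    exact le_mul_of_one_le_left (by positivity) (one_le_pow₀ one_le_two)
  have hlt : u < h := by
    refine lt_of_lt_of_le ?_ huh
    nlinarith
  have hd := ha.dvd hP.two_le u0 hlt
  have ha' := ha.child hP.two_le u0 hlt
  have K0 : (0 : ℝ) < P.K := by linarith
  have e2 : ((h / P.K : ℕ) : ℝ) = h / P.K := Nat.cast_div hd K0.ne'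
  have hc' : Par.Cls hmax W ρ' (h / P.K) ((P.K : ℝ) ^ 2 * u) := by
    refine ⟨ha'.1, (Nat.div_le_self _ _).trans hc.2.1,
      hc.2.2.1.trans (le_mul_of_one_le_left u0.le (one_le_pow₀ K1)), ?_, ?_⟩
    · rw [e2, le_div_iff₀ K0]
      have := hc.2.2.2.1
      rw [e1] at this
      linarith
    · rw [e2, div_lt_iff₀ K0, pow_succ]
      have := hc.2.2.2.2
      rw [pow_succ, e1] at this
      linarith
  have b1 := Par.zed_rec hG hP hM hS ha hc.2.1 hc.2.2.1 huh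
  have b2 := Par.mup_rec hG hP hM hS ha hc.2.1 hc.2.2.1 huh
  have b3 := Par.mdn_rec hG hP hM hS ha hc.2.1 hc.2.2.1 huh
  have b4 := d1cls_leB hG hP hS hc' ha'
  have b5 := d1cls_leD hG hP hS hc
  have b6 := F.th_mono hμ (c := P.C3 * P.K ^ 3 * u / h) (by positivity) (hc.up (by positivity))
  have b7 := F.th_mono hμ (by positivity) (hc.down u0 C3)
  have b8 := hc.up (A := (10 + 2 * P.Kr) * P.C0 * P.K ^ 3) (by positivity)
  have z0 := Par.zed_nonneg P F (h / P.K) ((P.K : ℝ) ^ 2 * u)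
  have z1 := Par.mup_nonneg P F (h / P.K) ((P.K : ℝ) ^ 2 * u)
  have z2 := Par.mdn_nonneg P F (h / P.K) ((P.K : ℝ) ^ 2 * u)
  have e3 : (10 + 2 * P.Kr) * P.C0 * P.K ^ 3 * u / h = 2 * P.C0 * P.K ^ 3 * u / h +
      (4 + P.Kr) * P.C0 * P.K ^ 3 * u / h + (4 + P.Kr) * P.C0 * P.K ^ 3 * u / h := by ring
  have e4 : (10 + 2 * P.Kr) * P.C0 * (P.K : ℝ) ^ 3 / 2 ^ ρ =
      (10 + 2 * P.Kr) * P.C0 * P.K ^ 3 * (1 / 2) ^ ρ := by
    rw [one_div_pow, mul_one_div]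
  linarith [mul_le_mul_of_nonneg_right k1 z0, mul_le_mul_of_nonneg_right k2 z0,
    mul_le_mul_of_nonneg_right k3 z1, mul_le_mul_of_nonneg_right k3 z2]

end

theorem small_sums {c1 CE : ℝ} (hc1 : 0 < c1) (hCE : 0 < CE)
    (hco : ∀ (hmax : ℕ) (W : ℝ), F.Scale G hmax W → ∀ N : ℕ, 2 ≤ N → N ≤ hmax ^ 11 →
      (iidLaw G).real {t | ¬ F.Coer c1 CE W N t} ≤ 1 / N) :
    ∃ P : Par, P.Ok F ∧ P.MeanOk F G ∧ P.K = 2 ^ 40 ∧ (1 + 2 * CE) / c1 ≤ P.C0 ∧ ∀ ε > (0 : ℝ), ∃ ρ1 : ℕ,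
      ∀ (hmax : ℕ) (W : ℝ), F.Scale G hmax W → ∃ D B : ℕ → ℝ, (∀ ρ, 0 ≤ D ρ) ∧ (∀ ρ, 0 ≤ B ρ) ∧
        (∀ R, ∑ ρ ∈ Finset.Ico ρ1 R, (D ρ + B ρ) ≤ ε) ∧
        ∀ ρ h u, Par.Cls hmax W ρ h u → P.del F G h u ≤ D ρ ∧
          (P.Adm h u → P.zed F G h u + P.mup F G h u + P.mdn F G h u ≤ B ρ) := by
  have hμ := symNorm_mu G hG.hyp
  obtain ⟨C0, hC0⟩ : ∃ C0, C0 = max 1 ((1 + 2 * CE) / c1) := ⟨_, rfl⟩
  have C01 : 1 ≤ C0 := hC0 ▸ le_max_left _ _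
  have C02 : (1 + 2 * CE) / c1 ≤ C0 := hC0 ▸ le_max_right _ _
  obtain ⟨Kr, hKr⟩ := exists_nat_ge (2 * C0 + |F.ξn| + |F.ξp| + 4)
  obtain ⟨C2, C21, hdef⟩ := Par.deficit hG F hc1 hCE hco (2 ^ 40) Kr C0 C02 (θ := 1 / 400)
    (Smax := 100 * Kr + 100) (by norm_num) (by positivity)
  obtain ⟨CM, CM0, hCM⟩ := Par.meanOk hG F Kr
  have hdef' := hdef (C2 + CM)
  obtain ⟨P, hPe⟩ : ∃ P : Par, P = ⟨2 ^ 40, C0, C2, C2 + CM, Kr⟩ := ⟨_, rfl⟩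
  have hK : P.K = 2 ^ 40 := by rw [hPe]
  have hP : P.Ok F := by
    rw [hPe]
    exact ⟨by norm_num, C01, hKr, C21, by linarith⟩
  have hM : P.MeanOk F G := hCM P hP (by rw [hPe]) (by rw [hPe])
  have eC3 : C2 + CM = P.C3 := by rw [hPe]
  have eKr : Kr = P.Kr := by rw [hPe]
  rw [← hPe, eC3, eKr] at hdef'
  obtain ⟨r1, -, hd⟩ := hdef' hP hM
  refine ⟨P, hP, hM, hK, by rw [hPe]; exact C02, fun ε hε => ?_⟩
  have C3 : 1 ≤ P.C3 := hP.one_le_C2.trans hP.C2_le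
  have PC0 : 0 ≤ P.C0 := zero_le_one.trans hP.one_le_C0
  have K1 : (1 : ℝ) ≤ P.K := by rw [hK]; norm_num
  have C3K : 1 ≤ P.C3 * P.K ^ 3 := one_le_mul_of_one_le_of_one_le C3 (one_le_pow₀ K1)
  have t0 : ∀ c, 0 ≤ c → 0 ≤ F.th c := fun c hc => F.th_nonneg hμ hc
  have t1 : ∀ c c', 0 ≤ c → c ≤ c' → F.th c ≤ F.th c' := fun c c' hc h => F.th_mono hμ hc h
  have t2 : ∀ (A : ℝ) (ρ : ℕ), 1 ≤ A → 0 ≤ F.th (A / 2 ^ ρ) - F.th (1 / 2 / 2 ^ ρ) := fun A ρ hA =>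
    sub_nonneg.2 (t1 _ _ (by positivity) (div_le_div_of_nonneg_right (by linarith) (by positivity)))
  obtain ⟨J, hJ⟩ : ∃ J : ℕ → ℝ, J = fun ρ => ∑ i ∈ Finset.range (ρ + 1),
    (2 : ℝ) ^ (-(i : ℝ) / 3) * (F.th (2 * P.C3 * 2 ^ i / 2 ^ ρ) - F.th (1 / 2 / 2 ^ ρ)) := ⟨_, rfl⟩
  have J1 : Summable J := hJ ▸ summable_incr2 t0 t1 (by norm_num) (by linarith)
  have J2 : ∀ ρ i : ℕ, 0 ≤ (2 : ℝ) ^ (-(i : ℝ) / 3) *
      (F.th (2 * P.C3 * 2 ^ i / 2 ^ ρ) - F.th (1 / 2 / 2 ^ ρ)) := fun ρ i =>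
    mul_nonneg (by positivity) (t2 _ _ (by nlinarith [one_le_pow₀ (n := i) (one_le_two (α := ℝ))]))
  have J0 : ∀ ρ, 0 ≤ J ρ := fun ρ => by rw [hJ]; exact Finset.sum_nonneg fun i _ => J2 ρ i
  obtain ⟨q, hq⟩ : ∃ q : ℝ, q = 2 ^ (-(1 / 2 : ℝ)) := ⟨_, rfl⟩
  have q0 : 0 < q := by rw [hq]; positivity
  have q1 : q < 1 := hq ▸ Real.rpow_lt_one_of_one_lt_of_neg one_lt_two (by norm_num)
  obtain ⟨c0, c00, c01⟩ := F.th_small hμ one_pos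
  have ev : ∀ᶠ ρ : ℕ in atTop, 120 ≤ ρ ∧ r1 ≤ 2 ^ ρ ∧ P.C3 / c0 ≤ 2 ^ ρ ∧ J ρ < 1 :=
    (eventually_ge_atTop 120).and
      (((tendsto_pow_atTop_atTop_of_one_lt one_lt_two).eventually_ge_atTop r1).and
      (((tendsto_pow_atTop_atTop_of_one_lt one_lt_two).eventually_ge_atTop _).and
      (J1.tendsto_atTop_zero.eventually (gt_mem_nhds one_pos))))
  obtain ⟨ρb, hρb⟩ := eventually_atTop.1 ev
  obtain ⟨ρ1, -, hcl⟩ := closure (fun ρ => (F.th (P.C3 / 2 ^ ρ) - F.th (1 / 2 / 2 ^ ρ)) + (J ρ + q ^ ρ) +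
      (5 * (F.th (P.C3 * P.K ^ 3 / 2 ^ ρ) - F.th (1 / 2 / 2 ^ ρ)) +
        (10 + 2 * P.Kr) * P.C0 * P.K ^ 3 * (1 / 2) ^ ρ))
    (fun ρ => by
      have := t2 _ ρ C3
      have := t2 _ ρ C3K
      have := J0 ρ
      positivity)
    (((summable_incr t0 t1 (by norm_num) (by linarith)).add
      (J1.add (summable_geometric_of_lt_one q0.le q1))).add
      (((summable_incr t0 t1 (by norm_num) (by linarith)).mul_left 5).add
        (summable_geometric_two.mul_left _)))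
    (7 * P.Kr) (12 / 1024) 120 ρb (hρb ρb le_rfl).1 (by norm_num) (by norm_num) hε
  refine ⟨ρ1, fun hmax W hS => ⟨P.clsD F G hmax W, P.clsB F G hmax W, d1cls_D0 hG hP hS,
    d1cls_B0 hG hP hS, hcl _ _ (d1cls_D0 hG hP hS) (d1cls_B0 hG hP hS) (d1cls_Ble hG hP hS)
      (fun ρ hρ => ?_) fun ρ hρ => ?_, fun ρ h u hc => ⟨d1cls_leD hG hP hS hc, d1cls_leB hG hP hS hc⟩⟩⟩
  · obtain ⟨-, a2, a3, a4⟩ := hρb ρ hρ
    obtain ⟨Z, hZ⟩ : ∃ Z, Z = ∑ i ∈ Finset.range (ρ + 1),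
      (2 : ℝ) ^ (-(i : ℝ) / 3) * P.clsB F G hmax W (ρ - i) := ⟨_, rfl⟩
    have Z0 : 0 ≤ Z := hZ ▸ Finset.sum_nonneg fun i _ =>
      mul_nonneg (by positivity) (d1cls_B0 hG hP hS _)
    have Z1 : Z ≤ 5 * (7 * P.Kr) := by
      rw [hZ]
      refine le_trans (Finset.sum_le_sum fun i _ => mul_le_mul_of_nonneg_left
        (d1cls_Ble hG hP hS _) (by positivity)) ?_
      rw [← Finset.sum_mul]
      exact mul_le_mul_of_nonneg_right (d1cls_geom _) (by positivity)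
    have D0 := d1cls_D0 hG hP hS ρ
    have D1 : P.clsD F G hmax W ρ ≤ 1 + 2 * P.Kr := by
      refine (d1cls_Dle hG hP hS ρ).trans (add_le_add (le_trans (t1 _ _ (by positivity) ?_) c01) le_rfl)
      rw [div_le_iff₀ (by positivity)]
      rw [div_le_iff₀ c00] at a3
      linarith
    have q2 : q ^ ρ ≤ 1 := pow_le_one₀ q0.le q1.le
    have q3 : 0 < q ^ ρ := by positivity
    have i1 := t2 _ ρ C3
    have i2 := t2 _ ρ C3K
    have i3 : 0 ≤ (10 + 2 * P.Kr) * P.C0 * P.K ^ 3 * (1 / 2 : ℝ) ^ ρ := by positivity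
    have i4 := J0 ρ
    have Kr0 : (0 : ℝ) ≤ P.Kr := Nat.cast_nonneg _
    rw [← hZ]
    refine csSup_le ⟨0, Or.inl rfl⟩ ?_
    rintro x (rfl | ⟨h, u, hc, rfl⟩)
    · positivity
    have u0 : 0 < u := by linarith [hS.one_le, hc.2.2.1]
    have b0 := d1cls_leD hG hP hS hc
    have key := hd hmax W hS h u (P.clsD F G hmax W ρ + 2 * Z + J ρ + q ^ ρ) hc.2.1 hc.2.2.1
      ((mul_le_mul_of_nonneg_right a2 u0.le).trans hc.2.2.2.1) (by linarith) ?_ (by linarith)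
      (fun i h' h1 h2 ha h3 => d1cls_mul i ((d1cls_zed hG hP hS hc h1 h2 ha h3).trans (by linarith)))
      fun i hi => d1cls_mul i ?_
    · have b1 := t1 _ _ (by positivity) (hc.up (A := P.C3) (by linarith))
      have b2 := t1 _ _ (by positivity) (hc.down u0 le_rfl)
      rw [one_mul] at b2
      linarith
    · have b1 : ((h : ℝ) / u) ^ (-(1 / 2 : ℝ)) ≤ ((2 : ℝ) ^ ρ) ^ (-(1 / 2 : ℝ)) :=
        Real.rpow_le_rpow_of_nonpos (by positivity) ((le_div_iff₀ u0).2 hc.2.2.2.1) (by norm_num)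
      rw [← Real.rpow_natCast, ← Real.rpow_mul (by norm_num), mul_comm, Real.rpow_mul (by norm_num),
        Real.rpow_natCast, ← hq] at b1
      linarith
    · have b1 : i < ρ + 1 := by
        rw [← pow_lt_pow_iff_right₀ (one_lt_two (α := ℝ))]
        exact lt_of_mul_lt_mul_right (hi.trans_lt hc.2.2.2.2) u0.le
      have b2 : (2 : ℝ) ^ (-(i : ℝ) / 3) *
          (F.th (2 * P.C3 * 2 ^ i / 2 ^ ρ) - F.th (1 / 2 / 2 ^ ρ)) ≤ J ρ := by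
        rw [hJ]
        exact Finset.single_le_sum (f := fun i : ℕ => (2 : ℝ) ^ (-(i : ℝ) / 3) *
          (F.th (2 * P.C3 * 2 ^ i / 2 ^ ρ) - F.th (1 / 2 / 2 ^ ρ))) (fun i _ => J2 ρ i)
          (Finset.mem_range.2 b1)
      have b3 := t1 _ _ (by positivity) (hc.up (A := 2 * P.C3 * 2 ^ i) (by positivity))
      have b4 := t1 _ _ (by positivity) (hc.down u0 C3)
      refine le_trans (mul_le_mul_of_nonneg_left (by linarith) (by positivity)) (b2.trans (by linarith))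
  · have a1 := d1cls_Brec hG hP hS hM hK (hρb ρ hρ).1
    have i1 := t2 _ ρ C3
    have i4 := J0 ρ
    have q3 : 0 < q ^ ρ := by positivity
    linarith

end Crest.Agent.R151
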