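import Crest.Agent.R151.D1DefNum

/-! R151 part D1: the deficit inequality. -/

set_option autoImplicit false
open MeasureTheory ProbabilityTheory Crest.ProbabilityR.FirstPassage Filter Topology
open scoped ENNReal

namespace Crest.Agent.R151

namespace Par
variable {G : Measure ℝ} [IsProbabilityMeasure G] [NullSingletonClass G] (hG : Nice G) (F : Face (mu G))
include hG

omit hG in
theorem D1Def_rpow4 {κ : ℝ} (hκ : 0 < κ) : (κ ^ 4) ^ (1 / 4 : ℝ) = κ := by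
  rw [← Real.rpow_natCast, ← Real.rpow_mul hκ.le]; norm_num

/-- the lucky event is rare -/
theorem D1Def_lucky {P : Par} (hK : 1 ≤ P.K) {h' L b1 : ℕ} (hh' : 1 ≤ h') {v z Q Y ε κ : ℝ} (hY : 0 < Y)
    (hQ : 1 ≤ Q) (hε : 0 < ε) (hκ : 0 < κ) (hκ1 : κ ≤ 1 / 2) (hL : 4 * Q ^ 2 / (κ * ε) ≤ L)
    (hb : ε * Y ≤ b1) (hz : P.zed F G h' v * h' ≤ Q ^ 2 * Y)
    (hgap : (P.zeta F G h' v : ℝ) - z ≤ 3 * Q ^ 2 * Y) :
    (iidLaw G).real {t | z + L * b1 ≤ P.Rt F G t 0 h' v 0} ≤ κ ^ 4 / 3 := by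
  have hb1 := (bdd_Rt (P := P) (F := F) (G := G) hK 0 0 h' v).add (Bdd.const (-(P.zeta F G h' v : ℝ)))
  have h4 := n4_Rt (P := P) (F := F) (G := G) hK 0 0 h' v hh'
  simp only [← sub_eq_add_neg] at hb1
  have hL' : 4 * Q ^ 2 ≤ L * (κ * ε) := by rwa [div_le_iff₀ (by positivity)] at hL
  have hQ2 : 0 < Q ^ 2 := by positivity
  have hL0 : (0 : ℝ) < L := by
    by_contra hn
    push Not at hn
    nlinarith [mul_pos hκ hε]
  have hL8 : 8 * Q ^ 2 ≤ L * ε := by nlinarith [mul_pos hL0 hε]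
  have hs : 0 < L * ε * Y / 2 := by positivity
  have hm := n4_markov hb1 (h4.le.trans hz) hs
  have hsub : {t | z + L * b1 ≤ P.Rt F G t 0 h' v 0} ⊆
      {t | L * ε * Y / 2 ≤ ((P.Rt F G t 0 h' v 0 - 0 : ℤ) : ℝ) - P.zeta F G h' v} := by
    intro t ht
    simp only [Set.mem_ofPred_eq, sub_zero] at ht ⊢
    have : (L : ℝ) * (ε * Y) ≤ L * b1 := mul_le_mul_of_nonneg_left hb hL0.le
    nlinarith
  refine (measureReal_mono hsub).trans (hm.trans ?_)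
  have e : Q ^ 2 * Y / (L * ε * Y / 2) ≤ κ / 2 := by
    rw [div_le_iff₀ hs]; nlinarith
  have := pow_le_pow_left₀ (by positivity) e 4
  have h5 : 0 ≤ κ ^ 4 := by positivity
  nlinarith

omit hG in
theorem D1Def_T1 {i0 smax : ℕ} {Y Cx n u ε : ℝ} (hY : 0 < Y) (hCx : 0 < Cx) (hn : 0 < n) (hu : 0 < u)
    (hε : 0 < ε) (hQ : 17280 * Cx / ε ≤ D1om ^ i0) :
    ∑ s ∈ Finset.Icc 1 smax, 4 * (D1om ^ (s + i0)) ^ 5 * Y *
      (2 * (40 * Cx * n * u) / (2 ^ s * 2 ^ i0 * u)) ≤ ε * n * Y / 6 := by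
  have h0 := D1om_pos
  have e : ∀ s ∈ Finset.Icc 1 smax, 4 * (D1om ^ (s + i0)) ^ 5 * Y *
      (2 * (40 * Cx * n * u) / (2 ^ s * 2 ^ i0 * u)) = 320 * Cx * n * Y / D1om ^ i0 * (1 / D1om ^ s) := by
    intro s _
    rw [← pow_add, D1om_two_pow, pow_add D1om s i0]
    field_simp
    ring
  rw [Finset.sum_congr rfl e, ← Finset.mul_sum]
  have hQ0 : 0 < D1om ^ i0 := pow_pos h0 _
  rw [div_le_iff₀ hε] at hQ
  calc _ ≤ 320 * Cx * n * Y / D1om ^ i0 * 9 :=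
        mul_le_mul_of_nonneg_left (D1om_sum smax) (by positivity)
    _ ≤ _ := by
        rw [div_mul_eq_mul_div, div_le_iff₀ hQ0]
        have := mul_le_mul_of_nonneg_left hQ (mul_pos hn hY).le
        nlinarith

omit hG in
theorem D1Def_T4 {i0 smax : ℕ} {Y Cf ε κ : ℝ} (hY : 0 < Y) (hCf : 0 < Cf) (hε : 0 < ε) (hκ : 0 < κ)
    (hQ : 4320 * Cf / ε ≤ D1om ^ i0) (hκ2 : κ ≤ ε / (1920 * Cf * (D1om ^ i0) ^ 2)) :
    4 * (D1om ^ i0) ^ 2 * Y * (κ ^ 4) ^ (1 / 4 : ℝ) +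
      ∑ s ∈ Finset.Icc 1 smax, (D1om ^ (s + i0)) ^ 2 * Y / √(2 ^ s * 2 ^ i0) ≤ ε * Y / (240 * Cf) := by
  have h0 := D1om_pos
  have hQ0 : 0 < D1om ^ i0 := pow_pos h0 _
  have e : ∀ s ∈ Finset.Icc 1 smax, (D1om ^ (s + i0)) ^ 2 * Y / √(2 ^ s * 2 ^ i0) =
      Y / D1om ^ i0 * (1 / D1om ^ s) := by
    intro s _
    rw [← pow_add, D1om_sqrt, pow_add D1om s i0]
    field_simp
  rw [Finset.sum_congr rfl e, ← Finset.mul_sum, D1Def_rpow4 hκ]
  have a1 : Y / D1om ^ i0 * ∑ s ∈ Finset.Icc 1 smax, 1 / D1om ^ s ≤ Y / D1om ^ i0 * 9 :=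
    mul_le_mul_of_nonneg_left (D1om_sum smax) (by positivity)
  rw [div_le_iff₀ hε] at hQ
  rw [le_div_iff₀ (by positivity)] at hκ2
  have a2 : Y / D1om ^ i0 * 9 ≤ ε * Y / (480 * Cf) := by
    rw [div_mul_eq_mul_div, div_le_div_iff₀ hQ0 (by positivity)]
    have := mul_le_mul_of_nonneg_left hQ hY.le
    nlinarith
  have a3 : 4 * (D1om ^ i0) ^ 2 * Y * κ ≤ ε * Y / (480 * Cf) := by
    rw [le_div_iff₀ (by positivity)]
    have := mul_le_mul_of_nonneg_left hκ2 hY.le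
    nlinarith
  have e2 : ε * Y / (240 * Cf) = ε * Y / (480 * Cf) + ε * Y / (480 * Cf) := by field_simp; ring
  linarith

omit hG in
theorem D1Def_psi {Ψ : ℕ → Env → ℝ} {Cf n b ε Y : ℝ} (hCf : 0 < Cf) (hn : 0 < n) (hε : 0 < ε) (hY : 0 < Y)
    (hb : ε * Y ≤ b) (h0 : ∀ j t, 0 ≤ Ψ j t) (hi : ∀ j, Integrable (Ψ j) (iidLaw G))
    (hE : ∀ j : ℕ, ∫ t, Ψ j t ∂iidLaw G ≤ Cf * n * √(8 * 2 ^ j) * (ε * Y / (240 * Cf))) :
    (iidLaw G).real {t | ∃ j : ℕ, 2 ^ j * n * b / 2 ≤ Ψ j t} ≤ 1 / 10 := by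
  have hb0 : 0 < b := lt_of_lt_of_le (by positivity) hb
  have := D1Def_union (iidLaw G) (fun j => {t | 2 ^ j * n * b / 2 ≤ Ψ j t}) (a := 1 / 40) (by norm_num)
    (fun j => by
      refine (D1Def_markov _ (h0 j) (hi j) (hE j) (by positivity)).trans ?_
      rw [div_le_iff₀ (by positivity)]
      have a1 : Cf * n * √(8 * 2 ^ j) * (ε * Y / (240 * Cf)) = n * √(8 * 2 ^ j) * (ε * Y) / 240 := by
        field_simp
      have a2 : (1 / 40 * (3 / 4 : ℝ) ^ j) * (2 ^ j * n * b / 2) = n * (3 * (3 / 2) ^ j) * b / 240 := by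
        have : (3 / 4 : ℝ) ^ j * 2 ^ j = (3 / 2) ^ j := by rw [← mul_pow]; norm_num
        rw [← this]; ring
      rw [a1, a2]
      have a3 := D1Def_sqrt_beta j
      gcongr)
  norm_num at this ⊢
  exact this

set_option maxHeartbeats 1600000 in
theorem deficit {c1 CE : ℝ} (hc1 : 0 < c1) (hCE : 0 < CE)
    (hco : ∀ (hmax : ℕ) (W : ℝ), F.Scale G hmax W → ∀ N : ℕ, 2 ≤ N → N ≤ hmax ^ 11 →
      (iidLaw G).real {t | ¬ F.Coer c1 CE W N t} ≤ 1 / N)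
    (K Kr : ℕ) (C0 : ℝ) (hC0 : (1 + 2 * CE) / c1 ≤ C0) {θ Smax : ℝ} (hθ : 0 < θ) (hSmax : 0 < Smax) :
    ∃ C2 : ℝ, 1 ≤ C2 ∧ ∀ C3 : ℝ, (⟨K, C0, C2, C3, Kr⟩ : Par).Ok F → (⟨K, C0, C2, C3, Kr⟩ : Par).MeanOk F G →
      ∃ r1 : ℝ, 1 ≤ r1 ∧ ∀ (hmax : ℕ) (W : ℝ), F.Scale G hmax W → ∀ (h : ℕ) (u S : ℝ), h ≤ hmax → W ≤ u →
        r1 * u ≤ h → S ≤ Smax → ((h : ℝ) / u) ^ (-(1 / 2 : ℝ)) ≤ S →
        (⟨K, C0, C2, C3, Kr⟩ : Par).del F G h u ≤ S →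
        (∀ (i h' : ℕ), h' ≤ h → h ≤ 2 * h' → (⟨K, C0, C2, C3, Kr⟩ : Par).Adm h' (2 ^ i * u) → 2 ^ i * u ≤ h' →
          (⟨K, C0, C2, C3, Kr⟩ : Par).zed F G h' (2 ^ i * u) ≤ (2 : ℝ) ^ ((i : ℝ) / 3) * S) →
        (∀ i : ℕ, 2 ^ i * u ≤ h →
          F.th (2 * C3 * 2 ^ i * u / h) - F.th (C3 * u / h) ≤ (2 : ℝ) ^ ((i : ℝ) / 3) * S) →
        (⟨K, C0, C2, C3, Kr⟩ : Par).del F G h u ≤ F.th (C3 * u / h) - F.th (u / h) + θ * S := by
  by_cases hK : 2 ≤ K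
  swap
  · exact ⟨1, le_rfl, fun C3 hP => absurd hP.two_le hK⟩
  have hμ := symNorm_mu G hG.hyp
  have hτ := F.τ1_pos hμ
  obtain ⟨Cc, hCcdef⟩ : ∃ Cc, Cc = 1 / F.τ1 + 2 := ⟨_, rfl⟩
  have hCc2 : 2 ≤ Cc := by rw [hCcdef]; have : 0 < 1 / F.τ1 := by positivity
                           linarith
  have hCc : 0 < Cc := by linarith
  obtain ⟨C5, hC5, hp0⟩ := p0_claim hG F hCc
  obtain ⟨Cf, hCf, hfld⟩ := fields (G := G)
  obtain ⟨Cx, hCx, hdec⟩ := dec_prob hG F hc1 hCE K hK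
  obtain ⟨r0, hr0, hlong⟩ := long_path hG F
  obtain ⟨c0, hc0, hth⟩ := F.th_small hμ one_pos
  obtain ⟨Ξ, hΞ⟩ : ∃ Ξ, Ξ = |F.ξp| + 1 := ⟨_, rfl⟩
  have hΞ1 : 1 ≤ Ξ := by rw [hΞ]; linarith [abs_nonneg F.ξp]
  obtain ⟨C7, hC7⟩ : ∃ C7, C7 = Ξ * (2 * Cc) + C5 + 4 := ⟨_, rfl⟩
  have hC70 : 0 < C7 := by rw [hC7]; positivity
  obtain ⟨ε, hε, e1, e2, e3⟩ : ∃ ε > (0 : ℝ), 2 * C7 * ε ≤ θ ∧ 8 * Cc * Smax * ε ≤ 1 ∧
      4 * Cc * Ξ * ε ≤ 1 := by
    refine ⟨min (θ / (2 * C7)) (min (1 / (8 * Cc * Smax)) (1 / (4 * Cc * Ξ))), by positivity, ?_, ?_, ?_⟩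
    · rw [mul_comm, ← le_div_iff₀ (by positivity)]; exact min_le_left _ _
    · rw [mul_comm, ← le_div_iff₀ (by positivity)]; exact (min_le_right _ _).trans (min_le_left _ _)
    · rw [mul_comm, ← le_div_iff₀ (by positivity)]; exact (min_le_right _ _).trans (min_le_right _ _)
  obtain ⟨i0, hQ⟩ := D1om_exists (17280 * Cx / ε + 4320 * Cf / ε)
  have hQ1 : 17280 * Cx / ε ≤ D1om ^ i0 := by
    have : 0 < 4320 * Cf / ε := by positivity
    linarith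
  have hQ2 : 4320 * Cf / ε ≤ D1om ^ i0 := by
    have : 0 < 17280 * Cx / ε := by positivity
    linarith
  have hQ3 := D1om_one_le_pow i0
  obtain ⟨κ, hκ, hκ1, hκ2⟩ : ∃ κ > (0 : ℝ), κ ≤ 1 / 2 ∧ κ ≤ ε / (1920 * Cf * (D1om ^ i0) ^ 2) :=
    ⟨min (1 / 2) (ε / (1920 * Cf * (D1om ^ i0) ^ 2)), by positivity, min_le_left _ _, min_le_right _ _⟩
  obtain ⟨L, hL⟩ : ∃ L : ℕ, 4 * (D1om ^ i0) ^ 2 / (κ * ε) ≤ L := ⟨_, Nat.le_ceil _⟩
  have hlam : (1 : ℝ) ≤ 2 ^ i0 := one_le_pow₀ (by norm_num)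
  obtain ⟨C2, hC2, hp0'⟩ := hp0 Kr L (2 ^ i0) (κ ^ 4 / 3) hlam (by positivity)
  refine ⟨C2, hC2, fun C3 hP hM => ?_⟩
  generalize hPdef : (⟨K, C0, C2, C3, Kr⟩ : Par) = P at hP hM ⊢
  have pK : P.K = K := by rw [← hPdef]
  have pC0 : P.C0 = C0 := by rw [← hPdef]
  have pC2 : P.C2 = C2 := by rw [← hPdef]
  have pC3 : P.C3 = C3 := by rw [← hPdef]
  have pKr : P.Kr = Kr := by rw [← hPdef]
  have hK1 : 1 ≤ P.K := by omega
  have hK2 : 2 ≤ P.K := by omega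
  obtain ⟨C9, hC9⟩ : ∃ C9, C9 = ((1 + 4 * CE) * (40 * Cx) + CE) / c1 + 160 * Cx * (Kr + C5 + 2) := ⟨_, rfl⟩
  have hC90 : 0 < C9 := by rw [hC9]; positivity
  obtain ⟨R, hR⟩ : ∃ R : ℝ, R = 1 + (1 + K) / ε + 3 * C9 / ε := ⟨_, rfl⟩
  have hRa : 0 < (1 + K : ℝ) / ε := by positivity
  have hRb : 0 < 3 * C9 / ε := by positivity
  have hR1 : 1 ≤ R := by rw [hR]; linarith
  have hR6 : 0 < R ^ 6 := by positivity
  have hc0' : 0 < 1 / c0 := by positivity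
  refine ⟨R ^ 6 + r0 + 1 / c0 + 2 * 2 ^ i0 + 4 * Cx + 10, by linarith,
    fun hmax W hS h u S hh hu hr hSm hS1 hdel hz hI => ?_⟩
  have hW1 := hS.one_le
  have hu1 : 1 ≤ u := hW1.trans hu
  have hu0 : 0 < u := by linarith
  have hr' : R ^ 6 + r0 + 1 / c0 + 2 * 2 ^ i0 + 4 * Cx + 10 ≤ h / u := by rwa [le_div_iff₀ hu0]
  obtain ⟨ρ, hρR, hρ6, hρ3, hρ2⟩ := D1Def_rho (r := h / u) hR1 (by linarith)
  have hρ1 : 1 ≤ ρ := hR1.trans hρR
  have hhu : (h : ℝ) = ρ ^ 6 * u := by rw [← hρ6]; field_simp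
  have hge : ∀ a : ℝ, a ≤ h / u → a * u ≤ h := fun a ha => by rwa [le_div_iff₀ hu0] at ha
  have hhr : (h : ℝ) / u ≤ h := div_le_self (by positivity) hu1
  have hh10 : (10 : ℝ) ≤ h := by linarith
  have hh0 : (0 : ℝ) < h := by linarith
  have hh1 : 1 ≤ h := by exact_mod_cast (by linarith : (1 : ℝ) ≤ h)
  have huh : u ≤ h := by have := hge 1 (by linarith); linarith
  rw [hρ3] at hS1
  have hS0 : 0 < S := lt_of_lt_of_le (by positivity) hS1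
  obtain ⟨Y, hY⟩ : ∃ Y, Y = S * h := ⟨_, rfl⟩
  have hY0 : 0 < Y := by rw [hY]; positivity
  have hYρ : ρ ^ 3 * u ≤ Y := by
    rw [div_le_iff₀ (by positivity)] at hS1
    have : ρ ^ 3 * u * 1 ≤ ρ ^ 3 * u * (S * ρ ^ 3) := mul_le_mul_of_nonneg_left hS1 (by positivity)
    rw [hY, hhu]; linarith only [this]
  -- the cell width
  have hKd := Par.pow_dep_le (P := P) hK2 hu0 huh
  rw [hρ2, pK] at hKd
  have hρ2' : 1 ≤ ρ ^ 2 := one_le_pow₀ hρ1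
  have hρ3' : ρ ≤ ρ ^ 3 := le_self_pow₀ hρ1 (by norm_num)
  have hρ0 : 0 < ρ := lt_of_lt_of_le one_pos hρ1
  have hKρ : 1 + K * ρ ^ 2 ≤ ε * Y := by
    have a1 : (1 + K : ℝ) / ε ≤ ρ := by linarith only [hR, hRb, hρR]
    rw [div_le_iff₀ hε] at a1
    have a2 : (1 + K : ℝ) * ρ ^ 2 ≤ ρ * ε * ρ ^ 2 := mul_le_mul_of_nonneg_right a1 (by positivity)
    have a3 : ρ ^ 3 ≤ Y := (le_mul_of_one_le_right (by positivity) hu1).trans hYρ
    have a4 := mul_le_mul_of_nonneg_left a3 hε.le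
    linarith only [a2, a4, hρ2']
  have hC9u : 3 * C9 * u ≤ ε * Y := by
    have a1 : 3 * C9 / ε ≤ ρ ^ 3 := by linarith only [hR, hRa, hρR, hρ3']
    rw [div_le_iff₀ hε] at a1
    have a2 := mul_le_mul_of_nonneg_right a1 hu0.le
    have a3 := mul_le_mul_of_nonneg_left hYρ hε.le
    linarith only [a2, a3]
  obtain ⟨b1, hb1⟩ : ∃ b1 : ℕ, b1 = ⌈ε * Y⌉₊ + K ^ P.dep h u := ⟨_, rfl⟩
  have hKd1 : 1 ≤ K ^ P.dep h u := Nat.one_le_pow _ _ (by omega)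
  have hb1a : ε * Y ≤ b1 := by
    rw [hb1]; push_cast
    have a1 := Nat.le_ceil (ε * Y)
    have a2 : (0 : ℝ) ≤ (K : ℝ) ^ P.dep h u := by positivity
    linarith only [a1, a2]
  have hb1b : (b1 : ℝ) ≤ 2 * (ε * Y) := by
    rw [hb1]; push_cast
    have a1 := Nat.ceil_lt_add_one (by positivity : 0 ≤ ε * Y)
    linarith only [a1, hKd, hKρ]
  have hb11 : 1 ≤ b1 := by omega
  have hb1R : (1 : ℝ) ≤ b1 := by exact_mod_cast hb11
  have hsm : 4 * (Cc * b1) ≤ h := by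
    have a1 : Cc * b1 ≤ Cc * (2 * (ε * Y)) := mul_le_mul_of_nonneg_left hb1b hCc.le
    have a2 : Y ≤ Smax * h := by rw [hY]; exact mul_le_mul_of_nonneg_right hSm hh0.le
    have a3 : 8 * Cc * ε * Y ≤ 8 * Cc * ε * (Smax * h) := mul_le_mul_of_nonneg_left a2 (by positivity)
    have a4 : 8 * Cc * Smax * ε * h ≤ 1 * h := mul_le_mul_of_nonneg_right e2 hh0.le
    linarith only [a1, a3, a4]
  obtain ⟨H1, H2, h', hsum, hdvd, g1, g2, g3, g4, g5⟩ :=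
    D1Def_heights (h := h) (b1 := b1) hτ hKd1 (by omega) (by rw [← hCcdef]; exact hsm)
  rw [← hCcdef] at g3 g4
  have hh'1 : 1 ≤ h' := by omega
  have hh'h : h' ≤ h := by omega
  have hh'R : (h : ℝ) ≤ 2 * h' := by exact_mod_cast g5
  have hh'R2 : (h' : ℝ) ≤ h := by exact_mod_cast hh'h
  have hh'0 : (0 : ℝ) < h' := by linarith only [hh'R, hh0]
  have hdiff : (h : ℝ) - h' ≤ 2 * Cc * b1 := by
    have : (h : ℝ) = H1 + h' + H2 := by exact_mod_cast hsum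
    linarith only [this, g3, g4]
  have hlu : 2 ^ i0 * u ≤ h' := by
    have := hge (2 * 2 ^ i0) (by linarith only [hr', hR6, hr0, hc0', hCx])
    linarith only [this, hh'R]
  have huh' : u ≤ h' := (le_mul_of_one_le_left hu0.le hlam).trans hlu
  have hadm : P.Adm h' u :=
    ⟨hh'1, by rw [pK]; exact (pow_dvd_pow K (Par.dep_mono hK2 hu0 hh'h)).trans hdvd⟩
  obtain ⟨smax, hs1, hs2⟩ := D1Def_smax (a := 2 ^ i0 * u) (by positivity) hlu
  -- envelopes and gaps in the classes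
  have hcls : ∀ s ≤ smax, P.zed F G h' (2 ^ s * 2 ^ i0 * u) * h' ≤ (D1om ^ (s + i0)) ^ 2 * Y ∧
      (P.zeta F G h' (2 ^ s * 2 ^ i0 * u) : ℝ) - P.zeta F G h u ≤ 3 * (D1om ^ (s + i0)) ^ 2 * Y := by
    intro s hs
    have a0 : (2 : ℝ) ^ s * 2 ^ i0 * u = 2 ^ (s + i0) * u := by rw [pow_add]
    have a1 : (2 : ℝ) ^ (s + i0) * u ≤ h' := by rw [← a0, mul_assoc]; exact hs1 s hs
    have a2 : (1 : ℝ) ≤ 2 ^ (s + i0) := one_le_pow₀ (by norm_num)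
    have a3 : u ≤ 2 ^ (s + i0) * u := le_mul_of_one_le_left hu0.le a2
    have a4 := hz (s + i0) h' hh'h g5 (hadm.mono hK2 hu0 a3) a1
    have a5 := hI (s + i0) (a1.trans hh'R2)
    rw [D1om_rpow3] at a4 a5
    have q1 : 1 ≤ (D1om ^ (s + i0)) ^ 2 := one_le_pow₀ (D1om_one_le_pow _)
    rw [a0]
    constructor
    · have := Par.zed_nonneg P F h' (2 ^ (s + i0) * u)
      calc _ ≤ (D1om ^ (s + i0)) ^ 2 * S * h := by gcongr
        _ = _ := by rw [hY]; ring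
    · have a6 := D1Def_gap hG hP hM hS hh'1 hh'h g5 hh (hu.trans a3) a1 hdel
        (D := (D1om ^ (s + i0)) ^ 2 * S) (by rw [pC3, ← mul_assoc]; exact a5)
      have a7 : |F.ξp| * (h - h') ≤ Ξ * (2 * Cc * (2 * (ε * Y))) := by
        apply mul_le_mul (by linarith only [hΞ]) _ (by linarith only [hh'R2]) (by linarith only [hΞ1])
        exact hdiff.trans (mul_le_mul_of_nonneg_left hb1b (by positivity))
      have a8 : 4 * Cc * Ξ * ε * Y ≤ 1 * Y := mul_le_mul_of_nonneg_right e3 hY0.le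
      have a9 : (h : ℝ) * ((D1om ^ (s + i0)) ^ 2 * S + S) = (D1om ^ (s + i0)) ^ 2 * Y + Y := by
        rw [hY]; ring
      have a10 : Y ≤ (D1om ^ (s + i0)) ^ 2 * Y := le_mul_of_one_le_left hY0.le q1
      linarith only [a6, a7, a8, a9, a10]
  have hcls0 := hcls 0 (Nat.zero_le _)
  simp only [pow_zero, one_mul, zero_add] at hcls0
  have hreach : (iidLaw G).real {t | P.Reach F t 0 h' (2 ^ i0 * u) 0 (P.zeta F G h u + C5 * b1)} ≤ κ ^ 4 := by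
    have a1 := hp0' P hP pKr pC2.ge hmax W hS h h' H1 H2 b1 u hsum hh hh'1 hb11 g1 g2 g3 g4 hu hlu
    have a2 := D1Def_lucky hG F hK1 hh'1 hY0 hQ3 hε hκ hκ1 hL hb1a hcls0.1 hcls0.2
    linarith only [a1, a2]
  -- the long crossing
  obtain ⟨n, hn⟩ : ∃ n : ℕ, n = h ^ 10 := ⟨_, rfl⟩
  have hnh : h ≤ n := by rw [hn]; exact Nat.le_self_pow (by norm_num) h
  have hn1 : 1 ≤ n := hh1.trans hnh
  have hn0 : (0 : ℝ) < n := by exact_mod_cast hn1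
  have hNn : h ≤ n * h' := hnh.trans (Nat.le_mul_of_pos_right _ hh'1)
  have hNR : (h : ℝ) ≤ (n * h' : ℕ) := by exact_mod_cast hNn
  have hlong' := hlong h h' u hu1 (hge r0 (by linarith only [hr', hR6, hc0', hCx, hlam])) hh'h g5
  rw [← hn] at hlong'
  have hco' : (iidLaw G).real {t | ¬ F.Coer c1 CE W (n * h') t} ≤ 1 / 10 := by
    refine (hco hmax W hS (n * h') ?_ ?_).trans ?_
    · exact_mod_cast (by linarith only [hNR, hh10] : (2 : ℝ) ≤ (n * h' : ℕ))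
    · rw [hn]
      calc h ^ 10 * h' ≤ h ^ 10 * h := Nat.mul_le_mul_left _ hh'h
        _ = h ^ 11 := by ring
        _ ≤ hmax ^ 11 := Nat.pow_le_pow_left hh 11
    · exact one_div_le_one_div_of_le (by norm_num) (by linarith only [hNR, hh10])
  obtain ⟨g, -, hg0, hgi, hgE, hgae⟩ := hdec P pK (by rw [pC0]; exact hC0) hmax W hS h' n (n * h') u 3 hadm
    (hh'h.trans hh) hu huh' hn1 le_rfl (by norm_num) (by linarith only [hNR, hr', hhr, hR6, hr0, hc0', hlam])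
  have hg : (iidLaw G).real {t | 40 * Cx * n * u ≤ g t} ≤ 1 / 10 := by
    refine (D1Def_markov _ hg0 hgi hgE (by positivity)).trans (le_of_eq ?_)
    field_simp; ring
  obtain ⟨ζ0, hζ0⟩ : ∃ ζ0 : ℤ, ζ0 = P.zeta F G h u + ⌈C5 * b1⌉ + b1 := ⟨_, rfl⟩
  have hζa : (P.zeta F G h u : ℝ) + C5 * b1 + b1 ≤ ζ0 := by
    rw [hζ0]; push_cast; linarith only [Int.le_ceil (C5 * b1)]
  have hζb : (ζ0 : ℝ) ≤ P.zeta F G h u + C5 * b1 + 1 + b1 := by
    rw [hζ0]; push_cast; linarith only [Int.ceil_lt_add_one (C5 * b1)]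
  have hCb : 0 ≤ C5 * b1 := by positivity
  have hκ4 : κ ^ 4 ≤ 1 := pow_le_one₀ hκ.le (by linarith)
  have hf := fun j : ℕ => hfld F P hK1 h' n smax b1 ζ0 u (2 ^ i0) (P.zeta F G h u)
    (P.zeta F G h u + C5 * b1) (κ ^ 4) (4 * (D1om ^ i0) ^ 2 * Y) (8 * 2 ^ j)
    (fun s => (D1om ^ (s + i0)) ^ 2 * Y) hh'1 hlam (by linarith only [hCb]) (by positivity) hκ4 (by positivity)
    (fun s => by have := D1om_pos; positivity)
    (by have : (1 : ℝ) ≤ 2 ^ j := one_le_pow₀ (by norm_num)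
        linarith only [this]) hreach
    (by have : max ((P.zeta F G h' (2 ^ i0 * u) : ℝ) - P.zeta F G h u) 0 ≤ 3 * (D1om ^ i0) ^ 2 * Y :=
          max_le hcls0.2 (by positivity)
        linarith only [this, hcls0.1])
    (fun s _ hs => (hcls s hs).1)
  choose Ψ hΨm hΨ0 hΨi hΨE hΨae using hf
  have hΨ := D1Def_psi (Ψ := Ψ) hCf hn0 hε hY0 hb1a hΨ0 hΨi (fun j => (hΨE j).trans
    (mul_le_mul_of_nonneg_left (D1Def_T4 hY0 hCf hε hκ hQ2 hκ2) (by positivity)))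
  have hb1h : (b1 : ℝ) ≤ h := by
    have := mul_le_mul_of_nonneg_right hCc2 (by positivity : (0 : ℝ) ≤ b1)
    linarith only [this, hsm, hb1R]
  have hzabs : |(ζ0 : ℝ)| ≤ (Kr + C5 + 2) * h := by
    have a1 : |(P.zeta F G h u : ℝ)| ≤ Kr * h := by
      have := Par.abs_zeta_le hG hP hS hh1 hh hu
      rw [pKr] at this; exact_mod_cast this
    have a2 : C5 * b1 ≤ C5 * h := mul_le_mul_of_nonneg_left hb1h hC5.le
    rw [abs_le] at a1 ⊢
    constructor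
    · linarith only [a1.1, hζa, hCb, hb1R, hh0, mul_pos hC5 hh0]
    · linarith only [a1.2, hζb, a2, hb1h, hh10]
  have hcore := D1Def_core hG F P hc1 hCE (by linarith only [hW1]) (N := n * h') (gv := 40 * Cx * n * u)
    (fun s => √(2 ^ s * 2 ^ i0) * ((D1om ^ (s + i0)) ^ 2 * Y)) (fun s => 4 * (D1om ^ (s + i0)) ^ 5 * Y)
    hn1 hh'1 (hu.trans huh') hu0 hlam hb11 (by rw [mul_assoc]; exact hs2) (by linarith only [hζa, hCb, hb1R]) hζa
    (fun s => by have := D1om_pos; positivity)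
    (fun s _ hs => by
      have a1 := (hcls s hs).2
      have q1 := D1om_one_le_pow (s + i0)
      have q2 : (D1om ^ (s + i0)) ^ 2 ≤ (D1om ^ (s + i0)) ^ 5 := pow_le_pow_right₀ q1 (by norm_num)
      have q3 := mul_le_mul_of_nonneg_right q2 hY0.le
      rw [← pow_add, D1om_sqrt]
      rw [← pow_add] at a1
      generalize D1om ^ (s + i0) = x at a1 q3 ⊢
      linarith only [a1, q3])
    hlong' hco' g hg hgae Ψ hΨ hΨae (by
      have a1 := D1Def_T1 (smax := smax) hY0 hCx hn0 hu0 hε hQ1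
      have a2 : ((1 + 4 * CE) * (40 * Cx * n * u) + CE * W * n) / c1 ≤
          ((1 + 4 * CE) * (40 * Cx) + CE) / c1 * (n * u) := by
        rw [div_mul_eq_mul_div]
        apply div_le_div_of_nonneg_right _ hc1.le
        have := mul_le_mul_of_nonneg_left hu (mul_pos hCE hn0).le
        linarith only [this]
      have a3 : 2 * |(ζ0 : ℝ)| * (40 * Cx * n * u) / h' ≤ 160 * Cx * (Kr + C5 + 2) * (n * u) := by
        rw [div_le_iff₀ hh'0]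
        have b1' : |(ζ0 : ℝ)| ≤ (Kr + C5 + 2) * (2 * h') :=
          hzabs.trans (mul_le_mul_of_nonneg_left hh'R (by positivity))
        have := mul_le_mul_of_nonneg_left b1' (by positivity : 0 ≤ 80 * Cx * n * u)
        linarith only [this]
      have a4 : C9 * (n * u) ≤ ε * n * Y / 3 := by
        have := mul_le_mul_of_nonneg_left hC9u hn0.le
        linarith only [this]
      have a5 : ε * n * Y ≤ n * b1 := by
        have := mul_le_mul_of_nonneg_left hb1a hn0.le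
        linarith only [this]
      rw [hC9] at a4
      linarith only [a1, a2, a3, a4, a5])
  -- conclusion
  have hthu : F.th (u / h) ≤ 1 := by
    refine (F.th_mono hμ (by positivity) ?_).trans hth
    have := hge (1 / c0) (by linarith only [hr', hR6, hr0, hCx, hlam])
    rw [div_le_iff₀ hh0]
    rw [div_mul_eq_mul_div, div_le_iff₀ hc0] at this
    linarith only [this]
  have hthu0 : 0 ≤ F.th (u / h) := F.th_nonneg hμ (by positivity)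
  obtain ⟨ξ, hξ⟩ : ∃ ξ, ξ = F.ξp + F.th (u / h) := ⟨_, rfl⟩
  rw [← hξ] at hcore
  have hξΞ : ξ ≤ Ξ := by rw [hξ, hΞ]; linarith only [hthu, le_abs_self F.ξp]
  have c1' : ξ * h' - 1 ≤ ζ0 + b1 := by
    have a1 := Int.lt_floor_add_one (ξ * ((n * h' : ℕ) : ℝ))
    push_cast at a1 hcore
    have hn1R : (1 : ℝ) ≤ n := by exact_mod_cast hn1
    by_contra hlt
    push Not at hlt
    have := mul_lt_mul_of_pos_left hlt hn0
    linarith only [this, a1, hcore, hn1R]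
  have c2' : ξ * h - C7 * b1 ≤ P.zeta F G h u := by
    have a1 : ξ * (h - h') ≤ Ξ * (2 * Cc * b1) :=
      (mul_le_mul_of_nonneg_right hξΞ (by linarith only [hh'R2])).trans
        (mul_le_mul_of_nonneg_left hdiff (by linarith only [hΞ1]))
    rw [hC7]; linarith only [a1, c1', hζb, hb1R]
  have c3' : C7 * b1 ≤ θ * S * h := by
    have a1 : C7 * b1 ≤ C7 * (2 * (ε * Y)) := mul_le_mul_of_nonneg_left hb1b hC70.le
    have a2 : 2 * C7 * ε * Y ≤ θ * Y := mul_le_mul_of_nonneg_right e1 hY0.le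
    rw [hY] at a1 a2; linarith only [a1, a2]
  have c4' : ξ - θ * S ≤ (P.zeta F G h u : ℝ) / h := by rw [le_div_iff₀ hh0]; linarith only [c2', c3']
  unfold Par.del Par.slope
  rw [pC3]
  linarith only [c4', hξ]
end Par

end Crest.Agent.R151
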