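import Crest.Agent.R151.D1Reach

/-! R151 part D1: stationarity, the mean of the reach, trivial bounds. -/

set_option autoImplicit false
open MeasureTheory ProbabilityTheory Crest.ProbabilityR.FirstPassage Filter Topology
open scoped ENNReal

namespace Crest.Agent.R151

variable {G : Measure ℝ} [IsProbabilityMeasure G] [NullSingletonClass G]

theorem d1m_cast : Measurable fun x : ℤ => (x : ℝ) := measurable_of_countable _

omit [NullSingletonClass G] in
theorem d1m_ident (v : V) {α : Type} [MeasurableSpace α] {f : Env → α} (hf : Measurable f) :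
    IdentDistrib (fun t => f (shift v t)) f (iidLaw G) (iidLaw G) :=
  ⟨(hf.comp (measurable_shift v)).aemeasurable, hf.aemeasurable, by
    have h := Measure.map_map (μ := iidLaw G) hf (measurable_shift v)
    rw [(measurePreserving_shift G v).map_eq] at h
    exact h.symm⟩

omit [NullSingletonClass G] in
theorem d1m_n4_le {X : Env → ℝ} (hX : Measurable X) {B : ℝ} {h : ℕ} (h1 : 1 ≤ h) (hB : 0 ≤ B)
    (H : ∀ t, |X t| ≤ B * h) : n4 G X / h ≤ B := by
  have h0 : (0 : ℝ) < h := by exact_mod_cast h1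
  rw [div_le_iff₀ h0]
  refine (n4_mono hX (Bdd.const _) H).trans_eq ?_
  rw [n4_const, abs_of_nonneg (by positivity)]

namespace Par

theorem d1m_C0 {P : Par} {μ : ℝ × ℝ → ℝ} {F : Face μ} {t : Env} {p : ℤ → V} {y i j : ℤ} {h : ℕ} {u : ℝ}
    (hg : P.GoodP F t p y h u i j) : 0 ≤ P.C0 * (h + u) :=
  (abs_nonneg _).trans (hg.base.2.2 i le_rfl hg.base.1.1.1)

theorem d1m_C0_le {P : Par} {μ : ℝ × ℝ → ℝ} {F : Face μ} (hP : P.Ok F) {h : ℕ} {u : ℝ} (huh : u ≤ h) :
    P.C0 * (h + u) ≤ P.Kr * h := by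
  have h1 := hP.one_le_C0
  have h2 := hP.Kr_ge
  have h3 := abs_nonneg F.ξn
  have h4 := abs_nonneg F.ξp
  calc P.C0 * (h + u) ≤ P.C0 * (h + h) := by gcongr
    _ = 2 * P.C0 * h := by ring
    _ ≤ _ := by gcongr; linarith

section stat
variable {P : Par} {F : Face (mu G)} (hK : 1 ≤ P.K) (y g : ℤ) (h : ℕ) (u : ℝ)
include hK

theorem bdd_Rt : Bdd fun t => ((P.Rt F G t y h u g - g : ℤ) : ℝ) := by
  refine ⟨d1m_cast.comp ((measurable_Rt G hK y h u g).sub measurable_const),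
    |(P.zeta F G h u : ℝ)| + |max (P.zeta F G h u : ℝ) (P.C0 * (h + u))|, fun t => ?_⟩
  have h1 : ((g + P.zeta F G h u : ℤ) : ℝ) ≤ P.Rt F G t y h u g := Int.cast_le.2 (add_zeta_le_Rt G)
  have h2 := Rt_le (P := P) (F := F) G (t := t) (y := y) (g := g) (h := h) (u := u)
  have h3 := neg_abs_le (P.zeta F G h u : ℝ)
  have h4 := le_abs_self (max (P.zeta F G h u : ℝ) (P.C0 * (h + u)))
  have h5 := abs_nonneg (P.zeta F G h u : ℝ)
  have h6 := abs_nonneg (max (P.zeta F G h u : ℝ) (P.C0 * (h + u)))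
  push_cast at h1 ⊢
  exact abs_le.2 ⟨by linarith, by linarith⟩
theorem bdd_Lt : Bdd fun t => ((g - P.Lt F G t y h u g : ℤ) : ℝ) := by
  refine ⟨d1m_cast.comp (measurable_const.sub (measurable_Lt G hK y h u g)),
    |(P.zeta F G h u : ℝ)| + |max (P.zeta F G h u : ℝ) (P.C0 * (h + u))|, fun t => ?_⟩
  have h1 : (P.Lt F G t y h u g : ℝ) ≤ ((g - P.zeta F G h u : ℤ) : ℝ) := Int.cast_le.2 (Lt_le_sub_zeta G)
  have h2 := le_Lt (P := P) (F := F) G (t := t) (y := y) (g := g) (h := h) (u := u)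
  have h3 := neg_abs_le (P.zeta F G h u : ℝ)
  have h4 := le_abs_self (max (P.zeta F G h u : ℝ) (P.C0 * (h + u)))
  have h5 := abs_nonneg (P.zeta F G h u : ℝ)
  have h6 := abs_nonneg (max (P.zeta F G h u : ℝ) (P.C0 * (h + u)))
  push_cast at h1 ⊢
  exact abs_le.2 ⟨by linarith, by linarith⟩
theorem bdd_Mup : Bdd fun t => P.Mup F G t y h u g := by
  refine ⟨measurable_Mup G hK y h u g, |P.C0 * (h + u) + |P.slope F G h u| * h|, fun t => ?_⟩
  rw [abs_of_nonneg (Mup_nonneg G)]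
  by_cases h0 : 0 ≤ P.C0 * (h + u)
  · exact (Mup_le G h0).trans (le_abs_self _)
  · exact Mup_le_of G (abs_nonneg _) fun p i j m hg => absurd (d1m_C0 hg) h0
theorem bdd_Mdn : Bdd fun t => P.Mdn F G t y h u g := by
  refine ⟨measurable_Mdn G hK y h u g, |2 * P.C0 * (h + u) + |P.slope F G h u| * h|, fun t => ?_⟩
  rw [abs_of_nonneg (Mdn_nonneg G)]
  by_cases h0 : 0 ≤ P.C0 * (h + u)
  · exact (Mdn_le G h0).trans (le_abs_self _)
  · exact Mdn_le_of G (abs_nonneg _) fun p i j m hg => absurd (d1m_C0 hg) h0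
/-- stationarity (`Rt_shift`) -/
theorem identDistrib_Rt : IdentDistrib (fun t => P.Rt F G t y h u g - g) (fun t => P.Rt F G t 0 h u 0)
    (iidLaw G) (iidLaw G) := by
  have h1 := d1m_ident (G := G) (g, y) (measurable_Rt (F := F) G hK 0 h u 0)
  simpa only [Rt_shift, zero_add] using h1
/-- `P(a ≤ g - Lt g) = P(g ≤ Rt (g - a)) = P(a ≤ Rt 0)` by `Lt_le_iff`; integer laws with the same tails agree -/
theorem identDistrib_Lt : IdentDistrib (fun t => g - P.Lt F G t y h u g) (fun t => P.Rt F G t 0 h u 0)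
    (iidLaw G) (iidLaw G) := by
  have m1 : Measurable fun t => g - P.Lt F G t y h u g :=
    measurable_const.sub (measurable_Lt G hK y h u g)
  have m2 := measurable_Rt (F := F) G hK 0 h u 0
  refine ⟨m1.aemeasurable, m2.aemeasurable, Measure.ext_of_Ici _ _ fun a => ?_⟩
  rw [Measure.map_apply m1 measurableSet_Ici, Measure.map_apply m2 measurableSet_Ici,
    ← (identDistrib_Rt hK y (g - a) h u).measure_mem_eq measurableSet_Ici]
  congr 1
  ext t
  have h1 := Lt_le_iff (P := P) (F := F) G (t := t) (y := y) (g := g) (h := h) (u := u) (x := g - a)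
  simp only [Set.mem_preimage, Set.mem_Ici]
  omega
theorem integral_Rt : ∫ t, ((P.Rt F G t y h u g - g : ℤ) : ℝ) ∂iidLaw G =
    ∫ t, (P.Rt F G t 0 h u 0 : ℝ) ∂iidLaw G :=
  ((identDistrib_Rt hK y g h u).comp d1m_cast).integral_eq
theorem integral_Lt : ∫ t, ((g - P.Lt F G t y h u g : ℤ) : ℝ) ∂iidLaw G =
    ∫ t, (P.Rt F G t 0 h u 0 : ℝ) ∂iidLaw G :=
  ((identDistrib_Lt hK y g h u).comp d1m_cast).integral_eq
theorem n4_Rt (hh : 1 ≤ h) : n4 G (fun t => ((P.Rt F G t y h u g - g : ℤ) : ℝ) - P.zeta F G h u) =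
    P.zed F G h u * h := by
  have h0 : (h : ℝ) ≠ 0 := by positivity
  have h1 := ((identDistrib_Rt (F := F) hK y g h u).comp
    (measurable_of_countable fun x : ℤ => ((x : ℝ) - P.zeta F G h u) ^ 4)).integral_eq
  rw [zed, div_mul_cancel₀ _ h0, n4, n4]
  simp only [Int.cast_sub (P.Rt F G _ 0 h u 0)]
  exact congrArg (· ^ (1 / 4 : ℝ)) h1
theorem n4_Lt (hh : 1 ≤ h) : n4 G (fun t => ((g - P.Lt F G t y h u g : ℤ) : ℝ) - P.zeta F G h u) =
    P.zed F G h u * h := by
  have h0 : (h : ℝ) ≠ 0 := by positivity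
  have h1 := ((identDistrib_Lt (F := F) hK y g h u).comp
    (measurable_of_countable fun x : ℤ => ((x : ℝ) - P.zeta F G h u) ^ 4)).integral_eq
  rw [zed, div_mul_cancel₀ _ h0, n4, n4]
  simp only [Int.cast_sub (P.Rt F G _ 0 h u 0)]
  exact congrArg (· ^ (1 / 4 : ℝ)) h1
theorem n4_Mup (hh : 1 ≤ h) : n4 G (fun t => P.Mup F G t y h u g) = P.mup F G h u * h := by
  have h0 : (h : ℝ) ≠ 0 := by positivity
  have h1 := n4_comp (G := G) (measurable_Mup (F := F) G hK 0 h u 0) (measurePreserving_shift G (g, y))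
  rw [mup, div_mul_cancel₀ _ h0, ← h1]
  simp only [Mup_shift, zero_add]
theorem n4_Mdn (hh : 1 ≤ h) : n4 G (fun t => P.Mdn F G t y h u g) = P.mdn F G h u * h := by
  have h0 : (h : ℝ) ≠ 0 := by positivity
  have h1 := n4_comp (G := G) (measurable_Mdn (F := F) G hK 0 h u 0) (measurePreserving_shift G (g, y))
  rw [mdn, div_mul_cancel₀ _ h0, ← h1]
  simp only [Mdn_shift, zero_add]
theorem prob_reach (a : ℝ) : (iidLaw G).real {t | P.Reach F t y h u g a} =
    (iidLaw G).real {t | P.Reach F t 0 h u 0 a} := by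
  rw [← prob_shift0 G (g, y) (measurableSet_reach (F := F) hK 0 h u 0 a)]
  simp only [Set.mem_ofPred_eq, reach_shift, zero_add]
end stat

theorem zed_nonneg (P : Par) (F : Face (mu G)) (h : ℕ) (u : ℝ) : 0 ≤ P.zed F G h u :=
  div_nonneg (n4_nonneg _) (Nat.cast_nonneg _)
theorem mup_nonneg (P : Par) (F : Face (mu G)) (h : ℕ) (u : ℝ) : 0 ≤ P.mup F G h u :=
  div_nonneg (n4_nonneg _) (Nat.cast_nonneg _)
theorem mdn_nonneg (P : Par) (F : Face (mu G)) (h : ℕ) (u : ℝ) : 0 ≤ P.mdn F G h u :=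
  div_nonneg (n4_nonneg _) (Nat.cast_nonneg _)

/-- Pointwise (for nonnegative weights) `c(0,Rt) ≤ u + c(0,ζ) + LL 0 h 0 (2 Kr h)`: if `Rt > ζ` there is a good crossing from
`x ≤ 0` to `Rt`, `x ≥ ζ - C0(h+u)`, and `tau_monge` gives `c(x,ζ) + c(0,Rt) ≤ c(x,Rt) + c(0,ζ)`; if `Rt = ζ` trivial.
Then `strat` gives `η(E Rt/h) ≤ C3 u/h`, and `Face.le_of_η_le`. -/
theorem meanOk (hG : Nice G) (F : Face (mu G)) (Kr : ℕ) : ∃ CM > 0, ∀ P : Par, P.Ok F → P.Kr = Kr →
    P.C2 + CM ≤ P.C3 → P.MeanOk F G := by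
  have hμ := symNorm_mu G hG.hyp
  obtain ⟨C, hC, hL⟩ := F.integral_LL hG (2 * Kr)
  refine ⟨1 + C, by linarith, fun P hP hKr hC3 hmax W hS h u h1 h2 hu huh => ?_⟩
  subst hKr
  obtain ⟨iL, bL⟩ := hL hmax W hS h 0 0 h1 h2
  have hK : 1 ≤ P.K := le_trans (by norm_num) hP.two_le
  have h0 : (0 : ℝ) < h := by exact_mod_cast h1
  have hW := hS.one_le
  have hζ := abs_le.1 (P.abs_zeta_le hG hP hS h1 h2 hu)
  have hC0 := d1m_C0_le hP huh
  have lo : ∀ t, P.zeta F G h u ≤ P.Rt F G t 0 h u 0 := fun t => by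
    simpa only [zero_add] using add_zeta_le_Rt (P := P) (F := F) G (t := t) (y := 0) (g := 0) (h := h) (u := u)
  have up : ∀ t, P.Rt F G t 0 h u 0 ≤ P.Kr * h := fun t => by
    have a1 := Rt_le (P := P) (F := F) G (t := t) (y := 0) (g := 0) (h := h) (u := u)
    have a2 : (P.zeta F G h u : ℝ) ≤ P.Kr * h := by exact_mod_cast hζ.2
    rw [Int.cast_zero, zero_add] at a1
    exact_mod_cast a1.trans (max_le a2 hC0)
  have bd : ∀ t, |P.Rt F G t 0 h u 0| ≤ P.Kr * h := fun t => abs_le.2 ⟨hζ.1.trans (lo t), up t⟩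
  have mR := measurable_Rt (F := F) G hK 0 h u 0
  have iR : Integrable (fun t => (P.Rt F G t 0 h u 0 : ℝ)) (iidLaw G) := by
    simpa only [sub_zero] using (bdd_Rt (F := F) hK 0 0 h u).integrable (G := G)
  have ic : Integrable (fun t => F.c t Set.univ 0 h 0 (P.zeta F G h u)) (iidLaw G) :=
    F.integrable_c hG (conn_slabTo h1)
  have key : ∀ t : Env, (∀ e, 0 ≤ t e) → tau t Set.univ 0 h 0 (P.Rt F G t 0 h u 0) ≤
      F.c t Set.univ 0 h 0 (P.zeta F G h u) + F.LL t 0 h 0 (2 * P.Kr * h) +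
        F.a0 * (P.Rt F G t 0 h u 0 : ℝ) + (u + F.b0 * h) := by
    intro t ht
    rcases Rt_spec (P := P) (F := F) G (t := t) (y := 0) (g := 0) (h := h) (u := u) with e | ⟨p, i, j, hg, a1, a2⟩
    · have a1 := F.LL_nonneg t 0 h 0 (2 * P.Kr * h)
      rw [e, zero_add, Face.c]
      push_cast
      linarith
    · have a3 := (F.c_le_cc ht hg.base.1).trans hg.base.2.1
      have a4 := tau_monge (y := 0) ht h1 a1 (lo t)
      have a5 := (abs_le.1 ((hg.base.2.2 j hg.base.1.1.1 le_rfl).trans hC0)).2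
      have a6 : (p j).1 - (p i).1 ≤ P.Kr * h := by exact_mod_cast a5
      have a7 := lo t
      have a8 : (0 : ℤ) ≤ P.Kr * h := by positivity
      have a9 := F.neg_c_le_LL t 0 h (k := 0) (x := (p i).1) (u := P.zeta F G h u)
        (R := 2 * P.Kr * h) (by push_cast; rw [mul_assoc, abs_le]; omega)
        (by push_cast; rw [mul_assoc, abs_le]; omega)
      rw [a2] at a3
      simp only [Face.c] at a3 a9 ⊢
      push_cast
      linarith
  have b1 := strat hG h1 mR (dependsOnly_Rt G 0 h u 0) bd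
  have b2 := integral_mono_ae
    (integrable_tau_rand0 hG (X := fun _ => 0) measurable_const mR
      (fun _ => by rw [abs_zero]; positivity) bd 0 h1)
    (((ic.add iL).add (iR.const_mul F.a0)).add (integrable_const (u + F.b0 * h)))
    ((ae_nonneg G hG.hyp.nonneg).mono key)
  rw [integral_add' ((ic.add iL).add (iR.const_mul F.a0)) (integrable_const _),
    integral_add' (ic.add iL) (iR.const_mul F.a0), integral_add' ic iL, integral_const_mul,
    integral_const, probReal_univ, one_smul] at b2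
  have b3 : ∫ t, F.c t Set.univ 0 h 0 (P.zeta F G h u) ∂iidLaw G ≤ P.C2 * u :=
    P.ec_zeta_le hG hP hS h1 h2 hu
  set m := ∫ t, (P.Rt F G t 0 h u 0 : ℝ) ∂iidLaw G with hm
  have b4 : mu G (m, h) = h * mu G (m / h, 1) := by
    have := hμ.smul h (m / h, 1)
    rwa [Prod.smul_mk, smul_eq_mul, smul_eq_mul, mul_one, mul_div_cancel₀ _ h0.ne', abs_of_pos h0] at this
  have b5 : C * W ≤ C * u := by gcongr
  have b6 : (P.C2 + (1 + C)) * u ≤ P.C3 * u := by gcongr; linarith
  have b7 : F.η (m / h) ≤ P.C3 * u / h := by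
    rw [le_div_iff₀ h0, Face.η]
    have : (mu G (m / h, 1) - F.a0 * (m / h) - F.b0) * h = h * mu G (m / h, 1) - F.a0 * m - F.b0 * h := by
      field_simp
    rw [this, ← b4]
    linarith
  have b8 : 0 ≤ P.C3 * u / h := by
    have := hP.one_le_C2.trans hP.C2_le
    have : 0 ≤ u := by linarith
    positivity
  have b9 := F.le_of_η_le hμ b8 b7
  rwa [div_le_iff₀ h0, mul_comm] at b9

section bounds
variable (hG : Nice G) {F : Face (mu G)} {P : Par} (hP : P.Ok F) {hmax h : ℕ} {W u : ℝ}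
  (hS : F.Scale G hmax W) (h1 : 1 ≤ h) (h2 : h ≤ hmax) (hu : W ≤ u) (huh : u ≤ h)
include hG hP hS h1 h2 hu huh

theorem del_nonneg (hM : P.MeanOk F G) : 0 ≤ P.del F G h u := by
  have hK : 1 ≤ P.K := le_trans (by norm_num) hP.two_le
  have h0 : (0 : ℝ) < h := by exact_mod_cast h1
  have iR : Integrable (fun t => (P.Rt F G t 0 h u 0 : ℝ)) (iidLaw G) := by
    simpa only [sub_zero] using (bdd_Rt (F := F) hK 0 0 h u).integrable (G := G)
  have a1 := integral_mono (integrable_const (P.zeta F G h u : ℝ)) iR fun t => Int.cast_le.2 (by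
    simpa only [zero_add] using
      add_zeta_le_Rt (P := P) (F := F) G (t := t) (y := 0) (g := 0) (h := h) (u := u))
  rw [integral_const, probReal_univ, one_smul] at a1
  have a2 := a1.trans (hM hmax W hS h u h1 h2 hu huh)
  rw [del, slope, sub_nonneg, div_le_iff₀ h0, mul_comm]
  exact a2
theorem del_le : P.del F G h u ≤ F.th (P.C3 * u / h) + 2 * P.Kr := by
  have a1 := (abs_le.1 (P.abs_slope_le hG hP hS h1 h2 hu)).1
  have a2 := hP.one_le_C0
  have a3 := hP.Kr_ge
  have a4 := abs_nonneg F.ξn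
  have a5 := le_abs_self F.ξp
  rw [del]
  linarith
theorem env_le : P.zed F G h u + P.mup F G h u + P.mdn F G h u ≤ 7 * P.Kr := by
  have hK : 1 ≤ P.K := le_trans (by norm_num) hP.two_le
  have hC0 := d1m_C0_le hP huh
  have hW := hS.one_le
  have a0 : 0 ≤ P.C0 * (h + u) := by
    have := hP.one_le_C0
    have : 0 ≤ u := by linarith
    positivity
  have hs : |P.slope F G h u| * h ≤ P.Kr * h :=
    mul_le_mul_of_nonneg_right (P.abs_slope_le hG hP hS h1 h2 hu) (Nat.cast_nonneg _)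
  have hζ : |(P.zeta F G h u : ℝ)| ≤ P.Kr * h := by exact_mod_cast P.abs_zeta_le hG hP hS h1 h2 hu
  have hζ' := abs_le.1 hζ
  have a1 : P.zed F G h u ≤ 2 * P.Kr := by
    refine d1m_n4_le (X := fun t => ((P.Rt F G t 0 h u 0 - P.zeta F G h u : ℤ) : ℝ))
      (d1m_cast.comp ((measurable_Rt G hK 0 h u 0).sub measurable_const)) h1 (by positivity) fun t => ?_
    have b1 : ((0 + P.zeta F G h u : ℤ) : ℝ) ≤ P.Rt F G t 0 h u 0 := Int.cast_le.2 (add_zeta_le_Rt G)
    have b2 := Rt_le (P := P) (F := F) G (t := t) (y := 0) (g := 0) (h := h) (u := u)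
    have b3 := max_le hζ'.2 hC0
    push_cast at b1 b2 ⊢
    exact abs_le.2 ⟨by linarith [hζ'.1, hζ'.2], by linarith [hζ'.1]⟩
  have a2 : P.mup F G h u ≤ 2 * P.Kr := by
    refine d1m_n4_le (measurable_Mup G hK 0 h u 0) h1 (by positivity) fun t => ?_
    rw [abs_of_nonneg (Mup_nonneg G)]
    exact (Mup_le G a0).trans (by linarith)
  have a3 : P.mdn F G h u ≤ 3 * P.Kr := by
    refine d1m_n4_le (measurable_Mdn G hK 0 h u 0) h1 (by positivity) fun t => ?_
    rw [abs_of_nonneg (Mdn_nonneg G)]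
    exact (Mdn_le G a0).trans (by linarith)
  linarith
end bounds
end Par

end Crest.Agent.R151
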