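import Crest.Agent.R151.D1Acc
import Crest.Agent.R151.D1Mean

/-! R151 part D1: the excess fields along adaptive cell sequences (`lpp_field` with `γ = 4`, `n4_markov`). -/

set_option autoImplicit false
open MeasureTheory ProbabilityTheory Crest.ProbabilityR.FirstPassage Filter Topology
open scoped ENNReal

namespace Crest.Agent.R151

namespace Par
variable {G : Measure ℝ} [IsProbabilityMeasure G] [NullSingletonClass G]

omit [IsProbabilityMeasure G] [NullSingletonClass G] in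
theorem D1Fld_disj (h : ℕ) :
    Pairwise fun i j : ℕ => Disjoint (slabEdges ((i : ℤ) * h) h) (slabEdges ((j : ℤ) * h) h) := by
  have key : ∀ i j : ℕ, i < j → Disjoint (slabEdges ((i : ℤ) * h) h) (slabEdges ((j : ℤ) * h) h) := by
    intro i j hij
    refine disjoint_slabEdges ?_
    have h1 : (i : ℤ) + 1 ≤ j := by exact_mod_cast hij
    have h2 : (0 : ℤ) ≤ h := Int.natCast_nonneg h
    nlinarith
  intro i j hij
  rcases lt_or_gt_of_ne hij with h1 | h1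
  · exact key i j h1
  · exact (key j i h1).symm

theorem D1Fld_bdd {F : Face (mu G)} {P : Par} (hK : 1 ≤ P.K) (y g : ℤ) (h : ℕ) (v : ℝ) :
    Bdd fun t => ((P.Rt F G t y h v g - g : ℤ) : ℝ) - P.zeta F G h v := by
  simpa only [sub_eq_add_neg] using
    Bdd.add (bdd_Rt (F := F) hK y g h v) (Bdd.const (-(P.zeta F G h v : ℝ)))

theorem D1Fld_meas0 {F : Face (mu G)} {P : Par} (hK : 1 ≤ P.K) (h : ℕ) (v a z : ℝ) (y g : ℤ) :
    Measurable (P.Phi0 F G h v a z y g) := by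
  unfold Phi0
  exact Measurable.ite (measurableSet_reach hK y h v g a)
    ((bdd_Rt (F := F) hK y g h v).1.sub_const _) measurable_const

theorem D1Fld_measS {F : Face (mu G)} {P : Par} (hK : 1 ≤ P.K) (h : ℕ) (v τ : ℝ) (y g : ℤ) :
    Measurable (P.PhiS F G h v τ y g) := by
  unfold PhiS
  exact ((D1Fld_bdd hK y g h v).1.sub_const _).max measurable_const

omit [IsProbabilityMeasure G] [NullSingletonClass G] in
theorem D1Fld_nonneg0 {F : Face (mu G)} {P : Par} (h : ℕ) (v : ℝ) {a z : ℝ} (hz : z ≤ a) (y g : ℤ)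
    (t : Env) : 0 ≤ P.Phi0 F G h v a z y g t := by
  unfold Phi0
  split_ifs with hr
  · have := Reach.le_Rt G hr
    push_cast
    linarith
  · exact le_rfl

omit [IsProbabilityMeasure G] [NullSingletonClass G] in
theorem D1Fld_dep0 {F : Face (mu G)} {P : Par} (h : ℕ) (v a z : ℝ) (y g : ℤ) :
    DependsOnly (P.Phi0 F G h v a z y g) (slabEdges y h) := by
  intro t t' e
  have h1 : P.Reach F t y h v g a = P.Reach F t' y h v g a := dependsOnly_reach y h v g a t t' e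
  have h2 : P.Rt F G t y h v g = P.Rt F G t' y h v g := dependsOnly_Rt G y h v g t t' e
  unfold Phi0
  rw [h2, h1]

omit [IsProbabilityMeasure G] [NullSingletonClass G] in
theorem D1Fld_depS {F : Face (mu G)} {P : Par} (h : ℕ) (v τ : ℝ) (y g : ℤ) :
    DependsOnly (P.PhiS F G h v τ y g) (slabEdges y h) := by
  intro t t' e
  have h2 : P.Rt F G t y h v g = P.Rt F G t' y h v g := dependsOnly_Rt G y h v g t t' e
  unfold PhiS
  rw [h2]

theorem D1Fld_pos0 {F : Face (mu G)} {P : Par} (hK : 1 ≤ P.K) (h : ℕ) (v a z : ℝ) (y g : ℤ) :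
    (iidLaw G).real {t | 0 < P.Phi0 F G h v a z y g t} ≤
      (iidLaw G).real {t | P.Reach F t 0 h v 0 a} := by
  rw [← prob_reach hK y g h v a]
  refine measureReal_mono fun t ht => ?_
  by_contra hr
  have ht' : 0 < P.Phi0 F G h v a z y g t := ht
  unfold Phi0 at ht'
  rw [if_neg (show ¬ P.Reach F t y h v g a from hr)] at ht'
  exact lt_irrefl _ ht'

theorem D1Fld_tail0 {F : Face (mu G)} {P : Par} (hK : 1 ≤ P.K) {h : ℕ} (hh : 1 ≤ h) (v a z : ℝ)
    (y g : ℤ) {M s : ℝ} (hM : P.zed F G h v * h + max ((P.zeta F G h v : ℝ) - z) 0 ≤ M)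
    (hs : 0 < s) : (iidLaw G).real {t | s < P.Phi0 F G h v a z y g t} ≤ (M / s) ^ 4 := by
  have hb := D1Fld_bdd (F := F) hK y g h v
  have hc := Bdd.const (max ((P.zeta F G h v : ℝ) - z) 0)
  have h1 := n4_add_le (G := G) hb hc
  rw [n4_Rt hK y g h v hh, n4_const, abs_of_nonneg (le_max_right _ _)] at h1
  refine le_trans (measureReal_mono fun t ht => ?_) (n4_markov (hb.add hc) (h1.trans hM) hs)
  have ht' : s < P.Phi0 F G h v a z y g t := ht
  unfold Phi0 at ht'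
  split_ifs at ht' with hr
  · have := le_max_left ((P.zeta F G h v : ℝ) - z) 0
    show s ≤ _
    linarith
  · exact absurd hs (not_lt.2 ht'.le)

theorem D1Fld_tailS {F : Face (mu G)} {P : Par} (hK : 1 ≤ P.K) {h : ℕ} (hh : 1 ≤ h) (v τ : ℝ)
    (y g : ℤ) {M s r : ℝ} (hM : P.zed F G h v * h ≤ M) (hs : 0 ≤ s) (hr : 0 < r) (hrs : r ≤ s + τ) :
    (iidLaw G).real {t | s < P.PhiS F G h v τ y g t} ≤ (M / r) ^ 4 := by
  have hb := D1Fld_bdd (F := F) hK y g h v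
  refine le_trans (measureReal_mono fun t ht => ?_)
    (n4_markov hb ((n4_Rt hK y g h v hh).le.trans hM) hr)
  have ht' : s < P.PhiS F G h v τ y g t := ht
  unfold PhiS at ht'
  show r ≤ _
  rcases lt_max_iff.1 ht' with h1 | h1
  · linarith
  · linarith

/-- `Phi0 > 0` only on `Reach` (probability `≤ π0`, `prob_reach`), `0 ≤ Phi0 ≤ (Rt - g - zeta) + max (zeta - z) 0`; `PhiS > 0` has probability `≤ (M s/τ s)⁴ = (2^s λ0)^{-2}`.
Sum the variables given by `lpp_field`. -/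
theorem fields : ∃ C > 0, ∀ (F : Face (mu G)) (P : Par), 1 ≤ P.K → ∀ (h n smax b1 : ℕ) (ζ0 : ℤ)
    (u lam0 z za π0 M0 β : ℝ) (M : ℕ → ℝ), 1 ≤ h → 1 ≤ lam0 → z ≤ za → 0 < π0 → π0 ≤ 1 → 0 < M0 →
    (∀ s, 0 < M s) → 1 ≤ β → (iidLaw G).real {t | P.Reach F t 0 h (lam0 * u) 0 za} ≤ π0 →
    P.zed F G h (lam0 * u) * h + max ((P.zeta F G h (lam0 * u) : ℝ) - z) 0 ≤ M0 →
    (∀ s, 1 ≤ s → s ≤ smax → P.zed F G h (2 ^ s * lam0 * u) * h ≤ M s) →
    ∃ Ψ : Env → ℝ, Measurable Ψ ∧ (∀ t, 0 ≤ Ψ t) ∧ Integrable Ψ (iidLaw G) ∧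
      ∫ t, Ψ t ∂iidLaw G ≤ C * n * √β *
        (M0 * π0 ^ (1 / 4 : ℝ) + ∑ s ∈ Finset.Icc 1 smax, M s / √(2 ^ s * lam0)) ∧
      ∀ᵐ t ∂iidLaw G, ∀ k : ℕ → ℤ,
        (|k 0| : ℝ) + ∑ q ∈ Finset.range (n - 1), (|k (q + 1) - k q| : ℝ) ≤ β * n →
        ∑ q ∈ Finset.range n, P.Phi0 F G h (lam0 * u) za z (q * h) (q * ζ0 + k q * b1) t +
          ∑ s ∈ Finset.Icc 1 smax, ∑ q ∈ Finset.range n,
            P.PhiS F G h (2 ^ s * lam0 * u) (√(2 ^ s * lam0) * M s) (q * h) (q * ζ0 + k q * b1) t ≤ Ψ t := by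
  obtain ⟨C, hC, H⟩ := lpp_field (G := G) (γ := 4) (by norm_num)
  refine ⟨C, hC, fun F P hK h n smax b1 ζ0 u lam0 z za π0 M0 β M hh hl hz hπ hπ1 hM0 hM hβ hR h0 hs => ?_⟩
  have e4 : ∀ x : ℝ, x ^ (4 : ℝ) = x ^ 4 := fun x => by exact_mod_cast Real.rpow_natCast x 4
  have e14 : (1 / 2 - 1 / 4 : ℝ) = 1 / 4 := by norm_num
  obtain ⟨g0, m0, n0, i0, b0, a0⟩ := H
    (fun q k => P.Phi0 F G h (lam0 * u) za z (q * h) (q * ζ0 + k * b1))
    (fun q => slabEdges ((q : ℤ) * h) h) (fun _ _ => D1Fld_meas0 hK _ _ _ _ _ _)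
    (fun _ _ t => D1Fld_nonneg0 _ _ hz _ _ t) (fun _ _ => D1Fld_dep0 _ _ _ _ _ _) (D1Fld_disj h)
    M0 π0 hM0 hπ hπ1 (fun _ _ => (D1Fld_pos0 hK _ _ _ _ _ _).trans hR)
    (fun _ _ s hs => by rw [e4]; exact D1Fld_tail0 hK hh _ _ _ _ _ h0 hs) n β hβ
  have key : ∀ s ∈ Finset.Icc 1 smax, ∃ g : Env → ℝ, Measurable g ∧ (∀ t, 0 ≤ g t) ∧
      Integrable g (iidLaw G) ∧ ∫ t, g t ∂iidLaw G ≤ C * n * √β * (M s / √(2 ^ s * lam0)) ∧
      ∀ᵐ t ∂iidLaw G, ∀ k : ℕ → ℤ,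
        (|k 0| : ℝ) + ∑ q ∈ Finset.range (n - 1), (|k (q + 1) - k q| : ℝ) ≤ β * n →
        ∑ q ∈ Finset.range n, P.PhiS F G h (2 ^ s * lam0 * u) (√(2 ^ s * lam0) * M s) (q * h)
          (q * ζ0 + k q * b1) t ≤ g t := by
    intro s hs'
    obtain ⟨hs1, hs2⟩ := Finset.mem_Icc.1 hs'
    have hL : (1 : ℝ) ≤ 2 ^ s * lam0 := one_le_mul_of_one_le_of_one_le (one_le_pow₀ one_le_two) hl
    have hr : (1 : ℝ) ≤ √(2 ^ s * lam0) := Real.one_le_sqrt.2 hL
    have hr0 : (0 : ℝ) < √(2 ^ s * lam0) := by linarith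
    have hMs := hM s
    have hτ : 0 < √(2 ^ s * lam0) * M s := mul_pos hr0 hMs
    obtain ⟨g, m1, n1, i1, b1', a1⟩ := H
      (fun q k => P.PhiS F G h (2 ^ s * lam0 * u) (√(2 ^ s * lam0) * M s) (q * h) (q * ζ0 + k * b1))
      (fun q => slabEdges ((q : ℤ) * h) h) (fun _ _ => D1Fld_measS hK _ _ _ _ _)
      (fun _ _ t => le_max_right _ _) (fun _ _ => D1Fld_depS _ _ _ _ _) (D1Fld_disj h)
      (M s) ((1 / √(2 ^ s * lam0)) ^ 4) hMs (by positivity)
      (pow_le_one₀ (by positivity) ((div_le_one hr0).2 hr))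
      (fun _ _ => (D1Fld_tailS hK hh _ _ _ _ (hs s hs1 hs2) le_rfl hτ (by linarith)).trans (by
        rw [mul_comm, ← div_div, div_self hMs.ne']))
      (fun _ _ r hr => by
        rw [e4]
        exact D1Fld_tailS hK hh _ _ _ _ (hs s hs1 hs2) hr.le hr (by linarith)) n β hβ
    refine ⟨g, m1, n1, i1, b1'.trans (le_of_eq ?_), a1⟩
    rw [e14, ← e4, ← Real.rpow_mul (by positivity)]
    norm_num
    ring
  choose! g mg ng ig bg ag using key
  refine ⟨fun t => g0 t + ∑ s ∈ Finset.Icc 1 smax, g s t, m0.add (Finset.measurable_fun_sum _ mg),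
    fun t => add_nonneg (n0 t) (Finset.sum_nonneg fun s hs => ng s hs t),
    i0.add (integrable_finsetSum _ ig), ?_, ?_⟩
  · rw [integral_add i0 (integrable_finsetSum _ ig), integral_finsetSum _ ig, mul_add, Finset.mul_sum]
    rw [e14, mul_assoc] at b0
    exact add_le_add b0 (Finset.sum_le_sum bg)
  · filter_upwards [a0, (Filter.eventually_all_finset _).2 ag] with t h1 h2 k hk
    exact add_le_add (h1 k hk) (Finset.sum_le_sum fun s hs => h2 s hs k hk)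
end Par

end Crest.Agent.R151
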