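import Crest.Agent.R151.D0

/-! R151 part D1: geodesic crossings and the long cheap crossing slightly beyond the face. -/

set_option autoImplicit false
open MeasureTheory ProbabilityTheory Crest.ProbabilityR.FirstPassage Filter Topology
open scoped ENNReal

namespace Crest.Agent.R151

/-- a geodesic of `tau`; the only point of the top row in `slabTo` is the end point -/
theorem exists_cross_geo {μ : ℝ × ℝ → ℝ} (F : Face μ) {t : Env} (ht : Reg t) (y x u : ℤ) {h : ℕ} (hh : 1 ≤ h) :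
    ∃ p j, Cross y h p 0 j ∧ (∀ l, 0 ≤ l → l < j → (p l).2 < y + h) ∧ p 0 = (x, y) ∧ p j = (u, y + h) ∧
      F.cc t p 0 j = F.c t Set.univ y h x u := by
  obtain ⟨p, j, ⟨h1, h2, h3⟩, h4, h5⟩ := exists_geo ht (conn_slabTo (y := y) (x := x) (u := u) hh)
  refine ⟨p, j, ⟨?_, by rw [h4], by rw [h5]⟩, fun l hl hl' => ?_, h4, h5, ?_⟩
  · rw [h5]
    exact h1.mono Set.inter_subset_right
  · rcases db1_mem.1 (h1.2.1 l hl hl'.le).2 with h6 | h6
    · omega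
    · have := h2 ⟨hl, hl'.le⟩ ⟨h1.1, le_rfl⟩ ((Prod.ext h6.1 h6.2).trans h5.symm)
      omega
  · rw [Face.cc, Face.c, h3, h4, h5, tau]
    push_cast
    ring

/-- a crossing inside `U` bounds the restricted passage time -/
theorem Cross.c_le_cc_of_mem {μ : ℝ × ℝ → ℝ} (F : Face μ) {t : Env} (ht : ∀ e, 0 ≤ t e) {y i j : ℤ} {h : ℕ}
    {p : ℤ → V} (hp : Cross y h p i j) {U : Set V} (hU : ∀ m, i ≤ m → m ≤ j → p m ∈ U) :
    Conn (U ∩ slabTo y h (p j).1) ((p i).1, y) ((p j).1, y + h) ∧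
      F.c t U y h (p i).1 (p j).1 ≤ F.cc t p i j := by
  have h1 : PathIn (U ∩ slabTo y h (p j).1) p i j := ⟨hp.1.1, fun k a b => ⟨hU k a b, hp.1.2.1 k a b⟩, hp.1.2.2⟩
  have e1 : ((p i).1, y) = p i := Prod.ext rfl hp.2.1.symm
  have e2 : ((p j).1, y + h) = p j := Prod.ext rfl hp.2.2.symm
  refine ⟨⟨p, i, j, h1, e1.symm, e2.symm⟩, ?_⟩
  have h2 := TS_le_cost ht h1
  rw [Face.cc, Face.c, tau, e1, e2, hp.2.1, hp.2.2]
  push_cast
  linarith

variable {G : Measure ℝ} [IsProbabilityMeasure G] [NullSingletonClass G] (hG : Nice G) (F : Face (mu G))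
include hG

/-- `ξ = ξp + th(u/h) ≤ ξp + ι` for `r0` large (`th_small`, `near`), `η ξ ≤ u/h` (`η_th_le`); `bias` gives mean
`≤ N u/h + C N^0.89 ≤ 2 N u/h` because `N ≥ h^11/2`, `u ≥ 1`, `h ≥ r0`; `var_tau` and Chebyshev; `N u/h ≤ n u`. -/
theorem long_path : ∃ r0 : ℝ, 1 ≤ r0 ∧ ∀ (h h' : ℕ) (u : ℝ), 1 ≤ u → r0 * u ≤ h → h' ≤ h → h ≤ 2 * h' →
    (iidLaw G).real {t | 3 * ((h ^ 10 : ℕ) : ℝ) * u < F.c t Set.univ 0 (h ^ 10 * h') 0
      ⌊(F.ξp + F.th (u / h)) * ((h ^ 10 * h' : ℕ) : ℝ)⌋} ≤ 1 / 10 := by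
  have hμ := symNorm_mu G hG.hyp
  obtain ⟨ι, hι, A, hA, hnear⟩ := F.near
  obtain ⟨c0, hc0, hth⟩ := F.th_small hμ hι
  obtain ⟨C, hC, hb⟩ := bias hG hA (|F.ξp| + ι)
  obtain ⟨Cv, hCv, hv⟩ := var_tau hG (|F.ξp| + ι + 1)
  obtain ⟨R1, hR1⟩ := eventually_atTop.1
    ((tendsto_rpow_atTop (y := 21 / 100) (by norm_num)).eventually_ge_atTop (|F.a0| + 2 * C))
  refine ⟨max (max 1 c0⁻¹) (max R1 (10 * Cv)), (le_max_left _ _).trans (le_max_left _ _),
    fun h h' u hu hr h1 h2 => ?_⟩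
  set r0 := max (max 1 c0⁻¹) (max R1 (10 * Cv)) with hr0
  have r1 : 1 ≤ r0 := (le_max_left _ _).trans (le_max_left _ _)
  have r2 : c0⁻¹ ≤ r0 := (le_max_right _ _).trans (le_max_left _ _)
  have r3 : R1 ≤ r0 := (le_max_left _ _).trans (le_max_right _ _)
  have r4 : 10 * Cv ≤ r0 := (le_max_right _ _).trans (le_max_right _ _)
  clear_value r0
  have hh : r0 ≤ h := (le_mul_of_one_le_right (by linarith) hu).trans hr
  have hh1 : (1 : ℝ) ≤ h := r1.trans hh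
  have hh0 : (0 : ℝ) < h := by linarith
  have hh1' : 1 ≤ h := by exact_mod_cast hh1
  have hN1 : 1 ≤ h ^ 10 * h' := Nat.mul_pos (pow_pos hh1' _) (by omega)
  have hc : 0 ≤ u / h := by positivity
  have hc' : u / h ≤ c0 := by
    rw [div_le_iff₀ hh0]
    have h3 := mul_le_mul_of_nonneg_left ((mul_le_mul_of_nonneg_right r2 (by linarith)).trans hr) hc0.le
    rwa [← mul_assoc, mul_inv_cancel₀ hc0.ne', one_mul] at h3
  have t0 := F.th_nonneg hμ hc
  have t1 := (F.th_mono hμ hc hc').trans hth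
  have t2 := F.η_th_le hμ hc
  set ξ := F.ξp + F.th (u / h) with hξ
  obtain ⟨a, b, ha, hs⟩ := hnear ξ (by linarith [F.lt]) (by linarith)
  have hK : |ξ| ≤ |F.ξp| + ι := (abs_add_le _ _).trans (by rw [abs_of_nonneg t0]; linarith)
  obtain ⟨N, hN⟩ : ∃ N : ℕ, N = h ^ 10 * h' := ⟨_, rfl⟩
  rw [← hN] at hN1 ⊢
  have hN1' : (1 : ℝ) ≤ N := by exact_mod_cast hN1
  have hNle : (N : ℝ) ≤ (h : ℝ) ^ 11 := by
    rw [hN, pow_succ (h : ℝ) 10]
    push_cast
    exact mul_le_mul_of_nonneg_left (by exact_mod_cast h1) (by positivity)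
  set x := ⌊ξ * N⌋ with hx
  have hx1 : |(x : ℝ) - ξ * N| ≤ 1 := by
    rw [abs_le]
    constructor <;> linarith [Int.floor_le (ξ * N), Int.lt_floor_add_one (ξ * N)]
  have hx2 : |(x : ℝ)| ≤ (|F.ξp| + ι + 1) * N := by
    have h3 := abs_add_le ((x : ℝ) - ξ * N) (ξ * N)
    rw [sub_add_cancel, abs_mul, abs_of_nonneg (Nat.cast_nonneg (α := ℝ) N)] at h3
    have h4 := mul_le_mul_of_nonneg_right hK (Nat.cast_nonneg (α := ℝ) N)
    linarith
  have hmean := hb N x ξ a b hN1 hK ha hs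
  have hvar := hv N x hN1 hx2
  have hp : (1 : ℝ) ≤ (h : ℝ) ^ (979 / 100 : ℝ) := Real.one_le_rpow hh1 (by norm_num)
  have hpow : (N : ℝ) ^ (89 / 100 : ℝ) ≤ (h : ℝ) ^ (979 / 100 : ℝ) := by
    refine (Real.rpow_le_rpow (by positivity) hNle (by norm_num)).trans_eq ?_
    rw [← Real.rpow_natCast, ← Real.rpow_mul hh0.le]
    norm_num
  have hbig : (|F.a0| + 2 * C) * (h : ℝ) ^ (979 / 100 : ℝ) ≤ (h : ℝ) ^ 10 := by
    refine (mul_le_mul_of_nonneg_right (hR1 h (r3.trans hh)) (by positivity)).trans_eq ?_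
    rw [← Real.rpow_add hh0, ← Real.rpow_natCast]
    norm_num
  have hn1 : (h : ℝ) ^ 10 ≤ (h : ℝ) ^ 10 * u := le_mul_of_one_le_right (by positivity) hu
  have hNc : N * (u / h) ≤ (h : ℝ) ^ 10 * u := by
    refine (mul_le_mul_of_nonneg_right hNle hc).trans_eq ?_
    field_simp
  have hm2 : ∫ t, tau t Set.univ 0 N 0 x ∂iidLaw G - F.a0 * x - F.b0 * N ≤ 2 * ((h : ℝ) ^ 10 * u) := by
    have e1 : mu G (ξ, 1) ≤ u / h + F.a0 * ξ + F.b0 := by
      rw [Face.η] at t2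
      linarith
    have e2 := mul_le_mul_of_nonneg_left e1 (Nat.cast_nonneg (α := ℝ) N)
    have e3 : -(F.a0 * (x - ξ * N)) ≤ |F.a0| := by
      refine (neg_le_abs _).trans ?_
      rw [abs_mul]
      exact mul_le_of_le_one_right (abs_nonneg _) hx1
    have e4 := mul_le_mul_of_nonneg_left (add_le_add hpow (hx1.trans hp)) hC.le
    have e5 := le_mul_of_one_le_right (abs_nonneg F.a0) hp
    linarith
  have hpos : 0 < (h : ℝ) ^ 10 * u := by positivity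
  have hch := meas_ge_le_variance_div_sq (memLp_tau hG (conn_slabTo (y := 0) (x := 0) (u := x) hN1) 2) hpos
  refine (measureReal_mono (s₂ := {t | (h : ℝ) ^ 10 * u ≤ |tau t Set.univ 0 N 0 x -
    ∫ t, tau t Set.univ 0 N 0 x ∂iidLaw G|}) (fun t ht => ?_)).trans ?_
  · simp only [Set.mem_ofPred_eq, Face.c] at ht ⊢
    push_cast at ht
    refine le_trans ?_ (le_abs_self _)
    linarith
  · refine ENNReal.toReal_le_of_le_ofReal (by norm_num) (hch.trans (ENNReal.ofReal_le_ofReal ?_))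
    rw [div_le_iff₀ (by positivity)]
    have e1 : (h : ℝ) ^ 12 ≤ ((h : ℝ) ^ 10 * u) ^ 2 :=
      (pow_le_pow_right₀ hh1 (by norm_num : 12 ≤ 10 * 2)).trans (by rw [pow_mul]; gcongr)
    have e2 := mul_le_mul_of_nonneg_left hNle hCv.le
    have e3 := mul_le_mul_of_nonneg_right (r4.trans hh) (show 0 ≤ (h : ℝ) ^ 11 by positivity)
    have e4 : (h : ℝ) * h ^ 11 = h ^ 12 := by ring
    have e5 : Var[fun t => tau t Set.univ 0 N 0 x; iidLaw G] ≤ 1 / 10 * ((h : ℝ) ^ 10 * u) ^ 2 := by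
      generalize ((h : ℝ) ^ 10 * u) ^ 2 = q at e1 ⊢
      linarith
    exact e5

end Crest.Agent.R151
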