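import Crest.Agent.R151.D0

/-! R151 part D1: real analysis (bootstrap of the variation, closure of the recursions, summability). -/

set_option autoImplicit false
open MeasureTheory ProbabilityTheory Crest.ProbabilityR.FirstPassage Filter Topology
open scoped ENNReal

namespace Crest.Agent.R151

theorem D1Sum_ceil_abs (x y : ℝ) : (|(⌈x⌉ : ℝ) - (⌈y⌉ : ℝ)|) ≤ |x - y| + 1 := by
  have h1 := Int.le_ceil x
  have h2 := Int.ceil_lt_add_one x
  have h3 := Int.le_ceil y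
  have h4 := Int.ceil_lt_add_one y
  have h5 := le_abs_self (x - y)
  have h6 := neg_abs_le (x - y)
  rw [abs_le]; constructor <;> linarith

/-- Bootstrap.  `o q` is the offset, `k q = ⌈o q / b⌉` its cell.  The positive variation `Pv = Σ (o (q+1) - o q)⁺` is at least the negative one
when `o n ≥ 0`, so the variation of `k` is `≤ 2 Pv/b + n`.  Take the least `j` with variation `≤ 8·2^j n`; if `j ≥ 1` the variation is `> 4·2^j n`, so
`Pv > 2^j n b`, a contradiction.  Hence `j = 0` and `o n ≤ Pv < n b` (or `o n < 0`). -/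
theorem bootstrap {n : ℕ} (hn : 1 ≤ n) {b : ℝ} (hb : 0 < b) (o : ℕ → ℝ) (h0 : o 0 = 0)
    (H : ∀ j : ℕ, ∑ q ∈ Finset.range (n - 1), (|⌈o (q + 1) / b⌉ - ⌈o q / b⌉| : ℝ) ≤ 8 * 2 ^ j * n →
      ∑ q ∈ Finset.range n, max (o (q + 1) - o q) 0 < 2 ^ j * n * b) : o n ≤ n * b := by
  classical
  by_contra hcon
  push Not at hcon
  have hn' : (1 : ℝ) ≤ n := by exact_mod_cast hn
  set V : ℝ := ∑ q ∈ Finset.range (n - 1), (|⌈o (q + 1) / b⌉ - ⌈o q / b⌉| : ℝ) with hV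
  set P : ℝ := ∑ q ∈ Finset.range n, max (o (q + 1) - o q) 0 with hP
  have htel : ∑ q ∈ Finset.range n, (o (q + 1) - o q) = o n := by
    rw [Finset.sum_range_sub, h0, sub_zero]
  have hoP : o n ≤ P := by
    rw [← htel]; exact Finset.sum_le_sum fun q _ => le_max_left _ _
  have habs : ∑ q ∈ Finset.range n, |o (q + 1) - o q| = 2 * P - o n := by
    rw [← htel, hP, Finset.mul_sum, ← Finset.sum_sub_distrib]
    refine Finset.sum_congr rfl fun q _ => ?_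
    rcases le_total (o (q + 1) - o q) 0 with h | h
    · rw [max_eq_right h, abs_of_nonpos h]; ring
    · rw [max_eq_left h, abs_of_nonneg h]; ring
  have hon : 0 ≤ o n := le_trans (by positivity) hcon.le
  have hVP : V ≤ 2 * P / b + n := by
    have h1 : V ≤ ∑ q ∈ Finset.range (n - 1), (|o (q + 1) - o q| / b + 1) := by
      refine Finset.sum_le_sum fun q _ => ?_
      have := D1Sum_ceil_abs (o (q + 1) / b) (o q / b)
      rw [← sub_div, abs_div, abs_of_pos hb] at this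
      exact this
    have h2 : ∑ q ∈ Finset.range (n - 1), (|o (q + 1) - o q| / b + 1) ≤
        ∑ q ∈ Finset.range n, (|o (q + 1) - o q| / b + 1) :=
      Finset.sum_le_sum_of_subset_of_nonneg (Finset.range_mono (Nat.sub_le _ _))
        fun q _ _ => by positivity
    have h3 : ∑ q ∈ Finset.range n, (|o (q + 1) - o q| / b + 1) = (2 * P - o n) / b + n := by
      rw [Finset.sum_add_distrib, ← Finset.sum_div, habs]; simp
    have h4 : (2 * P - o n) / b ≤ 2 * P / b := div_le_div_of_nonneg_right (by linarith) hb.le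
    linarith
  have hex : ∃ j : ℕ, V ≤ 8 * 2 ^ j * n := by
    obtain ⟨j, hj⟩ := pow_unbounded_of_one_lt V (by norm_num : (1 : ℝ) < 2)
    refine ⟨j, ?_⟩
    have : (0 : ℝ) < 2 ^ j := by positivity
    nlinarith
  have hj := Nat.find_spec hex
  have hH := H _ hj
  rcases hk : Nat.find hex with _ | j
  · rw [hk] at hH
    simp only [pow_zero, one_mul] at hH
    linarith
  · have hmin := Nat.find_min hex (m := j) (by omega)
    push Not at hmin
    rw [hk] at hH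
    have h5 : 2 * P / b ≤ 2 * (2 ^ (j + 1) * n) := by
      rw [div_le_iff₀ hb]; linarith
    have h6 : (1 : ℝ) ≤ 2 ^ j := one_le_pow₀ (by norm_num)
    rw [pow_succ] at h5
    nlinarith

theorem D1Sum_conv {r : ℝ} (hr0 : 0 ≤ r) (hr : r ≤ 5 / 6) (g : ℕ → ℝ) (hg : ∀ σ, 0 ≤ g σ) (R : ℕ) :
    ∑ ρ ∈ Finset.range R, ∑ i ∈ Finset.range (ρ + 1), r ^ i * g (ρ - i) ≤ 6 * ∑ σ ∈ Finset.range R, g σ := by
  rw [Finset.sum_range_diag_flip R (fun i σ => r ^ i * g σ)]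
  have hS : 0 ≤ ∑ σ ∈ Finset.range R, g σ := Finset.sum_nonneg fun σ _ => hg σ
  calc ∑ m ∈ Finset.range R, ∑ k ∈ Finset.range (R - m), r ^ m * g k
      ≤ ∑ m ∈ Finset.range R, r ^ m * ∑ σ ∈ Finset.range R, g σ := by
        refine Finset.sum_le_sum fun m _ => ?_
        rw [← Finset.mul_sum]
        exact mul_le_mul_of_nonneg_left (Finset.sum_le_sum_of_subset_of_nonneg
          (Finset.range_mono (Nat.sub_le _ _)) fun σ _ _ => hg σ) (pow_nonneg hr0 _)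
    _ = (∑ m ∈ Finset.range R, r ^ m) * ∑ σ ∈ Finset.range R, g σ := by rw [Finset.sum_mul]
    _ ≤ 6 * ∑ σ ∈ Finset.range R, g σ := by
        refine mul_le_mul_of_nonneg_right ?_ hS
        have h1 := geom_sum_mul_neg r R
        have h2 : 0 ≤ r ^ R := pow_nonneg hr0 _
        have h3 : 0 ≤ ∑ m ∈ Finset.range R, r ^ m := Finset.sum_nonneg fun m _ => pow_nonneg hr0 _
        nlinarith

theorem D1Sum_shift (g : ℕ → ℝ) (hg : ∀ σ, 0 ≤ g σ) {κ ρb : ℕ} (hκ : κ ≤ ρb) (R : ℕ) :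
    ∑ ρ ∈ Finset.Ico ρb R, g (ρ - κ) ≤ ∑ σ ∈ Finset.range R, g σ := by
  have hinj : Set.InjOn (fun ρ => ρ - κ) (Finset.Ico ρb R : Set ℕ) := by
    intro x hx y hy hxy
    simp only [Finset.coe_Ico, Set.mem_Ico] at hx hy
    simp only at hxy
    omega
  rw [← Finset.sum_image (f := g) hinj]
  refine Finset.sum_le_sum_of_subset_of_nonneg ?_ fun σ _ _ => hg σ
  intro σ hσ
  simp only [Finset.mem_image, Finset.mem_Ico] at hσ
  obtain ⟨ρ, ⟨_, h2⟩, rfl⟩ := hσ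
  simp only [Finset.mem_range]; omega

theorem D1Sum_split (g : ℕ → ℝ) (hg : ∀ σ, 0 ≤ g σ) (ρb R : ℕ) :
    ∑ σ ∈ Finset.range R, g σ ≤ ∑ σ ∈ Finset.range ρb, g σ + ∑ σ ∈ Finset.Ico ρb R, g σ := by
  rcases le_total ρb R with h | h
  · rw [Finset.sum_range_add_sum_Ico _ h]
  · have h1 : ∑ σ ∈ Finset.range R, g σ ≤ ∑ σ ∈ Finset.range ρb, g σ :=
      Finset.sum_le_sum_of_subset_of_nonneg (Finset.range_mono h) fun σ _ _ => hg σ
    have h2 : 0 ≤ ∑ σ ∈ Finset.Ico ρb R, g σ := Finset.sum_nonneg fun σ _ => hg σ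
    linarith

/-- Weights `w ρ = min 1 (2^{-(ρ1-ρ)/24})`, `w (ρ+i) ≤ 2^{i/24} w ρ`; sum the two inequalities against `w` over `ρb ≤ ρ < R`; terms with index
below `ρb` are bounded by `M`; `Σ w I → 0` as `ρ1 → ∞` (dominated convergence or splitting at `ρ1/2`). -/
theorem closure (I : ℕ → ℝ) (hI0 : ∀ ρ, 0 ≤ I ρ) (hI : Summable I) (M η : ℝ) (κ ρb : ℕ) (hκ : κ ≤ ρb)
    (hη0 : 0 ≤ η) (hη : η * (2 : ℝ) ^ ((κ : ℝ) / 24) ≤ 1 / 2) {ε : ℝ} (hε : 0 < ε) :
    ∃ ρ1 : ℕ, ρb ≤ ρ1 ∧ ∀ D B : ℕ → ℝ, (∀ ρ, 0 ≤ D ρ) → (∀ ρ, 0 ≤ B ρ) → (∀ ρ, B ρ ≤ M) →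
      (∀ ρ, ρb ≤ ρ → D ρ ≤ I ρ + (1 / 400) * (D ρ +
        2 * ∑ i ∈ Finset.range (ρ + 1), (2 : ℝ) ^ (-(i : ℝ) / 3) * B (ρ - i))) →
      (∀ ρ, ρb ≤ ρ → B ρ ≤ 5 * D ρ + I ρ + η * B (ρ - κ)) →
      ∀ R : ℕ, ∑ ρ ∈ Finset.Ico ρ1 R, (D ρ + B ρ) ≤ ε := by
  set θ : ℝ := (2 : ℝ) ^ ((1 : ℝ) / 24) with hθ
  set r : ℝ := (2 : ℝ) ^ (-(7 : ℝ) / 24) with hr
  have hθ1 : 1 < θ := Real.one_lt_rpow (by norm_num) (by norm_num)
  have hθ0 : 0 < θ := by linarith
  have hθpow : ∀ i : ℕ, θ ^ i = (2 : ℝ) ^ ((i : ℝ) / 24) := fun i => by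
    rw [hθ, ← Real.rpow_natCast, ← Real.rpow_mul (by norm_num)]; congr 1; ring
  have hr0 : 0 ≤ r := by positivity
  have hrpow : ∀ i : ℕ, θ ^ i * (2 : ℝ) ^ (-(i : ℝ) / 3) = r ^ i := fun i => by
    rw [hθpow, hr, ← Real.rpow_natCast, ← Real.rpow_mul (by norm_num), ← Real.rpow_add (by norm_num)]
    congr 1; ring
  have hr56 : r ≤ 5 / 6 := by
    by_contra hc
    push Not at hc
    have h1 : ((5 : ℝ) / 6) ^ 24 < r ^ 24 := pow_lt_pow_left₀ hc (by norm_num) (by norm_num)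
    have h2 : r ^ 24 = 1 / 128 := by
      rw [hr, ← Real.rpow_natCast, ← Real.rpow_mul (by norm_num)]
      have : (-(7 : ℝ) / 24 * ((24 : ℕ) : ℝ)) = ((-7 : ℤ) : ℝ) := by push_cast; ring
      rw [this, Real.rpow_intCast]; norm_num
    rw [h2] at h1; norm_num at h1
  -- tail of `I`
  obtain ⟨N, hN⟩ : ∃ N : ℕ, ∀ R : ℕ, ∑ ρ ∈ Finset.Ico N R, I ρ ≤ ε / 60 := by
    have h1 := (tendsto_sum_nat_add I).eventually (gt_mem_nhds (by positivity : (0 : ℝ) < ε / 60))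
    obtain ⟨N, hN⟩ := h1.exists
    refine ⟨N, fun R => ?_⟩
    rw [Finset.sum_Ico_eq_sum_range]
    have h2 : Summable fun k => I (k + N) := (summable_nat_add_iff N).2 hI
    have h3 := h2.sum_le_tsum (Finset.range (R - N)) fun k _ => hI0 _
    calc ∑ k ∈ Finset.range (R - N), I (N + k) = ∑ k ∈ Finset.range (R - N), I (k + N) := by
          simp only [add_comm]
      _ ≤ _ := h3
      _ ≤ ε / 60 := hN.le
  set C : ℝ := ∑ ρ ∈ Finset.range N, I ρ + |M| * ρb with hC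
  have hC1 : 0 ≤ ∑ ρ ∈ Finset.range N, I ρ := Finset.sum_nonneg fun ρ _ => hI0 ρ
  have hC2 : 0 ≤ |M| * ρb := by positivity
  obtain ⟨t, ht⟩ := pow_unbounded_of_one_lt (60 * C / ε) hθ1
  have htC : C / θ ^ t ≤ ε / 60 := by
    rw [div_lt_iff₀ hε] at ht
    rw [div_le_iff₀ (by positivity)]; nlinarith
  refine ⟨N + ρb + t, by omega, fun D B hD hB hBM h1 h2 R => ?_⟩
  set ρ1 := N + ρb + t with hρ1
  set w : ℕ → ℝ := fun ρ => min 1 (θ ^ ρ / θ ^ ρ1) with hw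
  have hw0 : ∀ ρ, 0 ≤ w ρ := fun ρ => le_min zero_le_one (by positivity)
  have hw1 : ∀ ρ, w ρ ≤ 1 := fun ρ => min_le_left _ _
  have hwe : ∀ ρ, ρ1 ≤ ρ → w ρ = 1 := fun ρ h =>
    min_eq_left ((one_le_div (by positivity)).2 (pow_le_pow_right₀ hθ1.le h))
  have hwlow : ∀ ρ, ρ ≤ N + ρb → w ρ ≤ 1 / θ ^ t := fun ρ h => by
    refine (min_le_right _ _).trans ?_
    rw [div_le_div_iff₀ (by positivity) (by positivity), one_mul, ← pow_add]
    exact pow_le_pow_right₀ hθ1.le (by omega)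
  have hwsh : ∀ ρ i, i ≤ ρ → w ρ ≤ θ ^ i * w (ρ - i) := fun ρ i h => by
    have e : θ ^ i * w (ρ - i) = min (θ ^ i * 1) (θ ^ i * (θ ^ (ρ - i) / θ ^ ρ1)) := by
      rw [hw]; exact mul_min_of_nonneg _ _ (by positivity)
    rw [e]
    refine le_min ((hw1 ρ).trans (by rw [mul_one]; exact one_le_pow₀ hθ1.le)) ?_
    refine (min_le_right _ _).trans (le_of_eq ?_)
    rw [← mul_div_assoc, ← pow_add]; congr 2; omega
  set SD := ∑ ρ ∈ Finset.Ico ρb R, w ρ * D ρ with hSD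
  set SB := ∑ ρ ∈ Finset.Ico ρb R, w ρ * B ρ with hSB
  set SI := ∑ ρ ∈ Finset.Ico ρb R, w ρ * I ρ with hSI
  set δ := ∑ ρ ∈ Finset.range ρb, w ρ * B ρ with hδ
  have hwB : ∀ σ, 0 ≤ w σ * B σ := fun σ => mul_nonneg (hw0 σ) (hB σ)
  have hall : ∑ σ ∈ Finset.range R, w σ * B σ ≤ δ + SB := D1Sum_split _ hwB ρb R
  have hδ0 : 0 ≤ δ := Finset.sum_nonneg fun σ _ => hwB σ
  have hSB0 : 0 ≤ SB := Finset.sum_nonneg fun σ _ => hwB σ
  have hSD0 : 0 ≤ SD := Finset.sum_nonneg fun σ _ => mul_nonneg (hw0 σ) (hD σ)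
  have hA : SD ≤ SI + (1 / 400) * (SD + 12 * (δ + SB)) := by
    have a1 : SD ≤ ∑ ρ ∈ Finset.Ico ρb R, (w ρ * I ρ + (1 / 400) * (w ρ * D ρ +
        2 * ∑ i ∈ Finset.range (ρ + 1), r ^ i * (w (ρ - i) * B (ρ - i)))) := by
      refine Finset.sum_le_sum fun ρ hρ => ?_
      have hρb := (Finset.mem_Ico.1 hρ).1
      have b1 := mul_le_mul_of_nonneg_left (h1 ρ hρb) (hw0 ρ)
      have b2 : w ρ * ∑ i ∈ Finset.range (ρ + 1), (2 : ℝ) ^ (-(i : ℝ) / 3) * B (ρ - i) ≤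
          ∑ i ∈ Finset.range (ρ + 1), r ^ i * (w (ρ - i) * B (ρ - i)) := by
        rw [Finset.mul_sum]
        refine Finset.sum_le_sum fun i hi => ?_
        have hi' : i ≤ ρ := by have := Finset.mem_range.1 hi; omega
        rw [← hrpow]
        have := mul_le_mul_of_nonneg_right (hwsh ρ i hi')
          (mul_nonneg (by positivity : 0 ≤ (2 : ℝ) ^ (-(i : ℝ) / 3)) (hB (ρ - i)))
        calc _ ≤ _ := this
          _ = _ := by ring
      nlinarith
    have a2 : ∑ ρ ∈ Finset.Ico ρb R, ∑ i ∈ Finset.range (ρ + 1), r ^ i * (w (ρ - i) * B (ρ - i)) ≤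
        6 * (δ + SB) := by
      have b1 := D1Sum_conv hr0 hr56 (fun σ => w σ * B σ) hwB R
      have b2 : ∑ ρ ∈ Finset.Ico ρb R, ∑ i ∈ Finset.range (ρ + 1), r ^ i * (w (ρ - i) * B (ρ - i)) ≤
          ∑ ρ ∈ Finset.range R, ∑ i ∈ Finset.range (ρ + 1), r ^ i * (w (ρ - i) * B (ρ - i)) := by
        refine Finset.sum_le_sum_of_subset_of_nonneg ?_ fun ρ _ _ =>
          Finset.sum_nonneg fun i _ => mul_nonneg (pow_nonneg hr0 _) (hwB _)
        intro ρ hρ; exact Finset.mem_range.2 (Finset.mem_Ico.1 hρ).2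
      linarith
    rw [Finset.sum_add_distrib, ← Finset.mul_sum, Finset.sum_add_distrib, ← Finset.mul_sum] at a1
    linarith
  have hBB : SB ≤ 5 * SD + SI + (1 / 2) * (δ + SB) := by
    have a1 : SB ≤ ∑ ρ ∈ Finset.Ico ρb R, (5 * (w ρ * D ρ) + w ρ * I ρ +
        (1 / 2) * (w (ρ - κ) * B (ρ - κ))) := by
      refine Finset.sum_le_sum fun ρ hρ => ?_
      have hρb := (Finset.mem_Ico.1 hρ).1
      have b1 := mul_le_mul_of_nonneg_left (h2 ρ hρb) (hw0 ρ)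
      have b2 := mul_le_mul_of_nonneg_right (hwsh ρ κ (hκ.trans hρb)) (mul_nonneg hη0 (hB (ρ - κ)))
      rw [← hθpow] at hη
      have b3 := mul_le_mul_of_nonneg_right hη (hwB (ρ - κ))
      nlinarith
    have a2 := D1Sum_shift (fun σ => w σ * B σ) hwB hκ R
    rw [Finset.sum_add_distrib, Finset.sum_add_distrib, ← Finset.mul_sum, ← Finset.mul_sum] at a1
    linarith
  have hδle : δ ≤ |M| * ρb / θ ^ t := by
    have : δ ≤ ∑ _ρ ∈ Finset.range ρb, 1 / θ ^ t * |M| := by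
      refine Finset.sum_le_sum fun ρ hρ => ?_
      have := Finset.mem_range.1 hρ
      exact mul_le_mul (hwlow ρ (by omega)) ((hBM ρ).trans (le_abs_self M)) (hB ρ) (by positivity)
    rw [Finset.sum_const, Finset.card_range, nsmul_eq_mul] at this
    calc δ ≤ _ := this
      _ = _ := by ring
  have hSIle : SI ≤ (∑ ρ ∈ Finset.range N, I ρ) / θ ^ t + ε / 60 := by
    have hwI : ∀ σ, 0 ≤ w σ * I σ := fun σ => mul_nonneg (hw0 σ) (hI0 σ)
    have a1 : SI ≤ ∑ ρ ∈ Finset.range R, w ρ * I ρ := by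
      refine Finset.sum_le_sum_of_subset_of_nonneg ?_ fun ρ _ _ => hwI ρ
      intro ρ hρ; exact Finset.mem_range.2 (Finset.mem_Ico.1 hρ).2
    have a2 := D1Sum_split _ hwI N R
    have a3 : ∑ ρ ∈ Finset.range N, w ρ * I ρ ≤ (∑ ρ ∈ Finset.range N, I ρ) / θ ^ t := by
      rw [Finset.sum_div]
      refine Finset.sum_le_sum fun ρ hρ => ?_
      have := Finset.mem_range.1 hρ
      calc w ρ * I ρ ≤ 1 / θ ^ t * I ρ := mul_le_mul_of_nonneg_right (hwlow ρ (by omega)) (hI0 ρ)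
        _ = _ := by ring
    have a4 : ∑ ρ ∈ Finset.Ico N R, w ρ * I ρ ≤ ∑ ρ ∈ Finset.Ico N R, I ρ :=
      Finset.sum_le_sum fun ρ _ => by nlinarith [hw1 ρ, hI0 ρ]
    linarith [hN R]
  have hfin : ∑ ρ ∈ Finset.Ico ρ1 R, (D ρ + B ρ) ≤ SD + SB := by
    rw [hSD, hSB, ← Finset.sum_add_distrib]
    calc ∑ ρ ∈ Finset.Ico ρ1 R, (D ρ + B ρ) = ∑ ρ ∈ Finset.Ico ρ1 R, (w ρ * D ρ + w ρ * B ρ) :=
          Finset.sum_congr rfl fun ρ hρ => by rw [hwe ρ (Finset.mem_Ico.1 hρ).1]; ring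
      _ ≤ _ := Finset.sum_le_sum_of_subset_of_nonneg
          (Finset.Ico_subset_Ico (by omega) le_rfl)
          fun ρ _ _ => add_nonneg (mul_nonneg (hw0 ρ) (hD ρ)) (hwB ρ)
  rw [hC, add_div] at htC
  have hSI0 : 0 ≤ SI := Finset.sum_nonneg fun σ _ => mul_nonneg (hw0 σ) (hI0 σ)
  linarith

theorem D1Sum_tel (u : ℕ → ℝ) {C : ℝ} (hu0 : ∀ k, 0 ≤ u k) (huC : ∀ k, u k ≤ C) (s n : ℕ) :
    ∑ k ∈ Finset.range n, (u k - u (k + s)) ≤ s * C := by
  have h1 := Finset.sum_range_add u n s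
  have h2 := Finset.sum_range_add u s n
  rw [add_comm s n] at h2
  have h3 : 0 ≤ ∑ x ∈ Finset.range s, u (n + x) := Finset.sum_nonneg fun k _ => hu0 _
  have h4 : ∑ x ∈ Finset.range s, u x ≤ s * C := by
    have := Finset.sum_le_card_nsmul (Finset.range s) u C fun k _ => huC k
    simpa using this
  have h5 : ∑ k ∈ Finset.range n, u (k + s) = ∑ k ∈ Finset.range n, u (s + k) := by
    simp only [add_comm]
  rw [Finset.sum_sub_distrib, h5]
  linarith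

variable {th : ℝ → ℝ} (h0 : ∀ c, 0 ≤ c → 0 ≤ th c) (hmono : ∀ c c', 0 ≤ c → c ≤ c' → th c ≤ th c')
include h0 hmono

theorem D1Sum_part {a A : ℝ} (ha : 0 < a) (hA : a ≤ A) {s : ℕ} (hs : A ≤ 2 ^ s * a) (i n : ℕ) :
    ∑ k ∈ Finset.range n, (th (A / 2 ^ k) - th (a / 2 ^ (i + k))) ≤ ((i + s : ℕ) : ℝ) * th A := by
  have hA0 : 0 < A := ha.trans_le hA
  refine le_trans ?_ (D1Sum_tel (fun k => th (A / 2 ^ k)) (fun k => h0 _ (by positivity))
    (fun k => hmono _ _ (by positivity) (div_le_self hA0.le (one_le_pow₀ (by norm_num)))) (i + s) n)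
  refine Finset.sum_le_sum fun k _ => ?_
  have : th (A / 2 ^ (k + (i + s))) ≤ th (a / 2 ^ (i + k)) := by
    refine hmono _ _ (by positivity) ?_
    rw [div_le_div_iff₀ (by positivity) (by positivity)]
    calc A * 2 ^ (i + k) ≤ 2 ^ s * a * 2 ^ (i + k) := mul_le_mul_of_nonneg_right hs (by positivity)
      _ = a * 2 ^ (k + (i + s)) := by ring
  linarith

/-- telescoping: with `A ≤ 2^s a` the partial sums are at most `s · th A` -/
theorem summable_incr {a A : ℝ} (ha : 0 < a) (hA : a ≤ A) :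
    Summable fun ρ : ℕ => th (A / 2 ^ ρ) - th (a / 2 ^ ρ) := by
  obtain ⟨s, hs⟩ := pow_unbounded_of_one_lt (A / a) (by norm_num : (1 : ℝ) < 2)
  rw [div_lt_iff₀ ha] at hs
  refine summable_of_sum_range_le (c := ((0 + s : ℕ) : ℝ) * th A) (fun ρ => ?_) fun n => ?_
  · exact sub_nonneg.2 (hmono _ _ (by positivity) (div_le_div_of_nonneg_right hA (by positivity)))
  · have := D1Sum_part h0 hmono ha hA hs.le 0 n
    simpa only [zero_add] using this

/-- exchange the sums: for fixed `i`, `Σ_{ρ ≥ i} (th(A 2^{i-ρ}) - th(a 2^{-ρ})) ≤ (i + s) th A` -/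
theorem summable_incr2 {a A : ℝ} (ha : 0 < a) (hA : a ≤ A) :
    Summable fun ρ : ℕ => ∑ i ∈ Finset.range (ρ + 1),
      (2 : ℝ) ^ (-(i : ℝ) / 3) * (th (A * 2 ^ i / 2 ^ ρ) - th (a / 2 ^ ρ)) := by
  obtain ⟨s, hs⟩ := pow_unbounded_of_one_lt (A / a) (by norm_num : (1 : ℝ) < 2)
  rw [div_lt_iff₀ ha] at hs
  have hA0 : 0 < A := ha.trans_le hA
  set c : ℝ := (2 : ℝ) ^ (-(1 : ℝ) / 3) with hc
  have hc0 : 0 < c := by positivity
  have hc1 : c < 1 := Real.rpow_lt_one_of_one_lt_of_neg (by norm_num) (by norm_num)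
  have hcpow : ∀ i : ℕ, (2 : ℝ) ^ (-(i : ℝ) / 3) = c ^ i := fun i => by
    rw [hc, ← Real.rpow_natCast, ← Real.rpow_mul (by norm_num)]; congr 1; ring
  have hnorm : ‖c‖ < 1 := by rw [Real.norm_eq_abs, abs_of_pos hc0]; exact hc1
  have hsum : Summable fun i : ℕ => c ^ i * (((i + s : ℕ) : ℝ) * th A) := by
    have e1 := (summable_pow_mul_geometric_of_norm_lt_one 1 hnorm).mul_right (th A)
    have e2 := (summable_geometric_of_lt_one hc0.le hc1).mul_right ((s : ℝ) * th A)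
    refine (e1.add e2).congr fun i => ?_
    push_cast; ring
  have hthA := h0 A hA0.le
  refine summable_of_sum_range_le (c := ∑' i : ℕ, c ^ i * (((i + s : ℕ) : ℝ) * th A)) (fun ρ => ?_) fun n => ?_
  · refine Finset.sum_nonneg fun i _ => mul_nonneg (by positivity) (sub_nonneg.2 ?_)
    refine hmono _ _ (by positivity) (div_le_div_of_nonneg_right ?_ (by positivity))
    have : (1 : ℝ) ≤ 2 ^ i := one_le_pow₀ (by norm_num)
    nlinarith
  · have e : ∑ ρ ∈ Finset.range n, ∑ i ∈ Finset.range (ρ + 1),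
        (2 : ℝ) ^ (-(i : ℝ) / 3) * (th (A * 2 ^ i / 2 ^ ρ) - th (a / 2 ^ ρ)) =
        ∑ ρ ∈ Finset.range n, ∑ i ∈ Finset.range (ρ + 1),
          c ^ i * (th (A / 2 ^ (ρ - i)) - th (a / 2 ^ (i + (ρ - i)))) := by
      refine Finset.sum_congr rfl fun ρ _ => Finset.sum_congr rfl fun i hi => ?_
      have hi' : i ≤ ρ := by have := Finset.mem_range.1 hi; omega
      have e1 : i + (ρ - i) = ρ := by omega
      have e2 : A * 2 ^ i / 2 ^ ρ = A / 2 ^ (ρ - i) := by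
        conv_lhs => rw [← e1, pow_add]
        field_simp
      rw [hcpow, e1, e2]
    rw [e, Finset.sum_range_diag_flip n (fun i k => c ^ i * (th (A / 2 ^ k) - th (a / 2 ^ (i + k))))]
    refine le_trans ?_ (hsum.sum_le_tsum (Finset.range n) fun i _ => by positivity)
    refine Finset.sum_le_sum fun i _ => ?_
    rw [← Finset.mul_sum]
    exact mul_le_mul_of_nonneg_left (D1Sum_part h0 hmono ha hA hs.le i _) (by positivity)

end Crest.Agent.R151
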