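import Crest.Agent.R151.D1Dec

/-! R151 part D1: most slabs of a cheap long crossing are crossed by good pieces.

Let `d = dep h u`, `h_l = h/K^l`, `n_l = n K^l`.  For `l ≤ d` let `g_l` be given by `lpp_field` (`γ = 21/10`, `π0 = 1`, `M = C W` from `Face.L2`) for the field
`Φ q k = LL (q h_l) h_l (k h_l) (KL h_l)`, `KL ≥ CE/c1 + 2`, `n = n_l`, `β = Cβ (1+A) K`.  For a tower of `p` put `k q = ⌊(p (a l q)).1 / h_l⌋`.  By `Coer`, a piece with `|Δx| > (KL-1) h_l` has
`cc ≥ -CE W`, otherwise `-cc ≤ Φ q (k q)` (`c_le_cc`, `neg_c_le_LL`); gaps have `cc ≥ -CE W`.  Variation: `c1|Δx| ≤ cc + CE(h_l + W)` for pieces and gaps, these are nonnegative numbers with sum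
`≤ A n u + CE(n h + 2 n_l W)` (`Split.cc_eq`); `W ≤ u ≤ K h_l` (for `l < d`: `K^{3l} u < h`; for `l = d ≥ 1`: `u < h_{d-1} = K h_d`; `d = 0`: `u ≤ h`).
So `posCost_l ≤ A n u + g_l + 2 CE W n_l` and `g = Σ_{l ≤ d} K^{-2l}(A n u + g_l + 2 CE W n_l)` works (`Tower.card_bad_le` with `e = dep h (λu) ≤ d`, `dep_anti`).
All vertices are within `N²`: `c1 nrm(p m) - CE W ≤ cost(i,m) ≤ cost(i,j) = cc + a0 Δx + b0 n h ≤ C(1+A) N`. -/

set_option autoImplicit false
open MeasureTheory ProbabilityTheory Crest.ProbabilityR.FirstPassage Filter Topology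
open scoped ENNReal

namespace Crest.Agent.R151

theorem D1Xi_ediv (x y : ℤ) {h : ℕ} (hh : 1 ≤ h) :
    |((x / (h : ℤ) : ℤ) : ℝ) - ((y / (h : ℤ) : ℤ) : ℝ)| * h ≤ |(x : ℝ) - y| + h := by
  have h0 : (0 : ℤ) < h := by exact_mod_cast hh
  have a1 := Int.mul_ediv_add_emod x h
  have a2 := Int.mul_ediv_add_emod y h
  have a3 := Int.emod_nonneg x h0.ne'
  have a4 := Int.emod_nonneg y h0.ne'
  have a5 := Int.emod_lt_of_pos x h0
  have a6 := Int.emod_lt_of_pos y h0
  have : |x / (h : ℤ) - y / (h : ℤ)| * h ≤ |x - y| + h := by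
    rw [← abs_of_pos h0, ← abs_mul, abs_of_pos h0, abs_le]
    constructor <;> nlinarith [le_abs_self (x - y), neg_abs_le (x - y)]
  exact_mod_cast this

theorem D1Xi_near (x : ℤ) {h : ℕ} (hh : 1 ≤ h) : |x - x / (h : ℤ) * h| ≤ h := by
  have h0 : (0 : ℤ) < h := by exact_mod_cast hh
  have a1 := Int.mul_ediv_add_emod x h
  have a3 := Int.emod_nonneg x h0.ne'
  have a5 := Int.emod_lt_of_pos x h0
  rw [abs_le]
  constructor <;> nlinarith

/-- the deterministic estimates at one level -/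
theorem D1Xi_level {μ : ℝ × ℝ → ℝ} (F : Face μ) {c1 CE W B : ℝ} (hc1 : 0 < c1) (hCE : 0 < CE) (hW : 0 ≤ W)
    {KL N h n : ℕ} (hKL : CE ≤ c1 * KL) (hh : 1 ≤ h) (hn : 1 ≤ n) {t : Env} (ht : F.Coer c1 CE W N t)
    {p : ℤ → V} {i j : ℤ} {a b : ℕ → ℤ} (hp : PathIn Set.univ p i j) (hs : Split p 0 h n i j a b)
    (h0 : (p i).1 = 0) (hN : ∀ m, i ≤ m → m ≤ j → (nrm (p m) : ℝ) ≤ (N : ℝ) ^ 2) (hc : F.cc t p i j ≤ B) :
    ∃ k : ℕ → ℤ, c1 * h * ((|k 0| : ℝ) + ∑ q ∈ Finset.range (n - 1), (|k (q + 1) - k q| : ℝ)) ≤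
        B + n * (c1 * h + CE * h + 2 * CE * W) ∧
      posCost F t p n a b ≤ B + ∑ q ∈ Finset.range n, F.LL t (q * h) h (k q * h) ((KL + 1) * h) +
        2 * CE * W * n := by
  have hh0 : (0 : ℝ) < h := by exact_mod_cast hh
  have hCW : 0 ≤ CE * W := mul_nonneg hCE.le hW
  have hpc : ∀ q < n, c1 * |((p (b q)).1 : ℝ) - (p (a q)).1| - CE * h - CE * W ≤ F.cc t p (a q) (b q) := by
    intro q hq
    obtain ⟨a1, a2, a3⟩ := hs.mem hq
    have := (ht.2 p _ _ (hp.sub a1 a2 a3) (hN _ a1 (a2.trans a3))).2.1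
    rw [(hs.cross q hq).2.1, (hs.cross q hq).2.2] at this
    push_cast at this
    rwa [add_sub_cancel_left, abs_of_pos hh0] at this
  have hgc : ∀ q, q + 1 < n →
      c1 * |((p (a (q + 1))).1 : ℝ) - (p (b q)).1| - CE * W ≤ F.cc t p (b q) (a (q + 1)) := by
    intro q hq
    obtain ⟨a1, a2, a3⟩ := hs.mem (q := q) (by omega)
    obtain ⟨a4, a5, a6⟩ := hs.mem hq
    have := (ht.2 p _ _ (hp.sub (a1.trans a2) (hs.gap q hq) (a5.trans a6)) (hN _ (a1.trans a2) a3)).2.1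
    rw [(hs.cross q (by omega)).2.2, (hs.cross _ hq).2.1] at this
    push_cast at this
    rw [show (0 : ℝ) + (q + 1) * h - (0 + q * h + h) = 0 by ring, abs_zero] at this
    linarith
  have heq := hs.cc_eq F t hn
  have hn1 : ((n - 1 : ℕ) : ℝ) ≤ n := by exact_mod_cast Nat.sub_le n 1
  refine ⟨fun q => (p (a q)).1 / (h : ℤ), ?_, ?_⟩
  · have e1 : ∑ q ∈ Finset.range (n - 1), (F.cc t p (a q) (b q) + CE * h + CE * W) ≤
        ∑ q ∈ Finset.range n, (F.cc t p (a q) (b q) + CE * h + CE * W) :=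
      Finset.sum_le_sum_of_subset_of_nonneg (Finset.range_subset_range.2 (Nat.sub_le n 1)) fun q hq _ => by
        have := hpc q (Finset.mem_range.1 hq)
        have := mul_nonneg hc1.le (abs_nonneg (((p (b q)).1 : ℝ) - (p (a q)).1))
        linarith
    have e2 : ∑ q ∈ Finset.range (n - 1), c1 * h *
        |(((p (a (q + 1))).1 / (h : ℤ) : ℤ) : ℝ) - (((p (a q)).1 / (h : ℤ) : ℤ) : ℝ)| ≤
        ∑ q ∈ Finset.range (n - 1), ((F.cc t p (a q) (b q) + CE * h + CE * W) +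
          (F.cc t p (b q) (a (q + 1)) + (CE * W + c1 * h))) := Finset.sum_le_sum fun q hq => by
      rw [Finset.mem_range] at hq
      have b1 := hpc q (by omega)
      have b2 := hgc q (by omega)
      have b3 := mul_le_mul_of_nonneg_left (D1Xi_ediv (p (a (q + 1))).1 (p (a q)).1 hh) hc1.le
      have b4 := mul_le_mul_of_nonneg_left
        (abs_sub_le ((p (a (q + 1))).1 : ℝ) (p (b q)).1 (p (a q)).1) hc1.le
      linarith
    rw [Finset.sum_add_distrib, ← Finset.mul_sum] at e2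
    simp only [Finset.sum_add_distrib, Finset.sum_const, Finset.card_range, nsmul_eq_mul] at e1 e2
    simp only [hs.first, h0, Int.zero_ediv, Int.cast_zero, abs_zero, zero_add]
    have e3 := mul_le_mul_of_nonneg_right hn1 hCW
    have e4 := mul_le_mul_of_nonneg_right hn1 (mul_nonneg hc1.le hh0.le)
    linarith
  · have e1 : ∑ q ∈ Finset.range n, max (F.cc t p (a q) (b q)) 0 ≤ ∑ q ∈ Finset.range n,
        (F.cc t p (a q) (b q) + F.LL t (q * h) h ((p (a q)).1 / (h : ℤ) * h) ((KL + 1) * h) + CE * W) :=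
      Finset.sum_le_sum fun q hq => by
        rw [Finset.mem_range] at hq
        have b0 := F.LL_nonneg t (q * h) h ((p (a q)).1 / (h : ℤ) * h) ((KL + 1) * h)
        refine max_le (by linarith) ?_
        by_cases hx : |(p (b q)).1 - (p (a q)).1| ≤ KL * h
        · have b1 := F.c_le_cc ht.1 (hs.cross q hq)
          have b2 := D1Xi_near (p (a q)).1 hh
          have b3 := abs_sub_le (p (b q)).1 (p (a q)).1 ((p (a q)).1 / (h : ℤ) * h)
          have b4 := F.neg_c_le_LL t (q * h) h (k := (p (a q)).1 / (h : ℤ) * h) (x := (p (a q)).1)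
            (u := (p (b q)).1) (R := (KL + 1) * h)
            (by push_cast; nlinarith [mul_nonneg (Int.natCast_nonneg KL) (Int.natCast_nonneg h)])
            (by push_cast; linarith)
          rw [zero_add] at b1
          linarith
        · have b1 := hpc q hq
          have b2 : (KL : ℝ) * h ≤ |((p (b q)).1 : ℝ) - (p (a q)).1| := by
            exact_mod_cast (not_le.1 hx).le
          have b3 := mul_le_mul_of_nonneg_left b2 hc1.le
          have b4 := mul_le_mul_of_nonneg_right hKL hh0.le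
          linarith
    have e2 : ∑ q ∈ Finset.range (n - 1), max (F.cc t p (b q) (a (q + 1))) 0 ≤
        ∑ q ∈ Finset.range (n - 1), (F.cc t p (b q) (a (q + 1)) + CE * W) := Finset.sum_le_sum fun q hq => by
      rw [Finset.mem_range] at hq
      have b2 := hgc q (by omega)
      have := mul_nonneg hc1.le (abs_nonneg (((p (a (q + 1))).1 : ℝ) - (p (b q)).1))
      exact max_le (by linarith) (by linarith)
    simp only [Finset.sum_add_distrib, Finset.sum_const, Finset.card_range, nsmul_eq_mul] at e1 e2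
    have e3 := mul_le_mul_of_nonneg_right hn1 hCW
    unfold posCost
    linarith

/-- a cheap crossing stays in a bounded region -/
theorem D1Xi_nrm {μ : ℝ × ℝ → ℝ} (F : Face μ) {c1 CE W A : ℝ} (hc1 : 0 < c1) (hCE : 0 < CE) (hA : 0 ≤ A)
    {N H : ℕ} (hW : W ≤ N) (hH : H ≤ N) {t : Env} (ht : F.Coer c1 CE W N t) {p : ℤ → V} {i j : ℤ}
    (hp : Cross 0 H p i j) (h0 : (p i).1 = 0) (hc : F.cc t p i j ≤ A * N) {m : ℤ} (h1 : i ≤ m) (h2 : m ≤ j) :
    (nrm (p m) : ℝ) ≤ (CE + 1 + |F.a0| * ((1 + 2 * CE) / c1) + |F.b0|) / c1 * (1 + A) * N := by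
  have hu := hp.1.mono (Set.subset_univ _)
  have e0 : p i = 0 := Prod.ext h0 hp.2.1
  have e1 : (nrm (p i) : ℝ) ≤ (N : ℝ) ^ 2 := by
    rw [e0, nrm_eq_zero.2 rfl, Int.cast_zero]
    positivity
  have a1 := (ht.2 p i m (hu.sub le_rfl h1 h2) e1).1
  have a2 := (ht.2 p i j hu e1).2.1
  have a3 : cost t p i m ≤ cost t p i j := cost_sub_le ht.1 le_rfl h2
  have hN0 : (0 : ℝ) ≤ N := by positivity
  have hH' : (H : ℝ) ≤ N := by exact_mod_cast hH
  have a4 : ((p j).2 : ℝ) - (p i).2 = H := by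
    rw [hp.2.1, hp.2.2]
    push_cast
    ring
  rw [e0, sub_zero] at a1
  unfold Face.cc at hc a2
  rw [a4] at hc a2
  rw [Nat.abs_cast] at a2
  generalize ((p j).1 : ℝ) - (p i).1 = D at hc a2
  have b1 := mul_le_mul_of_nonneg_left hW hCE.le
  have b2 := mul_le_mul_of_nonneg_left hH' hCE.le
  have hAN := mul_nonneg hA hN0
  have b3 : |D| ≤ (1 + 2 * CE) / c1 * ((1 + A) * N) := by
    rw [div_mul_eq_mul_div, le_div_iff₀ hc1]
    nlinarith [mul_nonneg hCE.le hAN]
  have b4 : F.a0 * D ≤ |F.a0| * ((1 + 2 * CE) / c1 * ((1 + A) * N)) :=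
    (le_abs_self _).trans (by rw [abs_mul]; exact mul_le_mul_of_nonneg_left b3 (abs_nonneg _))
  have b5 : F.b0 * H ≤ |F.b0| * ((1 + A) * N) :=
    mul_le_mul (le_abs_self _) (by nlinarith) (by positivity) (abs_nonneg _)
  rw [mul_assoc, div_mul_eq_mul_div, le_div_iff₀ hc1]
  nlinarith [mul_nonneg hCE.le hAN]

theorem D1Xi_geom {K : ℝ} (hK : 2 ≤ K) (d : ℕ) : ∑ l ∈ Finset.range d, K ^ l / (K ^ 2) ^ l ≤ 2 := by
  refine le_trans (Finset.sum_le_sum fun l _ => ?_) (sum_geometric_two_le d)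
  rw [← div_pow]
  refine pow_le_pow_left₀ (by positivity) ?_ l
  rw [div_le_div_iff₀ (by positivity) (by positivity)]
  nlinarith

theorem D1Xi_u_le {P : Par} (hK : 2 ≤ P.K) {h l : ℕ} {u : ℝ} (hu : 0 < u) (huh : u ≤ h) (ha : P.Adm h u)
    (hl : l ≤ P.dep h u) : 1 ≤ h / P.K ^ l ∧ u ≤ P.K * (h / P.K ^ l : ℕ) := by
  have hd : P.K ^ l ∣ h := (pow_dvd_pow _ hl).trans ha.2
  have hK0 : 0 < P.K ^ l := by positivity
  have hK1 : (1 : ℝ) ≤ P.K := by exact_mod_cast (by omega : 1 ≤ P.K)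
  refine ⟨Nat.div_pos (Nat.le_of_dvd ha.1 hd) hK0, ?_⟩
  rcases l with _ | l
  · rw [pow_zero, Nat.div_one]
    exact huh.trans (le_mul_of_one_le_left (by positivity) hK1)
  · have a1 := Par.lt_of_lt_dep (P := P) (h := h) (u := u) (d := l) (by omega)
    have a2 : (h : ℝ) = (P.K : ℝ) ^ l * (P.K * (h / P.K ^ (l + 1) : ℕ)) := by
      rw [← mul_assoc, ← pow_succ]
      exact_mod_cast (Nat.mul_div_cancel' hd).symm
    have a3 : (P.K : ℝ) ^ l ≤ ((P.K : ℝ) ^ 3) ^ l :=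
      pow_le_pow_left₀ (by positivity) (le_self_pow₀ hK1 (by norm_num)) l
    have a4 := mul_le_mul_of_nonneg_right a3 hu.le
    exact le_of_mul_le_mul_left (a := (P.K : ℝ) ^ l) (by linarith) (by positivity)

/-- the dominating variable at one level -/
theorem D1Xi_field {G : Measure ℝ} [IsProbabilityMeasure G] [NullSingletonClass G] (hG : Nice G)
    (F : Face (mu G)) (KL : ℕ) : ∃ C > 0, ∀ (hmax : ℕ) (W : ℝ), F.Scale G hmax W → ∀ (h n : ℕ) (β : ℝ),
    1 ≤ h → h ≤ hmax → 1 ≤ β → ∃ g : Env → ℝ, Measurable g ∧ (∀ t, 0 ≤ g t) ∧ Integrable g (iidLaw G) ∧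
      ∫ t, g t ∂iidLaw G ≤ C * n * β * W ∧
      ∀ᵐ t ∂iidLaw G, ∀ k : ℕ → ℤ,
        (|k 0| : ℝ) + ∑ i ∈ Finset.range (n - 1), (|k (i + 1) - k i| : ℝ) ≤ β * n →
          ∑ q ∈ Finset.range n, F.LL t (q * h) h (k q * h) (KL * h) ≤ g t := by
  obtain ⟨C1, hC1, H1⟩ := lpp_field (G := G) (γ := 21 / 10) (by norm_num)
  obtain ⟨C2, hC2, H2⟩ := Face.L2 hG F KL
  refine ⟨C1 * C2, by positivity, fun hmax W hS h n β h1 h2 hβ => ?_⟩
  have hW : 0 < W := zero_lt_one.trans_le hS.one_le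
  obtain ⟨g, g1, g2, g3, g4, g5⟩ := H1 (fun q k t => F.LL t (q * h) h (k * h) (KL * h))
    (fun q => slabEdges (q * h) h) (fun q k => F.measurable_LL _ _ _ _) (fun q k t => F.LL_nonneg _ _ _ _ _)
    (fun q k => F.dependsOnly_LL _ _ _ _) (by
      have key : ∀ q r : ℕ, q < r → Disjoint (slabEdges (q * h) h) (slabEdges (r * h) h) := fun q r hqr =>
        disjoint_slabEdges (by
          have : (q : ℤ) + 1 ≤ r := by exact_mod_cast hqr
          nlinarith [Int.natCast_nonneg h])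
      intro q r hqr
      rcases lt_or_gt_of_ne hqr with h' | h'
      · exact key q r h'
      · exact (key r q h').symm) (C2 * W) 1 (by positivity) one_pos le_rfl
    (fun q k => measureReal_le_one) (fun q k s hs => H2 hmax W hS h _ _ s h1 h2 hs) n β hβ
  refine ⟨g, g1, g2, g3, g4.trans ?_, g5⟩
  rw [Real.one_rpow, mul_one]
  have : √β ≤ β := Real.sqrt_le_iff.2 ⟨by linarith, by nlinarith⟩
  calc C1 * n * √β * (C2 * W) ≤ C1 * n * β * (C2 * W) := by gcongr
    _ = _ := by ring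

namespace Par
variable {G : Measure ℝ} [IsProbabilityMeasure G] [NullSingletonClass G] (hG : Nice G) (F : Face (mu G))
include hG

open Classical in
theorem dec_prob {c1 CE : ℝ} (hc1 : 0 < c1) (hCE : 0 < CE) (K : ℕ) (hK : 2 ≤ K) : ∃ Cx > 0, ∀ P : Par,
    P.K = K → (1 + 2 * CE) / c1 ≤ P.C0 → ∀ (hmax : ℕ) (W : ℝ), F.Scale G hmax W →
    ∀ (h n N : ℕ) (u A : ℝ), P.Adm h u → h ≤ hmax → W ≤ u → u ≤ h → 1 ≤ n → n * h ≤ N → 0 ≤ A →
      Cx * (1 + A) ≤ N →
      ∃ g : Env → ℝ, Measurable g ∧ (∀ t, 0 ≤ g t) ∧ Integrable g (iidLaw G) ∧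
        ∫ t, g t ∂iidLaw G ≤ Cx * (1 + A) * n * u ∧
        ∀ᵐ t ∂iidLaw G, F.Coer c1 CE W N t → ∀ p i j, Cross 0 (n * h) p i j →
          (∀ l, i ≤ l → l < j → (p l).2 < n * h) → (p i).1 = 0 → F.cc t p i j ≤ A * n * u →
          (∀ m, i ≤ m → m ≤ j → (nrm (p m) : ℝ) ≤ (N : ℝ) ^ 2) ∧
          ∃ a b, Split p 0 h n i j a b ∧ posCost F t p n a b ≤ g t ∧
            ∀ lam : ℝ, 1 ≤ lam → (((Finset.range n).filter fun q : ℕ =>
              ¬ P.GoodP F t p (q * h) h (lam * u) (a q) (b q)).card : ℝ) * (lam * u) ≤ g t := by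
  obtain ⟨KL, hKL⟩ : ∃ KL : ℕ, CE ≤ c1 * KL :=
    ⟨⌈CE / c1⌉₊, by rw [← div_le_iff₀' hc1]; exact Nat.le_ceil _⟩
  obtain ⟨C, hC, H⟩ := D1Xi_field hG F (KL + 1)
  obtain ⟨Cβ, hCβ⟩ : ∃ x : ℝ, x = 1 + (K + CE + 2 * CE * K) / c1 := ⟨_, rfl⟩
  obtain ⟨C3, hC3⟩ : ∃ x : ℝ, x = (CE + 1 + |F.a0| * ((1 + 2 * CE) / c1) + |F.b0|) / c1 := ⟨_, rfl⟩
  have hCβ1 : 1 ≤ Cβ := by rw [hCβ]; exact le_add_of_nonneg_right (by positivity)
  have hC30 : 0 ≤ C3 := by rw [hC3]; positivity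
  refine ⟨C3 + 2 * (1 + C * Cβ + 2 * CE), by positivity,
    fun P hPK hC0 hmax W hS h n N u A hA hh hWu huh hn hnN hA0 hCN => ?_⟩
  subst hPK
  have hW : 0 < W := zero_lt_one.trans_le hS.one_le
  have hu : 0 < u := hW.trans_le hWu
  have hK2 : (2 : ℝ) ≤ P.K := by exact_mod_cast hK
  have hn' : (1 : ℝ) ≤ n := by exact_mod_cast hn
  have hβ : 1 ≤ Cβ * (1 + A) := one_le_mul_of_one_le_of_one_le hCβ1 (by linarith)
  have key : ∀ l : ℕ, ∃ g : Env → ℝ, l ≤ P.dep h u → Measurable g ∧ (∀ t, 0 ≤ g t) ∧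
      Integrable g (iidLaw G) ∧ ∫ t, g t ∂iidLaw G ≤ C * (n * P.K ^ l : ℕ) * (Cβ * (1 + A)) * W ∧
      ∀ᵐ t ∂iidLaw G, ∀ k : ℕ → ℤ,
        (|k 0| : ℝ) + ∑ i ∈ Finset.range (n * P.K ^ l - 1), (|k (i + 1) - k i| : ℝ) ≤
          Cβ * (1 + A) * (n * P.K ^ l : ℕ) → ∑ q ∈ Finset.range (n * P.K ^ l),
          F.LL t (q * (h / P.K ^ l : ℕ)) (h / P.K ^ l) (k q * (h / P.K ^ l : ℕ))
            ((KL + 1) * (h / P.K ^ l)) ≤ g t := fun l => by
    by_cases hl : l ≤ P.dep h u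
    · obtain ⟨g, hg⟩ := H hmax W hS (h / P.K ^ l) (n * P.K ^ l) _ (D1Xi_u_le hK hu huh hA hl).1
        ((Nat.div_le_self _ _).trans hh) hβ
      exact ⟨g, fun _ => hg⟩
    · exact ⟨0, fun h' => absurd h' hl⟩
  choose g hg using key
  have hg' : ∀ l ∈ Finset.range (P.dep h u + 1), l ≤ P.dep h u := fun l hl => by
    rw [Finset.mem_range] at hl
    omega
  have hint : ∀ l ∈ Finset.range (P.dep h u + 1), Integrable (fun t =>
      (A * n * u + g l t + 2 * CE * W * (n * P.K ^ l : ℕ)) / ((P.K : ℝ) ^ 2) ^ l) (iidLaw G) := fun l hl =>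
    (((integrable_const _).add (hg l (hg' l hl)).2.2.1).add (integrable_const _)).div_const _
  refine ⟨fun t => ∑ l ∈ Finset.range (P.dep h u + 1),
    (A * n * u + g l t + 2 * CE * W * (n * P.K ^ l : ℕ)) / ((P.K : ℝ) ^ 2) ^ l,
    Finset.measurable_sum _ fun l hl =>
      ((((hg l (hg' l hl)).1.const_add _).add_const _).div_const _),
    fun t => Finset.sum_nonneg fun l hl => ?_, integrable_finsetSum _ hint, ?_, ?_⟩
  · have := (hg l (hg' l hl)).2.1 t
    positivity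
  · rw [integral_finsetSum _ hint]
    have hx : 0 ≤ (1 + C * Cβ + 2 * CE) * (1 + A) * n * u := by positivity
    calc _ ≤ ∑ l ∈ Finset.range (P.dep h u + 1), (1 + C * Cβ + 2 * CE) * (1 + A) * n * u *
          ((P.K : ℝ) ^ l / ((P.K : ℝ) ^ 2) ^ l) := Finset.sum_le_sum fun l hl => by
          obtain ⟨-, -, g3, g4, -⟩ := hg l (hg' l hl)
          have g5 : Integrable (fun t => A * n * u + g l t) (iidLaw G) := (integrable_const _).add g3
          rw [integral_div, integral_add g5 (integrable_const _),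
            integral_add (integrable_const _) g3, ← mul_div_assoc]
          refine div_le_div_of_nonneg_right ?_ (by positivity)
          simp only [integral_const, probReal_univ, one_smul]
          push_cast at g4 ⊢
          have b1 : (1 : ℝ) ≤ (P.K : ℝ) ^ l := one_le_pow₀ (by linarith)
          generalize (P.K : ℝ) ^ l = κ at g4 b1 ⊢
          have b2 : A * n * u ≤ (1 + A) * n * u * κ :=
            le_trans (by gcongr; linarith) (le_mul_of_one_le_right (by positivity) b1)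
          have b3 : C * (n * κ) * (Cβ * (1 + A)) * W ≤ C * (n * κ) * (Cβ * (1 + A)) * u := by gcongr
          have b4 : 2 * CE * W * (n * κ) ≤ 2 * CE * ((1 + A) * u) * (n * κ) := by
            gcongr
            nlinarith
          linarith
      _ ≤ (1 + C * Cβ + 2 * CE) * (1 + A) * n * u * 2 := by
          rw [← Finset.mul_sum]
          exact mul_le_mul_of_nonneg_left (D1Xi_geom hK2 _) hx
      _ ≤ _ := by
          have : 0 ≤ C3 * (1 + A) * n * u := by positivity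
          linarith
  · have hae := (Filter.eventually_all_finset (Finset.range (P.dep h u + 1))).2
      fun l hl => (hg l (hg' l hl)).2.2.2.2
    filter_upwards [hae] with t hg5 ht p i j hp htop h0 hc
    have hnh : (n : ℝ) * h ≤ N := by exact_mod_cast hnN
    have huN : (n : ℝ) * u ≤ N := (mul_le_mul_of_nonneg_left huh (by positivity)).trans hnh
    have hN : ∀ m, i ≤ m → m ≤ j → (nrm (p m) : ℝ) ≤ (N : ℝ) ^ 2 := fun m h1 h2 => by
      have := D1Xi_nrm F hc1 hCE hA0 (by nlinarith) hnN ht hp h0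
        (hc.trans (by rw [mul_assoc]; exact mul_le_mul_of_nonneg_left huN hA0)) h1 h2
      rw [← hC3] at this
      refine this.trans ?_
      rw [sq]
      refine mul_le_mul_of_nonneg_right (le_trans ?_ hCN) (by positivity)
      exact mul_le_mul_of_nonneg_right (le_add_of_nonneg_right (by positivity)) (by positivity)
    obtain ⟨a, b, hT⟩ := exists_tower (by omega : 1 ≤ P.K) hA.1 hA.2 hn hp htop
    have hpos : ∑ l ∈ Finset.range (P.dep h u + 1), posCost F t p (n * P.K ^ l) (a l) (b l) /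
        ((P.K : ℝ) ^ 2) ^ l ≤ ∑ l ∈ Finset.range (P.dep h u + 1),
        (A * n * u + g l t + 2 * CE * W * (n * P.K ^ l : ℕ)) / ((P.K : ℝ) ^ 2) ^ l := by
      refine Finset.sum_le_sum fun l hl => div_le_div_of_nonneg_right ?_ (by positivity)
      obtain ⟨b1, b2⟩ := D1Xi_u_le hK hu huh hA (hg' l hl)
      obtain ⟨k, k1, k2⟩ := D1Xi_level F hc1 hCE hW.le hKL b1
        (Nat.mul_pos hn (by positivity)) ht (hp.1.mono (Set.subset_univ _)) (hT.split l (hg' l hl)) h0 hN hc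
      refine k2.trans (add_le_add_left (add_le_add_right (hg5 l hl k ?_) _) _)
      have b3 : (n : ℝ) ≤ (n * P.K ^ l : ℕ) := by
        exact_mod_cast Nat.le_mul_of_pos_right n (by positivity)
      have b4 : (0 : ℝ) < (h / P.K ^ l : ℕ) := by exact_mod_cast b1
      generalize ((n * P.K ^ l : ℕ) : ℝ) = n' at k1 b3 ⊢
      generalize ((h / P.K ^ l : ℕ) : ℝ) = h' at k1 b2 b4
      refine le_of_mul_le_mul_left (k1.trans ?_) (by positivity)
      have b5 : c1 * h' * (Cβ * (1 + A) * n') = (c1 + P.K + CE + 2 * CE * P.K) * (1 + A) * n' * h' := by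
        rw [hCβ]
        field_simp
        ring
      have hn0 : 0 ≤ n' := by linarith
      have b6 : A * n * u ≤ A * n' * (P.K * h') := by gcongr
      have b7 : n' * (2 * CE * W) ≤ n' * (2 * CE * (P.K * h')) := by gcongr; linarith
      have b8 : 0 ≤ (c1 + CE + 2 * CE * P.K) * A * n' * h' := by positivity
      have b9 : 0 ≤ P.K * n' * h' := by positivity
      rw [b5]
      linarith
    have hp0 : ∀ l, 0 ≤ posCost F t p (n * P.K ^ l) (a l) (b l) / ((P.K : ℝ) ^ 2) ^ l := fun l =>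
      div_nonneg (add_nonneg (Finset.sum_nonneg fun _ _ => le_max_right _ _)
        (Finset.sum_nonneg fun _ _ => le_max_right _ _)) (by positivity)
    refine ⟨hN, a 0, b 0, by simpa using hT.split 0 (Nat.zero_le _), le_trans ?_ hpos, fun lam hlam => ?_⟩
    · simpa using Finset.single_le_sum (fun l _ => hp0 l) (Finset.mem_range.2 (Nat.succ_pos (P.dep h u)))
    · have hlu : u ≤ lam * u := le_mul_of_one_le_left hu.le hlam
      exact (hT.card_bad_le F hK hc1 hCE hW hC0 ht hA.2 hN (dep_anti hK hu hlu) (hWu.trans hlu)).trans hpos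
end Par

end Crest.Agent.R151
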