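import Crest.Agent.R151.D1P0
import Crest.Agent.R151.D1Xi
import Crest.Agent.R151.D1Sum
import Crest.Agent.R151.D1Fld
import Crest.Agent.R151.D1Long

/-! R151 part D1: the deficit inequality, probabilistic core. -/

set_option autoImplicit false
open MeasureTheory ProbabilityTheory Crest.ProbabilityR.FirstPassage Filter Topology
open scoped ENNReal

namespace Crest.Agent.R151

theorem D1Def_exists {Ω : Type} [MeasurableSpace Ω] (μ : Measure Ω) [IsProbabilityMeasure μ]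
    {Q : Ω → Prop} (hae : ∀ᵐ t ∂μ, Q t) {B : Set Ω} (hB : μ.real B < 1) : ∃ t, Q t ∧ t ∉ B := by
  by_contra hn
  push Not at hn
  have h1 : μ Set.univ ≤ μ B := measure_mono_ae (hae.mono fun t ht _ => hn t ht)
  have h2 : μ.real Set.univ ≤ μ.real B := ENNReal.toReal_mono (measure_ne_top _ _) h1
  simp at h2
  linarith

theorem D1Def_markov {Ω : Type} [MeasurableSpace Ω] (μ : Measure Ω) [IsProbabilityMeasure μ]
    {g : Ω → ℝ} (h0 : ∀ t, 0 ≤ g t) (hi : Integrable g μ) {M s : ℝ} (hM : ∫ t, g t ∂μ ≤ M) (hs : 0 < s) :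
    μ.real {t | s ≤ g t} ≤ M / s := by
  have := mul_meas_ge_le_integral_of_nonneg (ae_of_all _ h0) hi s
  rw [le_div_iff₀ hs]; linarith

variable {G : Measure ℝ} [IsProbabilityMeasure G] [NullSingletonClass G]

open Classical in
theorem D1Def_core (hG : Nice G) (F : Face (mu G)) (P : Par) {c1 CE W : ℝ} (hc1 : 0 < c1)
    (hCE : 0 < CE) (hW : 0 < W) {h n N smax b1 : ℕ} {u lam0 z za gv : ℝ} {x ζ0 : ℤ} (τ E : ℕ → ℝ)
    (hn : 1 ≤ n) (hh : 1 ≤ h) (hWh : W ≤ h) (hu : 0 < u) (hlam : 1 ≤ lam0) (hb1 : 1 ≤ b1)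
    (hsmax : (h : ℝ) ≤ 2 * (2 ^ smax * lam0 * u)) (hz : z ≤ za) (hζ0 : za + b1 ≤ ζ0)
    (hE0 : ∀ s, 0 ≤ E s)
    (hE : ∀ s, 1 ≤ s → s ≤ smax → τ s + P.zeta F G h (2 ^ s * lam0 * u) - z ≤ E s)
    (hlong : (iidLaw G).real {t | 3 * (n : ℝ) * u < F.c t Set.univ 0 (n * h) 0 x} ≤ 1 / 10)
    (hco : (iidLaw G).real {t | ¬ F.Coer c1 CE W N t} ≤ 1 / 10)
    (g : Env → ℝ) (hg : (iidLaw G).real {t | gv ≤ g t} ≤ 1 / 10)
    (hgae : ∀ᵐ t ∂iidLaw G, F.Coer c1 CE W N t → ∀ p i j, Cross 0 (n * h) p i j →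
          (∀ l, i ≤ l → l < j → (p l).2 < n * h) → (p i).1 = 0 → F.cc t p i j ≤ 3 * n * u →
          (∀ m, i ≤ m → m ≤ j → (nrm (p m) : ℝ) ≤ (N : ℝ) ^ 2) ∧
          ∃ a b, Split p 0 h n i j a b ∧ posCost F t p n a b ≤ g t ∧
            ∀ lam : ℝ, 1 ≤ lam → (((Finset.range n).filter fun q : ℕ =>
              ¬ P.GoodP F t p (q * h) h (lam * u) (a q) (b q)).card : ℝ) * (lam * u) ≤ g t)
    (Ψ : ℕ → Env → ℝ) (hΨ : (iidLaw G).real {t | ∃ j : ℕ, 2 ^ j * n * b1 / 2 ≤ Ψ j t} ≤ 1 / 10)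
    (hΨae : ∀ j : ℕ, ∀ᵐ t ∂iidLaw G, ∀ k : ℕ → ℤ,
        (|k 0| : ℝ) + ∑ q ∈ Finset.range (n - 1), (|k (q + 1) - k q| : ℝ) ≤ 8 * 2 ^ j * n →
        ∑ q ∈ Finset.range n, P.Phi0 F G h (lam0 * u) za z (q * h) (q * ζ0 + k q * b1) t +
          ∑ s ∈ Finset.Icc 1 smax, ∑ q ∈ Finset.range n,
            P.PhiS F G h (2 ^ s * lam0 * u) (τ s) (q * h) (q * ζ0 + k q * b1) t ≤ Ψ j t)
    (hdet : ∑ s ∈ Finset.Icc 1 smax, E s * (2 * gv / (2 ^ s * lam0 * u)) +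
      ((1 + 4 * CE) * gv + CE * W * n) / c1 + 2 * |(ζ0 : ℝ)| * gv / h ≤ n * b1 / 2) :
    (x : ℝ) ≤ n * (ζ0 + b1) := by
  have hreg := ae_reg G hG.hyp.nonneg
  have hall := (ae_all_iff.2 hΨae).and (hgae.and hreg)
  set B : Set Env := (({t | 3 * (n : ℝ) * u < F.c t Set.univ 0 (n * h) 0 x} ∪
    {t | ¬ F.Coer c1 CE W N t}) ∪ {t | gv ≤ g t}) ∪ {t | ∃ j : ℕ, 2 ^ j * n * b1 / 2 ≤ Ψ j t} with hB
  have hBlt : (iidLaw G).real B < 1 := by
    have e1 := measureReal_union_le (μ := iidLaw G) (({t | 3 * (n : ℝ) * u < F.c t Set.univ 0 (n * h) 0 x} ∪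
      {t | ¬ F.Coer c1 CE W N t}) ∪ {t | gv ≤ g t}) {t | ∃ j : ℕ, 2 ^ j * n * b1 / 2 ≤ Ψ j t}
    have e2 := measureReal_union_le (μ := iidLaw G) ({t | 3 * (n : ℝ) * u < F.c t Set.univ 0 (n * h) 0 x} ∪
      {t | ¬ F.Coer c1 CE W N t}) {t | gv ≤ g t}
    have e3 := measureReal_union_le (μ := iidLaw G) {t | 3 * (n : ℝ) * u < F.c t Set.univ 0 (n * h) 0 x}
      {t | ¬ F.Coer c1 CE W N t}
    linarith
  obtain ⟨t, ⟨h1, h2, h3⟩, htB⟩ := D1Def_exists _ hall hBlt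
  simp only [hB, Set.mem_union, Set.mem_setOf_eq, not_or, not_lt, not_not, not_le, not_exists] at htB
  obtain ⟨⟨⟨b1', b2⟩, b3⟩, b4⟩ := htB
  have hnh : 1 ≤ n * h := Nat.mul_pos hn hh
  obtain ⟨p, j, pc, ptop, p0, pj, pcc⟩ := exists_cross_geo F h3 0 0 x hnh
  have ptop' : ∀ l, 0 ≤ l → l < j → (p l).2 < n * h := by
    intro l a b; have := ptop l a b; push_cast at this; linarith
  obtain ⟨hN, a, b, hs, hpos, hcnt⟩ := h2 b2 p 0 j pc ptop' (by rw [p0]) (by rw [pcc]; exact b1')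
  have hacc := P.account F G hc1 hCE hW b2 hn hh hWh (pc.1.mono (Set.subset_univ _)) hs hN hu hlam hb1 hsmax (hpos.trans b3.le)
    (fun lam hl => (hcnt lam hl).trans b3.le) hz hζ0 τ E hE0 hE
  have hb0 : (0 : ℝ) < b1 := by exact_mod_cast hb1
  have hn0 : (0 : ℝ) < n := by exact_mod_cast hn
  have ho0 : Par.offs p a j n ζ0 0 = 0 := by
    have : 0 < n := hn
    simp [Par.offs, this, hs.first, p0]
  have hboot := bootstrap hn hb0 (Par.offs p a j n ζ0) ho0 (by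
    intro jj hvar
    have hk := h1 jj (fun q => ⌈Par.offs p a j n ζ0 q / b1⌉) (by
      simp only [ho0, zero_div, Int.ceil_zero, Int.cast_zero, abs_zero, zero_add]
      exact_mod_cast hvar)
    have h4 := b4 jj
    have h5 : (1 : ℝ) ≤ 2 ^ jj := one_le_pow₀ (by norm_num)
    have h6 : (n : ℝ) * b1 ≤ 2 ^ jj * n * b1 := by nlinarith [mul_pos hn0 hb0]
    linarith)
  have hon : Par.offs p a j n ζ0 n = x - n * ζ0 := by simp [Par.offs, pj]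
  rw [hon] at hboot
  linarith

end Crest.Agent.R151
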