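import Crest.Agent.R151.D1DefCore

/-! R151 part D1: the deficit inequality, numerical lemmas. -/

set_option autoImplicit false
open MeasureTheory ProbabilityTheory Crest.ProbabilityR.FirstPassage Filter Topology
open scoped ENNReal

namespace Crest.Agent.R151

noncomputable def D1om : ℝ := (2 : ℝ) ^ (1 / 6 : ℝ)

theorem D1om_pos : 0 < D1om := Real.rpow_pos_of_pos (by norm_num) _

theorem D1om_pow6 : D1om ^ 6 = 2 := by
  unfold D1om
  rw [← Real.rpow_natCast, ← Real.rpow_mul (by norm_num)]; norm_num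

theorem D1om_ge : (28 / 25 : ℝ) ≤ D1om := by
  by_contra hlt
  push Not at hlt
  have := pow_lt_pow_left₀ hlt D1om_pos.le (n := 6) (by norm_num)
  rw [D1om_pow6] at this; norm_num at this

theorem D1om_one_le_pow (i : ℕ) : 1 ≤ D1om ^ i := one_le_pow₀ (by linarith [D1om_ge])

theorem D1om_two_pow (i : ℕ) : (2 : ℝ) ^ i = (D1om ^ i) ^ 6 := by
  rw [← pow_mul, mul_comm, pow_mul, D1om_pow6]

theorem D1om_rpow3 (i : ℕ) : (2 : ℝ) ^ ((i : ℝ) / 3) = (D1om ^ i) ^ 2 := by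
  unfold D1om
  rw [← pow_mul, ← Real.rpow_natCast, ← Real.rpow_mul (by norm_num)]
  congr 1; push_cast; ring

theorem D1om_sqrt (i : ℕ) : √((2 : ℝ) ^ i) = (D1om ^ i) ^ 3 := by
  rw [D1om_two_pow, show (D1om ^ i) ^ 6 = ((D1om ^ i) ^ 3) ^ 2 by ring,
    Real.sqrt_sq (by have := D1om_pos; positivity)]

theorem D1om_sum (m : ℕ) : ∑ s ∈ Finset.Icc 1 m, 1 / D1om ^ s ≤ 9 := by
  have key : ∀ m : ℕ, ∑ s ∈ Finset.Icc 1 m, 1 / D1om ^ s ≤ 9 - 9 / D1om ^ m := by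
    intro m
    induction m with
    | zero => simp
    | succ m ih =>
      rw [Finset.sum_Icc_succ_top (by omega)]
      have h0 := D1om_pos
      have h1 := D1om_ge
      have hp : 0 < D1om ^ m := pow_pos h0 m
      have : 10 / D1om ^ (m + 1) ≤ 9 / D1om ^ m := by
        rw [pow_succ, div_le_div_iff₀ (by positivity) hp]; nlinarith
      have e : 10 / D1om ^ (m + 1) = 1 / D1om ^ (m + 1) + 9 / D1om ^ (m + 1) := by ring
      linarith
  have := key m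
  have h2 : 0 ≤ 9 / D1om ^ m := by have := D1om_pos; positivity
  linarith

theorem D1om_exists (Q0 : ℝ) : ∃ i : ℕ, Q0 ≤ D1om ^ i :=
  ((tendsto_pow_atTop_atTop_of_one_lt (by linarith [D1om_ge] : 1 < D1om)).eventually_ge_atTop Q0).exists

theorem D1Def_union {Ω : Type} [MeasurableSpace Ω] (μ : Measure Ω) [IsProbabilityMeasure μ]
    (A : ℕ → Set Ω) {a : ℝ} (ha : 0 ≤ a) (h : ∀ j, μ.real (A j) ≤ a * (3 / 4) ^ j) :
    μ.real {t | ∃ j, t ∈ A j} ≤ 4 * a := by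
  have hs : HasSum (fun j : ℕ => a * (3 / 4 : ℝ) ^ j) (4 * a) := by
    have := (hasSum_geometric_of_lt_one (r := (3 / 4 : ℝ)) (by norm_num) (by norm_num)).mul_left a
    have e : a * (1 - 3 / 4 : ℝ)⁻¹ = 4 * a := by norm_num; ring
    rwa [e] at this
  have e : {t | ∃ j, t ∈ A j} = ⋃ j, A j := by ext; simp
  rw [e]
  have h1 : μ (⋃ j, A j) ≤ ENNReal.ofReal (4 * a) := by
    refine (measure_iUnion_le _).trans ?_
    rw [← hs.tsum_eq, ENNReal.ofReal_tsum_of_nonneg (fun j => by positivity) hs.summable]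
    refine ENNReal.tsum_le_tsum fun j => ?_
    rw [← ENNReal.ofReal_toReal (measure_ne_top μ (A j))]
    exact ENNReal.ofReal_le_ofReal (h j)
  exact ENNReal.toReal_le_of_le_ofReal (by positivity) h1

theorem D1Def_sqrt_beta (j : ℕ) : √(8 * (2 : ℝ) ^ j) ≤ 3 * (3 / 2) ^ j := by
  apply Real.sqrt_le_iff.2
  refine ⟨by positivity, ?_⟩
  have : (2 : ℝ) ^ j ≤ ((3 / 2) ^ j) ^ 2 := by
    rw [← pow_mul, mul_comm, pow_mul]; exact pow_le_pow_left₀ (by norm_num) (by norm_num) j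
  nlinarith

theorem D1Def_heights {τ1 : ℝ} (hτ : 0 < τ1) {h b1 Kd : ℕ} (hK : 1 ≤ Kd) (hKb : Kd ≤ b1)
    (hs : 4 * ((1 / τ1 + 2) * b1) ≤ h) :
    ∃ H1 H2 h' : ℕ, h = H1 + h' + H2 ∧ Kd ∣ h' ∧ (b1 : ℝ) ≤ τ1 * H1 ∧ (b1 : ℝ) ≤ τ1 * H2 ∧
      (H1 : ℝ) ≤ (1 / τ1 + 2) * b1 ∧ (H2 : ℝ) ≤ (1 / τ1 + 2) * b1 ∧ h ≤ 2 * h' := by
  have hb : (1 : ℝ) ≤ b1 := by exact_mod_cast hK.trans hKb
  set H1 := ⌈(b1 : ℝ) / τ1⌉₊ with hH1
  have a1 : (b1 : ℝ) / τ1 ≤ H1 := Nat.le_ceil _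
  have a2 : (H1 : ℝ) < b1 / τ1 + 1 := Nat.ceil_lt_add_one (by positivity)
  have a3 : (b1 : ℝ) ≤ τ1 * H1 := by rw [div_le_iff₀ hτ] at a1; linarith
  have e : (1 / τ1 + 2) * b1 = b1 / τ1 + 2 * b1 := by ring
  have a4 : 2 * H1 ≤ h := by
    have : (2 * H1 : ℝ) ≤ h := by
      have : 0 ≤ (b1 : ℝ) / τ1 := by positivity
      linarith
    exact_mod_cast this
  set rem := (h - 2 * H1) % Kd with hrem
  have r1 : rem < Kd := Nat.mod_lt _ hK
  have r2 : Kd * ((h - 2 * H1) / Kd) + rem = h - 2 * H1 := Nat.div_add_mod _ _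
  have r3 : (rem : ℝ) ≤ b1 := by exact_mod_cast (r1.le.trans hKb)
  have hsum : h = H1 + Kd * ((h - 2 * H1) / Kd) + (H1 + rem) := by omega
  refine ⟨H1, H1 + rem, Kd * ((h - 2 * H1) / Kd), hsum, dvd_mul_right _ _, a3, ?_, by linarith, ?_, ?_⟩
  · push_cast; have : (0 : ℝ) ≤ rem := by positivity
    nlinarith
  · push_cast; linarith
  · have h5 : (h : ℝ) = H1 + (Kd * ((h - 2 * H1) / Kd) : ℕ) + (H1 + rem) := by exact_mod_cast hsum
    have : (h : ℝ) ≤ 2 * (Kd * ((h - 2 * H1) / Kd) : ℕ) := by linarith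
    exact_mod_cast this

theorem D1Def_smax {a h : ℝ} (ha : 0 < a) (hah : a ≤ h) :
    ∃ m : ℕ, (∀ s ≤ m, 2 ^ s * a ≤ h) ∧ h ≤ 2 * (2 ^ m * a) := by
  obtain ⟨m, h1, h2⟩ := exists_nat_pow_near (x := h / a) (y := 2) ((one_le_div ha).2 hah) (by norm_num)
  refine ⟨m, fun s hs => ?_, ?_⟩
  · have : (2 : ℝ) ^ s ≤ 2 ^ m := pow_le_pow_right₀ (by norm_num) hs
    rw [le_div_iff₀ ha] at h1; nlinarith
  · rw [div_lt_iff₀ ha, pow_succ] at h2; nlinarith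

theorem D1Def_rho {r R : ℝ} (hR : 1 ≤ R) (h : R ^ 6 ≤ r) : ∃ ρ : ℝ, R ≤ ρ ∧ r = ρ ^ 6 ∧
    r ^ (-(1 / 2 : ℝ)) = 1 / ρ ^ 3 ∧ r ^ (1 / 3 : ℝ) = ρ ^ 2 := by
  have hr : 0 < r := lt_of_lt_of_le (by positivity) h
  have e6 : r = (r ^ (1 / 6 : ℝ)) ^ 6 := by
    rw [← Real.rpow_natCast, ← Real.rpow_mul hr.le]; norm_num
  have hρ : 0 < r ^ (1 / 6 : ℝ) := Real.rpow_pos_of_pos hr _
  refine ⟨r ^ (1 / 6 : ℝ), ?_, e6, ?_, ?_⟩
  · by_contra hlt
    push Not at hlt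
    have := pow_lt_pow_left₀ hlt hρ.le (n := 6) (by norm_num)
    linarith
  · rw [Real.rpow_neg hr.le, ← Real.rpow_natCast, ← Real.rpow_mul hr.le, one_div]; norm_num
  · rw [← Real.rpow_natCast, ← Real.rpow_mul hr.le]; norm_num

variable {G : Measure ℝ} [IsProbabilityMeasure G] [NullSingletonClass G]

/-- comparison of `zeta` at the height `h'` and a larger budget with `zeta h u` -/
theorem D1Def_gap (hG : Nice G) {F : Face (mu G)} {P : Par} (hP : P.Ok F) (hM : P.MeanOk F G)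
    {hmax h h' : ℕ} {W u v S D : ℝ} (hS : F.Scale G hmax W) (h1 : 1 ≤ h') (h2 : h' ≤ h) (h3 : h ≤ 2 * h')
    (h4 : h ≤ hmax) (hv : W ≤ v) (hvh : v ≤ h') (hdel : P.del F G h u ≤ S)
    (hI : F.th (2 * P.C3 * v / h) - F.th (P.C3 * u / h) ≤ D) :
    (P.zeta F G h' v : ℝ) - P.zeta F G h u ≤ |F.ξp| * (h - h') + h * (D + S) := by
  have hμ := symNorm_mu G hG.hyp
  have hd := Par.del_nonneg hG hP hS h1 (h2.trans h4) hv hvh hM
  have hh' : (0 : ℝ) < h' := by exact_mod_cast h1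
  have hh'' : (h' : ℝ) ≤ h := by exact_mod_cast h2
  have h3' : (h : ℝ) ≤ 2 * h' := by exact_mod_cast h3
  have hh : (0 : ℝ) < h := by linarith
  have hv0 : 0 < v := by linarith [hS.one_le]
  have hC3 : 0 < P.C3 := by linarith [hP.one_le_C2, hP.C2_le]
  have m1 : F.th (P.C3 * v / h') ≤ F.th (2 * P.C3 * v / h) := by
    apply F.th_mono hμ (by positivity)
    rw [div_le_div_iff₀ hh' hh]; nlinarith [mul_pos hC3 hv0]
  have m0 : 0 ≤ F.th (P.C3 * v / h') := F.th_nonneg hμ (by positivity)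
  unfold Par.del Par.slope at hd hdel
  have e1 : (P.zeta F G h' v : ℝ) ≤ h' * (F.ξp + F.th (P.C3 * v / h')) := by
    have : (P.zeta F G h' v : ℝ) / h' ≤ F.ξp + F.th (P.C3 * v / h') := by linarith
    rw [div_le_iff₀ hh'] at this; linarith
  have e2 : h * (F.ξp + F.th (P.C3 * u / h) - S) ≤ (P.zeta F G h u : ℝ) := by
    have : F.ξp + F.th (P.C3 * u / h) - S ≤ (P.zeta F G h u : ℝ) / h := by linarith
    rw [le_div_iff₀ hh] at this; linarith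
  have e3 : (h' : ℝ) * F.th (P.C3 * v / h') ≤ h * F.th (2 * P.C3 * v / h) := by nlinarith
  have e4 : -F.ξp * (h - h') ≤ |F.ξp| * (h - h') :=
    mul_le_mul_of_nonneg_right (neg_le_abs _) (by linarith)
  have e5 : (h : ℝ) * (F.th (2 * P.C3 * v / h) - F.th (P.C3 * u / h)) ≤ h * D :=
    mul_le_mul_of_nonneg_left hI hh.le
  nlinarith

end Crest.Agent.R151
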