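import Crest.Agent.R151.D0

/-! R151 part D1: definitions (hierarchically good crossings, reach, envelopes). -/

set_option autoImplicit false
open MeasureTheory ProbabilityTheory Crest.ProbabilityR.FirstPassage Filter Topology
open scoped ENNReal

namespace Crest.Agent.R151

/-- parameters: branching number `K` (budgets are multiplied by `K²` per level), lateral constant `C0`,
budget constants `C2 ≤ C3`, range `Kr` -/
structure Par where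
  K : ℕ
  C0 : ℝ
  C2 : ℝ
  C3 : ℝ
  Kr : ℕ

/-- the `L⁴` norm -/
noncomputable def n4 (G : Measure ℝ) (X : Env → ℝ) : ℝ := (∫ t, X t ^ 4 ∂iidLaw G) ^ (1 / 4 : ℝ)

namespace Par
variable (P : Par) {μ : ℝ × ℝ → ℝ} (F : Face μ)

structure Ok : Prop where
  two_le : 2 ≤ P.K
  one_le_C0 : 1 ≤ P.C0
  Kr_ge : 2 * P.C0 + |F.ξn| + |F.ξp| + 4 ≤ P.Kr
  one_le_C2 : 1 ≤ P.C2
  C2_le : P.C2 ≤ P.C3

/-- a crossing of the slab `[y,y+h)` of reduced cost `≤ u` that does not wander -/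
def Base (t : Env) (p : ℤ → V) (y : ℤ) (h : ℕ) (u : ℝ) (i j : ℤ) : Prop :=
  Cross y h p i j ∧ F.cc t p i j ≤ u ∧
    ∀ m, i ≤ m → m ≤ j → |((p m).1 : ℝ) - (p i).1| ≤ P.C0 * (h + u)

/-- hierarchically good crossing of depth `d` -/
def Good (t : Env) (p : ℤ → V) : ℕ → ℤ → ℕ → ℝ → ℤ → ℤ → Prop
  | 0, y, h, u, i, j => P.Base F t p y h u i j
  | d + 1, y, h, u, i, j => P.Base F t p y h u i j ∧ ∃ a b : ℕ → ℤ, a 0 = i ∧ b (P.K - 1) = j ∧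
      (∀ k < P.K, Good t p d (y + k * (h / P.K : ℕ)) (h / P.K) ((P.K : ℝ) ^ 2 * u) (a k) (b k)) ∧
      ∀ k, k + 1 < P.K → b k ≤ a (k + 1) ∧
        ∀ m, b k ≤ m → m ≤ a (k + 1) → (nrm (p m - p (b k)) : ℝ) ≤ P.C0 * ((P.K : ℝ) ^ 2 * u)

/-- the depth at which the budget exceeds the height -/
noncomputable def dep (h : ℕ) (u : ℝ) : ℕ := sInf {d : ℕ | (h : ℝ) ≤ ((P.K : ℝ) ^ 3) ^ d * u}

def Adm (h : ℕ) (u : ℝ) : Prop := 1 ≤ h ∧ P.K ^ P.dep h u ∣ h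

def GoodP (t : Env) (p : ℤ → V) (y : ℤ) (h : ℕ) (u : ℝ) (i j : ℤ) : Prop :=
  P.Good F t p (P.dep h u) y h u i j

variable (G : Measure ℝ)

/-- largest displacement with mean reduced cost `≤ C2 u` -/
noncomputable def zeta (h : ℕ) (u : ℝ) : ℤ :=
  sSup {ζ : ℤ | ζ ≤ P.Kr * h ∧ F.ec G Set.univ h ζ ≤ P.C2 * u}

/-- some good crossing starting at a column `≤ g` ends at a column `≥ g + a` -/
def Reach (t : Env) (y : ℤ) (h : ℕ) (u : ℝ) (g : ℤ) (a : ℝ) : Prop :=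
  ∃ p i j, P.GoodP F t p y h u i j ∧ (p i).1 ≤ g ∧ (g : ℝ) + a ≤ (p j).1

noncomputable def Rt (t : Env) (y : ℤ) (h : ℕ) (u : ℝ) (g : ℤ) : ℤ :=
  sSup {x | x = g + P.zeta F G h u ∨ ∃ p i j, P.GoodP F t p y h u i j ∧ (p i).1 ≤ g ∧ (p j).1 = x}

noncomputable def Lt (t : Env) (y : ℤ) (h : ℕ) (u : ℝ) (g : ℤ) : ℤ :=
  sInf {x | x = g - P.zeta F G h u ∨ ∃ p i j, P.GoodP F t p y h u i j ∧ g ≤ (p j).1 ∧ (p i).1 = x}

noncomputable def slope (h : ℕ) (u : ℝ) : ℝ := (P.zeta F G h u : ℝ) / h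

/-- how far a good crossing starting left of `g` gets to the right of the line of slope `zeta/h` through `(g,y)` -/
noncomputable def Mup (t : Env) (y : ℤ) (h : ℕ) (u : ℝ) (g : ℤ) : ℝ :=
  sSup {s | s = 0 ∨ ∃ p i j m, P.GoodP F t p y h u i j ∧ (p i).1 ≤ g ∧ i ≤ m ∧ m ≤ j ∧
    s = ((p m).1 : ℝ) - g - (((p m).2 : ℝ) - y) * P.slope F G h u}

/-- how far a good crossing ending right of `g` gets to the left of the line through `(g,y+h)` -/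
noncomputable def Mdn (t : Env) (y : ℤ) (h : ℕ) (u : ℝ) (g : ℤ) : ℝ :=
  sSup {s | s = 0 ∨ ∃ p i j m, P.GoodP F t p y h u i j ∧ g ≤ (p j).1 ∧ i ≤ m ∧ m ≤ j ∧
    s = (g : ℝ) - ((y : ℝ) + h - (p m).2) * P.slope F G h u - (p m).1}

/-- relative deficit -/
noncomputable def del (h : ℕ) (u : ℝ) : ℝ := F.ξp + F.th (P.C3 * u / h) - P.slope F G h u
noncomputable def zed (h : ℕ) (u : ℝ) : ℝ :=
  n4 G (fun t => ((P.Rt F G t 0 h u 0 - P.zeta F G h u : ℤ) : ℝ)) / h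
noncomputable def mup (h : ℕ) (u : ℝ) : ℝ := n4 G (fun t => P.Mup F G t 0 h u 0) / h
noncomputable def mdn (h : ℕ) (u : ℝ) : ℝ := n4 G (fun t => P.Mdn F G t 0 h u 0) / h

/-- (Mean) -/
def MeanOk : Prop := ∀ (hmax : ℕ) (W : ℝ), F.Scale G hmax W → ∀ (h : ℕ) (u : ℝ), 1 ≤ h → h ≤ hmax →
  W ≤ u → u ≤ h → ∫ t, (P.Rt F G t 0 h u 0 : ℝ) ∂iidLaw G ≤ h * (F.ξp + F.th (P.C3 * u / h))

end Par

end Crest.Agent.R151
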