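import Crest.Agent.R151.D1Defs

/-! R151 part D1: API of good crossings, depth and `zeta`. -/

set_option autoImplicit false
open MeasureTheory ProbabilityTheory Crest.ProbabilityR.FirstPassage Filter Topology
open scoped ENNReal

namespace Crest.Agent.R151

namespace Par
variable {P : Par} {μ : ℝ × ℝ → ℝ} {F : Face μ} {t : Env} {p : ℤ → V} {y i j : ℤ} {h d : ℕ} {u : ℝ}

theorem Good.base (hg : P.Good F t p d y h u i j) : P.Base F t p y h u i j := by
  cases d with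
  | zero => exact hg
  | succ d => exact hg.1
theorem GoodP.base (hg : P.GoodP F t p y h u i j) : P.Base F t p y h u i j := Good.base hg
theorem Good.le (hg : P.Good F t p d y h u i j) : i ≤ j := hg.base.1.1.1
theorem d1good_order {K : ℕ} {a b : ℕ → ℤ} (h1 : ∀ k < K, a k ≤ b k) (h2 : ∀ k, k + 1 < K → b k ≤ a (k + 1))
    {k l : ℕ} (hkl : k ≤ l) (hl : l < K) : a k ≤ a l ∧ b k ≤ b l := by
  induction l, hkl using Nat.le_induction with
  | base => exact ⟨le_rfl, le_rfl⟩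
  | succ l hkl ih =>
    have := ih (by omega)
    have := h1 l (by omega)
    have := h1 _ hl
    have := h2 l hl
    omega
theorem d1good_base_congr {q : ℤ → V} (hg : P.Base F t p y h u i j)
    (hq : ∀ k, i ≤ k → k ≤ j → q k = p k) : P.Base F t q y h u i j := by
  obtain ⟨⟨h1, h2, h3⟩, h4, h5⟩ := hg
  have e1 := hq i le_rfl h1.1
  have e2 := hq j h1.1 le_rfl
  refine ⟨⟨?_, by rwa [e1], by rwa [e2]⟩, ?_, fun m a b => ?_⟩
  · rw [e2]
    exact h1.congr hq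
  · rwa [Face.cc, cost_congr hq, e1, e2]
  · rw [e1, hq m a b]
    exact h5 m a b
/-- locality in the path (sub-pieces and returns have indices in `[i,j]`; needs `K ≥ 1` for the ordering) -/
theorem Good.congr (hK : 1 ≤ P.K) {q : ℤ → V} (hg : P.Good F t p d y h u i j)
    (hq : ∀ k, i ≤ k → k ≤ j → q k = p k) : P.Good F t q d y h u i j := by
  induction d generalizing y h u i j with
  | zero => exact d1good_base_congr hg hq
  | succ d ih =>
    obtain ⟨h0, a, b, h1, h2, h3, h4⟩ := hg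
    have o1 : ∀ k < P.K, a k ≤ b k := fun k hk => (h3 k hk).le
    have o2 : ∀ k < P.K, i ≤ a k := fun k hk =>
      h1 ▸ (d1good_order o1 (fun k hk => (h4 k hk).1) (Nat.zero_le k) hk).1
    have o3 : ∀ k < P.K, b k ≤ j := fun k hk =>
      h2 ▸ (d1good_order o1 (fun k hk => (h4 k hk).1) (Nat.le_sub_one_of_lt hk) (by omega)).2
    refine ⟨d1good_base_congr h0 hq, a, b, h1, h2, fun k hk => ih (h3 k hk) fun m m1 m2 =>
      hq m ((o2 k hk).trans m1) (m2.trans (o3 k hk)), fun k hk => ⟨(h4 k hk).1, fun m m1 m2 => ?_⟩⟩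
    have a1 := o1 k (by omega)
    have a2 := o2 k (by omega)
    have a3 := o1 _ hk
    have a4 := o3 _ hk
    rw [hq m (by omega) (by omega), hq (b k) (by omega) (by omega)]
    exact (h4 k hk).2 m m1 m2
theorem d1good_meas_base (P : Par) (F : Face μ) (p : ℤ → V) (y : ℤ) (h : ℕ) (u : ℝ) (i j : ℤ) :
    Measurable fun t => P.Base F t p y h u i j :=
  measurable_const.and (((((measurable_cost p i j).sub_const _).sub_const _).le' measurable_const).and
    measurable_const)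
theorem d1good_fs (K : ℕ) (a : ℕ → ℤ) : ∃ a' : ℕ →₀ ℤ, ∀ k < K, a' k = a k :=
  ⟨Finsupp.onFinset (Finset.range K) (fun k => if k < K then a k else 0)
    fun k hk => Finset.mem_range.2 (by_contra fun h => hk (if_neg h)), fun k hk => if_pos hk⟩
/-- induction on `d`; `∃ a b : ℕ → ℤ` only reads the values below `K`, a countable union -/
theorem measurableSet_good (P : Par) (F : Face μ) (hK : 1 ≤ P.K) (p : ℤ → V) (d : ℕ) (y : ℤ) (h : ℕ) (u : ℝ)
    (i j : ℤ) : MeasurableSet {t | P.Good F t p d y h u i j} := by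
  induction d generalizing y h u i j with
  | zero => exact (d1good_meas_base P F p y h u i j).setOf
  | succ d ih =>
    have e : {t | P.Good F t p (d + 1) y h u i j} = {t | P.Base F t p y h u i j ∧ ∃ a b : ℕ →₀ ℤ,
        a 0 = i ∧ b (P.K - 1) = j ∧
        (∀ k < P.K, P.Good F t p d (y + k * (h / P.K : ℕ)) (h / P.K) ((P.K : ℝ) ^ 2 * u) (a k) (b k)) ∧
        ∀ k, k + 1 < P.K → b k ≤ a (k + 1) ∧ ∀ m, b k ≤ m → m ≤ a (k + 1) →
          (nrm (p m - p (b k)) : ℝ) ≤ P.C0 * ((P.K : ℝ) ^ 2 * u)} := by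
      ext t
      refine ⟨fun ⟨h0, a, b, h1, h2, h3, h4⟩ => ?_, fun ⟨h0, a, b, h1⟩ => ⟨h0, a, b, h1⟩⟩
      obtain ⟨a', ha⟩ := d1good_fs P.K a
      obtain ⟨b', hb⟩ := d1good_fs P.K b
      refine ⟨h0, a', b', by rwa [ha _ hK], by rwa [hb _ (by omega)], fun k hk => ?_, fun k hk => ?_⟩
      · rw [ha k hk, hb k hk]
        exact h3 k hk
      · rw [ha _ hk, hb k (by omega)]
        exact h4 k hk
    rw [e]
    exact ((d1good_meas_base P F p y h u i j).and (Measurable.exists fun a => Measurable.exists fun b =>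
      measurable_const.and (measurable_const.and ((Measurable.forall fun k => measurable_const.imp
        (measurableSet_setOfPred.1 (ih _ _ _ _ _))).and measurable_const)))).setOf
theorem d1good_env {t' : Env} (hg : P.Good F t p d y h u i j) (ht : ∀ e ∈ slabEdges y h, t e = t' e) :
    P.Good F t' p d y h u i j := by
  have hb : ∀ {y i j : ℤ} {h : ℕ} {u : ℝ}, P.Base F t p y h u i j → (∀ e ∈ slabEdges y h, t e = t' e) →
      P.Base F t' p y h u i j := fun hg ht => ⟨hg.1, by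
    rw [Face.cc, ← cost_congr_env fun k a b => ht _ (hg.1.edge_mem a b)]
    exact hg.2.1, hg.2.2⟩
  induction d generalizing y h u i j with
  | zero => exact hb hg ht
  | succ d ih =>
    obtain ⟨h0, a, b, h1, h2, h3, h4⟩ := hg
    refine ⟨hb h0 ht, a, b, h1, h2, fun k hk => ih (h3 k hk) fun e he =>
      ht e (slabEdges_mono (le_add_of_nonneg_right (by positivity)) ?_ he), h4⟩
    have h5 : (k + 1) * (h / P.K) ≤ h := (Nat.mul_le_mul_right _ hk).trans (Nat.mul_div_le h P.K)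
    have h6 : ((k : ℤ) + 1) * (h / P.K : ℕ) ≤ h := by exact_mod_cast h5
    linarith
theorem dependsOnly_good (P : Par) (F : Face μ) (p : ℤ → V) (d : ℕ) (y : ℤ) (h : ℕ) (u : ℝ) (i j : ℤ) :
    DependsOnly (fun t => P.Good F t p d y h u i j) (slabEdges y h) := fun _ _ ht =>
  propext ⟨fun hg => d1good_env hg ht, fun hg => d1good_env hg fun e he => (ht e he).symm⟩
theorem d1good_base_shift (v : V) : P.Base F (shift v t) p y h u i j ↔
    P.Base F t (fun k => p k + v) (y + v.2) h u i j := by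
  refine and_congr (and_congr (and_congr Iff.rfl (and_congr ?_ ?_)) (and_congr ?_ ?_)) (and_congr ?_ ?_)
  · refine forall₃_congr fun k _ _ => ?_
    simp only [db1_mem, Prod.fst_add, Prod.snd_add]
    omega
  · refine forall₃_congr fun k _ _ => ?_
    simp only [adj_iff, Prod.fst_add, Prod.snd_add]
    omega
  · simp only [Prod.snd_add]
    omega
  · simp only [Prod.snd_add]
    omega
  · simp only [Face.cc, shift, cost_act, Prod.fst_add, Prod.snd_add, Int.cast_add, add_sub_add_right_eq_sub]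
  · simp only [Prod.fst_add, Int.cast_add, add_sub_add_right_eq_sub]
theorem good_shift (v : V) : P.Good F (shift v t) p d y h u i j ↔
    P.Good F t (fun k => p k + v) d (y + v.2) h u i j := by
  induction d generalizing y h u i j with
  | zero => exact d1good_base_shift v
  | succ d ih =>
    simp only [Good, ih, d1good_base_shift, add_sub_add_right_eq_sub, add_right_comm y _ v.2]
/-- every index of a good crossing of positive depth is in a sub-piece or in a return -/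
theorem cover_indices {K : ℕ} (hK : 1 ≤ K) {a b : ℕ → ℤ} {m : ℤ} (h1 : a 0 ≤ m) (h2 : m ≤ b (K - 1)) :
    (∃ k < K, a k ≤ m ∧ m ≤ b k) ∨ ∃ k, k + 1 < K ∧ b k ≤ m ∧ m ≤ a (k + 1) := by
  obtain ⟨n, rfl⟩ : ∃ n, K = n + 1 := ⟨K - 1, by omega⟩
  rw [Nat.add_sub_cancel] at h2
  clear hK
  induction n with
  | zero => exact Or.inl ⟨0, by omega, h1, h2⟩
  | succ n ih =>
    by_cases c1 : a (n + 1) ≤ m
    · exact Or.inl ⟨n + 1, by omega, c1, h2⟩
    by_cases c2 : b n ≤ m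
    · exact Or.inr ⟨n, by omega, c2, by omega⟩
    rcases ih (by omega) with ⟨k, hk, h⟩ | ⟨k, hk, h⟩
    · exact Or.inl ⟨k, by omega, h⟩
    · exact Or.inr ⟨k, by omega, h⟩

theorem dep_spec (hK : 2 ≤ P.K) (hu : 0 < u) : (h : ℝ) ≤ ((P.K : ℝ) ^ 3) ^ P.dep h u * u := by
  have h1 : (2 : ℝ) ≤ P.K := by exact_mod_cast hK
  obtain ⟨d, hd⟩ := pow_unbounded_of_one_lt ((h : ℝ) / u)
    (one_lt_pow₀ (show (1 : ℝ) < P.K by linarith) three_ne_zero)
  exact Nat.sInf_mem (s := {d : ℕ | (h : ℝ) ≤ ((P.K : ℝ) ^ 3) ^ d * u}) ⟨d, ((div_lt_iff₀ hu).1 hd).le⟩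
theorem dep_le {d : ℕ} (hd : (h : ℝ) ≤ ((P.K : ℝ) ^ 3) ^ d * u) : P.dep h u ≤ d := Nat.sInf_le hd
theorem lt_of_lt_dep {d : ℕ} (hd : d < P.dep h u) : ((P.K : ℝ) ^ 3) ^ d * u < h :=
  not_le.1 (Nat.notMem_of_lt_sInf hd)
theorem dep_anti (hK : 2 ≤ P.K) (hu : 0 < u) {u' : ℝ} (h' : u ≤ u') : P.dep h u' ≤ P.dep h u :=
  dep_le ((dep_spec hK hu).trans (mul_le_mul_of_nonneg_left h' (by positivity)))
theorem dep_mono (hK : 2 ≤ P.K) (hu : 0 < u) {h' : ℕ} (hh : h' ≤ h) : P.dep h' u ≤ P.dep h u :=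
  dep_le ((Nat.cast_le.2 hh).trans (dep_spec hK hu))
theorem d1good_pos (hK : 2 ≤ P.K) (hu : 0 < u) (hlt : u < h) : P.dep h u ≠ 0 := fun h0 => by
  have := dep_spec (h := h) hK hu
  rw [h0, pow_zero, one_mul] at this
  linarith
theorem dep_succ (hK : 2 ≤ P.K) (hu : 0 < u) (hlt : u < h) (hd : P.K ∣ h) :
    P.dep h u = P.dep (h / P.K) ((P.K : ℝ) ^ 2 * u) + 1 := by
  have K0 : (0 : ℝ) < P.K := by exact_mod_cast (by omega : 0 < P.K)
  have e : (h : ℝ) = P.K * (h / P.K : ℕ) := by exact_mod_cast (Nat.mul_div_cancel' hd).symm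
  have e' : ∀ d : ℕ, ((P.K : ℝ) ^ 3) ^ (d + 1) * u = P.K * (((P.K : ℝ) ^ 3) ^ d * ((P.K : ℝ) ^ 2 * u)) :=
    fun d => by ring
  refine le_antisymm (dep_le ?_) ?_
  · rw [e', e]
    exact mul_le_mul_of_nonneg_left (dep_spec hK (by positivity)) K0.le
  · obtain ⟨d, hd⟩ := Nat.exists_eq_succ_of_ne_zero (d1good_pos hK hu hlt)
    have h1 := dep_spec (h := h) hK hu
    rw [hd, e'] at h1
    rw [hd]
    exact Nat.succ_le_succ (dep_le (le_of_mul_le_mul_left (e.symm.trans_le h1) K0))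
theorem Adm.dvd (hK : 2 ≤ P.K) (hu : 0 < u) (ha : P.Adm h u) (hlt : u < h) : P.K ∣ h :=
  (dvd_pow_self _ (d1good_pos hK hu hlt)).trans ha.2
theorem Adm.child (hK : 2 ≤ P.K) (hu : 0 < u) (ha : P.Adm h u) (hlt : u < h) :
    P.Adm (h / P.K) ((P.K : ℝ) ^ 2 * u) := by
  have hd := ha.dvd hK hu hlt
  have h2 := ha.2
  rw [dep_succ hK hu hlt hd, pow_succ'] at h2
  exact ⟨Nat.div_pos (Nat.le_of_dvd ha.1 hd) (by omega), Nat.dvd_div_of_mul_dvd h2⟩
theorem Adm.mono (hK : 2 ≤ P.K) (hu : 0 < u) (ha : P.Adm h u) {u' : ℝ} (h' : u ≤ u') : P.Adm h u' :=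
  ⟨ha.1, (pow_dvd_pow _ (dep_anti hK hu h')).trans ha.2⟩
/-- `K^dep ≤ K (h/u)^{1/3}` -/
theorem pow_dep_le (hK : 2 ≤ P.K) (hu : 0 < u) (hle : u ≤ h) :
    ((P.K : ℝ) ^ P.dep h u) ≤ P.K * ((h : ℝ) / u) ^ (1 / 3 : ℝ) := by
  have h1 : (2 : ℝ) ≤ P.K := by exact_mod_cast hK
  rcases Nat.eq_zero_or_eq_succ_pred (P.dep h u) with e | e
  · have := Real.one_le_rpow ((one_le_div hu).2 hle) (show (0 : ℝ) ≤ 1 / 3 by norm_num)
    rw [e, pow_zero]
    nlinarith
  · have h2 := lt_of_lt_dep (P := P) (h := h) (u := u) (d := (P.dep h u).pred) (by omega)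
    rw [e, pow_succ']
    refine mul_le_mul_of_nonneg_left ?_ (by linarith)
    rw [← lt_div_iff₀ hu, ← pow_mul, mul_comm, pow_mul] at h2
    have h3 := Real.rpow_le_rpow (by positivity) h2.le (show (0 : ℝ) ≤ ((3 : ℕ) : ℝ)⁻¹ by norm_num)
    rw [Real.pow_rpow_inv_natCast (by positivity) three_ne_zero] at h3
    simpa using h3
theorem goodP_succ (hK : 2 ≤ P.K) (hu : 0 < u) (hlt : u < h) (hd : P.K ∣ h) :
    P.GoodP F t p y h u i j ↔ P.Base F t p y h u i j ∧ ∃ a b : ℕ → ℤ, a 0 = i ∧ b (P.K - 1) = j ∧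
      (∀ k < P.K, P.GoodP F t p (y + k * (h / P.K : ℕ)) (h / P.K) ((P.K : ℝ) ^ 2 * u) (a k) (b k)) ∧
      ∀ k, k + 1 < P.K → b k ≤ a (k + 1) ∧
        ∀ m, b k ≤ m → m ≤ a (k + 1) → (nrm (p m - p (b k)) : ℝ) ≤ P.C0 * ((P.K : ℝ) ^ 2 * u) := by
  unfold GoodP
  rw [dep_succ hK hu hlt hd]
  rfl
end Par

section zeta
variable {G : Measure ℝ} [IsProbabilityMeasure G] [NullSingletonClass G] (hG : Nice G) {F : Face (mu G)}
  {P : Par} (hP : P.Ok F) {hmax h : ℕ} {W u : ℝ} (hS : F.Scale G hmax W) (h1 : 1 ≤ h) (h2 : h ≤ hmax)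
  (hu : W ≤ u)
include hG hP hS h1 h2 hu

omit [IsProbabilityMeasure G] [NullSingletonClass G] hG hP hS h1 h2 hu in
theorem Par.d1good_bdd : BddAbove {ζ : ℤ | ζ ≤ P.Kr * h ∧ F.ec G Set.univ h ζ ≤ P.C2 * u} :=
  ⟨_, fun _ h => h.1⟩
omit [IsProbabilityMeasure G] [NullSingletonClass G] hG hS h2 hu in
theorem Par.d1good_abs : |⌊F.ξm * h⌋| ≤ P.Kr * h := by
  have a1 := hP.Kr_ge
  have a2 := hP.one_le_C0
  have a3 : (1 : ℝ) ≤ h := by exact_mod_cast h1
  have a4 : |F.ξm| + 1 ≤ P.Kr := by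
    have := abs_add_le F.ξn F.ξp
    rw [Face.ξm, abs_div, abs_two]
    linarith [abs_nonneg F.ξn, abs_nonneg F.ξp]
  have a5 := Int.floor_le (F.ξm * h)
  have a6 := Int.lt_floor_add_one (F.ξm * h)
  have a7 := mul_le_mul_of_nonneg_right a4 (Nat.cast_nonneg h)
  have a8 := mul_le_mul_of_nonneg_right (le_abs_self F.ξm) (Nat.cast_nonneg (α := ℝ) h)
  have a9 := mul_le_mul_of_nonneg_right (neg_abs_le F.ξm) (Nat.cast_nonneg (α := ℝ) h)
  have : |(⌊F.ξm * h⌋ : ℝ)| ≤ P.Kr * h := abs_le.2 ⟨by linarith, by linarith⟩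
  exact_mod_cast this
theorem Par.d1good_mem : ⌊F.ξm * h⌋ ∈ {ζ : ℤ | ζ ≤ P.Kr * h ∧ F.ec G Set.univ h ζ ≤ P.C2 * u} := by
  refine ⟨(le_abs_self _).trans (Par.d1good_abs hP h1), ?_⟩
  have a1 := F.ec_le_Vb hG h1 h2 (F.exists_mid (symNorm_mu G hG.hyp) h)
  have a2 := hS.Vb_le 1 le_rfl
  rw [one_mul, Nat.cast_one, Real.one_rpow, mul_one] at a2
  nlinarith [hS.one_le, hP.one_le_C2]
theorem Par.floor_le_zeta : ⌊F.ξm * h⌋ ≤ P.zeta F G h u :=
  le_csSup Par.d1good_bdd (Par.d1good_mem hG hP hS h1 h2 hu)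
theorem Par.abs_zeta_le : |P.zeta F G h u| ≤ P.Kr * h :=
  abs_le.2 ⟨(abs_le.1 (Par.d1good_abs hP h1)).1.trans (Par.floor_le_zeta hG hP hS h1 h2 hu),
    (Int.csSup_mem ⟨_, Par.d1good_mem hG hP hS h1 h2 hu⟩ Par.d1good_bdd).1⟩
theorem Par.ec_zeta_le : F.ec G Set.univ h (P.zeta F G h u) ≤ P.C2 * u :=
  (Int.csSup_mem ⟨_, Par.d1good_mem hG hP hS h1 h2 hu⟩ Par.d1good_bdd).2
theorem Par.le_zeta {ζ : ℤ} (a : ζ ≤ P.Kr * h) (b : F.ec G Set.univ h ζ ≤ P.C2 * u) :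
    ζ ≤ P.zeta F G h u := le_csSup Par.d1good_bdd ⟨a, b⟩
theorem Par.zeta_mono {u' : ℝ} (h' : u ≤ u') : P.zeta F G h u ≤ P.zeta F G h u' :=
  Par.le_zeta hG hP hS h1 h2 (hu.trans h') ((le_abs_self _).trans (Par.abs_zeta_le hG hP hS h1 h2 hu))
    ((Par.ec_zeta_le hG hP hS h1 h2 hu).trans
      (mul_le_mul_of_nonneg_left h' (zero_le_one.trans hP.one_le_C2)))
theorem Par.abs_slope_le : |P.slope F G h u| ≤ P.Kr := by
  have a3 : (0 : ℝ) < h := by exact_mod_cast h1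
  rw [Par.slope, abs_div, abs_of_pos a3, div_le_iff₀ a3]
  exact_mod_cast Par.abs_zeta_le hG hP hS h1 h2 hu
end zeta

end Crest.Agent.R151
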