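import Crest.Agent.R151.D1Cls

/-! R151 part D1: a single highway.

`ζ = zeta ℓ W`, `σ = ζ/ℓ`, `σ' = slope ℓ (λ1 W) ∈ [σ, σ + th(C3 λ1 W/ℓ) - th(C3 W/ℓ) + del ℓ W]` (`zeta_mono`, `del_nonneg` at `(ℓ, λ1 W)`).  By `Face.L1` (`n = 1`, `U = C2 W`) `P(c(0,ℓ;0,ζ) > A W) ≤ 1/8`;
`dec_prob` with `n = 1`, `h = ℓ`, `u = W`, `N = ℓ²` and Markov: `P(g ≥ λ1 W) ≤ Cx(1+A)/λ1 ≤ 1/8`; `P(¬Coer) ≤ 1/N ≤ 1/8`; `n4_markov_two` for `Mup 0 ℓ (λ1 W) 0` and `Mdn 0 ℓ (λ1 W) ζ` (`1/16` each).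
Off these events the geodesic crossing (`exists_cross_geo`) is good with budget `λ1 W` and its vertices satisfy `|x - yσ| ≤ ℓ(σ' - σ) + 2 ℓ (mup + mdn)`; so `Conn` holds and
`c^{tube} ≤ A W` with probability `≥ 1/2` (`Cross.c_le_cc_of_mem`); `pos_prob`. -/

set_option autoImplicit false
open MeasureTheory ProbabilityTheory Crest.ProbabilityR.FirstPassage Filter Topology
open scoped ENNReal

namespace Crest.Agent.R151

variable {G : Measure ℝ} [IsProbabilityMeasure G] [NullSingletonClass G] (hG : Nice G) (F : Face (mu G))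
include hG

omit hG in
theorem d1one_half {Ω : Type} [MeasurableSpace Ω] (μ : Measure Ω) [IsProbabilityMeasure μ] {E B1 B2 B3 B4 B5 : Set Ω}
    (h1 : μ.real B1 ≤ 1 / 8) (h2 : μ.real B2 ≤ 1 / 8) (h3 : μ.real B3 ≤ 1 / 8) (h4 : μ.real B4 ≤ 1 / 16)
    (h5 : μ.real B5 ≤ 1 / 16) (h : ∀ᵐ t ∂μ, t ∉ B1 → t ∉ B2 → t ∉ B3 → t ∉ B4 → t ∉ B5 → t ∈ E) :
    1 / 2 ≤ μ.real E := by
  have e0 : μ.real Set.univ ≤ μ.real (E ∪ B1 ∪ B2 ∪ B3 ∪ B4 ∪ B5) :=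
    ENNReal.toReal_mono (measure_ne_top _ _) (measure_mono_ae (h.mono fun t ht _ => by
      change t ∈ E ∪ B1 ∪ B2 ∪ B3 ∪ B4 ∪ B5
      simp only [Set.mem_union]
      tauto))
  rw [probReal_univ] at e0
  linarith [measureReal_union_le (μ := μ) (E ∪ B1 ∪ B2 ∪ B3 ∪ B4) B5, measureReal_union_le (μ := μ) (E ∪ B1 ∪ B2 ∪ B3) B4,
    measureReal_union_le (μ := μ) (E ∪ B1 ∪ B2) B3, measureReal_union_le (μ := μ) (E ∪ B1) B2,
    measureReal_union_le (μ := μ) E B1]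

theorem one_highway {c1 CE : ℝ} (hc1 : 0 < c1) (hCE : 0 < CE)
    (hco : ∀ (hmax : ℕ) (W : ℝ), F.Scale G hmax W → ∀ N : ℕ, 2 ≤ N → N ≤ hmax ^ 11 →
      (iidLaw G).real {t | ¬ F.Coer c1 CE W N t} ≤ 1 / N)
    (P : Par) (hP : P.Ok F) (hM : P.MeanOk F G) (hC0 : (1 + 2 * CE) / c1 ≤ P.C0) :
    ∃ CH > 0, ∃ lam1 r0 : ℝ, 1 ≤ lam1 ∧ lam1 ≤ r0 ∧ ∀ (hmax : ℕ) (W : ℝ), F.Scale G hmax W → ∀ ℓ : ℕ, ℓ ≤ hmax →
      r0 * W ≤ ℓ → P.Adm ℓ W → ∀ w : ℝ,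
        ℓ * (F.th (P.C3 * (lam1 * W) / ℓ) - F.th (P.C3 * W / ℓ) + P.del F G ℓ W +
          2 * (P.mup F G ℓ (lam1 * W) + P.mdn F G ℓ (lam1 * W))) ≤ w →
        Conn (tube ℓ (P.zeta F G ℓ W) w ∩ slabTo 0 ℓ (P.zeta F G ℓ W)) (0, 0) (P.zeta F G ℓ W, ℓ) ∧
          F.ec G (tube ℓ (P.zeta F G ℓ W) w) ℓ (P.zeta F G ℓ W) ≤ CH * W := by
  obtain ⟨CL, hCL, hL1⟩ := F.L1 hG (P.Kr : ℝ)
  obtain ⟨Cx, hCx, hdec⟩ := Par.dec_prob hG F hc1 hCE P.K hP.two_le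
  obtain ⟨Cp, hCp, hpos⟩ := F.pos_prob hG P.Kr (p := 1 / 2) (by norm_num)
  have hC2 := hP.one_le_C2
  have hK1 : 1 ≤ P.K := le_trans one_le_two hP.two_le
  obtain ⟨A, hA⟩ : ∃ A, A = 15 * (CL * (P.C2 + 1)) := ⟨_, rfl⟩
  have hA0 : 0 < A := by rw [hA]; positivity
  obtain ⟨lam, hlam⟩ : ∃ lam, lam = 1 + 8 * (Cx * (1 + A)) := ⟨_, rfl⟩
  have hCA : 0 < Cx * (1 + A) := by positivity
  have hlam1 : 1 ≤ lam := by linarith
  refine ⟨Cp * (A + 1), by positivity, lam, lam + 8, hlam1, by linarith,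
    fun hmax W hS ℓ hℓ hr hadm w hw => ?_⟩
  have hW1 := hS.one_le
  have hW0 : 0 < W := by linarith
  have hl1 : 1 ≤ ℓ := hadm.1
  have hWl : W ≤ lam * W := le_mul_of_one_le_left hW0.le hlam1
  have hlW : lam * W ≤ ℓ := by linarith
  have hl8 : lam + 8 ≤ ℓ := (le_mul_of_one_le_right (by linarith) hW1).trans hr
  have hl0 : (0 : ℝ) < ℓ := by linarith
  have hz := Par.abs_zeta_le hG hP hS hl1 hℓ le_rfl
  have hσ1 : P.slope F G ℓ W ≤ P.slope F G ℓ (lam * W) :=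
    div_le_div_of_nonneg_right (Int.cast_le.2 (Par.zeta_mono hG hP hS hl1 hℓ le_rfl hWl)) hl0.le
  have hσ2 := Par.del_nonneg hG hP hS hl1 hℓ hWl hlW hM
  have hσ3 : (P.zeta F G ℓ W : ℝ) = ℓ * P.slope F G ℓ W := (mul_div_cancel₀ _ hl0.ne').symm
  have hup := Par.mup_nonneg P F ℓ (lam * W)
  have hdn := Par.mdn_nonneg P F ℓ (lam * W)
  obtain ⟨g, -, g0, gi, gb, gae⟩ := hdec P rfl hC0 hmax W hS ℓ 1 ℓ W A hadm hℓ le_rfl (hWl.trans hlW) le_rfl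
    (one_mul ℓ).le hA0.le (by linarith)
  have p1 : (iidLaw G).real {t | A * W ≤ F.c t Set.univ 0 ℓ 0 (P.zeta F G ℓ W)} ≤ 1 / 8 := by
    refine ((hL1 hmax W hS 1 ℓ _ (P.C2 * W) le_rfl hl1 (by omega) (by exact_mod_cast hz) (by positivity)
      (Par.ec_zeta_le hG hP hS hl1 hℓ le_rfl)).2 _ (by positivity)).trans ?_
    have e : -(A * W) / (CL * (P.C2 * W + W * ((1 : ℕ) : ℝ) ^ (9 / 10 : ℝ))) = -15 := by
      rw [Nat.cast_one, Real.one_rpow, hA]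
      field_simp
    have := Real.add_one_le_exp 15
    rw [e, Real.exp_neg, ← div_eq_mul_inv, div_le_div_iff₀ (Real.exp_pos _) (by norm_num)]
    linarith
  have p2 : (iidLaw G).real {t | ¬ F.Coer c1 CE W ℓ t} ≤ 1 / 8 :=
    (hco hmax W hS ℓ (by exact_mod_cast (by linarith : (2 : ℝ) ≤ ℓ))
      (hℓ.trans (Nat.le_self_pow (by norm_num) _))).trans
      (one_div_le_one_div_of_le (by norm_num) (by linarith))
  have p3 : (iidLaw G).real {t | lam * W ≤ g t} ≤ 1 / 8 := by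
    have h1 := (mul_meas_ge_le_integral_of_nonneg (Eventually.of_forall g0) gi (lam * W)).trans gb
    refine le_of_mul_le_mul_left (h1.trans ?_) (by positivity : 0 < lam * W)
    rw [Nat.cast_one, mul_one, hlam]
    linarith
  have p4 := n4_markov_two (G := G) (Par.bdd_Mup (G := G) (F := F) hK1 0 0 ℓ (lam * W))
  have p5 := n4_markov_two (G := G) (Par.bdd_Mdn (G := G) (F := F) hK1 0 (P.zeta F G ℓ W) ℓ (lam * W))
  rw [Par.n4_Mup hK1 _ _ _ _ hl1] at p4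
  rw [Par.n4_Mdn hK1 _ _ _ _ hl1] at p5
  set E : Set Env := {t | Conn (tube ℓ (P.zeta F G ℓ W) w ∩ slabTo 0 ℓ (P.zeta F G ℓ W)) (0, 0) (P.zeta F G ℓ W, ℓ) ∧
    F.c t (tube ℓ (P.zeta F G ℓ W) w) 0 ℓ 0 (P.zeta F G ℓ W) ≤ A * W} with hE
  have key := d1one_half (iidLaw G) (E := E) p1 p2 p3 p4 p5 (by
    filter_upwards [gae, ae_reg G hG.hyp.nonneg] with t h1 h2 b1 b2 b3 b4 b5
    simp only [Set.mem_ofPred_eq, not_le, not_lt, not_not] at b1 b2 b3 b4 b5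
    obtain ⟨p, j, pc, ptop, p0, pj, pcc⟩ := exists_cross_geo F h2 0 0 (P.zeta F G ℓ W) hl1
    obtain ⟨-, a, b, hs, -, hcnt⟩ := h1 b2 p 0 j (by rwa [one_mul])
      (fun l c1 c2 => by simpa using ptop l c1 c2) (by rw [p0]) (by rw [pcc, Nat.cast_one, mul_one]; exact b1.le)
    have hg : P.GoodP F t p 0 ℓ (lam * W) 0 j := by
      classical
      by_contra hcon
      have h3 := hcnt lam hlam1
      rw [Finset.filter_true_of_mem fun q hq => by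
        obtain rfl : q = 0 := by simpa using hq
        rw [hs.first, show b 0 = j from hs.last]
        simpa using hcon] at h3
      simp only [Finset.card_range, Nat.cast_one, one_mul] at h3
      linarith
    have h3 := pc.c_le_cc_of_mem F h2.nonneg (U := tube ℓ (P.zeta F G ℓ W) w) fun m m1 m2 => by
      have u1 := hg.le_Mup G (g := 0) (by rw [p0]) m1 m2
      have u2 := hg.le_Mdn G (g := P.zeta F G ℓ W) (by rw [pj]) m1 m2
      obtain ⟨r1, r2⟩ := d1dec_row pc m1 m2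
      have r1' : (0 : ℝ) ≤ (p m).2 := by exact_mod_cast r1
      have r2' : ((p m).2 : ℝ) ≤ ℓ := by exact_mod_cast (by omega : (p m).2 ≤ ℓ)
      have q1 := mul_le_mul_of_nonneg_right r2' (sub_nonneg.2 hσ1)
      have q2 := mul_nonneg r1' (sub_nonneg.2 hσ1)
      have q3 := mul_nonneg hl0.le hσ2
      have q4 := mul_nonneg hl0.le hup
      have q5 := mul_nonneg hl0.le hdn
      simp only [Par.del] at hw q3
      simp only [Int.cast_zero, sub_zero, zero_add] at u1 u2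
      change |((p m).1 : ℝ) - (p m).2 * P.slope F G ℓ W| ≤ w
      rw [abs_le]
      constructor <;> linarith
    rw [p0, pj, pcc] at h3
    simp only [zero_add] at h3
    exact ⟨h3.1, h3.2.trans b1.le⟩)
  obtain ⟨t, ht⟩ : E.Nonempty := Set.nonempty_iff_ne_empty.2 fun h => by
    rw [h, measureReal_empty] at key
    linarith
  refine ⟨ht.1, (hpos hmax W hS ℓ _ _ (A * W) hl1 hℓ hz (by positivity) ht.1
    (key.trans (measureReal_mono fun t ht => ht.2))).trans (le_of_eq (by ring))⟩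

end Crest.Agent.R151
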