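import Crest.Agent.R151.D1Mean

/-! R151 part D1: the reach with a bounded budget rarely beats `zeta`.

Let `ζ = zeta h u`.  On the event take a good crossing from `x ≤ 0` to `x' ≥ ζ + C5 b1`.  If `x ≤ -L b1` then `Rt(-L b1) + L b1 ≥ ζ + L b1`
(same probability as `Rt 0 ≥ ζ + L b1`, `identDistrib_Rt`); if `x' ≥ ζ + L b1` then `Rt 0 ≥ ζ + L b1`.  Otherwise `(x,x')` is in one of `L²` pairs of bins
`[α, α+b1) × [β, β+b1)`.  Suppose the event `E = {∃ x, x' in the bins, x' - x ≤ C0(h'+λ0 u), x' - x ≥ ζ + C5 b1, c(0,h';x,x') ≤ λ0 u}` has probability `> p1 = p0/(L+1)²`.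
Shift up by `H1`.  Let `(X,X')` be a measurable choice of `(x,x')` reading the middle slab only.  Connectors: from `O = α - ⌊ξm H1⌋` in row `0` to `X` in row `H1`, from `X'` in row
`H1+h'` to `O' = β + b1 + ⌊ξm H2⌋` in row `h`; their displacements are `Mid` (as `b1 ≤ τ1 H_i`), so (`Face.L1` with `n = 1`, `U = W`, `ec_le_Vb`) each has `E|c| ≤ C W` and is `> 4CW` with
probability `≤ 1/4` given the middle slab (`lintegral_freeze`).  So `P(c(0,h;O,O') ≤ λ0 u + 8CW) ≥ p1/2` (`tau_concat`), and `pos_prob` gives mean `≤ C(p1/2)(λ0+8C+1) u ≤ C2 u`,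
while `ζ < O' - O ≤ Kr h` (`C5 = 2(|ξm|+1)(Cc+1)+4`; `Ok.Kr_ge`): contradiction with `le_zeta`. -/

set_option autoImplicit false
open MeasureTheory ProbabilityTheory Crest.ProbabilityR.FirstPassage Filter Topology
open scoped ENNReal

namespace Crest.Agent.R151

section aux
variable {G : Measure ℝ} [IsProbabilityMeasure G]

theorem D1P0_ind {A B : Set Env} {U W : Set (Sym2 V)} (hA : MeasurableSet A) (hB : MeasurableSet B)
    (hU : DependsOnly (fun t => t ∈ A) U) (hW : DependsOnly (fun t => t ∈ B) W) (h : Disjoint U W) :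
    (iidLaw G).real (A ∩ B) = (iidLaw G).real A * (iidLaw G).real B := by
  have h1 := (indepFun_of_dependsOnly G hA.mem hB.mem hU hW h).measure_inter_preimage_eq_mul {True} {True}
    (measurableSet_singleton _) (measurableSet_singleton _)
  have e : ∀ C : Set Env, (fun t => t ∈ C) ⁻¹' {True} = C := fun C => by ext t; simp
  rw [e, e] at h1
  simp only [Measure.real, h1, ENNReal.toReal_mul]

/-- the first `s` with `A s` is independent of the events `B s` -/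
theorem D1P0_first {ι : Type} (S : Finset ι) (A B : ι → Set Env) {U W : Set (Sym2 V)}
    (hA : ∀ s, MeasurableSet (A s)) (hB : ∀ s, MeasurableSet (B s))
    (hU : ∀ s, DependsOnly (fun t => t ∈ A s) U) (hW : ∀ s, DependsOnly (fun t => t ∈ B s) W)
    (h : Disjoint U W) {q : ℝ} (hq : ∀ s ∈ S, q ≤ (iidLaw G).real (B s)) :
    ∀ N : Set Env, MeasurableSet N → DependsOnly (fun t => t ∈ N) U →
      q * (iidLaw G).real ((⋃ s ∈ S, A s) \ N) ≤ (iidLaw G).real ((⋃ s ∈ S, A s ∩ B s) \ N) := by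
  classical
  induction S using Finset.induction_on with
  | empty => intro N _ _; simp
  | insert a S ha ih =>
    intro N hN hNU
    have hd : DependsOnly (fun t => t ∈ N ∪ A a) U := fun t t' htt => by
      have h1 := hNU t t' htt
      have h2 := hU a t t' htt
      simp only [Set.mem_union] at h1 h2 ⊢
      rw [h1, h2]
    have hd' : DependsOnly (fun t => t ∈ A a \ N) U := fun t t' htt => by
      have h1 := hNU t t' htt
      have h2 := hU a t t' htt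
      simp only [Set.mem_sdiff] at h1 h2 ⊢
      rw [h1, h2]
    have h1 := ih (fun s hs => hq s (Finset.mem_insert_of_mem hs)) (N ∪ A a) (hN.union (hA a)) hd
    have h2 := D1P0_ind (G := G) ((hA a).diff hN) (hB a) hd' (hW a) h
    have e1 : (⋃ s ∈ insert a S, A s) \ N = (A a \ N) ∪ ((⋃ s ∈ S, A s) \ (N ∪ A a)) := by
      rw [Finset.set_biUnion_insert]
      ext t
      simp only [Set.mem_sdiff, Set.mem_union]
      tauto
    have e2 : ((A a \ N) ∩ B a) ∪ ((⋃ s ∈ S, A s ∩ B s) \ (N ∪ A a)) ⊆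
        (⋃ s ∈ insert a S, A s ∩ B s) \ N := by
      rw [Finset.set_biUnion_insert]
      intro t
      simp only [Set.mem_sdiff, Set.mem_union, Set.mem_inter_iff]
      tauto
    have m1 : MeasurableSet ((⋃ s ∈ S, A s) \ (N ∪ A a)) :=
      (Finset.measurableSet_biUnion S fun s _ => hA s).diff (hN.union (hA a))
    have m2 : MeasurableSet ((⋃ s ∈ S, A s ∩ B s) \ (N ∪ A a)) :=
      (Finset.measurableSet_biUnion S fun s _ => (hA s).inter (hB s)).diff (hN.union (hA a))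
    refine le_trans ?_ (measureReal_mono e2)
    rw [e1, measureReal_union (Set.disjoint_left.2 fun t h1 h2 => h2.2 (Or.inr h1.1)) m1,
      measureReal_union (Set.disjoint_left.2 fun t h1 h2 => h2.2 (Or.inr h1.1.1)) m2, h2]
    have h3 := mul_le_mul_of_nonneg_left (hq a (Finset.mem_insert_self _ _))
      (measureReal_nonneg (μ := iidLaw G) (s := A a \ N))
    linarith

variable {μ : ℝ × ℝ → ℝ} (F : Face μ)

theorem D1P0_meas (y : ℤ) (h : ℕ) (x u : ℤ) : Measurable fun t => F.c t Set.univ y h x u :=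
  ((measurable_tau _ _ _ _ _).sub_const _).sub_const _

theorem D1P0_dep (y : ℤ) (h : ℕ) (x u : ℤ) :
    DependsOnly (fun t => F.c t Set.univ y h x u) (slabEdges y h) := fun t t' htt => by
  have := dependsOnly_tau Set.univ y h x u t t' fun e he => htt e he.1
  simp only [Face.c] at this ⊢
  rw [this]

theorem D1P0_shift (y : ℤ) (h : ℕ) (x u : ℤ) {I : Set ℝ} (hI : MeasurableSet I) :
    (iidLaw G).real {t | F.c t Set.univ y h x u ∈ I} =
      (iidLaw G).real {t | F.c t Set.univ 0 h 0 (u - x) ∈ I} := by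
  rw [← (measurePreserving_shift G (x, y)).measureReal_preimage
    (s := {t | F.c t Set.univ 0 h 0 (u - x) ∈ I}) (D1P0_meas F 0 h 0 (u - x) hI).nullMeasurableSet]
  congr 1
  ext t
  simp [Face.c, tau_shift_univ]

end aux

section conn
variable {G : Measure ℝ} [IsProbabilityMeasure G] [NullSingletonClass G] (hG : Nice G) (F : Face (mu G))
include hG

/-- connectors are cheap with probability `3/4` -/
theorem D1P0_conn : ∃ C > 0, ∀ (hmax : ℕ) (W : ℝ), F.Scale G hmax W → ∀ (H : ℕ) (y x x' d : ℤ), 1 ≤ H →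
    H ≤ hmax → 0 ≤ d → (d : ℝ) ≤ F.τ1 * H → x' - x = d + ⌊F.ξm * H⌋ →
      (iidLaw G).real {t | C * W ≤ F.c t Set.univ y H x x'} ≤ 1 / 4 := by
  obtain ⟨C, hC, hL⟩ := F.L1 hG (|F.ξm| + F.τ1 + 1)
  refine ⟨14 * C, by positivity, fun hmax W hS H y x x' d h1 h2 hd0 hd he => ?_⟩
  have hW := hS.one_le
  have hd0' : (0 : ℝ) ≤ d := by exact_mod_cast hd0
  have hH : (1 : ℝ) ≤ H := by exact_mod_cast h1
  have f1 := Int.floor_le (F.ξm * H)
  have f2 := Int.lt_floor_add_one (F.ξm * H)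
  have hm : F.Mid H (x' - x) := by
    unfold Face.Mid
    rw [he, abs_le]; push_cast
    constructor <;> linarith
  have hab : (|((x' - x : ℤ) : ℝ)|) ≤ (|F.ξm| + F.τ1 + 1) * H := by
    have h3 : |((x' - x : ℤ) : ℝ) - F.ξm * H| ≤ F.τ1 * H + 1 := hm
    have h4 := abs_add_le (((x' - x : ℤ) : ℝ) - F.ξm * H) (F.ξm * H)
    rw [sub_add_cancel, abs_mul, abs_of_nonneg (by linarith : (0 : ℝ) ≤ H)] at h4
    linarith
  have hec : F.ec G Set.univ H (x' - x) ≤ W := by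
    have h3 := F.ec_le_Vb hG h1 h2 hm
    have h4 := hS.Vb_le 1 le_rfl
    simp only [one_mul, Nat.cast_one, Real.one_rpow, mul_one] at h4
    linarith
  have h5 := (hL hmax W hS 1 H (x' - x) W le_rfl h1 (by omega) hab (by linarith) hec).2 (14 * C * W)
    (by positivity)
  have h6 := D1P0_shift (G := G) F y H x x' (I := Set.Ici (14 * C * W)) measurableSet_Ici
  simp only [Set.mem_Ici] at h6
  rw [h6]
  refine h5.trans ?_
  simp only [Nat.cast_one, Real.one_rpow, mul_one]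
  have e : -(14 * C * W) / (C * (W + W)) = -7 := by field_simp; ring
  rw [e, Real.exp_neg]
  have h7 := Real.add_one_le_exp (7 : ℝ)
  have h8 : (Real.exp 7)⁻¹ ≤ 8⁻¹ := inv_anti₀ (by norm_num) (by linarith)
  linarith

set_option maxHeartbeats 800000 in
/-- one pair of bins -/
theorem D1P0_bin (Cc : ℝ) (Kr : ℕ) {lam0 p1 : ℝ} (hl : 1 ≤ lam0) (hp : 0 < p1) :
    ∃ C2 : ℝ, 1 ≤ C2 ∧ ∀ P : Par, P.Ok F → P.Kr = Kr → C2 ≤ P.C2 → ∀ (hmax : ℕ) (W : ℝ), F.Scale G hmax W →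
      ∀ (h h' H1 H2 b1 : ℕ) (u : ℝ), h = H1 + h' + H2 → h ≤ hmax → 1 ≤ h' → 1 ≤ b1 →
        (b1 : ℝ) ≤ F.τ1 * H1 → (b1 : ℝ) ≤ F.τ1 * H2 → (H1 : ℝ) ≤ Cc * b1 → (H2 : ℝ) ≤ Cc * b1 →
        W ≤ u → lam0 * u ≤ h' → ∀ α β : ℤ,
        (iidLaw G).real {t | ∃ x x' : ℤ, α ≤ x ∧ x ≤ α + b1 ∧ β ≤ x' ∧ x' ≤ β + b1 ∧
          (x' : ℝ) - x ≤ P.C0 * (h' + lam0 * u) ∧
          (P.zeta F G h u : ℝ) + (2 * |F.ξm| * Cc + 3) * b1 ≤ (x' : ℝ) - x ∧
          F.c t Set.univ 0 h' x x' ≤ lam0 * u} ≤ p1 := by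
  classical
  obtain ⟨C, hC, hconn⟩ := D1P0_conn hG F
  obtain ⟨C', hC', hpos⟩ := F.pos_prob hG Kr (p := p1 / 2) (by positivity)
  refine ⟨max 1 (C' * (lam0 + 2 * C + 1)), le_max_left _ _, ?_⟩
  intro P hP hKr hC2 hmax W hS h h' H1 H2 b1 u hh hhm h1 hb1 t1 t2 c1 c2 hu hlu α β
  by_contra hcon
  rw [not_le] at hcon
  have hW := hS.one_le
  have hb1' : (1 : ℝ) ≤ b1 := by exact_mod_cast hb1
  have hH1 : 1 ≤ H1 := by
    rcases Nat.eq_zero_or_pos H1 with h0 | h0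
    · rw [h0] at t1; simp only [Nat.cast_zero, mul_zero] at t1; linarith
    · exact h0
  have hH2 : 1 ≤ H2 := by
    rcases Nat.eq_zero_or_pos H2 with h0 | h0
    · rw [h0] at t2; simp only [Nat.cast_zero, mul_zero] at t2; linarith
    · exact h0
  set ζ := P.zeta F G h u with hζ
  set O : ℤ := α - ⌊F.ξm * H1⌋ with hO
  set O' : ℤ := β + b1 + ⌊F.ξm * H2⌋ with hO'
  set S : Finset (ℤ × ℤ) := (Finset.Icc α (α + b1) ×ˢ Finset.Icc β (β + b1)).filter fun s =>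
    (s.2 : ℝ) - s.1 ≤ P.C0 * (h' + lam0 * u) ∧ (ζ : ℝ) + (2 * |F.ξm| * Cc + 3) * b1 ≤ (s.2 : ℝ) - s.1 with hSdef
  have hmemS : ∀ s ∈ S, (α ≤ s.1 ∧ s.1 ≤ α + b1) ∧ (β ≤ s.2 ∧ s.2 ≤ β + b1) ∧
      (s.2 : ℝ) - s.1 ≤ P.C0 * (h' + lam0 * u) ∧ (ζ : ℝ) + (2 * |F.ξm| * Cc + 3) * b1 ≤ (s.2 : ℝ) - s.1 := by
    intro s hs
    simp only [hSdef, Finset.mem_filter, Finset.mem_product, Finset.mem_Icc] at hs
    exact ⟨hs.1.1, hs.1.2, hs.2⟩
  let A : ℤ × ℤ → Set Env := fun s => {t | F.c t Set.univ 0 h' s.1 s.2 ≤ lam0 * u}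
  let B : ℤ × ℤ → Set Env := fun s => ({t | C * W ≤ F.c t Set.univ (-H1) H1 O s.1} ∪
    {t | C * W ≤ F.c t Set.univ h' H2 s.2 O'})ᶜ
  have hsub : {t | ∃ x x' : ℤ, α ≤ x ∧ x ≤ α + b1 ∧ β ≤ x' ∧ x' ≤ β + b1 ∧
      (x' : ℝ) - x ≤ P.C0 * (h' + lam0 * u) ∧ (ζ : ℝ) + (2 * |F.ξm| * Cc + 3) * b1 ≤ (x' : ℝ) - x ∧
      F.c t Set.univ 0 h' x x' ≤ lam0 * u} ⊆ (⋃ s ∈ S, A s) \ ∅ := by
    rintro t ⟨x, x', a1, a2, a3, a4, a5, a6, a7⟩
    refine ⟨Set.mem_iUnion₂.2 ⟨(x, x'), ?_, a7⟩, id⟩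
    simp only [hSdef, Finset.mem_filter, Finset.mem_product, Finset.mem_Icc]
    exact ⟨⟨⟨a1, a2⟩, a3, a4⟩, a5, a6⟩
  have hcon' := hcon.trans_le (measureReal_mono hsub)
  have mB : ∀ s : ℤ × ℤ, MeasurableSet ({t | C * W ≤ F.c t Set.univ (-H1) H1 O s.1} ∪
      {t | C * W ≤ F.c t Set.univ h' H2 s.2 O'}) := fun s =>
    (measurableSet_le measurable_const (D1P0_meas F _ _ _ _)).union
      (measurableSet_le measurable_const (D1P0_meas F _ _ _ _))
  have key := D1P0_first (G := G) S A B (U := slabEdges 0 h') (W := slabEdges (-H1) H1 ∪ slabEdges h' H2)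
    (fun s => measurableSet_le (D1P0_meas F _ _ _ _) measurable_const) (fun s => (mB s).compl)
    (fun s t t' htt => by
      have := D1P0_dep F 0 h' s.1 s.2 t t' htt
      simp only [A, Set.mem_ofPred_eq] at this ⊢
      rw [this])
    (fun s t t' htt => by
      have a1 := D1P0_dep F (-H1) H1 O s.1 t t' fun e he => htt e (Or.inl he)
      have a2 := D1P0_dep F h' H2 s.2 O' t t' fun e he => htt e (Or.inr he)
      simp only [B, Set.mem_compl_iff, Set.mem_union, Set.mem_ofPred_eq] at a1 a2 ⊢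
      rw [a1, a2])
    (Set.disjoint_union_right.2 ⟨(disjoint_slabEdges (by simp)).symm, disjoint_slabEdges (by simp)⟩)
    (q := 1 / 2) (fun s hs => by
      obtain ⟨⟨a1, a2⟩, ⟨a3, a4⟩, -, -⟩ := hmemS s hs
      have b1' := hconn hmax W hS H1 (-H1) O s.1 (s.1 - α) hH1 (by omega) (by omega)
        (le_trans (by exact_mod_cast (by omega : s.1 - α ≤ b1)) t1) (by rw [hO]; ring)
      have b2' := hconn hmax W hS H2 h' s.2 O' (β + b1 - s.2) hH2 (by omega) (by omega)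
        (le_trans (by exact_mod_cast (by omega : β + b1 - s.2 ≤ b1)) t2) (by rw [hO']; ring)
      have b3 := measureReal_union_le (μ := iidLaw G) {t | C * W ≤ F.c t Set.univ (-H1) H1 O s.1}
        {t | C * W ≤ F.c t Set.univ h' H2 s.2 O'}
      simp only [B]
      rw [probReal_compl_eq_one_sub (mB s)]
      linarith) ∅ MeasurableSet.empty (fun _ _ _ => rfl)
  have hne : S.Nonempty := by
    rw [Finset.nonempty_iff_ne_empty]
    intro h0
    rw [h0] at hcon'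
    simp at hcon'
    linarith
  obtain ⟨s, hs⟩ := hne
  obtain ⟨⟨a1, a2⟩, ⟨a3, a4⟩, a5, a6⟩ := hmemS s hs
  have hprob : p1 / 2 ≤ (iidLaw G).real {t | F.c t Set.univ 0 h 0 (O' - O) ≤ lam0 * u + 2 * (C * W)} := by
    have h6 := D1P0_shift (G := G) F (-H1) h O O' (I := Set.Iic (lam0 * u + 2 * (C * W))) measurableSet_Iic
    simp only [Set.mem_Iic] at h6
    rw [← h6]
    refine le_trans (by linarith) (key.trans (lld_mono (ae_nonneg G hG.hyp.nonneg) ?_))
    rintro t ht ⟨h7, -⟩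
    obtain ⟨s, -, h8, h9⟩ := Set.mem_iUnion₂.1 h7
    simp only [A, B, Set.mem_compl_iff, Set.mem_union, Set.mem_ofPred_eq, not_or, not_le] at h8 h9 ⊢
    have d1 := tau_concat (y := -H1) (x := O) (u := O') ht (h1 := H1 + h') (h2 := H2) (by omega) hH2 s.2
    have d2 := tau_concat (y := -H1) (x := O) (u := s.2) ht hH1 h1 s.1
    have e1 : -(H1 : ℤ) + ((H1 + h' : ℕ) : ℤ) = h' := by push_cast; ring
    rw [e1, ← hh] at d1
    rw [neg_add_cancel] at d2
    obtain ⟨h9, h10⟩ := h9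
    simp only [Face.c] at h8 h9 h10 ⊢
    have e2 : (h : ℝ) = H1 + h' + H2 := by rw [hh]; push_cast; ring
    rw [e2]
    linarith
  have f1 := Int.floor_le (F.ξm * H1)
  have f2 := Int.lt_floor_add_one (F.ξm * H1)
  have f3 := Int.floor_le (F.ξm * H2)
  have f4 := Int.lt_floor_add_one (F.ξm * H2)
  have hH1' : (0 : ℝ) ≤ H1 := Nat.cast_nonneg _
  have hH2' : (0 : ℝ) ≤ H2 := Nat.cast_nonneg _
  have hh'' : (0 : ℝ) ≤ h' := Nat.cast_nonneg _
  have a1' : (α : ℝ) ≤ s.1 := by exact_mod_cast a1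
  have a2' : (s.1 : ℝ) ≤ α + b1 := by exact_mod_cast a2
  have a3' : (β : ℝ) ≤ s.2 := by exact_mod_cast a3
  have a4' : (s.2 : ℝ) ≤ β + b1 := by exact_mod_cast a4
  have x1 := le_abs_self F.ξm
  have x2 := neg_abs_le F.ξm
  have x0 := abs_nonneg F.ξm
  have hlow : ζ < O' - O := by
    have g1 := mul_le_mul_of_nonneg_right x2 hH1'
    have g2 := mul_le_mul_of_nonneg_right x2 hH2'
    have g3 := mul_le_mul_of_nonneg_left c1 x0
    have g4 := mul_le_mul_of_nonneg_left c2 x0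
    have : (ζ : ℝ) < ((O' - O : ℤ) : ℝ) := by
      rw [hO, hO']; push_cast; linarith
    exact_mod_cast this
  have hup : O' - O ≤ P.Kr * h := by
    have g0 : F.τ1 + |F.ξm| ≤ |F.ξn| + |F.ξp| := by
      have y1 := le_abs_self F.ξp
      have y2 := neg_abs_le F.ξn
      have y3 := abs_add_le F.ξn F.ξp
      have y4 : |F.ξm| = |F.ξn + F.ξp| / 2 := by rw [Face.ξm, abs_div, abs_two]
      have y5 := abs_nonneg F.ξn
      have y6 := abs_nonneg F.ξp
      rw [y4, Face.τ1]; linarith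
    have g1 : F.ξm * H1 ≤ |F.ξm| * H1 := mul_le_mul_of_nonneg_right x1 hH1'
    have g2 : F.ξm * H2 ≤ |F.ξm| * H2 := mul_le_mul_of_nonneg_right x1 hH2'
    have g3 := hP.Kr_ge
    have g4 := hP.one_le_C0
    have g5 : P.C0 * (h' + lam0 * u) ≤ P.C0 * (h' + h') := by gcongr
    have g6 := mul_le_mul_of_nonneg_right g0 hH1'
    have g7 := mul_le_mul_of_nonneg_right g0 hH2'
    have y5 := abs_nonneg F.ξn
    have y6 := abs_nonneg F.ξp
    have g8 : 2 * P.C0 * h' ≤ P.Kr * h' := mul_le_mul_of_nonneg_right (by linarith) hh''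
    have g9 : (|F.ξn| + |F.ξp|) * H1 ≤ P.Kr * H1 := mul_le_mul_of_nonneg_right (by linarith) hH1'
    have g10 : (|F.ξn| + |F.ξp|) * H2 ≤ P.Kr * H2 := mul_le_mul_of_nonneg_right (by linarith) hH2'
    have : ((O' - O : ℤ) : ℝ) ≤ ((P.Kr * h : ℤ) : ℝ) := by
      rw [hO, hO', hh]; push_cast; linarith
    exact_mod_cast this
  have hh1 : 1 ≤ h := by omega
  have habs := abs_le.1 (Par.abs_zeta_le hG hP hS hh1 hhm hu)
  have hc : Conn (Set.univ ∩ slabTo 0 h (O' - O)) (0, 0) (O' - O, h) := by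
    have := conn_slabTo (y := 0) (x := 0) (u := O' - O) hh1
    rwa [zero_add] at this
  have hec := hpos hmax W hS h (O' - O) Set.univ (lam0 * u + 2 * (C * W)) hh1 hhm
    (by rw [← hKr, abs_le]; constructor <;> linarith [habs.1])
    (by have : 0 ≤ lam0 * u := mul_nonneg (by linarith) (by linarith)
        positivity) hc hprob
  have hfin := Par.le_zeta hG hP hS hh1 hhm hu hup (hec.trans (by
    have g1 : C' * (lam0 + 2 * C + 1) ≤ P.C2 := (le_max_right _ _).trans hC2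
    have g2 : lam0 * u + 2 * (C * W) + W ≤ (lam0 + 2 * C + 1) * u := by
      have := mul_le_mul_of_nonneg_left hu hC.le
      linarith
    calc C' * (lam0 * u + 2 * (C * W) + W) ≤ C' * ((lam0 + 2 * C + 1) * u) := by gcongr
      _ = C' * (lam0 + 2 * C + 1) * u := by ring
      _ ≤ P.C2 * u := mul_le_mul_of_nonneg_right g1 (by linarith)))
  omega

end conn

namespace Par
variable {G : Measure ℝ} [IsProbabilityMeasure G] [NullSingletonClass G] (hG : Nice G) (F : Face (mu G))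
include hG

theorem p0_claim {Cc : ℝ} (hCc : 0 < Cc) : ∃ C5 > 0, ∀ (Kr L : ℕ) (lam0 p0 : ℝ), 1 ≤ lam0 → 0 < p0 →
    ∃ C2 : ℝ, 1 ≤ C2 ∧ ∀ P : Par, P.Ok F → P.Kr = Kr → C2 ≤ P.C2 → ∀ (hmax : ℕ) (W : ℝ), F.Scale G hmax W →
      ∀ (h h' H1 H2 b1 : ℕ) (u : ℝ), h = H1 + h' + H2 → h ≤ hmax → 1 ≤ h' → 1 ≤ b1 →
        (b1 : ℝ) ≤ F.τ1 * H1 → (b1 : ℝ) ≤ F.τ1 * H2 → (H1 : ℝ) ≤ Cc * b1 → (H2 : ℝ) ≤ Cc * b1 →
        W ≤ u → lam0 * u ≤ h' →
        (iidLaw G).real {t | P.Reach F t 0 h' (lam0 * u) 0 (P.zeta F G h u + C5 * b1)} ≤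
          p0 + 2 * (iidLaw G).real
            {t | (P.zeta F G h u : ℝ) + L * b1 ≤ P.Rt F G t 0 h' (lam0 * u) 0} := by
  refine ⟨2 * |F.ξm| * Cc + 3, by positivity, fun Kr L lam0 p0 hl hp => ?_⟩
  obtain ⟨C2, hC2, hbin⟩ := D1P0_bin hG F Cc Kr hl (p1 := p0 / (L + 1) ^ 2) (by positivity)
  refine ⟨C2, hC2, ?_⟩
  intro P hP hKr hC hmax W hS h h' H1 H2 b1 u hh hhm h1 hb1 t1 t2 c1 c2 hu hlu
  have hb := hbin P hP hKr hC hmax W hS h h' H1 H2 b1 u hh hhm h1 hb1 t1 t2 c1 c2 hu hlu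
  set ζ := P.zeta F G h u with hζ
  let E : ℤ → ℤ → Set Env := fun α β => {t | ∃ x x' : ℤ, α ≤ x ∧ x ≤ α + b1 ∧ β ≤ x' ∧ x' ≤ β + b1 ∧
    (x' : ℝ) - x ≤ P.C0 * (h' + lam0 * u) ∧ (ζ : ℝ) + (2 * |F.ξm| * Cc + 3) * b1 ≤ (x' : ℝ) - x ∧
    F.c t Set.univ 0 h' x x' ≤ lam0 * u}
  set E1 : Set Env := {t | (ζ : ℝ) + L * b1 ≤ P.Rt F G t 0 h' (lam0 * u) 0} with hE1
  set E2 : Set Env := {t | (ζ : ℝ) + L * b1 ≤
    ((P.Rt F G t 0 h' (lam0 * u) (-(L * b1)) - (-(L * b1)) : ℤ) : ℝ)} with hE2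
  have e12 : (iidLaw G).real E2 = (iidLaw G).real E1 := by
    have := (identDistrib_Rt (G := G) (F := F) (le_trans one_le_two hP.two_le) 0 (-(L * b1)) h'
      (lam0 * u)).measure_mem_eq (s := {z : ℤ | (ζ : ℝ) + L * b1 ≤ z}) MeasurableSet.of_discrete
    exact congrArg ENNReal.toReal this
  have hsub : (iidLaw G).real {t | P.Reach F t 0 h' (lam0 * u) 0 (ζ + (2 * |F.ξm| * Cc + 3) * b1)} ≤
      (iidLaw G).real ((E1 ∪ E2) ∪ ⋃ s ∈ Finset.range L ×ˢ Finset.range L,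
        E (-((s.1 + 1) * b1)) (ζ + s.2 * b1)) := by
    refine lld_mono (ae_nonneg G hG.hyp.nonneg) ?_
    rintro t ht ⟨p, i, j, hg, hi, hj⟩
    obtain ⟨hcr, hcc, hlat⟩ := hg.base
    have hb0 : (0 : ℤ) < b1 := by exact_mod_cast hb1
    have hb0' : (0 : ℝ) ≤ (2 * |F.ξm| * Cc + 3) * b1 := by positivity
    rw [Int.cast_zero, zero_add] at hj
    have hζj : ζ ≤ (p j).1 := by
      have : (ζ : ℝ) ≤ (p j).1 := by linarith
      exact_mod_cast this
    by_cases k1 : ζ + L * b1 ≤ (p j).1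
    · refine Or.inl (Or.inl ?_)
      have := k1.trans (hg.le_Rt G hi)
      show (ζ : ℝ) + L * b1 ≤ _
      exact_mod_cast this
    by_cases k2 : (p i).1 ≤ -(L * b1)
    · refine Or.inl (Or.inr ?_)
      have h3 := hg.le_Rt G k2
      have : ζ + L * b1 ≤ P.Rt F G t 0 h' (lam0 * u) (-(L * b1)) - (-(L * b1)) := by linarith
      show (ζ : ℝ) + L * b1 ≤ _
      exact_mod_cast this
    rw [not_le] at k1 k2
    have q1 := Int.emod_add_mul_ediv (-(p i).1) b1
    have q2 := Int.emod_nonneg (-(p i).1) hb0.ne'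
    have q3 := Int.emod_lt_of_pos (-(p i).1) hb0
    have q4 : 0 ≤ -(p i).1 / b1 := Int.ediv_nonneg (by omega) hb0.le
    have q5 : -(p i).1 / b1 < L := Int.ediv_lt_of_lt_mul hb0 (by omega)
    have r1 := Int.emod_add_mul_ediv ((p j).1 - ζ) b1
    have r2 := Int.emod_nonneg ((p j).1 - ζ) hb0.ne'
    have r3 := Int.emod_lt_of_pos ((p j).1 - ζ) hb0
    have r4 : 0 ≤ ((p j).1 - ζ) / b1 := Int.ediv_nonneg (by omega) hb0.le
    have r5 : ((p j).1 - ζ) / b1 < L := Int.ediv_lt_of_lt_mul hb0 (by omega)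
    refine Or.inr (Set.mem_iUnion₂.2 ⟨((-(p i).1 / b1).toNat, (((p j).1 - ζ) / b1).toNat), ?_,
      (p i).1, (p j).1, ?_, ?_, ?_, ?_, ?_, ?_, (F.c_le_cc ht hcr).trans hcc⟩)
    · simp only [Finset.mem_product, Finset.mem_range]
      omega
    · simp only [Int.toNat_of_nonneg q4]; linarith
    · simp only [Int.toNat_of_nonneg q4]; linarith
    · simp only [Int.toNat_of_nonneg r4]; linarith
    · simp only [Int.toNat_of_nonneg r4]; linarith
    · exact (le_abs_self _).trans (hlat j hcr.1.1 le_rfl)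
    · have : ((p i).1 : ℝ) ≤ 0 := by exact_mod_cast hi
      linarith
  refine hsub.trans ((measureReal_union_le _ _).trans ?_)
  have h2 := measureReal_union_le (μ := iidLaw G) E1 E2
  have h3 := (measureReal_biUnion_finset_le (μ := iidLaw G) (Finset.range L ×ˢ Finset.range L)
    fun s => E (-((s.1 + 1) * b1)) (ζ + s.2 * b1)).trans (Finset.sum_le_sum fun s _ => hb _ _)
  rw [Finset.sum_const, Finset.card_product, Finset.card_range, nsmul_eq_mul] at h3
  have h4 : ((L * L : ℕ) : ℝ) * (p0 / (L + 1) ^ 2) ≤ p0 := by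
    have hL : (0 : ℝ) ≤ L := Nat.cast_nonneg _
    rw [← mul_div_assoc, div_le_iff₀ (by positivity)]
    push_cast
    nlinarith
  linarith
end Par

end Crest.Agent.R151
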