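import Crest.Agent.R151.D1Good
import Crest.Agent.R151.D1Chain

/-! R151 part D1: API of reach and envelopes.  All the sets are nonempty and bounded (`Base`), the integer
suprema are attained; measurability through `measurableSet_exists_path` and countable unions over the indices. -/

set_option autoImplicit false
open MeasureTheory ProbabilityTheory Crest.ProbabilityR.FirstPassage Filter Topology
open scoped ENNReal

namespace Crest.Agent.R151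

namespace Par
variable {P : Par} {μ : ℝ × ℝ → ℝ} {F : Face μ} (G : Measure ℝ) {t : Env} {p : ℤ → V} {y i j g : ℤ}
  {h : ℕ} {u : ℝ}

theorem d1reach_meas (hK : 1 ≤ P.K) (y : ℤ) (h : ℕ) (u : ℝ) (Q : (ℤ → V) → ℤ → ℤ → Prop)
    (hQ : ∀ p q i j, i ≤ j → (∀ k, i ≤ k → k ≤ j → q k = p k) → Q p i j → Q q i j) :
    MeasurableSet {t | ∃ p i j, P.GoodP F t p y h u i j ∧ Q p i j} := by
  have : {t | ∃ p i j, P.GoodP F t p y h u i j ∧ Q p i j} =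
      ⋃ i, ⋃ j, {t | ∃ p, P.GoodP F t p y h u i j ∧ Q p i j} := by
    ext t
    simp only [Set.mem_iUnion, Set.mem_ofPred_eq]
    exact ⟨fun ⟨p, i, j, h⟩ => ⟨i, j, p, h⟩, fun ⟨i, j, p, h⟩ => ⟨p, i, j, h⟩⟩
  rw [this]
  exact .iUnion fun i => .iUnion fun j => measurableSet_exists_path i j _
    (fun p => (measurableSet_good P F hK p _ y h u i j).inter (MeasurableSet.const _))
    fun t p q hq ⟨h1, h2⟩ => ⟨Good.congr hK h1 hq, hQ p q i j (Good.le h1) hq h2⟩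

theorem d1reach_dep {t t' : Env} (H : ∀ e ∈ slabEdges y h, t e = t' e) (p : ℤ → V) (i j : ℤ) :
    P.GoodP F t p y h u i j = P.GoodP F t' p y h u i j :=
  dependsOnly_good P F p _ y h u i j t t' H

theorem d1reach_shift (v : V) (Q Q' : (ℤ → V) → ℤ → ℤ → Prop)
    (hQ : ∀ p i j, Q p i j ↔ Q' (fun k => p k + v) i j) :
    (∃ p i j, P.GoodP F (shift v t) p y h u i j ∧ Q p i j) ↔
      ∃ p i j, P.GoodP F t p (y + v.2) h u i j ∧ Q' p i j :=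
  ⟨fun ⟨p, i, j, h1, h2⟩ => ⟨_, i, j, (good_shift v).1 h1, (hQ p i j).1 h2⟩,
    fun ⟨p, i, j, h1, h2⟩ => ⟨fun k => p k - v, i, j,
      (good_shift v).2 (by simp only [sub_add_cancel]; exact h1), (hQ _ i j).2 (by simpa using h2)⟩⟩

theorem d1reach_lat (hg : P.GoodP F t p y h u i j) {m : ℤ} (h1 : i ≤ m) (h2 : m ≤ j) :
    |((p m).1 : ℝ) - (p i).1| ≤ P.C0 * (h + u) := hg.base.2.2 m h1 h2

theorem d1reach_row (hg : P.GoodP F t p y h u i j) {m : ℤ} (h1 : i ≤ m) (h2 : m ≤ j) :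
    (y : ℝ) ≤ (p m).2 ∧ ((p m).2 : ℝ) ≤ y + h := by
  rcases hg.base.1.1.2.1 m h1 h2 with h | h
  · exact ⟨by exact_mod_cast h.1, by have := h.2; exact_mod_cast (by omega)⟩
  · rw [Set.mem_singleton_iff.1 h]
    simp

theorem d1reach_R {x : ℤ} (hx : x = g + P.zeta F G h u ∨
    ∃ p i j, P.GoodP F t p y h u i j ∧ (p i).1 ≤ g ∧ (p j).1 = x) :
    (x : ℝ) ≤ g + max (P.zeta F G h u : ℝ) (P.C0 * (h + u)) := by
  rcases hx with rfl | ⟨p, i, j, h1, h2, rfl⟩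
  · push_cast
    linarith [le_max_left (P.zeta F G h u : ℝ) (P.C0 * (h + u))]
  · have h3 := (abs_le.1 (d1reach_lat h1 (Good.le h1) le_rfl)).2
    have h4 : ((p i).1 : ℝ) ≤ g := by exact_mod_cast h2
    linarith [le_max_right (P.zeta F G h u : ℝ) (P.C0 * (h + u))]

theorem d1reach_bR : BddAbove {x | x = g + P.zeta F G h u ∨
    ∃ p i j, P.GoodP F t p y h u i j ∧ (p i).1 ≤ g ∧ (p j).1 = x} :=
  ⟨_, fun _ hx => Int.le_floor.2 (d1reach_R G hx)⟩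

theorem d1reach_L {x : ℤ} (hx : x = g - P.zeta F G h u ∨
    ∃ p i j, P.GoodP F t p y h u i j ∧ g ≤ (p j).1 ∧ (p i).1 = x) :
    (g : ℝ) - max (P.zeta F G h u : ℝ) (P.C0 * (h + u)) ≤ x := by
  rcases hx with rfl | ⟨p, i, j, h1, h2, rfl⟩
  · push_cast
    linarith [le_max_left (P.zeta F G h u : ℝ) (P.C0 * (h + u))]
  · have h3 := (abs_le.1 (d1reach_lat h1 (Good.le h1) le_rfl)).2
    have h4 : (g : ℝ) ≤ (p j).1 := by exact_mod_cast h2
    linarith [le_max_right (P.zeta F G h u : ℝ) (P.C0 * (h + u))]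

theorem d1reach_bL : BddBelow {x | x = g - P.zeta F G h u ∨
    ∃ p i j, P.GoodP F t p y h u i j ∧ g ≤ (p j).1 ∧ (p i).1 = x} :=
  ⟨_, fun _ hx => Int.ceil_le.2 (d1reach_L G hx)⟩

theorem d1reach_memR : P.Rt F G t y h u g ∈ {x | x = g + P.zeta F G h u ∨
    ∃ p i j, P.GoodP F t p y h u i j ∧ (p i).1 ≤ g ∧ (p j).1 = x} :=
  Int.csSup_mem ⟨_, Or.inl rfl⟩ (d1reach_bR G)

theorem d1reach_memL : P.Lt F G t y h u g ∈ {x | x = g - P.zeta F G h u ∨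
    ∃ p i j, P.GoodP F t p y h u i j ∧ g ≤ (p j).1 ∧ (p i).1 = x} :=
  Int.csInf_mem ⟨_, Or.inl rfl⟩ (d1reach_bL G)

theorem d1reach_le_Rt {x : ℤ} : x ≤ P.Rt F G t y h u g ↔ x ≤ g + P.zeta F G h u ∨
    ∃ p i j, P.GoodP F t p y h u i j ∧ (p i).1 ≤ g ∧ x ≤ (p j).1 := by
  constructor
  · intro hx
    rcases d1reach_memR (P := P) (F := F) (t := t) (y := y) (h := h) (u := u) (g := g) G with
      h1 | ⟨p, i, j, h1, h2, h3⟩
    · exact Or.inl (h1 ▸ hx)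
    · exact Or.inr ⟨p, i, j, h1, h2, h3 ▸ hx⟩
  · rintro (h1 | ⟨p, i, j, h1, h2, h3⟩)
    · exact h1.trans (le_csSup (d1reach_bR G) (Or.inl rfl))
    · exact h3.trans (le_csSup (d1reach_bR G) (Or.inr ⟨p, i, j, h1, h2, rfl⟩))

theorem d1reach_up (hg : P.GoodP F t p y h u i j) (hi : (p i).1 ≤ g) {m : ℤ} (h1 : i ≤ m) (h2 : m ≤ j)
    (σ : ℝ) : ((p m).1 : ℝ) - g - (((p m).2 : ℝ) - y) * σ ≤ P.C0 * (h + u) + |σ| * h := by
  have a1 := (abs_le.1 (d1reach_lat hg h1 h2)).2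
  obtain ⟨a2, a3⟩ := d1reach_row hg h1 h2
  have a4 : ((p i).1 : ℝ) ≤ g := by exact_mod_cast hi
  nlinarith [mul_nonneg (sub_nonneg.2 a2) (neg_le_iff_add_nonneg.1 (neg_abs_le σ)),
    mul_nonneg (sub_nonneg.2 a3) (abs_nonneg σ)]

theorem d1reach_dn (hg : P.GoodP F t p y h u i j) (hj : g ≤ (p j).1) {m : ℤ} (h1 : i ≤ m) (h2 : m ≤ j)
    (σ : ℝ) : (g : ℝ) - ((y : ℝ) + h - (p m).2) * σ - (p m).1 ≤ 2 * P.C0 * (h + u) + |σ| * h := by
  have a0 := (abs_le.1 (d1reach_lat hg (h1.trans h2) le_rfl)).2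
  have a1 := (abs_le.1 (d1reach_lat hg h1 h2)).1
  obtain ⟨a2, a3⟩ := d1reach_row hg h1 h2
  have a4 : (g : ℝ) ≤ (p j).1 := by exact_mod_cast hj
  nlinarith [mul_nonneg (sub_nonneg.2 a3) (neg_le_iff_add_nonneg.1 (neg_abs_le σ)),
    mul_nonneg (sub_nonneg.2 a2) (abs_nonneg σ)]

theorem d1reach_bU (σ : ℝ) : BddAbove {s : ℝ | s = 0 ∨ ∃ p i j m, P.GoodP F t p y h u i j ∧ (p i).1 ≤ g ∧
    i ≤ m ∧ m ≤ j ∧ s = ((p m).1 : ℝ) - g - (((p m).2 : ℝ) - y) * σ} := by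
  refine ⟨max 0 (P.C0 * (h + u) + |σ| * h), ?_⟩
  rintro _ (rfl | ⟨p, i, j, m, a1, a2, a3, a4, rfl⟩)
  · exact le_max_left _ _
  · exact (d1reach_up a1 a2 a3 a4 σ).trans (le_max_right _ _)

theorem d1reach_bD (σ : ℝ) : BddAbove {s : ℝ | s = 0 ∨ ∃ p i j m, P.GoodP F t p y h u i j ∧ g ≤ (p j).1 ∧
    i ≤ m ∧ m ≤ j ∧ s = (g : ℝ) - ((y : ℝ) + h - (p m).2) * σ - (p m).1} := by
  refine ⟨max 0 (2 * P.C0 * (h + u) + |σ| * h), ?_⟩
  rintro _ (rfl | ⟨p, i, j, m, a1, a2, a3, a4, rfl⟩)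
  · exact le_max_left _ _
  · exact (d1reach_dn a1 a2 a3 a4 σ).trans (le_max_right _ _)

theorem measurableSet_reach (hK : 1 ≤ P.K) (y : ℤ) (h : ℕ) (u : ℝ) (g : ℤ) (a : ℝ) :
    MeasurableSet {t | P.Reach F t y h u g a} := by
  exact d1reach_meas hK y h u (fun p i j => (p i).1 ≤ g ∧ (g : ℝ) + a ≤ (p j).1)
    fun p q i j h1 h2 h3 => by rwa [h2 i le_rfl h1, h2 j h1 le_rfl]
theorem dependsOnly_reach (y : ℤ) (h : ℕ) (u : ℝ) (g : ℤ) (a : ℝ) :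
    DependsOnly (fun t => P.Reach F t y h u g a) (slabEdges y h) := by
  intro t t' H
  simp only [Reach, d1reach_dep H]
theorem reach_shift (v : V) (a : ℝ) :
    P.Reach F (shift v t) y h u g a ↔ P.Reach F t (y + v.2) h u (g + v.1) a := by
  refine d1reach_shift v _ (fun p i j => (p i).1 ≤ g + v.1 ∧ ((g + v.1 : ℤ) : ℝ) + a ≤ (p j).1)
    fun p i j => ?_
  simp only [Prod.fst_add, add_le_add_iff_right, Int.cast_add, add_right_comm (g : ℝ)]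
theorem Reach.le_Rt {a : ℝ} (hr : P.Reach F t y h u g a) : (g : ℝ) + a ≤ P.Rt F G t y h u g := by
  obtain ⟨p, i, j, h1, h2, h3⟩ := hr
  exact h3.trans (by exact_mod_cast (d1reach_le_Rt G).2 (Or.inr ⟨p, i, j, h1, h2, le_rfl⟩))

theorem add_zeta_le_Rt : g + P.zeta F G h u ≤ P.Rt F G t y h u g := by
  exact (d1reach_le_Rt G).2 (Or.inl le_rfl)
theorem GoodP.le_Rt (hg : P.GoodP F t p y h u i j) (hi : (p i).1 ≤ g) : (p j).1 ≤ P.Rt F G t y h u g := by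
  exact (d1reach_le_Rt G).2 (Or.inr ⟨p, i, j, hg, hi, le_rfl⟩)
theorem Rt_spec : P.Rt F G t y h u g = g + P.zeta F G h u ∨
    ∃ p i j, P.GoodP F t p y h u i j ∧ (p i).1 ≤ g ∧ (p j).1 = P.Rt F G t y h u g := by
  exact d1reach_memR G
theorem Rt_le : (P.Rt F G t y h u g : ℝ) ≤ g + max (P.zeta F G h u : ℝ) (P.C0 * (h + u)) := by
  exact d1reach_R G (d1reach_memR G)
theorem Rt_mono {g' : ℤ} (hg : g ≤ g') : P.Rt F G t y h u g ≤ P.Rt F G t y h u g' := by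
  rcases (d1reach_le_Rt G).1 (le_refl (P.Rt F G t y h u g)) with h1 | ⟨p, i, j, h1, h2, h3⟩
  · exact (d1reach_le_Rt G).2 (Or.inl (by omega))
  · exact (d1reach_le_Rt G).2 (Or.inr ⟨p, i, j, h1, h2.trans hg, h3⟩)
theorem Rt_shift (v : V) : P.Rt F G (shift v t) y h u g = P.Rt F G t (y + v.2) h u (g + v.1) - v.1 := by
  refine eq_of_forall_le_iff fun x => ?_
  rw [le_sub_iff_add_le, d1reach_le_Rt, d1reach_le_Rt]
  exact or_congr (by omega) (d1reach_shift v _ _ fun p i j => by simp)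
theorem measurable_Rt (hK : 1 ≤ P.K) (y : ℤ) (h : ℕ) (u : ℝ) (g : ℤ) :
    Measurable fun t => P.Rt F G t y h u g := by
  refine measurable_of_Ici fun x => ?_
  simp only [Set.preimage, Set.mem_Ici, d1reach_le_Rt]
  exact (MeasurableSet.const _).union (d1reach_meas hK y h u (fun p i j => (p i).1 ≤ g ∧ x ≤ (p j).1)
    fun p q i j h1 h2 h3 => by rwa [h2 i le_rfl h1, h2 j h1 le_rfl])
theorem dependsOnly_Rt (y : ℤ) (h : ℕ) (u : ℝ) (g : ℤ) :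
    DependsOnly (fun t => P.Rt F G t y h u g) (slabEdges y h) := by
  intro t t' H
  simp only [Rt, d1reach_dep H]

theorem Lt_le_iff {x : ℤ} : P.Lt F G t y h u g ≤ x ↔ g ≤ P.Rt F G t y h u x := by
  rw [d1reach_le_Rt]
  constructor
  · intro hx
    rcases d1reach_memL (P := P) (F := F) (t := t) (y := y) (h := h) (u := u) (g := g) G with
      h1 | ⟨p, i, j, h1, h2, h3⟩
    · exact Or.inl (by omega)
    · exact Or.inr ⟨p, i, j, h1, h3 ▸ hx, h2⟩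
  · rintro (h1 | ⟨p, i, j, h1, h2, h3⟩)
    · exact (csInf_le (d1reach_bL G) (Or.inl rfl)).trans (by omega)
    · exact (csInf_le (d1reach_bL G) (Or.inr ⟨p, i, j, h1, h3, rfl⟩)).trans h2
theorem Lt_le_sub_zeta : P.Lt F G t y h u g ≤ g - P.zeta F G h u := by
  exact csInf_le (d1reach_bL G) (Or.inl rfl)
theorem GoodP.Lt_le (hg : P.GoodP F t p y h u i j) (hj : g ≤ (p j).1) : P.Lt F G t y h u g ≤ (p i).1 := by
  exact csInf_le (d1reach_bL G) (Or.inr ⟨p, i, j, hg, hj, rfl⟩)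
theorem le_Lt : (g : ℝ) - max (P.zeta F G h u : ℝ) (P.C0 * (h + u)) ≤ P.Lt F G t y h u g := by
  exact d1reach_L G (d1reach_memL G)
theorem Lt_mono {g' : ℤ} (hg : g ≤ g') : P.Lt F G t y h u g ≤ P.Lt F G t y h u g' := by
  exact (Lt_le_iff G).2 (hg.trans ((Lt_le_iff G).1 le_rfl))
theorem measurable_Lt (hK : 1 ≤ P.K) (y : ℤ) (h : ℕ) (u : ℝ) (g : ℤ) :
    Measurable fun t => P.Lt F G t y h u g := by
  refine measurable_of_Iic fun x => ?_
  simp only [Set.preimage, Set.mem_Iic, Lt_le_iff]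
  exact measurable_Rt G hK y h u x measurableSet_Ici
theorem dependsOnly_Lt (y : ℤ) (h : ℕ) (u : ℝ) (g : ℤ) :
    DependsOnly (fun t => P.Lt F G t y h u g) (slabEdges y h) := by
  intro t t' H
  simp only [Lt, d1reach_dep H]

theorem Mup_nonneg : 0 ≤ P.Mup F G t y h u g := by
  exact le_csSup (d1reach_bU _) (Or.inl rfl)
theorem Mdn_nonneg : 0 ≤ P.Mdn F G t y h u g := by
  exact le_csSup (d1reach_bD _) (Or.inl rfl)
theorem Mup_le (h0 : 0 ≤ P.C0 * (h + u)) :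
    P.Mup F G t y h u g ≤ P.C0 * (h + u) + |P.slope F G h u| * h := by
  refine csSup_le ⟨0, Or.inl rfl⟩ ?_
  rintro _ (rfl | ⟨p, i, j, m, a1, a2, a3, a4, rfl⟩)
  · positivity
  · exact d1reach_up a1 a2 a3 a4 _
theorem Mdn_le (h0 : 0 ≤ P.C0 * (h + u)) :
    P.Mdn F G t y h u g ≤ 2 * P.C0 * (h + u) + |P.slope F G h u| * h := by
  refine csSup_le ⟨0, Or.inl rfl⟩ ?_
  rintro _ (rfl | ⟨p, i, j, m, a1, a2, a3, a4, rfl⟩)
  · rw [mul_assoc]
    positivity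
  · exact d1reach_dn a1 a2 a3 a4 _
theorem GoodP.le_Mup (hg : P.GoodP F t p y h u i j) (hi : (p i).1 ≤ g) {m : ℤ} (h1 : i ≤ m) (h2 : m ≤ j) :
    ((p m).1 : ℝ) - g - (((p m).2 : ℝ) - y) * P.slope F G h u ≤ P.Mup F G t y h u g := by
  exact le_csSup (d1reach_bU _) (Or.inr ⟨p, i, j, m, hg, hi, h1, h2, rfl⟩)
theorem GoodP.le_Mdn (hg : P.GoodP F t p y h u i j) (hj : g ≤ (p j).1) {m : ℤ} (h1 : i ≤ m) (h2 : m ≤ j) :
    (g : ℝ) - ((y : ℝ) + h - (p m).2) * P.slope F G h u - (p m).1 ≤ P.Mdn F G t y h u g := by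
  exact le_csSup (d1reach_bD _) (Or.inr ⟨p, i, j, m, hg, hj, h1, h2, rfl⟩)
theorem Mup_le_of {B : ℝ} (hB : 0 ≤ B) (H : ∀ p i j m, P.GoodP F t p y h u i j → (p i).1 ≤ g → i ≤ m → m ≤ j →
    ((p m).1 : ℝ) - g - (((p m).2 : ℝ) - y) * P.slope F G h u ≤ B) : P.Mup F G t y h u g ≤ B := by
  refine csSup_le ⟨0, Or.inl rfl⟩ ?_
  rintro _ (rfl | ⟨p, i, j, m, a1, a2, a3, a4, rfl⟩)
  · exact hB
  · exact H p i j m a1 a2 a3 a4
theorem Mdn_le_of {B : ℝ} (hB : 0 ≤ B) (H : ∀ p i j m, P.GoodP F t p y h u i j → g ≤ (p j).1 → i ≤ m → m ≤ j →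
    (g : ℝ) - ((y : ℝ) + h - (p m).2) * P.slope F G h u - (p m).1 ≤ B) : P.Mdn F G t y h u g ≤ B := by
  refine csSup_le ⟨0, Or.inl rfl⟩ ?_
  rintro _ (rfl | ⟨p, i, j, m, a1, a2, a3, a4, rfl⟩)
  · exact hB
  · exact H p i j m a1 a2 a3 a4
theorem Mup_shift (v : V) : P.Mup F G (shift v t) y h u g = P.Mup F G t (y + v.2) h u (g + v.1) := by
  refine congrArg sSup (Set.ext fun s => or_congr Iff.rfl ?_)
  simp only [exists_and_left]
  refine d1reach_shift v _ _ fun p i j => ?_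
  simp only [Prod.fst_add, Prod.snd_add, add_le_add_iff_right, Int.cast_add, add_sub_add_right_eq_sub]
theorem Mdn_shift (v : V) : P.Mdn F G (shift v t) y h u g = P.Mdn F G t (y + v.2) h u (g + v.1) := by
  refine congrArg sSup (Set.ext fun s => or_congr Iff.rfl ?_)
  simp only [exists_and_left]
  refine d1reach_shift v _ _ fun p i j => ?_
  simp only [Prod.fst_add, Prod.snd_add, add_le_add_iff_right, Int.cast_add]
  exact and_congr_right fun _ => exists_congr fun m => and_congr_right fun _ => and_congr_right fun _ =>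
    Eq.congr_right (by ring)
theorem measurable_Mup (hK : 1 ≤ P.K) (y : ℤ) (h : ℕ) (u : ℝ) (g : ℤ) :
    Measurable fun t => P.Mup F G t y h u g := by
  refine measurable_of_Ioi fun x => ?_
  have : (fun t => P.Mup F G t y h u g) ⁻¹' Set.Ioi x = {t | x < 0} ∪ {t | ∃ p i j,
      P.GoodP F t p y h u i j ∧ (p i).1 ≤ g ∧ ∃ m, i ≤ m ∧ m ≤ j ∧
        x < ((p m).1 : ℝ) - g - (((p m).2 : ℝ) - y) * P.slope F G h u} := by
    ext t
    refine (lt_csSup_iff (d1reach_bU _) ⟨0, Or.inl rfl⟩).trans ⟨?_, ?_⟩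
    · rintro ⟨_, rfl | ⟨p, i, j, m, a1, a2, a3, a4, rfl⟩, a5⟩
      exacts [Or.inl a5, Or.inr ⟨p, i, j, a1, a2, m, a3, a4, a5⟩]
    · rintro (a5 | ⟨p, i, j, a1, a2, m, a3, a4, a5⟩)
      exacts [⟨0, Or.inl rfl, a5⟩, ⟨_, Or.inr ⟨p, i, j, m, a1, a2, a3, a4, rfl⟩, a5⟩]
  rw [this]
  exact (MeasurableSet.const _).union (d1reach_meas hK y h u _ fun p q i j h1 h2 ⟨a1, m, a2, a3, a4⟩ =>
    ⟨by rwa [h2 i le_rfl h1], m, a2, a3, by rwa [h2 m a2 a3]⟩)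
theorem measurable_Mdn (hK : 1 ≤ P.K) (y : ℤ) (h : ℕ) (u : ℝ) (g : ℤ) :
    Measurable fun t => P.Mdn F G t y h u g := by
  refine measurable_of_Ioi fun x => ?_
  have : (fun t => P.Mdn F G t y h u g) ⁻¹' Set.Ioi x = {t | x < 0} ∪ {t | ∃ p i j,
      P.GoodP F t p y h u i j ∧ g ≤ (p j).1 ∧ ∃ m, i ≤ m ∧ m ≤ j ∧
        x < (g : ℝ) - ((y : ℝ) + h - (p m).2) * P.slope F G h u - (p m).1} := by
    ext t
    refine (lt_csSup_iff (d1reach_bD _) ⟨0, Or.inl rfl⟩).trans ⟨?_, ?_⟩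
    · rintro ⟨_, rfl | ⟨p, i, j, m, a1, a2, a3, a4, rfl⟩, a5⟩
      exacts [Or.inl a5, Or.inr ⟨p, i, j, a1, a2, m, a3, a4, a5⟩]
    · rintro (a5 | ⟨p, i, j, a1, a2, m, a3, a4, a5⟩)
      exacts [⟨0, Or.inl rfl, a5⟩, ⟨_, Or.inr ⟨p, i, j, m, a1, a2, a3, a4, rfl⟩, a5⟩]
  rw [this]
  exact (MeasurableSet.const _).union (d1reach_meas hK y h u _ fun p q i j h1 h2 ⟨a1, m, a2, a3, a4⟩ =>
    ⟨by rwa [h2 j h1 le_rfl], m, a2, a3, by rwa [h2 m a2 a3]⟩)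
theorem dependsOnly_Mup (y : ℤ) (h : ℕ) (u : ℝ) (g : ℤ) :
    DependsOnly (fun t => P.Mup F G t y h u g) (slabEdges y h) := by
  intro t t' H
  simp only [Mup, d1reach_dep H]
theorem dependsOnly_Mdn (y : ℤ) (h : ℕ) (u : ℝ) (g : ℤ) :
    DependsOnly (fun t => P.Mdn F G t y h u g) (slabEdges y h) := by
  intro t t' H
  simp only [Mdn, d1reach_dep H]
end Par

end Crest.Agent.R151
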