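import Crest.Agent.R151.D2Geo

/-! R151 part D2: doubling, `V(2s) ≤ V(s) + 4κ`. -/

set_option autoImplicit false
set_option linter.unusedSectionVars false
open MeasureTheory ProbabilityTheory Crest.ProbabilityR.FirstPassage Filter Topology
open scoped ENNReal

namespace Crest.Agent.R151

variable {G : Measure ℝ} [IsProbabilityMeasure G] [NullSingletonClass G] {F : Face (mu G)}
  {B : ℤ → Env → V → ℝ}

theorem d2_int_sub {f : Env → ℝ} (hf : Integrable f (iidLaw G)) (a b : ℝ) :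
    ∫ t, (f t - a - b) ∂iidLaw G = ∫ t, f t ∂iidLaw G - a - b := by
  have h1 : Integrable (fun t => f t - a) (iidLaw G) := hf.sub (integrable_const a)
  rw [integral_sub h1 (integrable_const _), integral_sub hf (integrable_const _)]
  simp

theorem d2_avg_add {Y Y' : ℤ → Env → ℝ} {κ κ' : ℝ}
    (h : (∀ n, Integrable (Y n) (iidLaw G)) ∧ AvgLe (fun n => ∫ t, Y n t ∂iidLaw G) κ)
    (h' : (∀ n, Integrable (Y' n) (iidLaw G)) ∧ AvgLe (fun n => ∫ t, Y' n t ∂iidLaw G) κ') :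
    (∀ n, Integrable (fun t => Y n t + Y' n t) (iidLaw G)) ∧
      AvgLe (fun n => ∫ t, (Y n t + Y' n t) ∂iidLaw G) (κ + κ') :=
  ⟨fun n => (h.1 n).add (h'.1 n), (h.2.add h'.2).mono (fun n => (integral_add (h.1 n) (h'.1 n)).le) le_rfl⟩

/-- `tau_eq`, `memLp_tau`, `hG.mom`, `measurePreserving_eval` -/
theorem dbl_ec (hG : Nice G) (F : Face (mu G)) (H : ℕ) (ζ : ℤ) :
    Integrable (fun t => TS t (rows 0 H) (0, 0) (ζ, H)) (iidLaw G) ∧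
      F.ec G Set.univ (H + 1) ζ =
        (∫ t, TS t (rows 0 H) (0, 0) (ζ, H) ∂iidLaw G - F.a0 * ζ - F.b0 * H) + (∫ s, s ∂G - F.b0) := by
  have hc : Conn (Set.univ ∩ slabTo 0 (H + 1) ζ) (0, 0) (ζ, 0 + ((H + 1 : ℕ) : ℤ)) := conn_slabTo (by omega)
  have h1 : Integrable (fun t => tau t Set.univ 0 (H + 1) 0 ζ) (iidLaw G) :=
    memLp_one_iff_integrable.1 (by simpa using memLp_tau hG hc 1)
  have hid : Integrable (fun s : ℝ => s) G :=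
    (hG.mom 1).mono' measurable_id.aestronglyMeasurable (Eventually.of_forall fun s => by simp)
  set e : Sym2 V := s((ζ, (H : ℤ)), (ζ, (H : ℤ) + 1)) with he
  have mp := measurePreserving_eval G e
  have h2 : Integrable (fun t : Env => t e) (iidLaw G) := mp.integrable_comp_of_integrable hid
  have h3 : ∫ t : Env, t e ∂iidLaw G = ∫ s, s ∂G := by
    have := integral_map (μ := iidLaw G) mp.measurable.aemeasurable (f := fun s : ℝ => s)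
      measurable_id.aestronglyMeasurable
    rw [mp.map_eq] at this; exact this.symm
  have hae : ∀ᵐ t ∂iidLaw G, TS t (rows 0 H) (0, 0) (ζ, H) = tau t Set.univ 0 (H + 1) 0 ζ - t e := by
    filter_upwards [ae_nonneg G hG.hyp.nonneg] with t ht
    rw [tau_eq ht (by omega)]
    simp [he]
  refine ⟨(h1.sub h2).congr (hae.mono fun t ht => ht.symm), ?_⟩
  rw [integral_congr_ae hae, integral_sub h1 h2, h3]
  simp only [Face.ec, Face.c]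
  rw [d2_int_sub h1]
  simp; ring

/-- `cheap_split` with two pieces: cut the geodesic at the first visit of row `y`; `Cheap.shift` for the second -/
theorem dbl_split (hG : Nice G) (hB : Pot G F B) {H0 H : ℕ} (h : H0 ≤ H) (ζ0 ζ : ℤ) {y : ℤ} (hy : 0 ≤ y)
    (hy' : y ≤ H0) : ∃ κ1 κ2 : ℝ,
    κ1 + κ2 ≤ ∫ t, TS t (rows 0 H0) (0, 0) (ζ0, H0) ∂iidLaw G - F.a0 * ζ0 - F.b0 * H0 ∧
    Cheap G B (fun p i j => PathIn (rows 0 H) p i j ∧ p i = (0, 0) ∧ (p j).2 = y) κ1 ∧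
    Cheap G B (fun p i j => PathIn (rows 0 H) p i j ∧ (p i).2 = y + H - H0 ∧ p j = (ζ, (H : ℤ))) κ2 := by
  obtain ⟨κ, hκ, hC⟩ := cheap_split hG.hyp hB (S := rows 0 H0) (x := (0, 0)) (y := (ζ0, H0))
    (conn_rows ⟨le_rfl, by simp⟩ ⟨by simp, le_rfl⟩) (dbl_ec hG F H0 ζ0).1 2
    (fun k p i j => PathIn (rows 0 H0) p i j ∧ if k = 0 then p i = (0, 0) ∧ (p j).2 = y else
      (p i).2 = y ∧ p j = (ζ0, (H0 : ℤ))) (by
      intro p n hp _ h0 h1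
      obtain ⟨m, m1, m2, m3, -⟩ := hp.exists_first lip1_snd (c := y) (by rw [h0]; exact hy) (by rw [h1]; exact hy')
      refine ⟨fun k => if k = 0 then 0 else if k = 1 then m else n, fun k => if k = 0 then m else n, by simp,
        by simp, fun k hk => ?_⟩
      interval_cases k
      · simpa [m1, h0, m3] using hp.sub le_rfl m1 m2
      · simpa [m2, h1, m3] using hp.sub m1 m2 le_rfl)
  refine ⟨κ 0, κ 1, by simpa [Finset.sum_range_succ] using hκ, (hC 0 (by omega)).mono ?_ le_rfl,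
    (hC 1 (by omega)).shift hB (ζ - ζ0, H - H0) ?_⟩
  · rintro p i j ⟨h1, h2⟩
    simp only [if_true] at h2
    exact ⟨h1.mono fun v hv => ⟨hv.1, hv.2.trans (by exact_mod_cast h)⟩, h2⟩
  · rintro p i j ⟨h1, h2⟩
    simp only [one_ne_zero, if_false] at h2
    refine ⟨(h1.map (isAut_add _)).mono ?_, by simp [h2.1]; ring, by simp [h2.2]⟩
    rintro _ ⟨v, ⟨hv1, hv2⟩, rfl⟩
    exact ⟨by simp; omega, by simp; omega⟩

/-- integrate `double_det` and average over `n` (`Pot.mean`, `AvgLe.le_of_le`) -/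
theorem dbl_mean (hG : Nice G) (hB : Pot G F B) {H : ℕ} {ξ ξ' δ κ κ1 κ2 : ℝ} {ζ y y1 y2 : ℤ} (hδ : 0 < δ)
    (hy : 0 ≤ y) (hd : 6 * δ ≤ (ξ - ξ') * y) (hl : (ξ - ξ') * (y + 2) + 2 * δ ≤ ζ - ξ' * H)
    (hr : (ξ - ξ') * (y + 2) + 2 * δ ≤ ξ * H - ζ) (h1 : y < y1) (h2 : y2 < H - y)
    (hP : ∀ x0, Cheap G B (Hw ξ x0 δ H) κ) (hQ : ∀ x0, Cheap G B (Hw ξ' x0 δ H) κ)
    (c1 : Cheap G B (fun p i j => PathIn (rows 0 H) p i j ∧ p i = (0, 0) ∧ (p j).2 = y1) κ1)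
    (c2 : Cheap G B (fun p i j => PathIn (rows 0 H) p i j ∧ (p i).2 = y2 ∧ p j = (ζ, (H : ℤ))) κ2) :
    ∫ t, TS t (rows 0 H) (0, 0) (ζ, H) ∂iidLaw G - F.a0 * ζ - F.b0 * H ≤ κ1 + κ2 + 4 * κ := by
  obtain ⟨Y1, i1, -, a1, e1⟩ := c1
  obtain ⟨Y2, i2, -, a2, e2⟩ := c2
  obtain ⟨Y3, i3, -, a3, e3⟩ := hP (-2 * δ)
  obtain ⟨Y4, i4, -, a4, e4⟩ := hQ (2 * δ)
  obtain ⟨Y5, i5, -, a5, e5⟩ := hP (ζ - ξ * (H : ℤ) + 2 * δ)
  obtain ⟨Y6, i6, -, a6, e6⟩ := hQ (ζ - ξ' * (H : ℤ) - 2 * δ)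
  have hi := (dbl_ec hG F H ζ).1
  obtain ⟨i7, a7⟩ := d2_avg_add (d2_avg_add (d2_avg_add ⟨i1, a1⟩ ⟨i2, a2⟩)
    (d2_avg_add (d2_avg_add (d2_avg_add ⟨i3, a3⟩ ⟨i4, a4⟩) ⟨i5, a5⟩) ⟨i6, a6⟩))
    ⟨fun n => hB.integrable hG.hyp n (0, 0) (ζ, H), AvgLe.of_tendsto (hB.mean (0, 0) (ζ, H))⟩
  have := a7.le_of_le (c := ∫ t, TS t (rows 0 H) (0, 0) (ζ, H) ∂iidLaw G) fun n => by
    refine integral_mono_ae hi (i7 n) ?_
    filter_upwards [e1, e2, e3, e4, e5, e6, hB.lip, ae_nonneg G hG.hyp.nonneg] with t f1 f2 f3 f4 f5 f6 hl' ht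
    obtain ⟨p1, _, _, q1, w1⟩ := f1
    obtain ⟨p2, _, _, q2, w2⟩ := f2
    obtain ⟨p3, _, _, q3, w3⟩ := f3
    obtain ⟨p4, _, _, q4, w4⟩ := f4
    obtain ⟨p5, _, _, q5, w5⟩ := f5
    obtain ⟨p6, _, _, q6, w6⟩ := f6
    have := double_det ht (hl' n) hδ hy hd (H := H) (by simpa using hl) (by simpa using hr) q3 q4 q5 q6 q1.1
      q1.2.1 (by rw [q1.2.2]; exact h1) q2.1 (by rw [q2.2.1]; exact h2) q2.2.2
    linarith [w1 n, w2 n, w3 n, w4 n, w5 n, w6 n]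
  simp at this
  linarith

/-- For `s < h ≤ 2s` and `ζ` in the middle: `H = h - 1`, `H0 = s - 1`, `ζ0 = ⌊ξm s⌋`, `y = s / 10`, cut at row `y + 1`;
`3.8 τ1 ≤ ξ - ξ' ≤ 4.2 τ1`, `ξ H - ζ, ζ - ξ' H ≥ 0.9 τ1 s - C`.  `Vb_le`, `ec_le_Vb`, `Cheap.nonneg`. -/
theorem Vb_double (hG : Nice G) (hB : Pot G F B) : ∃ s0 : ℕ, ∀ (s : ℕ) (κ : ℝ), s0 ≤ s → Roads G F B s κ →
    F.Vb G (2 * s) ≤ F.Vb G s + 4 * κ := by
  have hτ : 0 < F.τ1 := Face.τ1_pos (symNorm_mu G hG.hyp) F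
  have hp : F.ξp = F.ξm + 2 * F.τ1 := by unfold Face.ξm Face.τ1; ring
  have hn : F.ξn = F.ξm - 2 * F.τ1 := by unfold Face.ξm Face.τ1; ring
  obtain ⟨s0, hs0⟩ := exists_nat_ge (100 * (|F.ξm| + 11 * F.τ1 + 6) / F.τ1)
  rw [div_le_iff₀ hτ] at hs0
  refine ⟨s0, fun s κ hs ⟨ξ, ξ', hξ, hξ', hR⟩ => ?_⟩
  have hs' : 100 * (|F.ξm| + 11 * F.τ1 + 6) ≤ s * F.τ1 :=
    hs0.trans (mul_le_mul_of_nonneg_right (by exact_mod_cast hs) hτ.le)
  have hm := abs_nonneg F.ξm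
  have hs1 : 1100 ≤ s := by
    have : (1100 : ℝ) * F.τ1 ≤ s * F.τ1 := by linarith
    exact_mod_cast le_of_mul_le_mul_right this hτ
  have hκ : 0 ≤ κ := (hR 0 0 le_rfl (by positivity)).1.nonneg hG.hyp hB fun p i j h => h.1.mono (Set.subset_univ _)
  refine Face.Vb_le hG F (by linarith [Face.one_le_Vb hG F s]) fun h ζ h1 h2 hmid => ?_
  rcases le_or_gt h s with h3 | h3
  · linarith [Face.ec_le_Vb hG F h1 h3 hmid]
  obtain ⟨H, rfl⟩ : ∃ H, h = H + 1 := ⟨h - 1, by omega⟩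
  obtain ⟨H0, rfl⟩ : ∃ H0, s = H0 + 1 := ⟨s - 1, by omega⟩
  obtain ⟨y, hy1, hy2⟩ : ∃ y : ℕ, 10 * y ≤ H0 + 1 ∧ H0 + 1 < 10 * y + 10 := ⟨(H0 + 1) / 10, by omega, by omega⟩
  obtain ⟨κ1, κ2, hκ12, c1, c2⟩ := dbl_split hG hB (H0 := H0) (H := H) (by omega) ⌊F.ξm * (H0 + 1 : ℕ)⌋ ζ
    (y := y + 1) (by omega) (by omega)
  have e0 := Face.ec_le_Vb hG F (by omega : 1 ≤ H0 + 1) le_rfl (Face.exists_mid (symNorm_mu G hG.hyp) F _)
  rw [(dbl_ec hG F _ _).2] at e0 ⊢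
  have r1 : (10 * y : ℝ) ≤ H0 + 1 := by exact_mod_cast hy1
  have r2 : (H0 + 1 : ℝ) ≤ 10 * y + 10 := by exact_mod_cast hy2.le
  have r3 : (H0 + 1 : ℝ) ≤ H := by exact_mod_cast Nat.lt_succ_iff.1 h3
  have r0 : (0 : ℝ) ≤ y := by positivity
  have m1 := abs_le.1 hmid
  have m2 := abs_le.1 hξ
  have m3 := abs_le.1 hξ'
  have m4 := le_abs_self F.ξm
  have m5 := neg_abs_le F.ξm
  push_cast at hs' m1
  have d1 : 38 / 10 * F.τ1 * y ≤ (ξ - ξ') * y := mul_le_mul_of_nonneg_right (by linarith) r0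
  have d2 : (ξ - ξ') * (y + 2) ≤ 42 / 10 * F.τ1 * (y + 2) :=
    mul_le_mul_of_nonneg_right (by linarith) (by linarith)
  have d3 : (F.ξm + 19 / 10 * F.τ1) * H ≤ ξ * H := mul_le_mul_of_nonneg_right (by linarith) (by positivity)
  have d4 : ξ' * H ≤ (F.ξm - 19 / 10 * F.τ1) * H := mul_le_mul_of_nonneg_right (by linarith) (by positivity)
  have t1 := mul_le_mul_of_nonneg_left r1 hτ.le
  have t2 := mul_le_mul_of_nonneg_left r2 hτ.le
  have t3 := mul_le_mul_of_nonneg_left r3 hτ.le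
  have := dbl_mean hG hB (H := H) (ξ := ξ) (ξ' := ξ') (δ := F.τ1 / 20 * (H0 + 1 : ℕ) + 1) (κ := κ) (ζ := ζ)
    (y := y) (by positivity) (by omega) (by push_cast; linarith) (by push_cast; linarith)
    (by push_cast; linarith) (by omega) (by omega) (fun x0 => (hR H x0 (by omega) (by omega)).1)
    (fun x0 => (hR H x0 (by omega) (by omega)).2) c1 c2
  linarith

end Crest.Agent.R151
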