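import Mathlib

/-! R151 part D2: the endgame (real numbers only). -/

set_option autoImplicit false
open Filter Topology

namespace Crest.Agent.R151

theorem end_geom0 (J : ℕ) : ∑ j ∈ Finset.range J, (2 : ℝ) ^ j ≤ 2 ^ J := by
  induction J with
  | zero => simp
  | succ J ih =>
    rw [Finset.sum_range_succ, pow_succ]
    linarith

theorem end_N0 {δ : ℝ} (hδ : 0 < δ) : ∃ a : ℕ, ((2 : ℝ) ^ a) ^ (9 / 10 : ℝ) / 2 ^ a ≤ δ := by
  have h := (tendsto_rpow_neg_atTop (show (0 : ℝ) < 1 / 10 by norm_num)).comp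
    (tendsto_pow_atTop_atTop_of_one_lt (one_lt_two (α := ℝ)))
  obtain ⟨a, ha⟩ := (h.eventually (gt_mem_nhds hδ)).exists
  refine ⟨a, le_of_eq_of_le ?_ ha.le⟩
  rw [← Real.rpow_sub_one (by positivity)]
  norm_num

theorem end_ev1 (C : ℝ) {A : ℝ} (hA : 0 < A) :
    ∀ᶠ x : ℝ in atTop, C * (A * x) ^ (89 / 100 : ℝ) < 3 / 4 * x := by
  filter_upwards [(tendsto_rpow_atTop (show (0 : ℝ) < 11 / 100 by norm_num)).eventually_gt_atTop
    (4 / 3 * (C * A ^ (89 / 100 : ℝ))), eventually_gt_atTop 0] with x h1 h2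
  have e : x = x ^ (11 / 100 : ℝ) * x ^ (89 / 100 : ℝ) := by
    rw [← Real.rpow_add h2]
    norm_num
  have h3 := mul_lt_mul_of_pos_right h1 (Real.rpow_pos_of_pos h2 (89 / 100))
  rw [← e] at h3
  rw [Real.mul_rpow hA.le h2.le]
  linarith

theorem end_ev2 {A : ℝ} (hA : 0 < A) : ∀ᶠ J : ℕ in atTop, (A * J) ^ 2 ≤ (2 : ℝ) ^ J := by
  filter_upwards [(tendsto_pow_const_div_const_pow_of_one_lt 2 (one_lt_two (α := ℝ))).eventually
    (gt_mem_nhds (show (0 : ℝ) < 1 / A ^ 2 by positivity))] with J h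
  rw [div_lt_div_iff₀ (by positivity) (by positivity)] at h
  rw [mul_pow]
  linarith

theorem end_geom (x : ℝ) (J : ℕ) :
    ∑ j ∈ (Finset.range J).filter (fun j => (2 : ℝ) ^ j < x), (2 : ℝ) ^ j ≤ 2 * max x 0 := by
  induction J with
  | zero => simp
  | succ J ih =>
    by_cases h : (2 : ℝ) ^ J < x
    · refine (Finset.sum_le_sum_of_subset_of_nonneg (Finset.filter_subset _ _)
        fun _ _ _ => by positivity).trans ((end_geom0 (J + 1)).trans ?_)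
      rw [pow_succ]
      linarith [le_max_left x 0]
    · rw [Finset.range_add_one, Finset.filter_insert, if_neg h]
      exact ih

/-- `i j` is the largest `i ≤ m` with `e i 2^i ≤ γ 2^j` (`i = j+1` is admissible as `e ≤ γ/2`).  Either `i j = m` or
`γ 2^j < e (i+1) 2^(i+1)`, so `2^j/2^(i j) ≤ 2^j/2^m + Σ_i 1[γ 2^j < e i 2^i] 2 · 2^j/2^i`; exchange the sums, `end_geom`. -/
theorem end_scales {e : ℕ → ℝ} {ε γ : ℝ} {J m : ℕ} (hγ : 0 < γ) (he : ∀ i, 0 ≤ e i)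
    (hs : ∑ i ∈ Finset.range (m + 1), e i ≤ ε) (hε : ε ≤ γ / 2) (hJ : J ≤ m) :
    ∃ i : ℕ → ℕ, (∀ j < J, j + 1 ≤ i j ∧ i j ≤ m ∧ e (i j) * 2 ^ i j ≤ γ * 2 ^ j) ∧
      ∑ j ∈ Finset.range J, (2 : ℝ) ^ j / 2 ^ i j ≤ 4 * ε / γ + 2 ^ J / 2 ^ m := by
  classical
  have hle : ∀ i ≤ m, e i ≤ γ / 2 := fun i hi =>
    ((Finset.single_le_sum (f := e) (fun i _ => he i) (Finset.mem_range.2 (by omega))).trans hs).trans hε
  have hP : ∀ j < J, e (j + 1) * 2 ^ (j + 1) ≤ γ * 2 ^ j := fun j hj => by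
    have := mul_le_mul_of_nonneg_right (hle (j + 1) (by omega)) (show (0 : ℝ) ≤ 2 ^ (j + 1) by positivity)
    rw [pow_succ] at this ⊢
    linarith
  refine ⟨fun j => Nat.findGreatest (fun i => e i * 2 ^ i ≤ γ * 2 ^ j) m, fun j hj =>
    ⟨Nat.le_findGreatest (by omega) (hP j hj), Nat.findGreatest_le m,
      Nat.findGreatest_spec (P := fun i => e i * 2 ^ i ≤ γ * 2 ^ j) (m := j + 1) (by omega) (hP j hj)⟩, ?_⟩
  have key : ∀ j : ℕ, (2 : ℝ) ^ j / 2 ^ Nat.findGreatest (fun i => e i * 2 ^ i ≤ γ * 2 ^ j) m ≤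
      (∑ i ∈ Finset.range (m + 1), if (2 : ℝ) ^ j < e i * 2 ^ i / γ then 2 / 2 ^ i * (2 : ℝ) ^ j else 0) +
        2 ^ j / 2 ^ m := fun j => by
    have h0 : ∀ i ∈ Finset.range (m + 1),
        0 ≤ if (2 : ℝ) ^ j < e i * 2 ^ i / γ then 2 / 2 ^ i * (2 : ℝ) ^ j else 0 := fun i _ => by
      split_ifs <;> positivity
    set k := Nat.findGreatest (fun i => e i * 2 ^ i ≤ γ * 2 ^ j) m with hk
    rcases (Nat.findGreatest_le (P := fun i => e i * 2 ^ i ≤ γ * 2 ^ j) m).eq_or_lt with h | h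
    · rw [← hk] at h
      rw [h]
      linarith [Finset.sum_nonneg h0]
    · rw [← hk] at h
      have h1 : ¬e (k + 1) * 2 ^ (k + 1) ≤ γ * 2 ^ j :=
        Nat.findGreatest_is_greatest (P := fun i => e i * 2 ^ i ≤ γ * 2 ^ j) (n := m) (k := k + 1)
          (by omega) (by omega)
      have h2 := Finset.single_le_sum h0 (Finset.mem_range.2 (show k + 1 < m + 1 by omega))
      rw [if_pos (by rw [lt_div_iff₀ hγ]; linarith)] at h2
      have h3 : (2 : ℝ) ^ j / 2 ^ k = 2 / 2 ^ (k + 1) * 2 ^ j := by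
        rw [pow_succ]
        field_simp
      have h4 : (0 : ℝ) ≤ 2 ^ j / 2 ^ m := by positivity
      linarith
  refine (Finset.sum_le_sum fun j _ => key j).trans ?_
  rw [Finset.sum_add_distrib, Finset.sum_comm, ← Finset.sum_div]
  refine add_le_add ?_ (div_le_div_of_nonneg_right (end_geom0 J) (by positivity))
  calc _ ≤ ∑ i ∈ Finset.range (m + 1), 4 / γ * e i := by
        refine Finset.sum_le_sum fun i _ => ?_
        rw [← Finset.sum_filter, ← Finset.mul_sum]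
        have h1 := end_geom (e i * 2 ^ i / γ) J
        have h2 : 0 ≤ e i * 2 ^ i / γ := by
          have := he i
          positivity
        rw [max_eq_left h2] at h1
        refine (mul_le_mul_of_nonneg_left h1 (by positivity)).trans (le_of_eq ?_)
        field_simp
        ring
    _ ≤ 4 * ε / γ := by
        rw [← Finset.mul_sum, mul_div_right_comm]
        exact mul_le_mul_of_nonneg_left hs (by positivity)

/-- `J ≥ J0` maximizes `V (2^J) / 2^(0.9 J)` (which tends to `0`) on `[J0, ∞)`; `n 2^(J+a) ≤ 2^(J+a+k)`, `2^k ≤ 2n` -/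
theorem end_max (V : ℕ → ℝ) (h1 : ∀ s, 1 ≤ V s) (hm : Monotone V) {C : ℝ}
    (hC : ∀ s : ℕ, 1 ≤ s → V s ≤ C * (s : ℝ) ^ (89 / 100 : ℝ)) (J0 : ℕ) : ∃ J, J0 ≤ J ∧ ∀ a n : ℕ, 1 ≤ n →
      V (n * 2 ^ (J + a)) ≤ 2 * ((2 : ℝ) ^ a) ^ (9 / 10 : ℝ) * V (2 ^ J) * (n : ℝ) ^ (9 / 10 : ℝ) := by
  have hV : ∀ s, 0 < V s := fun s => one_pos.trans_le (h1 s)
  have C0 : 0 < C := by
    have := hC 1 le_rfl
    simp only [Nat.cast_one, Real.one_rpow, mul_one] at this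
    linarith [h1 1]
  have ht : Tendsto (fun k : ℕ => ((2 : ℝ) ^ (J0 + k)) ^ (9 / 10 : ℝ) / V (2 ^ (J0 + k))) cofinite atTop := by
    rw [Nat.cofinite_eq_atTop]
    have h2 : Tendsto (fun k : ℕ => ((2 : ℝ) ^ (J0 + k)) ^ (1 / 100 : ℝ) / C) atTop atTop := by
      refine Tendsto.atTop_div_const C0 ((tendsto_rpow_atTop (by norm_num)).comp ?_)
      exact (tendsto_pow_atTop_atTop_of_one_lt one_lt_two).comp (tendsto_atTop_mono (fun k => Nat.le_add_left k J0) tendsto_id)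
    refine tendsto_atTop_mono (fun k => ?_) h2
    have h3 := hC (2 ^ (J0 + k)) Nat.one_le_two_pow
    push_cast at h3
    have h4 : (0 : ℝ) < 2 ^ (J0 + k) := by positivity
    rw [div_le_div_iff₀ C0 (hV _)]
    refine (mul_le_mul_of_nonneg_left h3 (by positivity)).trans (le_of_eq ?_)
    rw [mul_left_comm, ← Real.rpow_add h4, mul_comm]
    norm_num
  obtain ⟨k0, hk⟩ := ht.exists_forall_le
  refine ⟨J0 + k0, Nat.le_add_right _ _, fun a n hn => ?_⟩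
  have a1 := Nat.lt_pow_succ_log_self one_lt_two n
  have a2 := Nat.pow_log_le_self 2 (show n ≠ 0 by omega)
  set l := Nat.log 2 n
  have b1 : n * 2 ^ (J0 + k0 + a) ≤ 2 ^ (J0 + (k0 + a + (l + 1))) := by
    rw [show J0 + (k0 + a + (l + 1)) = (l + 1) + (J0 + k0 + a) by ring, pow_add 2 (l + 1)]
    exact Nat.mul_le_mul_right _ a1.le
  refine (hm b1).trans ?_
  have b2 := hk (k0 + a + (l + 1))
  rw [div_le_div_iff₀ (hV _) (hV _)] at b2
  have b3 : (0 : ℝ) < ((2 : ℝ) ^ (J0 + k0)) ^ (9 / 10 : ℝ) := by positivity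
  refine le_of_mul_le_mul_left (b2.trans ?_) b3
  have b4 : ((2 : ℝ) ^ (J0 + (k0 + a + (l + 1)))) = 2 ^ (J0 + k0) * (2 ^ a * (2 * 2 ^ l)) := by ring
  have b5 : ((2 : ℝ) ^ l) ^ (9 / 10 : ℝ) ≤ (n : ℝ) ^ (9 / 10 : ℝ) :=
    Real.rpow_le_rpow (by positivity) (by exact_mod_cast a2) (by norm_num)
  have b6 : (2 : ℝ) ^ (9 / 10 : ℝ) ≤ 2 := by
    simpa using Real.rpow_le_rpow_of_exponent_le (x := 2) (by norm_num) (show (9 / 10 : ℝ) ≤ 1 by norm_num)
  rw [b4, Real.mul_rpow (by positivity) (by positivity), Real.mul_rpow (by positivity) (by positivity),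
    Real.mul_rpow (by positivity) (by positivity), mul_assoc]
  refine mul_le_mul_of_nonneg_left ?_ b3.le
  have b7 := mul_le_mul b6 b5 (by positivity) (by norm_num)
  have b8 : 0 ≤ ((2 : ℝ) ^ a) ^ (9 / 10 : ℝ) * V (2 ^ (J0 + k0)) := mul_nonneg (by positivity) (hV _).le
  have b9 := mul_le_mul_of_nonneg_left b7 b8
  linarith

/-- `η = min (1/4) (c/4)`; `N0 = 2^a` with `4 CH N0^(-0.1) ≤ η/2`, then `ε ≤ γ/2` with `16 CH N0^0.9 ε/γ ≤ η/2`, then `J` large from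
`end_max`; `m = J + a`, `W = 2 N0^0.9 V_J + log 2^m ≤ 4 N0^0.9 M`, `M = max V_J J`, `j0` least with `r1 W, s0 ≤ 2^j0`, so `2^j0 ≤ A M`.
Summing over `j0 ≤ j < J`: `V_J ≤ V(2^j0) + η M`, `c (J - j0) ≤ η M`.  If `M = V_J`: `V_J ≤ C (A V_J)^0.89 + V_J/4`, false
for `V_J ≥ J` large.  If `M = J`: `j0 ≤ J/2`, `c J/2 ≤ c J/4`. -/
theorem endgame (V : ℕ → ℝ) (h1 : ∀ s, 1 ≤ V s) (hm : Monotone V) {C : ℝ}
    (hC : ∀ s : ℕ, 1 ≤ s → V s ≤ C * (s : ℝ) ^ (89 / 100 : ℝ)) {CH c γ : ℝ} (hCH : 0 < CH) (hc : 0 < c)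
    (hγ : 0 < γ) (s0 : ℕ)
    (h : ∀ ε > (0 : ℝ), ∃ r1 : ℝ, 1 ≤ r1 ∧ ∀ (m : ℕ) (W : ℝ), 1 ≤ m → 1 ≤ W →
      Real.log ((2 ^ m : ℕ) : ℝ) ≤ W → (∀ n : ℕ, 1 ≤ n → V (n * 2 ^ m) ≤ W * (n : ℝ) ^ (9 / 10 : ℝ)) →
      ∃ e : ℕ → ℝ, (∀ i, 0 ≤ e i) ∧ ∑ i ∈ Finset.range (m + 1), e i ≤ ε ∧ ∀ j i : ℕ, j + 1 ≤ i → i ≤ m →
        r1 * W ≤ 2 ^ j → s0 ≤ 2 ^ j → e i * 2 ^ i ≤ γ * 2 ^ j →
          V (2 ^ (j + 1)) ≤ V (2 ^ j) + CH * W * 2 ^ j / 2 ^ i ∧ c ≤ CH * W * 2 ^ j / 2 ^ i) : False := by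
  have hV : ∀ s, 0 < V s := fun s => one_pos.trans_le (h1 s)
  have C0 : 0 < C := by
    have := hC 1 le_rfl
    simp only [Nat.cast_one, Real.one_rpow, mul_one] at this
    linarith [h1 1]
  obtain ⟨η, η0, η1, η2⟩ : ∃ η : ℝ, 0 < η ∧ η ≤ 1 / 4 ∧ η ≤ c / 4 :=
    ⟨min (1 / 4) (c / 4), by positivity, min_le_left _ _, min_le_right _ _⟩
  obtain ⟨a, ha⟩ := end_N0 (show 0 < η / 2 / (4 * CH) by positivity)
  set B : ℝ := ((2 : ℝ) ^ a) ^ (9 / 10 : ℝ) with hB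
  have B1 : 1 ≤ B := Real.one_le_rpow (one_le_pow₀ one_le_two) (by norm_num)
  obtain ⟨ε, ε0, ε1, ε2⟩ : ∃ ε : ℝ, 0 < ε ∧ ε ≤ γ / 2 ∧ ε ≤ η * γ / (32 * CH * B) :=
    ⟨min (γ / 2) (η * γ / (32 * CH * B)), by positivity, min_le_left _ _, min_le_right _ _⟩
  obtain ⟨r1, hr1, h⟩ := h ε ε0
  set A : ℝ := 2 * (4 * r1 * B + s0) with hA
  have A0 : 0 < A := by positivity
  obtain ⟨x0, hx0⟩ := eventually_atTop.1 (end_ev1 C A0)
  obtain ⟨J1, hJ1⟩ := eventually_atTop.1 (end_ev2 A0)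
  obtain ⟨J, hJ, hmax⟩ := end_max V h1 hm hC (a + ⌈x0⌉₊ + J1 + 1)
  have hJx : x0 ≤ J := (Nat.le_ceil x0).trans (by exact_mod_cast (by omega : ⌈x0⌉₊ ≤ J))
  have hJa : (a : ℝ) ≤ J := by exact_mod_cast (by omega : a ≤ J)
  have hJ0 : (1 : ℝ) ≤ J := by exact_mod_cast (by omega : 1 ≤ J)
  set VJ := V (2 ^ J) with hVJ
  have V1 : 1 ≤ VJ := h1 _
  have L0 : 0 ≤ Real.log ((2 ^ (J + a) : ℕ) : ℝ) := Real.log_natCast_nonneg _
  have L1 : Real.log ((2 ^ (J + a) : ℕ) : ℝ) ≤ 2 * J := by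
    push_cast
    rw [Real.log_pow]
    push_cast
    have := Real.log_two_lt_d9
    nlinarith
  set W := 2 * B * VJ + Real.log ((2 ^ (J + a) : ℕ) : ℝ) with hW
  have BV : 1 ≤ B * VJ := one_le_mul_of_one_le_of_one_le B1 V1
  have W1 : 1 ≤ W := by linarith
  obtain ⟨e, e0, es, he⟩ := h (J + a) W (by omega) W1 (by linarith) fun n hn =>
    (hmax a n hn).trans (mul_le_mul_of_nonneg_right (by linarith) (by positivity))
  obtain ⟨i, hi, hsum⟩ := end_scales hγ e0 es ε1 (Nat.le_add_right J a)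
  obtain ⟨M, M1, M2, M3⟩ : ∃ M : ℝ, VJ ≤ M ∧ (J : ℝ) ≤ M ∧ (M = VJ ∨ M = J) :=
    ⟨max VJ J, le_max_left _ _, le_max_right _ _, max_choice _ _⟩
  have M0 : 1 ≤ M := V1.trans M1
  have WM : W ≤ 4 * B * M := by
    have x1 := mul_le_mul_of_nonneg_left M1 (show 0 ≤ B by linarith)
    have x2 : M ≤ B * M := le_mul_of_one_le_left (by linarith) B1
    linarith
  have hS : ∑ j ∈ Finset.range J, CH * W * 2 ^ j / 2 ^ i j ≤ η * M := by
    simp only [mul_div_assoc]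
    rw [← Finset.mul_sum]
    have x1 : (2 : ℝ) ^ J / 2 ^ (J + a) = 1 / 2 ^ a := by
      rw [pow_add]
      field_simp
    rw [x1] at hsum
    have x2 : 4 * ε / γ ≤ η / (8 * CH * B) := by
      rw [le_div_iff₀ (by positivity)] at ε2
      rw [div_le_div_iff₀ hγ (by positivity)]
      linarith
    have x3 : 1 / (2 : ℝ) ^ a ≤ η / (8 * CH * B) := by
      rw [div_le_div_iff₀ (by positivity) (by positivity)] at ha ⊢
      linarith
    calc _ ≤ CH * (4 * B * M) * (η / (8 * CH * B) + η / (8 * CH * B)) :=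
          mul_le_mul (mul_le_mul_of_nonneg_left WM hCH.le) (by linarith)
            (Finset.sum_nonneg fun _ _ => by positivity) (by positivity)
      _ = η * M := by
          field_simp
          norm_num
  have rW : 1 ≤ r1 * W := one_le_mul_of_one_le_of_one_le hr1 W1
  have s00 : (0 : ℝ) ≤ s0 := Nat.cast_nonneg _
  obtain ⟨n, n1, n2⟩ := exists_nat_pow_near (show 1 ≤ r1 * W + s0 by linarith) one_lt_two
  have hjA : (2 : ℝ) ^ (n + 1) ≤ A * M := by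
    have x1 := mul_le_mul_of_nonneg_left WM (show 0 ≤ r1 by linarith)
    have x2 : (s0 : ℝ) ≤ s0 * M := le_mul_of_one_le_right s00 M0
    rw [pow_succ, hA]
    linarith
  generalize n + 1 = j0 at n2 hjA
  have step : ∀ j, j0 ≤ j → j < J → V (2 ^ (j + 1)) ≤ V (2 ^ j) + CH * W * 2 ^ j / 2 ^ i j ∧
      c ≤ CH * W * 2 ^ j / 2 ^ i j := fun j a1 a2 => by
    have x1 : (2 : ℝ) ^ j0 ≤ 2 ^ j := pow_le_pow_right₀ one_le_two a1
    have x2 : (s0 : ℝ) ≤ 2 ^ j := by linarith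
    exact he j (i j) (hi j a2).1 (hi j a2).2.1 (by linarith) (by exact_mod_cast x2) (hi j a2).2.2
  have tel : ∀ j ≤ J, V (2 ^ j) ≤ V (2 ^ j0) + ∑ j ∈ Finset.range j, CH * W * 2 ^ j / 2 ^ i j ∧
      c * (j - j0) ≤ ∑ j ∈ Finset.range j, CH * W * 2 ^ j / 2 ^ i j := fun j => by
    have triv : ∀ j ≤ j0, V (2 ^ j) ≤ V (2 ^ j0) + ∑ j ∈ Finset.range j, CH * W * 2 ^ j / 2 ^ i j ∧
        c * (j - j0) ≤ ∑ j ∈ Finset.range j, CH * W * 2 ^ j / 2 ^ i j := fun j hj => by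
      have x1 : 0 ≤ ∑ j ∈ Finset.range j, CH * W * 2 ^ j / 2 ^ i j :=
        Finset.sum_nonneg fun _ _ => by positivity
      have x2 := hm (Nat.pow_le_pow_right two_pos hj)
      have x3 : (j : ℝ) ≤ j0 := by exact_mod_cast hj
      exact ⟨by linarith, (mul_nonpos_of_nonneg_of_nonpos hc.le (by linarith)).trans x1⟩
    induction j with
    | zero => exact fun _ => triv 0 (Nat.zero_le _)
    | succ j ih =>
      intro hj
      rcases le_or_gt j0 j with x | x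
      · obtain ⟨x1, x2⟩ := ih (by omega)
        obtain ⟨x3, x4⟩ := step j x (by omega)
        rw [Finset.sum_range_succ]
        push_cast
        exact ⟨by linarith, by linarith⟩
      · exact triv _ (by omega)
  obtain ⟨t1, t2⟩ := tel J le_rfl
  rcases M3 with rfl | rfl
  · have x1 := hC (2 ^ j0) Nat.one_le_two_pow
    push_cast at x1
    have x2 : ((2 : ℝ) ^ j0) ^ (89 / 100 : ℝ) ≤ (A * VJ) ^ (89 / 100 : ℝ) :=
      Real.rpow_le_rpow (by positivity) hjA (by norm_num)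
    have x3 := mul_le_mul_of_nonneg_left x2 C0.le
    have x4 := hx0 VJ (hJx.trans M2)
    have x5 := mul_le_mul_of_nonneg_right η1 (show 0 ≤ VJ by linarith)
    linarith
  · have x1 := hJ1 J (by omega)
    have x2 : (2 : ℝ) ^ (2 * j0) ≤ 2 ^ J := by
      rw [mul_comm, pow_mul]
      exact (pow_le_pow_left₀ (by positivity) hjA 2).trans x1
    have x3 : 2 * j0 ≤ J := (pow_le_pow_iff_right₀ one_lt_two).1 x2
    have x4 : 2 * (j0 : ℝ) ≤ J := by exact_mod_cast x3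
    have x5 := mul_le_mul_of_nonneg_right η2 (show (0 : ℝ) ≤ J by linarith)
    have x6 := mul_le_mul_of_nonneg_left x4 hc.le
    have x7 := mul_le_mul_of_nonneg_left hJ0 hc.le
    have x8 := t2.trans (hS.trans x5)
    clear * - x6 x7 x8 hc
    linarith

end Crest.Agent.R151
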