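import Crest.Agent.R151.DDefs
import Crest.Agent.R151.CFact0

/-! R151 part D2: a differentiable norm that is not strictly convex has a face. -/

set_option autoImplicit false
open MeasureTheory ProbabilityTheory Crest.ProbabilityR.FirstPassage Filter Topology
open scoped ENNReal

namespace Crest.Agent.R151

variable {μ : ℝ × ℝ → ℝ}

/-- a segment on the unit sphere; by the symmetries its inner point `z` has `|z.1| ≤ z.2` -/
theorem face_segment (hμ : SymNorm μ) (hn : ¬ StrictConvex ℝ {v : ℝ × ℝ | μ v ≤ 1}) :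
    ∃ (x y : ℝ × ℝ) (a b : ℝ), x ≠ y ∧ 0 < a ∧ 0 < b ∧ a + b = 1 ∧ μ x = 1 ∧ μ y = 1 ∧ μ (a • x + b • y) = 1 ∧
      |(a • x + b • y).1| ≤ (a • x + b • y).2 := by
  simp only [StrictConvex, Set.Pairwise, not_forall] at hn
  obtain ⟨x, hx, y, hy, hxy, a, b, ha, hb, hab, hz⟩ := hn
  have hx' : μ x ≤ 1 := hx
  have hy' : μ y ≤ 1 := hy
  have h1 : 1 ≤ μ (a • x + b • y) := by
    by_contra h
    have hs : {v | μ v < 1} ⊆ {v | μ v ≤ 1} := fun v hv => (le_of_lt hv : μ v ≤ 1)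
    exact hz (interior_maximal hs (isOpen_lt (sn_continuous hμ) continuous_const) (not_le.mp h))
  have h2 := hμ.add_le (a • x) (b • y)
  rw [hμ.smul, hμ.smul, abs_of_pos ha, abs_of_pos hb] at h2
  have h3 := mul_le_mul_of_nonneg_left hx' ha.le
  have h4 := mul_le_mul_of_nonneg_left hy' hb.le
  have ex : μ x = 1 := mul_left_cancel₀ ha.ne' (by linarith)
  have ey : μ y = 1 := mul_left_cancel₀ hb.ne' (by linarith)
  have ez : μ (a • x + b • y) = 1 := by linarith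
  have key : ∀ φ : (ℝ × ℝ) →ₗ[ℝ] (ℝ × ℝ), Function.Injective φ → (∀ v, μ (φ v) = μ v) →
      |(φ (a • x + b • y)).1| ≤ (φ (a • x + b • y)).2 →
      ∃ (x y : ℝ × ℝ) (a b : ℝ), x ≠ y ∧ 0 < a ∧ 0 < b ∧ a + b = 1 ∧ μ x = 1 ∧ μ y = 1 ∧
        μ (a • x + b • y) = 1 ∧ |(a • x + b • y).1| ≤ (a • x + b • y).2 := by
    intro φ hi hφ h
    have e : a • φ x + b • φ y = φ (a • x + b • y) := by simp
    exact ⟨φ x, φ y, a, b, fun h => hxy (hi h), ha, hb, hab, by rw [hφ, ex], by rw [hφ, ey],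
      by rw [e, hφ, ez], by rw [e]; exact h⟩
  generalize a • x + b • y = z at key
  rcases le_total |z.1| |z.2| with h | h
  · rcases le_total 0 z.2 with h' | h'
    · exact key LinearMap.id (fun _ _ h => h) (fun _ => rfl) (by rwa [abs_of_nonneg h'] at h)
    · refine key (-LinearMap.id) (fun _ _ h => neg_injective h) (fun v => sn_neg hμ v) ?_
      rw [abs_of_nonpos h'] at h
      simpa using h
  · rcases le_total 0 z.1 with h' | h'
    · refine key (LinearEquiv.prodComm ℝ ℝ ℝ).toLinearMap (LinearEquiv.prodComm ℝ ℝ ℝ).injective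
        (fun v => hμ.swap v) ?_
      rw [abs_of_nonneg h'] at h
      simpa using h
    · refine key (-(LinearEquiv.prodComm ℝ ℝ ℝ).toLinearMap)
        (fun _ _ h => (LinearEquiv.prodComm ℝ ℝ ℝ).injective (neg_injective h))
        (fun v => (sn_neg hμ _).trans (hμ.swap v)) ?_
      rw [abs_of_nonpos h'] at h
      simpa using h

/-- `ρ = rho μ ξ0` equals `μ` on the segment; take a point of it near `z` -/
theorem face_two (hμ : SymNorm μ) (hd : DiffOff μ) (hn : ¬ StrictConvex ℝ {v : ℝ × ℝ | μ v ≤ 1}) :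
    ∃ ξ0 ξ1 : ℝ, |ξ0| ≤ 1 ∧ ξ1 ≠ ξ0 ∧ fs μ ξ1 = fs μ ξ0 + deriv (fs μ) ξ0 * (ξ1 - ξ0) := by
  obtain ⟨x, y, a, b, hxy, ha, hb, hab, ex, ey, ez, hz⟩ := face_segment hμ hn
  set z := a • x + b • y with hzd
  have hz2 : 0 < z.2 := by
    refine lt_of_le_of_ne ((abs_nonneg _).trans hz) fun h => ?_
    have h1 : z.1 = 0 := abs_eq_zero.mp (le_antisymm (h ▸ hz) (abs_nonneg _))
    have h2 : z = 0 := Prod.ext h1 h.symm
    rw [h2, sn_zero hμ] at ez
    exact zero_ne_one ez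
  have hξ : |z.1 / z.2| ≤ 1 := by
    rw [abs_div, abs_of_pos hz2, div_le_one hz2]; exact hz
  have e0 := f0_excess hμ (z.1 / z.2) hz2
  rw [sub_self (z.1 / z.2), mul_zero, sub_zero, sub_self, mul_zero, ez] at e0
  have e1 : dot (rho μ (z.1 / z.2)) z = a * dot (rho μ (z.1 / z.2)) x + b * dot (rho μ (z.1 / z.2)) y := by
    simp only [dot, hzd, Prod.fst_add, Prod.snd_add, Prod.smul_fst, Prod.smul_snd, smul_eq_mul]
    ring
  have h3 := mul_le_mul_of_nonneg_left (dot_rho_le hμ hd (z.1 / z.2) x) ha.le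
  have h4 := mul_le_mul_of_nonneg_left (dot_rho_le hμ hd (z.1 / z.2) y) hb.le
  rw [ex] at h3
  rw [ey] at h4
  have dx : dot (rho μ (z.1 / z.2)) x = 1 := mul_left_cancel₀ ha.ne' (by linarith)
  have dy : dot (rho μ (z.1 / z.2)) y = 1 := mul_left_cancel₀ hb.ne' (by linarith)
  have key : ∀ w : ℝ × ℝ, 0 < w.2 → μ w = 1 → dot (rho μ (z.1 / z.2)) w = 1 → w ≠ z →
      ∃ ξ0 ξ1 : ℝ, |ξ0| ≤ 1 ∧ ξ1 ≠ ξ0 ∧ fs μ ξ1 = fs μ ξ0 + deriv (fs μ) ξ0 * (ξ1 - ξ0) := by
    intro w hw h1 h2 hne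
    have e2 := f0_excess hμ (z.1 / z.2) hw
    rw [h1, h2, sub_self] at e2
    refine ⟨z.1 / z.2, w.1 / w.2, hξ, fun h => hne ?_, ?_⟩
    · have a1 := fs_eq hμ hw
      have a2 := fs_eq hμ hz2
      rw [h, h1] at a1
      rw [ez] at a2
      have a3 : fs μ (z.1 / z.2) ≠ 0 := fun h => by rw [h, mul_zero] at a1; exact one_ne_zero a1
      have a4 : w.2 = z.2 := mul_right_cancel₀ a3 (by linarith)
      rw [a4, div_left_inj' hz2.ne'] at h
      exact Prod.ext h a4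
    · have := (mul_eq_zero.mp e2.symm).resolve_left hw.ne'
      linarith
  have hz2' : z.2 = a * x.2 + b * y.2 := by simp [hzd]
  by_cases hx2 : 0 < x.2
  · refine key x hx2 ex dx fun h => hxy ?_
    have h5 : b • (x - y) = 0 := by
      have : b • (x - y) = (a + b) • x - z := by rw [hzd]; module
      rw [this, hab, one_smul, h, sub_self]
    exact sub_eq_zero.mp ((smul_eq_zero.mp h5).resolve_left hb.ne')
  · have hy2 : 0 < y.2 := by
      by_contra hy2
      nlinarith [mul_nonneg ha.le (neg_nonneg.mpr (not_lt.mp hx2)), mul_nonneg hb.le (neg_nonneg.mpr (not_lt.mp hy2))]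
    refine key y hy2 ey dy fun h => hxy ?_
    have h5 : a • (y - x) = 0 := by
      have : a • (y - x) = (a + b) • y - z := by rw [hzd]; module
      rw [this, hab, one_smul, h, sub_self]
    exact (sub_eq_zero.mp ((smul_eq_zero.mp h5).resolve_left ha.ne')).symm

/-- the zero set of `η = f - tangent line` is a compact interval; `|a0| ≤ f' 1 < f' Ξ ≤ μ(1,0)`; `f' = a0` at both ends
(`IsLocalMin.deriv_eq_zero`), `dfs_continuous`, `dfs_mono` -/
theorem exists_face' (hμ : SymNorm μ) (hd : DiffOff μ) (hn : ¬ StrictConvex ℝ {v : ℝ × ℝ | μ v ≤ 1}) :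
    Nonempty (Face μ) := by
  obtain ⟨ξ0, ξ1, h0, hne, h1⟩ := face_two hμ hd hn
  obtain ⟨Ξ, -, hΞ⟩ := sn_fact0 hμ hd
  have hm := dfs_mono hμ hd
  have hc := dfs_continuous hμ hd
  set a0 := deriv (fs μ) ξ0 with ha0
  set b0 := fs μ ξ0 - ξ0 * a0 with hb0
  have hup : a0 ≤ deriv (fs μ) 1 := hm (abs_le.mp h0).2
  have hlo : -deriv (fs μ) 1 ≤ a0 := by rw [← dfs_neg hμ]; exact hm (abs_le.mp h0).1
  have hst : |a0| < μ (1, 0) :=
    (abs_le.mpr ⟨hlo, hup⟩).trans_lt (hΞ.trans_le ((le_abs_self _).trans (dfs_abs_le hμ Ξ)))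
  have hge : ∀ ξ, a0 * ξ + b0 ≤ fs μ ξ := fun ξ => by
    have := fs_tangent hμ hd ξ0 ξ
    rw [hb0]; linarith
  set Z : Set ℝ := {ξ | fs μ ξ = a0 * ξ + b0} with hZ
  have hder : ∀ ξ ∈ Z, deriv (fs μ) ξ = a0 := fun ξ hξ => by
    have a1 : IsLocalMin (fun x => fs μ x - a0 * x) ξ := Eventually.of_forall fun x => by
      have := hge x
      have e : fs μ ξ = a0 * ξ + b0 := hξ
      change fs μ ξ - a0 * ξ ≤ fs μ x - a0 * x
      linarith
    have a2 : HasDerivAt (fun x => fs μ x - a0 * x) (deriv (fs μ) ξ - a0) ξ := by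
      simpa using (fs_differentiable hd ξ).hasDerivAt.fun_sub ((hasDerivAt_id ξ).const_mul a0)
    exact sub_eq_zero.mp (a1.hasDerivAt_eq_zero a2)
  have hcl : IsClosed Z := isClosed_eq (fs_differentiable hd).continuous (by fun_prop)
  have hba : BddAbove Z := ⟨Ξ, fun ξ hξ => (hm.reflect_lt (by rw [hder ξ hξ]; linarith)).le⟩
  have hbb : BddBelow Z := ⟨-Ξ, fun ξ hξ => (hm.reflect_lt (by rw [hder ξ hξ, dfs_neg hμ]; linarith)).le⟩
  have m0 : ξ0 ∈ Z := by change fs μ ξ0 = _; rw [hb0]; ring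
  have m1 : ξ1 ∈ Z := by change fs μ ξ1 = _; rw [h1, hb0]; ring
  have mn : sInf Z ∈ Z := hcl.csInf_mem ⟨ξ0, m0⟩ hbb
  have mp : sSup Z ∈ Z := hcl.csSup_mem ⟨ξ0, m0⟩ hba
  have hsupp : ∀ ξ, Supp μ ξ (deriv (fs μ) ξ) (fs μ ξ - ξ * deriv (fs μ) ξ) := fun ξ =>
    ⟨by unfold fs; ring, fun v => dot_rho_le hμ hd ξ v⟩
  refine ⟨⟨a0, b0, sInf Z, sSup Z, ?_, fun ξ l1 l2 => ⟨?_, (hsupp ξ0).2⟩, fun ξ hξ => ?_, fun ξ hξ => ?_,
    hst, ?_⟩⟩
  · have a1 := csInf_le hbb m0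
    have a2 := csInf_le hbb m1
    have a3 := le_csSup hba m0
    have a4 := le_csSup hba m1
    rcases lt_or_gt_of_ne hne with h | h <;> linarith
  · have a1 := hm l1
    have a2 := hm l2
    rw [hder _ mn] at a1
    rw [hder _ mp] at a2
    have a3 := fs_tangent hμ hd ξ (sInf Z)
    have a4 : fs μ (sInf Z) = a0 * sInf Z + b0 := mn
    rw [le_antisymm a2 a1] at a3
    refine le_antisymm (hge ξ) ?_
    change fs μ ξ ≤ _
    linarith
  · exact lt_of_le_of_ne (hge ξ) fun h => (le_csSup hba (show ξ ∈ Z from h.symm)).not_gt hξ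
  · exact lt_of_le_of_ne (hge ξ) fun h => (csInf_le hbb (show ξ ∈ Z from h.symm)).not_gt hξ
  · obtain ⟨A, hA1, hA2⟩ := exists_between hst
    have t1 : Tendsto (fun ι : ℝ => deriv (fs μ) (sSup Z + ι)) (𝓝 0) (𝓝 a0) := by
      have := (hc.comp (continuous_const.add continuous_id : Continuous fun ι : ℝ => sSup Z + ι)).tendsto 0
      simpa [hder _ mp, Function.comp_def] using this
    have t2 : Tendsto (fun ι : ℝ => deriv (fs μ) (sInf Z - ι)) (𝓝 0) (𝓝 a0) := by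
      have := (hc.comp (continuous_const.sub continuous_id : Continuous fun ι : ℝ => sInf Z - ι)).tendsto 0
      simpa [hder _ mn, Function.comp_def] using this
    have e1 := t1.eventually (gt_mem_nhds (abs_lt.mp hA1).2)
    have e2 := t2.eventually (lt_mem_nhds (abs_lt.mp hA1).1)
    obtain ⟨ι, ⟨i1, i2⟩, i3⟩ := (((e1.and e2).filter_mono (nhdsWithin_le_nhds (s := Set.Ioi 0))).and
      self_mem_nhdsWithin).exists
    exact ⟨ι, i3, A, hA2, fun ξ l1 l2 => ⟨_, _, abs_le.mpr ⟨(i2.le.trans (hm l1)), (hm l2).trans i1.le⟩, hsupp ξ⟩⟩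

end Crest.Agent.R151
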