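import Crest.Agent.R151.D2Geo

/-! R151 part D2: highways are not free, `κ ≥ c`. -/

set_option autoImplicit false
set_option linter.unusedSectionVars false
open MeasureTheory ProbabilityTheory Crest.ProbabilityR.FirstPassage Filter Topology
open scoped ENNReal

namespace Crest.Agent.R151

/-- the lattice edges of a bounded region (image of `ball × {(1,0),(0,1)}`, filtered) -/
theorem low_edges {R : Set V} {r : ℕ} (h : R ⊆ ball 0 r) : ∃ S : Finset (Sym2 V),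
    S.card ≤ 2 * (2 * r + 1) ^ 2 ∧ (∀ e ∈ S, e ∈ edgesIn R) ∧
      ∀ x y, x ∈ R → y ∈ R → Adj x y → s(x, y) ∈ S := by
  classical
  refine ⟨(((ball_finite 0 r).toFinset ×ˢ ({(1, 0), (0, 1)} : Finset V)).image
    fun z => s(z.1, z.1 + z.2)).filter (· ∈ edgesIn R), ?_, fun e he => (Finset.mem_filter.1 he).2, ?_⟩
  · refine (Finset.card_filter_le _ _).trans (Finset.card_image_le.trans ?_)
    rw [Finset.card_product, ← Set.ncard_eq_toFinset_card _ (ball_finite 0 r), mul_comm]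
    exact Nat.mul_le_mul Finset.card_le_two (ncard_ball_le 0 r)
  · intro x y hx hy hadj
    refine Finset.mem_filter.2 ⟨Finset.mem_image.2 ?_, fun v hv => ?_⟩
    · have hx' := (ball_finite 0 r).mem_toFinset.2 (h hx)
      have hy' := (ball_finite 0 r).mem_toFinset.2 (h hy)
      rcases (adj_iff x y).1 hadj with ⟨h1, h2 | h2⟩ | ⟨h1, h2 | h2⟩
      · exact ⟨(x, (0, 1)), Finset.mem_product.2 ⟨hx', by simp⟩, by
          congr 1; ext <;> simp [h1, h2]⟩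
      · exact ⟨(y, (0, 1)), Finset.mem_product.2 ⟨hy', by simp⟩, by
          rw [Sym2.eq_swap]; congr 1; ext <;> simp [h1, h2]⟩
      · exact ⟨(x, (1, 0)), Finset.mem_product.2 ⟨hx', by simp⟩, by
          congr 1; ext <;> simp [h1, h2]⟩
      · exact ⟨(y, (1, 0)), Finset.mem_product.2 ⟨hy', by simp⟩, by
          rw [Sym2.eq_swap]; congr 1; ext <;> simp [h1, h2]⟩
    · rcases Sym2.mem_iff.1 hv with rfl | rfl <;> assumption

variable {G : Measure ℝ} [IsProbabilityMeasure G] [NullSingletonClass G] {F : Face (mu G)}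
  {B : ℤ → Env → V → ℝ}

/-- `peierls_marked` with `η = 1/2`, union bound over the starting point (`lld_ball`), `exists_quantile` -/
theorem low_peierls (hG : Hyp G) : ∃ q δ : ℝ, 0 < δ ∧ 0 < G.real (Set.Ico 0 (q - δ)) ∧ ∀ r n : ℕ,
    (iidLaw G).real {t | ∃ p i, PathIn Set.univ p i (i + n) ∧ Set.InjOn p (Set.Icc i (i + n)) ∧
      p i ∈ ball 0 r ∧ ((((Finset.Ico i (i + n)).image (edge p)).filter fun e => q ≤ t e).card : ℝ) < n / 2} ≤
      (2 * r + 1) ^ 2 * Real.exp (-n) := by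
  classical
  obtain ⟨p0, hp0, hP⟩ := peierls_marked G (η := 1 / 2) (by norm_num)
  obtain ⟨q, δ, hδ, -, hq, hp⟩ := exists_quantile G hG.nonneg hp0
  refine ⟨q, δ, hδ, hp, fun r n => le_trans (measureReal_mono ?_ (measure_ne_top _ _))
    (lld_ball _ 0 r _ (Real.exp_pos _).le fun z => hP (Set.Iio q) measurableSet_Iio hq z n)⟩
  rintro t ⟨p, i, h1, h2, h3, h4⟩
  simp only [Set.mem_iUnion]
  refine ⟨p i, (ball_finite 0 r).mem_toFinset.2 h3, fun k => p (k + i), by simpa using h1.reindex i,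
    fun a ha b hb e => ?_, by simp, ?_⟩
  · have := h2 (x₁ := a + i) (x₂ := b + i) ⟨by linarith [ha.1], by linarith [ha.2]⟩
      ⟨by linarith [hb.1], by linarith [hb.2]⟩ e
    omega
  · have c1 := Finset.card_filter_add_card_filter_not (s := Finset.Ico (0 : ℤ) n)
      fun k => t (edge (fun k => p (k + i)) k) ∈ Set.Iio q
    have c2 : ((Finset.Ico (0 : ℤ) n).filter fun k => ¬ t (edge (fun k => p (k + i)) k) ∈ Set.Iio q).card ≤
        (((Finset.Ico i (i + n)).image (edge p)).filter fun e => q ≤ t e).card := by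
      refine Finset.card_le_card_of_injOn (fun k => edge p (k + i)) (fun k hk => ?_) fun a ha b hb e => ?_
      · simp only [Finset.coe_filter, Finset.mem_Ico, Set.mem_ofPred_eq, Set.mem_Iio, not_lt] at hk ⊢
        refine ⟨Finset.mem_image.2 ⟨k + i, Finset.mem_Ico.2 ⟨by omega, by omega⟩, rfl⟩, ?_⟩
        have := hk.2
        simp only [edge] at this ⊢
        rwa [show k + i + 1 = k + 1 + i by ring]
      · simp only [Finset.coe_filter, Finset.mem_Ico, Set.mem_ofPred_eq] at ha hb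
        have := edge_injOn h2 (x₁ := a + i) (x₂ := b + i) ⟨by omega, by omega⟩ ⟨by omega, by omega⟩ e
        omega
    simp only [Int.card_Ico, sub_zero, Int.toNat_natCast] at c1
    have c1' := congrArg (Nat.cast (R := ℝ)) c1
    have c2' := Nat.cast_le (α := ℝ).2 c2
    push_cast at c1'
    have : (1 / 2 : ℝ) * n ≤ ((Finset.Ico (0 : ℤ) n).filter
        fun k => t (edge (fun k => p (k + i)) k) ∈ Set.Iio q).card := by linarith
    convert this

/-- Markov at one level `n` for four cheap paths: outside events of probability `≤ 4 (κ + η)/κ'` -/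
theorem low_markov (hG : Hyp G) (hB : Pot G F B) {Q1 Q2 Q3 Q4 : (ℤ → V) → ℤ → ℤ → Prop} {κ η κ' : ℝ}
    (c1 : Cheap G B Q1 κ) (c2 : Cheap G B Q2 κ) (c3 : Cheap G B Q3 κ) (c4 : Cheap G B Q4 κ)
    (q1 : ∀ p i j, Q1 p i j → PathIn Set.univ p i j) (q2 : ∀ p i j, Q2 p i j → PathIn Set.univ p i j)
    (q3 : ∀ p i j, Q3 p i j → PathIn Set.univ p i j) (q4 : ∀ p i j, Q4 p i j → PathIn Set.univ p i j)
    (hη : 0 < η) (hκ' : 0 < κ') : ∃ (n : ℤ) (E : Set Env), MeasurableSet E ∧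
      (iidLaw G).real E ≤ 4 * (κ + η) / κ' ∧ ∀ t ∉ E, (∀ e, 0 ≤ t e) ∧ (∀ x y, B n t x ≤ T t x y + B n t y) ∧
        ∃ p1 i1 j1 p2 i2 j2 p3 i3 j3 p4 i4 j4, Q1 p1 i1 j1 ∧ Q2 p2 i2 j2 ∧ Q3 p3 i3 j3 ∧ Q4 p4 i4 j4 ∧
          wc t (B n t) p1 i1 j1 + wc t (B n t) p4 i4 j4 ≤ κ' ∧
          wc t (B n t) p2 i2 j2 + wc t (B n t) p3 i3 j3 ≤ κ' := by
  obtain ⟨Y1, i1, -, a1, e1⟩ := c1
  obtain ⟨Y2, i2, -, a2, e2⟩ := c2
  obtain ⟨Y3, i3, -, a3, e3⟩ := c3
  obtain ⟨Y4, i4, -, a4, e4⟩ := c4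
  obtain ⟨n, hn⟩ := ((a1.add a4).add (a2.add a3)).exists_le (η := 4 * η) (by positivity)
  have j1 : Integrable (fun t => Y1 n t + Y4 n t) (iidLaw G) := (i1 n).add (i4 n)
  have j2 : Integrable (fun t => Y2 n t + Y3 n t) (iidLaw G) := (i2 n).add (i3 n)
  have j3 : Integrable (fun t => (Y1 n t + Y4 n t) + (Y2 n t + Y3 n t)) (iidLaw G) := j1.add j2
  rw [← integral_add (i1 n) (i4 n), ← integral_add (i2 n) (i3 n), ← integral_add j1 j2] at hn
  have hae : ∀ᵐ t ∂iidLaw G, (∀ e, 0 ≤ t e) ∧ (∀ x y, B n t x ≤ T t x y + B n t y) ∧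
      ∃ p1 i1 j1 p2 i2 j2 p3 i3 j3 p4 i4 j4, Q1 p1 i1 j1 ∧ Q2 p2 i2 j2 ∧ Q3 p3 i3 j3 ∧ Q4 p4 i4 j4 ∧
        0 ≤ wc t (B n t) p1 i1 j1 + wc t (B n t) p4 i4 j4 ∧
        0 ≤ wc t (B n t) p2 i2 j2 + wc t (B n t) p3 i3 j3 ∧
        wc t (B n t) p1 i1 j1 + wc t (B n t) p4 i4 j4 + (wc t (B n t) p2 i2 j2 + wc t (B n t) p3 i3 j3) ≤
          (Y1 n t + Y4 n t) + (Y2 n t + Y3 n t) := by
    filter_upwards [e1, e2, e3, e4, hB.lip, ae_nonneg G hG.nonneg] with t f1 f2 f3 f4 hl ht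
    obtain ⟨p1, _, _, r1, w1⟩ := f1
    obtain ⟨p2, _, _, r2, w2⟩ := f2
    obtain ⟨p3, _, _, r3, w3⟩ := f3
    obtain ⟨p4, _, _, r4, w4⟩ := f4
    exact ⟨ht, hl n, _, _, _, _, _, _, _, _, _, _, _, _, r1, r2, r3, r4,
      add_nonneg (wc_nonneg ht (hl n) (q1 _ _ _ r1)) (wc_nonneg ht (hl n) (q4 _ _ _ r4)),
      add_nonneg (wc_nonneg ht (hl n) (q2 _ _ _ r2)) (wc_nonneg ht (hl n) (q3 _ _ _ r3)),
      by linarith [w1 n, w2 n, w3 n, w4 n]⟩
  have hM := mul_meas_ge_le_integral_of_nonneg (μ := iidLaw G)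
    (f := fun t => (Y1 n t + Y4 n t) + (Y2 n t + Y3 n t))
    (hae.mono fun t ht => by
      obtain ⟨-, -, _, _, _, _, _, _, _, _, _, _, _, _, -, -, -, -, h1, h2, h3⟩ := ht
      exact (add_nonneg h1 h2).trans h3) j3 κ'
  set A : Set Env := {t | ¬ ((∀ e, 0 ≤ t e) ∧ (∀ x y, B n t x ≤ T t x y + B n t y) ∧
        ∃ p1 i1 j1 p2 i2 j2 p3 i3 j3 p4 i4 j4, Q1 p1 i1 j1 ∧ Q2 p2 i2 j2 ∧ Q3 p3 i3 j3 ∧ Q4 p4 i4 j4 ∧
          wc t (B n t) p1 i1 j1 + wc t (B n t) p4 i4 j4 ≤ κ' ∧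
          wc t (B n t) p2 i2 j2 + wc t (B n t) p3 i3 j3 ≤ κ')} with hA
  refine ⟨n, toMeasurable (iidLaw G) A, measurableSet_toMeasurable _ _, ?_,
    fun t ht => not_not.1 fun h => ht (subset_toMeasurable _ _ h)⟩
  have h1 : (iidLaw G).real (toMeasurable (iidLaw G) A) = (iidLaw G).real A := by
    simp only [Measure.real, measure_toMeasurable]
  have h2 : (iidLaw G).real A ≤ (iidLaw G).real {t | κ' ≤ (Y1 n t + Y4 n t) + (Y2 n t + Y3 n t)} := by
    refine lld_mono hae fun t ht hA' => ?_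
    obtain ⟨b1, b2, _, _, _, _, _, _, _, _, _, _, _, _, r1, r2, r3, r4, h1, h2, h3⟩ := ht
    by_contra h
    have h : (Y1 n t + Y4 n t) + (Y2 n t + Y3 n t) < κ' := not_le.1 h
    exact hA' ⟨b1, b2, _, _, _, _, _, _, _, _, _, _, _, _, r1, r2, r3, r4, by linarith, by linarith⟩
  rw [h1, le_div_iff₀ hκ']
  nlinarith

/-- `y = s / 10`, region `R = lane ξ 0 δ ∩ rows (2y+1) (4y) ⊆ ball 0 (C y)`, `S` from `low_edges`, `ϑ = c0 / y`,
`κ' = δq / 3`.  For `t` outside `E` and the Peierls event take the first `y` steps of the crossing of `R` by `P1`, `D` its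
edges with `q ≤ t e`; if `C` meets `D` then `lowerOn q C a t ∈ E` by `lower_det` and `cost_lowerOn_le`;
`coinProb (¬ Disjoint C D) = 1 - (1-ϑ)^|D| ≥ 1 - exp (-c0/2)`; `tilt`. -/
theorem kappa_lower (hG : Hyp G) (hB : Pot G F B) : ∃ c > (0 : ℝ), ∃ s0 : ℕ, ∀ (s : ℕ) (κ : ℝ), s0 ≤ s →
    Roads G F B s κ → c ≤ κ := by
  classical
  have hτ : 0 < F.τ1 := Face.τ1_pos (symNorm_mu G hG) F
  have hτd : F.ξp = F.ξn + 4 * F.τ1 := by unfold Face.τ1; ring
  obtain ⟨q, δq, hδq, hp', hPe⟩ := low_peierls (G := G) hG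
  set p' := G.real (Set.Ico 0 (q - δq)) with hp'def
  have hp1 : p' ≤ 1 := measureReal_le_one
  obtain ⟨L, hL⟩ := exists_nat_ge (4 * (|F.ξp| + F.τ1) + F.τ1 + 5)
  have hL1 : (1 : ℝ) ≤ L := by linarith [abs_nonneg F.ξp]
  set c0 := p' / (18 * L ^ 2) with hc0
  have hc0p : 0 < c0 := by positivity
  have hc01 : c0 ≤ 1 := by rw [hc0, div_le_one (by positivity)]; nlinarith
  set c1 := 1 - Real.exp (-(c0 / 2)) with hc1
  have hc1p : 0 < c1 := by
    have := Real.exp_lt_one_iff.2 (show -(c0 / 2) < 0 by linarith)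
    linarith
  set π0 := min (1 / 4) ((c1 / 2) ^ 2 / (2 * Real.exp 2)) with hπ0
  have hπ0p : 0 < π0 := by positivity
  have hev : ∀ᶠ y : ℕ in atTop, (9 * L ^ 2 : ℝ) * ((y : ℝ) ^ 2 * Real.exp (-y)) ≤ 1 / 4 ∧ 1 ≤ y ∧
      2 / F.τ1 ≤ y := by
    have := ((Real.tendsto_pow_mul_exp_neg_atTop_nhds_zero 2).comp tendsto_natCast_atTop_atTop).const_mul
      (9 * L ^ 2 : ℝ)
    rw [mul_zero] at this
    exact ((this.eventually (ge_mem_nhds (by norm_num))).and ((eventually_ge_atTop 1).and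
      (tendsto_natCast_atTop_atTop.eventually_ge_atTop _)))
  obtain ⟨y0, hy0⟩ := eventually_atTop.1 hev
  refine ⟨π0 * (δq / 3) / 8, by positivity, 10 * y0, fun s κ hs ⟨ξ, ξ', hξ, hξ', hR⟩ => ?_⟩
  obtain ⟨y, hy1, hy2⟩ : ∃ y : ℕ, 10 * y ≤ s ∧ s < 10 * y + 10 := ⟨s / 10, by omega, by omega⟩
  obtain ⟨v1, v2, v3⟩ := hy0 y (by omega)
  have v2' : (1 : ℝ) ≤ y := by exact_mod_cast v2
  set δ := F.τ1 / 20 * s + 1 with hδ
  have hδp : 0 < δ := by positivity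
  have hδ1 : δ ≤ F.τ1 * y + 1 := by
    have : (s : ℝ) ≤ 10 * y + 10 := by exact_mod_cast hy2.le
    rw [hδ]; nlinarith
  have m2 := abs_le.1 hξ
  have m3 := abs_le.1 hξ'
  have hd : 2 * δ ≤ (ξ - ξ') * ((y : ℤ) : ℝ) := by
    have d1 : 38 / 10 * F.τ1 * y ≤ (ξ - ξ') * y := mul_le_mul_of_nonneg_right (by linarith) (by positivity)
    have d2 : 2 ≤ y * F.τ1 := (div_le_iff₀ hτ).1 v3
    push_cast; linarith
  set R : Set V := lane ξ 0 δ ∩ rows (2 * y + 1) (4 * y) with hRdef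
  have hRb : R ⊆ ball 0 (L * y : ℕ) := by
    rintro v ⟨hv, hv1, hv2⟩
    have a1 : |(v.1 : ℝ) - 0 - ξ * v.2| ≤ δ := hv
    have a2 : (0 : ℝ) ≤ v.2 := by exact_mod_cast (show 0 ≤ v.2 by omega)
    have a3 : (v.2 : ℝ) ≤ 4 * y := by exact_mod_cast hv2
    have a4 : |ξ| ≤ |F.ξp| + F.τ1 := by
      have := abs_sub_abs_le_abs_sub ξ F.ξp
      linarith
    have a5 : |ξ * v.2| ≤ (|F.ξp| + F.τ1) * (4 * y) := by
      rw [abs_mul, abs_of_nonneg a2]
      exact mul_le_mul a4 a3 a2 (by positivity)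
    have a6 := abs_sub_abs_le_abs_sub (v.1 : ℝ) (ξ * v.2)
    rw [sub_zero] at a1
    have a7 := mul_le_mul_of_nonneg_right hL (show (0 : ℝ) ≤ y by positivity)
    have a8 := mul_nonneg (abs_nonneg F.ξp) (show (0 : ℝ) ≤ y by positivity)
    have a9 := mul_nonneg hτ.le (show (0 : ℝ) ≤ y by positivity)
    have b1 : |(v.1 : ℝ)| ≤ L * y := by linarith
    have b2 : |(v.2 : ℝ)| ≤ L * y := by rw [abs_of_nonneg a2]; linarith
    simp only [ball, nrm, sub_zero, Set.mem_ofPred_eq, max_le_iff]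
    exact ⟨by exact_mod_cast b1, by exact_mod_cast b2⟩
  obtain ⟨S, hS1, hS2, hS3⟩ := low_edges hRb
  have hLy : (2 * (L * y : ℕ) + 1 : ℝ) ^ 2 ≤ 9 * L ^ 2 * y ^ 2 := by
    have : (1 : ℝ) ≤ L * y := one_le_mul_of_one_le_of_one_le hL1 v2'
    push_cast; nlinarith
  by_contra hκ
  have hκ : κ < π0 * (δq / 3) / 8 := not_le.1 hκ
  have hH : ∀ x0, _ := fun x0 => hR (10 * y) x0 (by omega) (by omega)
  have hu : ∀ {ξ x0 δ : ℝ} {H : ℤ} (p : ℤ → V) (i j : ℤ), Hw ξ x0 δ H p i j → PathIn Set.univ p i j :=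
    fun p i j h => h.1.mono (Set.subset_univ _)
  obtain ⟨n, E, hEm, hE1, hE⟩ := low_markov hG hB (hH 0).1 (hH ((ξ - ξ') * (y : ℤ))).2
    (hH (-4 * ((ξ - ξ') * (y : ℤ)))).1 (hH (5 * ((ξ - ξ') * (y : ℤ)))).2 hu hu hu hu
    (η := π0 * (δq / 3) / 8) (κ' := δq / 3) (by positivity) (by positivity)
  have hE2 : (iidLaw G).real E ≤ π0 := by
    refine hE1.trans ?_
    rw [div_le_iff₀ (by positivity)]; linarith
  have hPe1 := (hPe (L * y) y).trans (mul_le_mul_of_nonneg_right hLy (Real.exp_pos _).le)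
  set Pe := {t : Env | ∃ p i, PathIn Set.univ p i (i + y) ∧ Set.InjOn p (Set.Icc i (i + y)) ∧
      p i ∈ ball 0 (L * y : ℕ) ∧
      ((((Finset.Ico i (i + y)).image (edge p)).filter fun e => q ≤ t e).card : ℝ) < y / 2} with hPedef
  have hAm : MeasurableSet (E ∪ toMeasurable (iidLaw G) Pe) := hEm.union (measurableSet_toMeasurable _ _)
  have hA : 1 / 2 ≤ (iidLaw G).real (E ∪ toMeasurable (iidLaw G) Pe)ᶜ := by
    rw [probReal_compl_eq_one_sub hAm]
    have h1 := measureReal_union_le (μ := iidLaw G) E (toMeasurable (iidLaw G) Pe)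
    have h2 : (iidLaw G).real (toMeasurable (iidLaw G) Pe) = (iidLaw G).real Pe := by
      simp only [Measure.real, measure_toMeasurable]
    have h3 : π0 ≤ 1 / 4 := min_le_left _ _
    linarith
  have hϑ0 : 0 ≤ c0 / y := by positivity
  have hϑ1 : c0 / y ≤ 1 := by rw [div_le_one (by positivity)]; linarith
  have hT := tilt G hδq hp' S hϑ0 hϑ1 (c := c1) (A := (E ∪ toMeasurable (iidLaw G) Pe)ᶜ) (B := E) ?_ hc1p.le
    hAm.compl.nullMeasurableSet ?_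
  · have h1 : (c1 / 2) ^ 2 ≤ (c1 * (iidLaw G).real (E ∪ toMeasurable (iidLaw G) Pe)ᶜ) ^ 2 :=
      pow_le_pow_left₀ (by positivity) (by nlinarith) 2
    have h2 : π0 ≤ (c1 / 2) ^ 2 / (2 * Real.exp 2) := min_le_right _ _
    rw [le_div_iff₀ (by positivity)] at h2
    have h3 := mul_le_mul_of_nonneg_left hE2 (Real.exp_pos 2).le
    have h4 : 0 < (c1 / 2) ^ 2 := by positivity
    linarith
  · have h1 : (S.card : ℝ) ≤ 2 * (2 * (L * y : ℕ) + 1) ^ 2 := by exact_mod_cast hS1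
    have h2 : (S.card : ℝ) ≤ 18 * L ^ 2 * y ^ 2 := by linarith
    calc (S.card : ℝ) * (c0 / y) ^ 2 ≤ 18 * L ^ 2 * y ^ 2 * (c0 / y) ^ 2 :=
          mul_le_mul_of_nonneg_right h2 (by positivity)
      _ = 18 * L ^ 2 * c0 * c0 := by field_simp
      _ ≤ 18 * L ^ 2 * c0 * 1 := mul_le_mul_of_nonneg_left hc01 (by positivity)
      _ = p' := by rw [hc0]; field_simp
  intro t ht
  rw [Set.mem_compl_iff, Set.mem_union, not_or] at ht
  obtain ⟨-, hb, P1, i1, j1, -, -, -, -, -, -, Q2, i4, j4, hP1, -, -, hQ2, hw, -⟩ := hE t ht.1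
  obtain ⟨a, c, a1, a2, a3, a4, a5, a6, a7, -⟩ := hP1.1.exists_crossing (a := 2 * y + 1) (b := 4 * y)
    (by rw [hP1.2.2.1]; omega) (by omega) (by rw [hP1.2.2.2]; omega)
  have hlen : a + y ≤ c := by
    have h1 := a6.nrm_le
    have h2 : |(P1 c - P1 a).2| ≤ nrm (P1 c - P1 a) := le_max_right _ _
    have h3 := le_abs_self (P1 c - P1 a).2
    rw [Prod.snd_sub, a4, a5] at h2 h3
    omega
  have a8 : PathIn R P1 a (a + y) := (a6.sub le_rfl (by omega) hlen).mono fun v hv => ⟨hv.1.1, hv.2⟩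
  set D := ((Finset.Ico a (a + y)).image (edge P1)).filter fun e => q ≤ t e with hD
  have hDc : (y : ℝ) / 2 ≤ D.card := by
    by_contra h
    exact ht.2 (subset_toMeasurable _ _ ⟨P1, a, a8.mono (Set.subset_univ _),
      hP1.2.1.mono (Set.Icc_subset_Icc a1 (by omega)), hRb (a8.2.1 a le_rfl (by omega)), not_le.1 h⟩)
  have hDS : D ⊆ S := by
    intro e he
    obtain ⟨k, hk, rfl⟩ := Finset.mem_image.1 (Finset.mem_filter.1 he).1
    have hk := Finset.mem_Ico.1 hk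
    exact hS3 _ _ (a8.2.1 k hk.1 hk.2.le) (a8.2.1 (k + 1) (by omega) (by omega)) (a8.2.2 k hk.1 hk.2)
  refine le_trans ?_ (coinProb_mono hϑ0 hϑ1 (P := fun C => ¬ Disjoint C D) ?_)
  · rw [coinProb_not, coinProb_disjoint hDS]
    have h1 : (1 - c0 / y) ^ D.card ≤ Real.exp (-(c0 / y)) ^ D.card :=
      pow_le_pow_left₀ (by linarith) (Real.one_sub_le_exp_neg _) _
    rw [← Real.exp_nat_mul] at h1
    have h2 : Real.exp (D.card * -(c0 / y)) ≤ Real.exp (-(c0 / 2)) := by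
      refine Real.exp_le_exp.2 ?_
      have := mul_le_mul_of_nonneg_right hDc hϑ0
      rw [show (y : ℝ) / 2 * (c0 / y) = c0 / 2 by field_simp] at this
      linarith
    linarith
  intro C hC hCD a' ha'
  by_contra hE'
  obtain ⟨ht', hb', -, -, -, Q1, i2, j2, P2, i3, j3, -, -, -, -, hQ1, hP2, -, -, hw'⟩ := hE _ hE'
  have h1 := lower_det ht' hb hb' hδp (by omega) hd (lowerOn_le hδq ha') (fun e he => by
      have : e ∉ C := fun h => he (hS2 e (hC h))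
      simp [lowerOn, this]) hP1 hQ1 hP2 hQ2 a1 (by omega : a ≤ a + y) (by omega) (by omega)
    fun l l1 l2 => a7 l l1 (by omega)
  have h2 := cost_lowerOn_le (t := t) (C := C) hδq ha' P1 a (a + y)
  have h3 : 1 ≤ (((Finset.Ico a (a + y)).image (edge P1)).filter fun e => e ∈ C ∧ q ≤ t e).card := by
    obtain ⟨e, e1, e2⟩ := Finset.not_disjoint_iff.1 hCD
    exact Finset.card_pos.2 ⟨e, Finset.mem_filter.2 ⟨(Finset.mem_filter.1 e2).1, e1, (Finset.mem_filter.1 e2).2⟩⟩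
  have h4 := mul_le_mul_of_nonneg_left (Nat.cast_le (α := ℝ).2 h3) hδq.le
  push_cast at h4
  linarith

end Crest.Agent.R151
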