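import Crest.Agent.R151.D2Defs
import Crest.Agent.R151.CFact0

/-! R151 part D2: the potential exists. -/

set_option autoImplicit false
open MeasureTheory ProbabilityTheory Crest.ProbabilityR.FirstPassage Filter Topology
open scoped ENNReal

namespace Crest.Agent.R151

/-- `μ ≥ (1-θ)(a0 u + b0 k) + θ |u| μ(1,0)` (`F.supp`, `sn_e1_le`); take `θ` small, then
`ε' |a0| ≤ (1-ε') θ (μ(1,0) - |a0|)` (`F.steep`) -/
theorem pot_lin {μ : ℝ × ℝ → ℝ} (hμ : SymNorm μ) (F : Face μ) {ε : ℝ} (hε : 0 < ε) :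
    ∃ ε' > (0 : ℝ), ∀ u k : ℝ, F.b0 * k - ε * |k| ≤ (1 - ε') * μ (u, k) - F.a0 * u := by
  have hm := F.steep
  set m := μ (1, 0)
  have ha := abs_nonneg F.a0
  have hb := abs_nonneg F.b0
  set θ : ℝ := min (1 / 2) (ε / (2 * (|F.b0| + 1))) with hθ
  have hθ0 : 0 < θ := lt_min (by norm_num) (by positivity)
  have hθ1 : θ ≤ 1 / 2 := min_le_left _ _
  have hθ2 : θ * (2 * (|F.b0| + 1)) ≤ ε := (le_div_iff₀ (by positivity)).mp (min_le_right _ _)
  have hd : 0 < m - |F.a0| := by linarith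
  set e : ℝ := min θ (θ * (m - |F.a0|) / (2 * (|F.a0| + 1))) with he
  have he0 : 0 < e := lt_min hθ0 (by positivity)
  have he1 : e ≤ θ := min_le_left _ _
  have he2 : e * (2 * (|F.a0| + 1)) ≤ θ * (m - |F.a0|) := (le_div_iff₀ (by positivity)).mp (min_le_right _ _)
  refine ⟨e, he0, fun u k => ?_⟩
  have h1 : F.a0 * u + F.b0 * k ≤ μ (u, k) := (F.supp F.ξn le_rfl F.lt.le).2 (u, k)
  have h2 : |u| * m ≤ μ (u, k) := sn_e1_le hμ (u, k)
  have h3 : F.a0 * u ≤ |F.a0| * |u| := (le_abs_self _).trans_eq (abs_mul _ _)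
  have h4 : F.b0 * k ≤ |F.b0| * |k| := (le_abs_self _).trans_eq (abs_mul _ _)
  have hu := abs_nonneg u
  have hk := abs_nonneg k
  have he3 : 0 ≤ 1 - e := by linarith
  have a1 := mul_le_mul_of_nonneg_left h1 (mul_nonneg he3 (by linarith : 0 ≤ 1 - θ))
  have a2 := mul_le_mul_of_nonneg_left h2 (mul_nonneg he3 hθ0.le)
  have hl : 0 ≤ e + (1 - e) * θ := by positivity
  have a3 := mul_le_mul_of_nonneg_left h3 hl
  have a4 := mul_le_mul_of_nonneg_left h4 hl
  have a5 : (e + (1 - e) * θ) * |F.b0| ≤ ε := by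
    have : e + (1 - e) * θ ≤ 2 * θ := by nlinarith
    nlinarith
  have a6 : e * |F.a0| ≤ (1 - e) * θ * (m - |F.a0|) := by
    have : 0 < θ * (m - |F.a0|) := by positivity
    nlinarith
  have a7 := mul_le_mul_of_nonneg_right a5 hk
  have a8 := mul_le_mul_of_nonneg_right a6 hu
  nlinarith

/-- `Z = (∑' k, 1_{A k}).toReal`, `k` the least index with `ω ∉ A k` -/
theorem pot_tail {Ω : Type} [MeasurableSpace Ω] (P : Measure Ω) [IsFiniteMeasure P] (A : ℕ → Set Ω)
    (hm : ∀ k, MeasurableSet (A k)) (hs : Summable fun k => P.real (A k)) :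
    ∃ Z : Ω → ℝ, Integrable Z P ∧ ∀ᵐ ω ∂P, ∃ k : ℕ, ω ∉ A k ∧ (k : ℝ) ≤ Z ω := by
  classical
  set W : Ω → ℝ≥0∞ := fun ω => ∑' k, (A k).indicator 1 ω with hW
  have hWm : Measurable W := Measurable.tsum fun k => measurable_one.indicator (hm k)
  have hfin : ∫⁻ ω, W ω ∂P ≠ ⊤ := by
    rw [hW, lintegral_tsum fun k => (measurable_one.indicator (hm k)).aemeasurable]
    simp only [lintegral_indicator_one (hm _)]
    have e : ∀ k, P (A k) = ENNReal.ofReal (P.real (A k)) := fun k => (ofReal_measureReal (measure_ne_top _ _)).symm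
    simp only [e]
    rw [← ENNReal.ofReal_tsum_of_nonneg (fun k => measureReal_nonneg) hs]
    exact ENNReal.ofReal_ne_top
  refine ⟨fun ω => (W ω).toReal, integrable_toReal_of_lintegral_ne_top hWm.aemeasurable hfin, ?_⟩
  filter_upwards [ae_lt_top hWm hfin] with ω hω
  have h1 : ∀ k : ℕ, (∀ j < k, ω ∈ A j) → (k : ℝ≥0∞) ≤ W ω := fun k hk => by
    refine le_trans ?_ (ENNReal.sum_le_tsum (Finset.range k))
    rw [Finset.sum_congr rfl fun j hj => Set.indicator_of_mem (hk j (Finset.mem_range.mp hj)) _]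
    simp
  have h2 : ∃ k, ω ∉ A k := by
    by_contra h
    push Not at h
    obtain ⟨k, hk⟩ := ENNReal.exists_nat_gt hω.ne
    exact hk.not_ge (h1 k fun j _ => h j)
  refine ⟨Nat.find h2, Nat.find_spec h2, ?_⟩
  have h3 := h1 (Nat.find h2) fun j hj => not_not.mp (Nat.find_min h2 hj)
  simpa using ENNReal.toReal_mono hω.ne h3

theorem d2pot_shift {φ : ℤ → ℝ} {b : ℝ} (h : Tendsto (fun n : ℕ => φ n / n) atTop (𝓝 b)) (d : ℤ) :
    Tendsto (fun N : ℕ => φ (N - d) / N) atTop (𝓝 b) := by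
  have h1 : Tendsto (fun N : ℕ => ((N : ℤ) - d).toNat) atTop atTop := by
    refine tendsto_atTop.mpr fun M => ?_
    filter_upwards [eventually_ge_atTop (M + d.toNat)] with N hN
    omega
  have h2 : Tendsto (fun N : ℕ => 1 - (d : ℝ) / N) atTop (𝓝 (1 - 0)) :=
    tendsto_const_nhds.sub (tendsto_const_div_atTop_nhds_zero_nat _)
  have h3 := (h.comp h1).mul h2
  rw [sub_zero, mul_one] at h3
  refine h3.congr' ?_
  filter_upwards [eventually_ge_atTop (d.toNat + 1)] with N hN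
  have e1 : ((((N : ℤ) - d).toNat : ℕ) : ℤ) = N - d := by omega
  have e2 : ((((N : ℤ) - d).toNat : ℕ) : ℝ) = N - d := by exact_mod_cast congrArg (Int.cast : ℤ → ℝ) e1
  have e3 : (0 : ℝ) < N - d := by
    have : (0 : ℤ) < N - d := by omega
    exact_mod_cast this
  have e4 : (0 : ℝ) < N := by
    have : 0 < N := by omega
    exact_mod_cast this
  simp only [Function.comp, e1, e2]
  field_simp

theorem d2pot_tel {φ : ℤ → ℝ} {b : ℝ} (h : Tendsto (fun n : ℕ => φ n / n) atTop (𝓝 b)) (c : ℤ) :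
    Tendsto (fun N : ℕ => (∑ n ∈ Finset.range N, (φ (n - c) - φ (n - (c + 1)))) / N) atTop (𝓝 b) := by
  have h1 := (d2pot_shift h (c + 1)).sub (tendsto_const_div_atTop_nhds_zero_nat (φ (0 - (c + 1))))
  rw [sub_zero] at h1
  refine h1.congr fun N => ?_
  rw [← sub_div]
  congr 1
  have := Finset.sum_range_sub (fun n : ℕ => φ (n - (c + 1))) N
  simp only [Nat.cast_zero] at this
  rw [← this]
  refine Finset.sum_congr rfl fun n _ => ?_
  congr 2
  push_cast
  ring

theorem d2pot_lim {a : ℕ → ℝ} {b : ℝ} (h : ∀ ε > (0 : ℝ), ∃ C : ℝ, ∀ n : ℕ, |a n - b * n| ≤ ε * n + C) :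
    Tendsto (fun n : ℕ => a n / n) atTop (𝓝 b) := by
  refine Metric.tendsto_nhds.mpr fun ε hε => ?_
  obtain ⟨C, hC⟩ := h (ε / 2) (by positivity)
  filter_upwards [(tendsto_const_div_atTop_nhds_zero_nat C).eventually (gt_mem_nhds (half_pos hε)),
    eventually_gt_atTop 0] with n h1 h2
  have h3 : (0 : ℝ) < n := by exact_mod_cast h2
  have e : a n / n - b = (a n - b * n) / n := by field_simp
  rw [Real.dist_eq, e, abs_div, abs_of_pos h3, div_lt_iff₀ h3]
  rw [div_lt_iff₀ h3] at h1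
  linarith [hC n]

/-- telescoping, induction on `c` -/
theorem pot_cesaro {φ : ℤ → ℝ} {b : ℝ} (h : Tendsto (fun n : ℕ => φ n / n) atTop (𝓝 b)) (c : ℤ) :
    Tendsto (fun N : ℕ => (∑ n ∈ Finset.range N, (φ n - φ (n - c))) / N) atTop (𝓝 (b * c)) := by
  induction c using Int.induction_on with
  | zero => simp
  | succ c ih =>
    have h1 := ih.add (d2pot_tel h c)
    have e : b * ((c : ℤ) : ℝ) + b = b * (((c : ℤ) + 1 : ℤ) : ℝ) := by push_cast; ring
    rw [e] at h1
    refine h1.congr fun N => ?_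
    rw [← add_div, ← Finset.sum_add_distrib]
    congr 1
    exact Finset.sum_congr rfl fun n _ => by ring
  | pred c ih =>
    have h1 := ih.sub (d2pot_tel h (-c - 1))
    have e : b * ((-c : ℤ) : ℝ) - b = b * ((-(c : ℤ) - 1 : ℤ) : ℝ) := by push_cast; ring
    rw [e] at h1
    refine h1.congr fun N => ?_
    rw [← sub_div, ← Finset.sum_sub_distrib]
    congr 1
    refine Finset.sum_congr rfl fun n _ => ?_
    rw [sub_add_cancel]
    ring

/-- the potential -/
noncomputable def potB (a0 : ℝ) (n : ℤ) (t : Env) (x : V) : ℝ := ⨅ u : ℤ, (T t x (u, n) - a0 * u)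

variable {G : Measure ℝ} [IsProbabilityMeasure G] [NullSingletonClass G]

/-- `lowLD_from` at `x = 0`, `pot_tail`, `pot_lin` -/
theorem pot_lower (hG : Hyp G) (F : Face (mu G)) {ε : ℝ} (hε : 0 < ε) : ∃ Z : Env → ℝ,
    Integrable Z (iidLaw G) ∧ ∀ᵐ t ∂iidLaw G, ∀ u n : ℤ,
      F.b0 * n - ε * |(n : ℝ)| - Z t ≤ T t 0 (u, n) - F.a0 * u := by
  obtain ⟨e, he, h1⟩ := pot_lin (symNorm_mu G hG) F hε
  obtain ⟨C, hC, c, hc, h2⟩ := lowLD_from G hG he
  obtain ⟨Z, hZ, h3⟩ := pot_tail (iidLaw G)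
    (fun k : ℕ => {t | ∃ y, T t 0 y < (1 - e) * mu G (toR (y - 0)) - k}) (fun k => by
      rw [Set.ofPred_exists]
      exact MeasurableSet.iUnion fun y => measurableSet_lt (measurable_T 0 y) measurable_const) (by
      refine Summable.of_nonneg_of_le (fun k => measureReal_nonneg) (fun k => h2 0 k (Nat.cast_nonneg k)) ?_
      refine Summable.mul_left C ?_
      simpa [mul_comm] using Real.summable_exp_nat_mul_iff.mpr (neg_lt_zero.mpr hc))
  refine ⟨Z, hZ, ?_⟩
  filter_upwards [h3] with t ⟨k, hk1, hk2⟩ u n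
  have a1 : (1 - e) * mu G (toR ((u, n) - 0)) - k ≤ T t 0 (u, n) := not_lt.mp fun h => hk1 ⟨(u, n), h⟩
  rw [sub_zero] at a1
  have a2 := h1 u n
  change (1 - e) * mu G ((u : ℝ), (n : ℝ)) - k ≤ _ at a1
  linarith

theorem d2pot_meas (a0 : ℝ) (n : ℤ) (x : V) : Measurable fun t => potB a0 n t x :=
  Measurable.iInf fun u => (measurable_T x (u, n)).sub_const _

theorem d2pot_bdd (hG : Hyp G) (F : Face (mu G)) : ∀ᵐ t ∂iidLaw G, (∀ e, 0 ≤ t e) ∧ ∀ (n : ℤ) (x : V),
    BddBelow (Set.range fun u : ℤ => T t x (u, n) - F.a0 * u) := by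
  obtain ⟨Z, -, hZ⟩ := pot_lower hG F one_pos
  filter_upwards [hZ, ae_nonneg G hG.nonneg] with t h1 h2
  refine ⟨h2, fun n x => ⟨F.b0 * n - 1 * |(n : ℝ)| - Z t - T t 0 x, ?_⟩⟩
  rintro _ ⟨u, rfl⟩
  have a1 := h1 u n
  have a2 : T t 0 (u, n) ≤ T t 0 x + T t x (u, n) := T_triangle h2
  linarith

theorem pot_integrable (hG : Hyp G) (F : Face (mu G)) (n : ℤ) :
    Integrable (fun t => potB F.a0 n t 0) (iidLaw G) := by
  obtain ⟨Z, hZ, h1⟩ := pot_lower hG F one_pos
  refine integrable_of_le_of_le (g₁ := fun t => F.b0 * n - 1 * |(n : ℝ)| - Z t) (g₂ := fun t => T t 0 (0, n))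
    (d2pot_meas _ _ _).aestronglyMeasurable ?_ ?_ ((integrable_const _).sub hZ) (integrable_T G hG _ _)
  · filter_upwards [h1] with t ht
    exact le_ciInf fun u => ht u n
  · filter_upwards [d2pot_bdd hG F] with t ht
    simpa [potB] using ciInf_le (ht.2 n 0) 0

/-- upper bound: `mT_le_mu` at `(⌊ξm n⌋, n)`; lower bound: `pot_lower` -/
theorem pot_rate (hG : Hyp G) (F : Face (mu G)) :
    Tendsto (fun n : ℕ => (∫ t, potB F.a0 n t 0 ∂iidLaw G) / n) atTop (𝓝 F.b0) := by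
  refine d2pot_lim fun ε hε => ?_
  have hμ := symNorm_mu G hG
  obtain ⟨Z, hZ, h1⟩ := pot_lower hG F hε
  have hξ : 0 < |F.ξn| + 1 := by positivity
  obtain ⟨C, hC⟩ := mT_le_mu G hG (ε := ε / (|F.ξn| + 1)) (by positivity)
  refine ⟨max (∫ t, Z t ∂iidLaw G) (mu G (1, 0) + |F.a0| + ε / (|F.ξn| + 1) + C), fun n => ?_⟩
  have hn : (0 : ℝ) ≤ n := Nat.cast_nonneg n
  refine abs_le.mpr ⟨?_, ?_⟩
  · have a1 : ∫ t, (F.b0 * n - ε * n - Z t) ∂iidLaw G ≤ ∫ t, potB F.a0 n t 0 ∂iidLaw G := by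
      refine integral_mono_ae ((integrable_const _).sub hZ) (pot_integrable hG F n) ?_
      filter_upwards [h1] with t ht
      refine le_ciInf fun u => ?_
      simpa using ht u n
    rw [integral_sub (integrable_const _) hZ, integral_const, probReal_univ, one_smul] at a1
    linarith [le_max_left (∫ t, Z t ∂iidLaw G) (mu G (1, 0) + |F.a0| + ε / (|F.ξn| + 1) + C)]
  · set u : ℤ := ⌊F.ξn * n⌋ with hu
    have u1 : (u : ℝ) ≤ F.ξn * n := Int.floor_le _
    have u2 : F.ξn * n < u + 1 := Int.lt_floor_add_one _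
    have u3 : |(u : ℝ) - F.ξn * n| ≤ 1 := abs_le.mpr ⟨by linarith, by linarith⟩
    have a1 : ∫ t, potB F.a0 n t 0 ∂iidLaw G ≤ ∫ t, (T t 0 (u, n) - F.a0 * u) ∂iidLaw G := by
      refine integral_mono_ae (pot_integrable hG F n) ((integrable_T G hG _ _).sub (integrable_const _)) ?_
      filter_upwards [d2pot_bdd hG F] with t ht
      exact ciInf_le (ht.2 n 0) u
    rw [integral_sub (integrable_T G hG _ _) (integrable_const _), integral_const, probReal_univ, one_smul] at a1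
    have a2 : ∫ t, T t 0 (u, n) ∂iidLaw G ≤ _ := hC (u, n)
    have a3 : mu G (toR (u, n)) ≤ n * (F.a0 * F.ξn + F.b0) + mu G (1, 0) := by
      have e : toR (u, (n : ℤ)) = (n : ℝ) • ((F.ξn, 1) : ℝ × ℝ) + ((u : ℝ) - F.ξn * n) • ((1, 0) : ℝ × ℝ) := by
        ext <;> simp [toR]
        ring
      have b1 := hμ.add_le ((n : ℝ) • ((F.ξn, 1) : ℝ × ℝ)) (((u : ℝ) - F.ξn * n) • ((1, 0) : ℝ × ℝ))
      rw [hμ.smul, hμ.smul, abs_of_nonneg hn, ← (F.supp F.ξn le_rfl F.lt.le).1, ← e] at b1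
      have b2 := mul_le_mul_of_nonneg_right u3 (sn_nonneg hμ (1, 0))
      linarith
    have a4 : ((nrm (u, n) : ℤ) : ℝ) ≤ (|F.ξn| + 1) * n + 1 := by
      have b1 : |(u : ℝ)| ≤ |F.ξn| * n + 1 := by
        have := abs_add_le ((u : ℝ) - F.ξn * n) (F.ξn * n)
        rw [sub_add_cancel, abs_mul, abs_of_nonneg hn] at this
        linarith
      have b2 : 0 ≤ |F.ξn| * n := by positivity
      unfold nrm
      push_cast
      rw [Nat.abs_cast]
      exact max_le (by linarith) (by linarith)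
    have a5 := mul_le_mul_of_nonneg_left a4 (by positivity : 0 ≤ ε / (|F.ξn| + 1))
    have a6 : ε / (|F.ξn| + 1) * ((|F.ξn| + 1) * n + 1) = ε * n + ε / (|F.ξn| + 1) := by field_simp
    have a7 : F.a0 * (F.ξn * n - u) ≤ |F.a0| := by
      refine (le_abs_self _).trans ?_
      rw [abs_mul, abs_sub_comm]
      exact mul_le_of_le_one_right (abs_nonneg _) u3
    have a8 := le_max_right (∫ t, Z t ∂iidLaw G) (mu G (1, 0) + |F.a0| + ε / (|F.ξn| + 1) + C)
    linarith

theorem d2pot_shift_eq {a0 : ℝ} {t : Env} {n : ℤ} {x v : V}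
    (h : BddBelow (Set.range fun u : ℤ => T t (x + v) (u, n) - a0 * u)) :
    potB a0 n t (x + v) = potB a0 (n - v.2) (shift v t) x - a0 * v.1 := by
  have e : ∀ u : ℤ, T (shift v t) x (u, n - v.2) - a0 * u =
      (fun u : ℤ => T t (x + v) (u, n) - a0 * u) (u + v.1) + a0 * v.1 := fun u => by
    have e1 : ((u, n - v.2) : V) + v = (u + v.1, n) := Prod.ext rfl (by simp)
    rw [T_shift, e1]
    push_cast
    ring
  have h' : BddBelow (Set.range fun u : ℤ => (fun u : ℤ => T t (x + v) (u, n) - a0 * u) (u + v.1)) :=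
    h.mono (by rintro _ ⟨u, rfl⟩; exact ⟨u + v.1, rfl⟩)
  unfold potB
  simp only [e]
  rw [← ciInf_add h', add_sub_cancel_right]
  exact ((add_right_surjective v.1).iInf_comp fun u : ℤ => T t (x + v) (u, n) - a0 * u).symm

/-- `E B n x = φ (n - x.2) - a0 x.1` by the shift formula, `pot_cesaro` -/
theorem exists_pot (hG : Hyp G) (F : Face (mu G)) : ∃ B, Pot G F B := by
  have hsh : ∀ᵐ t ∂iidLaw G, ∀ (n : ℤ) (x v : V),
      potB F.a0 n t (x + v) = potB F.a0 (n - v.2) (shift v t) x - F.a0 * v.1 := by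
    filter_upwards [d2pot_bdd hG F] with t ht n x v
    exact d2pot_shift_eq (ht.2 n (x + v))
  have hI : ∀ (n : ℤ) (x : V), Integrable (fun t => potB F.a0 n t x) (iidLaw G) ∧
      ∫ t, potB F.a0 n t x ∂iidLaw G = ∫ t, potB F.a0 (n - x.2) t 0 ∂iidLaw G - F.a0 * x.1 := by
    intro n x
    have e : (fun t => potB F.a0 n t x) =ᵐ[iidLaw G] fun t => potB F.a0 (n - x.2) (shift x t) 0 - F.a0 * x.1 := by
      filter_upwards [hsh] with t ht
      simpa using ht n 0 x
    have mp := measurePreserving_shift G x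
    have i1 : Integrable (fun t => potB F.a0 (n - x.2) (shift x t) 0) (iidLaw G) :=
      mp.integrable_comp_of_integrable (pot_integrable hG F _)
    refine ⟨(i1.sub (integrable_const _)).congr e.symm, ?_⟩
    rw [integral_congr_ae e, integral_sub i1 (integrable_const _), integral_const, probReal_univ, one_smul,
      ← integral_map (f := fun t => potB F.a0 (n - x.2) t 0) mp.measurable.aemeasurable
        (d2pot_meas _ _ _).aestronglyMeasurable, mp.map_eq]
  refine ⟨potB F.a0, d2pot_meas _, ?_, hsh, fun x y => ?_⟩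
  · filter_upwards [d2pot_bdd hG F] with t ht n x y
    rw [← sub_le_iff_le_add']
    refine le_ciInf fun u => ?_
    have a1 : potB F.a0 n t x ≤ T t x (u, n) - F.a0 * u := ciInf_le (ht.2 n x) u
    have a2 : T t x (u, n) ≤ T t x y + T t y (u, n) := T_triangle ht.1
    linarith
  · have h1 := pot_rate hG F
    have h2 := ((pot_cesaro (φ := fun n => ∫ t, potB F.a0 n t 0 ∂iidLaw G) h1 y.2).sub
      (pot_cesaro (φ := fun n => ∫ t, potB F.a0 n t 0 ∂iidLaw G) h1 x.2)).add_const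
      (F.a0 * ((y.1 : ℝ) - x.1))
    have e : F.b0 * y.2 - F.b0 * x.2 + F.a0 * ((y.1 : ℝ) - x.1) =
        F.a0 * ((y.1 : ℝ) - x.1) + F.b0 * ((y.2 : ℝ) - x.2) := by ring
    rw [e] at h2
    refine h2.congr' ?_
    filter_upwards [eventually_gt_atTop 0] with N hN
    have h3 : (N : ℝ) ≠ 0 := by exact_mod_cast hN.ne'
    rw [← sub_div, div_add' _ _ _ h3, ← Finset.sum_sub_distrib]
    congr 1
    have e2 : F.a0 * ((y.1 : ℝ) - x.1) * N = ∑ _n ∈ Finset.range N, F.a0 * ((y.1 : ℝ) - x.1) := by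
      simp [mul_comm]
    rw [e2, ← Finset.sum_add_distrib]
    refine Finset.sum_congr rfl fun n _ => ?_
    rw [integral_sub (hI n x).1 (hI n y).1, (hI n x).2, (hI n y).2]
    ring

end Crest.Agent.R151
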