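import Crest.Agent.R151.D2Cheap

/-! R151 part D2: from tube geodesics to cheap highways at every place. -/

set_option autoImplicit false
set_option linter.unusedSectionVars false
open MeasureTheory ProbabilityTheory Crest.ProbabilityR.FirstPassage Filter Topology
open scoped ENNReal

namespace Crest.Agent.R151

variable {G : Measure ℝ} [IsProbabilityMeasure G] [NullSingletonClass G] {F : Face (mu G)}
  {B : ℤ → Env → V → ℝ}

theorem Hw.mono {ξ x0 δ δ' : ℝ} {H : ℤ} {p : ℤ → V} {i j : ℤ} (h : Hw ξ x0 δ H p i j) (hδ : δ ≤ δ') :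
    Hw ξ x0 δ' H p i j := by
  exact ⟨h.1.mono fun v hv => ⟨le_trans hv.1 hδ, hv.2⟩, h.2⟩

/-- `cheap_split` into the crossings of the rows `kH..(k+1)H`, `k < K` (`PathIn.exists_crossing`), pigeonhole,
`Cheap.shift` by `(⌊x0 - ξ k H⌋, -k H)` -/
theorem cheap_lane (hG : Hyp G) (hB : Pot G F B) {S : Set V} {ξ w X : ℝ} {ζ l : ℤ} (hS : S ⊆ lane ξ 0 w)
    (hc : Conn S (0, 0) (ζ, l)) (hi : Integrable (fun t => TS t S (0, 0) (ζ, l)) (iidLaw G))
    (hX : ∫ t, TS t S (0, 0) (ζ, l) ∂iidLaw G - F.a0 * ζ - F.b0 * l ≤ X) {K : ℕ} {H : ℤ} (hK : 1 ≤ K)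
    (hH : 0 ≤ H) (hKH : K * H ≤ l) (x0 : ℝ) : Cheap G B (Hw ξ x0 (w + 1) H) (X / K) := by
  obtain ⟨κ, hκ, hC⟩ := cheap_split hG hB hc hi K
    (fun k p i j => PathIn (S ∩ rows (k * H) ((k + 1) * H)) p i j ∧ Set.InjOn p (Set.Icc i j) ∧
      (p i).2 = k * H ∧ (p j).2 = (k + 1) * H) (by
      intro p n hp hinj h0 h1
      have : ∀ k : ℕ, k < K → ∃ i' j', 0 ≤ i' ∧ i' ≤ j' ∧ j' ≤ n ∧ (p i').2 = k * H ∧ (p j').2 = (k + 1) * H ∧
          PathIn (S ∩ rows (k * H) ((k + 1) * H)) p i' j' ∧ (∀ l, 0 ≤ l → l < j' → (p l).2 < (k + 1) * H) := by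
        intro k hk
        have hk' : ((k : ℤ) + 1) * H ≤ K * H := mul_le_mul_of_nonneg_right (by omega) hH
        obtain ⟨i', j', a1, a2, a3, a4, a5, a6, a7, -⟩ := hp.exists_crossing (a := k * H) (b := (k + 1) * H)
          (by rw [h0]; positivity) (by linarith) (by rw [h1]; exact hk'.trans hKH)
        exact ⟨i', j', a1, a2, a3, a4, a5, a6, a7⟩
      choose! a c a1 a2 a3 a4 a5 a6 a7 using this
      refine ⟨fun k => if k < K then a k else n, c, by simpa [show 0 < K from hK] using a1 0 hK, by simp,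
        fun k hk => ?_⟩
      simp only [hk, if_true]
      refine ⟨a2 k hk, ?_, a6 k hk, hinj.mono (Set.Icc_subset_Icc (a1 k hk) (a3 k hk)), a4 k hk, a5 k hk⟩
      split_ifs with h
      · by_contra h'
        have := a7 k hk _ (a1 _ h) (not_le.1 h')
        rw [a4 _ h] at this
        push_cast at this; omega
      · exact a3 k hk)
  have hK0 : (0 : ℝ) < K := by exact_mod_cast hK
  obtain ⟨k, hk, hk'⟩ : ∃ k ∈ Finset.range K, κ k ≤ X / K := by
    refine Finset.exists_le_of_sum_le ⟨0, Finset.mem_range.2 hK⟩ (hκ.trans ?_)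
    simp only [Finset.sum_const, Finset.card_range, nsmul_eq_mul]
    rw [mul_div_cancel₀ _ hK0.ne']
    simpa using hX
  refine ((hC k (Finset.mem_range.1 hk)).shift hB (⌊x0 - ξ * (k * H)⌋, -(k * H)) ?_).mono (fun _ _ _ h => h) hk'
  rintro p i j ⟨h1, h2, h3, h4⟩
  refine ⟨(h1.map (isAut_add _)).mono ?_, fun a ha b hb e => h2 ha hb (add_right_cancel e), by simp [h3],
    by simp [h4]; ring⟩
  rintro _ ⟨v, ⟨hv, hv1, hv2⟩, rfl⟩
  refine ⟨?_, by simp; omega, by simp; linarith⟩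
  have b1 := abs_le.1 (show |(v.1 : ℝ) - 0 - ξ * v.2| ≤ w from hS hv)
  have b2 := Int.floor_le (x0 - ξ * (k * H))
  have b3 := Int.lt_floor_add_one (x0 - ξ * (k * H))
  simp only [lane, Set.mem_ofPred_eq]
  simp only [Prod.fst_add, Prod.snd_add]
  push_cast
  rw [abs_le]
  constructor <;> linarith [b1.1, b1.2]

/-- a tube geodesic of the face `F'` (`F` itself, `s = 1`, or its mirror image, `s = -1`: `TS_act`, `Conn.map`,
`measurePreserving_act` for `reflX`) -/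
theorem cheap_tube (hG : Hyp G) (hB : Pot G F B) (F' : Face (mu G)) {s : ℝ}
    (hs : (s = 1 ∧ F'.a0 = F.a0 ∨ s = -1 ∧ F'.a0 = -F.a0) ∧ F'.b0 = F.b0) {l : ℕ} {ζ : ℤ} {w X : ℝ}
    (hc : Conn (tube l ζ w ∩ slabTo 0 l ζ) (0, 0) (ζ, (l : ℤ)))
    (hi : Integrable (fun t => F'.c t (tube l ζ w) 0 l 0 ζ) (iidLaw G)) (hX : F'.ec G (tube l ζ w) l ζ ≤ X)
    {K : ℕ} {H : ℤ} (hK : 1 ≤ K) (hH : 0 ≤ H) (hKH : K * H ≤ l) (x0 : ℝ) :
    Cheap G B (Hw (s * (ζ / l)) x0 (w + 1) H) (X / K) := by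
  set S := tube l ζ w ∩ slabTo 0 l ζ with hSdef
  have hi' : Integrable (fun t => TS t S (0, 0) (ζ, l)) (iidLaw G) := by
    refine ((hi.add (integrable_const (F'.b0 * l))).add (integrable_const (F'.a0 * ζ))).congr
      (Eventually.of_forall fun t => ?_)
    simp [Face.c, tau, hSdef]
  have hX' : ∫ t, TS t S (0, 0) (ζ, l) ∂iidLaw G - F'.a0 * ζ - F'.b0 * l ≤ X := by
    refine le_trans (le_of_eq ?_) hX
    have h1 : Integrable (fun t => TS t S (0, 0) (ζ, l) - F'.a0 * ζ) (iidLaw G) := hi'.sub (integrable_const _)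
    have : F'.ec G (tube l ζ w) l ζ = ∫ t, (TS t S (0, 0) (ζ, l) - F'.a0 * ζ - F'.b0 * l) ∂iidLaw G := by
      simp [Face.ec, Face.c, tau, hSdef]
    rw [this, integral_sub h1 (integrable_const _), integral_sub hi' (integrable_const _)]
    simp
  obtain ⟨⟨rfl, ha⟩ | ⟨rfl, ha⟩, hb⟩ := hs
  · refine cheap_lane hG hB (S := S) (fun v hv => ?_) hc hi' (by simpa [ha, hb] using hX') hK hH hKH x0
    have : |(v.1 : ℝ) - v.2 * (ζ / l)| ≤ w := hv.1
    simp only [lane, Set.mem_ofPred_eq]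
    convert this using 2; ring
  · have mp := measurePreserving_act G isAut_reflX.bij
    have e : ∀ t, TS t (reflX '' S) (0, 0) (-ζ, l) = TS (act reflX t) S (0, 0) (ζ, l) := fun t => by
      rw [TS_act isAut_reflX]; simp [reflX]
    refine cheap_lane hG hB (S := reflX '' S) (ζ := -ζ) (l := l) ?_ (by simpa [reflX] using hc.map isAut_reflX)
      ?_ ?_ hK hH hKH x0
    · rintro _ ⟨v, hv, rfl⟩
      have : |(v.1 : ℝ) - v.2 * (ζ / l)| ≤ w := hv.1
      simp only [lane, Set.mem_ofPred_eq]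
      rw [← abs_neg] at this
      convert this using 2; simp [reflX]; ring
    · simp only [e]; exact mp.integrable_comp_of_integrable hi'
    · simp only [e]
      have := integral_map (μ := iidLaw G) mp.measurable.aemeasurable (f := fun t => TS t S (0, 0) (ζ, l))
        (measurable_TS _ _ _).aestronglyMeasurable
      rw [mp.map_eq] at this
      rw [← this]
      simpa [ha, hb] using hX'

/-- `e = e⁺ + e⁻` for `min ε (τ1/10) / 2`; `K = 2^(i-j-1)`; the mirror face: `Face.exists_refl`, `Face.Vb_refl` -/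
theorem exists_roads (hG : Nice G) (hH : ∀ F : Face (mu G), HighwayStmt G F) (hB : Pot G F B) :
    ∃ CH > (0 : ℝ), ∀ ε > (0 : ℝ), ∃ r1 : ℝ, 1 ≤ r1 ∧ ∀ (m : ℕ) (W : ℝ), F.Scale G (2 ^ m) W →
      ∃ e : ℕ → ℝ, (∀ i, 0 ≤ e i) ∧ ∑ i ∈ Finset.range (m + 1), e i ≤ ε ∧ ∀ j i : ℕ, j + 1 ≤ i → i ≤ m →
        r1 * W ≤ 2 ^ j → e i * 2 ^ i ≤ F.τ1 / 20 * 2 ^ j →
          Roads G F B (2 ^ j) (CH * W * 2 ^ j / 2 ^ i) := by
  have hμ := symNorm_mu G hG.hyp
  have hτ : 0 < F.τ1 := Face.τ1_pos hμ F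
  obtain ⟨F', h1, h2, h3, h4⟩ := Face.exists_refl hμ F
  obtain ⟨C1, hC1, H1⟩ := hH F
  obtain ⟨C2, hC2, H2⟩ := hH F'
  refine ⟨2 * (C1 + C2), by positivity, fun ε hε => ?_⟩
  obtain ⟨r1, hr1, H1⟩ := H1 (min (ε / 2) (F.τ1 / 10)) (by positivity)
  obtain ⟨r2, hr2, H2⟩ := H2 (min (ε / 2) (F.τ1 / 10)) (by positivity)
  refine ⟨max r1 r2, le_max_of_le_left hr1, fun m W hS => ?_⟩
  have hW : 0 ≤ W := le_trans zero_le_one hS.one_le
  obtain ⟨e1, p1, s1, H1⟩ := H1 m W hS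
  obtain ⟨e2, p2, s2, H2⟩ := H2 m W ⟨hS.two_le, hS.one_le, hS.log_le, fun n hn => by
    rw [Face.Vb_refl hG F F' h1 h2 h3 h4]; exact hS.Vb_le n hn⟩
  refine ⟨fun i => e1 i + e2 i, fun i => add_nonneg (p1 i) (p2 i), ?_, fun j i hji him hr he => ?_⟩
  · rw [Finset.sum_add_distrib]; linarith [min_le_left (ε / 2) (F.τ1 / 10)]
  have hpow : (2 : ℝ) ^ j ≤ 2 ^ i := pow_le_pow_right₀ (by norm_num) (by omega)
  obtain ⟨ζ1, a1, a2, a3, a4⟩ := H1 i him
    ((mul_le_mul_of_nonneg_right (le_max_left _ _) hW).trans (hr.trans hpow))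
  obtain ⟨ζ2, b1, b2, b3, b4⟩ := H2 i him
    ((mul_le_mul_of_nonneg_right (le_max_right _ _) hW).trans (hr.trans hpow))
  obtain ⟨d, rfl⟩ : ∃ d, i = j + 1 + d := ⟨i - (j + 1), by omega⟩
  have q1 := mul_nonneg (p1 (j + 1 + d)) (show (0 : ℝ) ≤ 2 ^ (j + 1 + d) by positivity)
  have q2 := mul_nonneg (p2 (j + 1 + d)) (show (0 : ℝ) ≤ 2 ^ (j + 1 + d) by positivity)
  have hκ : ∀ C : ℝ, C ≤ C1 + C2 → C * W / (2 ^ d : ℕ) ≤ 2 * (C1 + C2) * W * 2 ^ j / 2 ^ (j + 1 + d) := by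
    intro C hC
    have : 2 * (C1 + C2) * W * 2 ^ j / 2 ^ (j + 1 + d) = (C1 + C2) * W / (2 ^ d : ℕ) := by
      push_cast; rw [pow_add, pow_succ]; field_simp
    rw [this]
    exact div_le_div_of_nonneg_right (mul_le_mul_of_nonneg_right hC hW) (by positivity)
  refine ⟨1 * (ζ1 / (2 ^ (j + 1 + d) : ℕ)), -1 * (ζ2 / (2 ^ (j + 1 + d) : ℕ)), ?_, ?_, fun H x0 hH0 hH1 => ?_⟩
  · simpa using a1.trans (min_le_right _ _)
  · have := b1.trans (min_le_right _ _)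
    rw [← abs_neg, h4] at this
    refine le_trans (le_of_eq ?_) this
    congr 1; push_cast; ring
  have hKH : ((2 ^ d : ℕ) : ℤ) * H ≤ (2 ^ (j + 1 + d) : ℕ) := by
    refine (mul_le_mul_of_nonneg_left hH1 (by positivity)).trans (le_of_eq ?_)
    push_cast; ring
  constructor
  · refine (cheap_tube hG.hyp hB F (s := 1) ⟨Or.inl ⟨rfl, rfl⟩, rfl⟩ a2 a3 a4 Nat.one_le_two_pow hH0 hKH x0).mono
      (fun p i j h => h.mono ?_) (hκ _ (by linarith))
    push_cast; linarith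
  · refine (cheap_tube hG.hyp hB F' (s := -1) ⟨Or.inr ⟨rfl, h1⟩, h2⟩ b2 b3 b4 Nat.one_le_two_pow hH0 hKH x0).mono
      (fun p i j h => h.mono ?_) (hκ _ (by linarith))
    push_cast; linarith

end Crest.Agent.R151
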