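import Crest.Agent.R151.D0
import Crest.Agent.R151.D2Pot
import Crest.Agent.R151.D2Double
import Crest.Agent.R151.D2Lower
import Crest.Agent.R151.D2Road
import Crest.Agent.R151.D2End
import Crest.Agent.R151.D2Face

/-! R151 part D2 (blueprint `BlueD`, section D2): no face.  Interface file of the D2 sub-lead. -/

set_option autoImplicit false
open MeasureTheory ProbabilityTheory Crest.ProbabilityR.FirstPassage Filter Topology
open scoped ENNReal

namespace Crest.Agent.R151

/-- a norm that is differentiable off `0` and not strictly convex has a face -/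
theorem exists_face {μ : ℝ × ℝ → ℝ} (hμ : SymNorm μ) (hd : ∀ v : ℝ × ℝ, v ≠ 0 → DifferentiableAt ℝ μ v)
    (hn : ¬ StrictConvex ℝ {v : ℝ × ℝ | μ v ≤ 1}) : Nonempty (Face μ) :=
  exists_face' hμ hd hn

/-- potential, doubling, lower bound on `κ`, choice of `J` -/
theorem no_face {G : Measure ℝ} [IsProbabilityMeasure G] [NullSingletonClass G] (hG : Nice G)
    (hH : ∀ F : Face (mu G), HighwayStmt G F) (F : Face (mu G)) : False := by
  obtain ⟨B, hB⟩ := exists_pot hG.hyp F
  obtain ⟨CH, hCH, hR⟩ := exists_roads hG hH hB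
  obtain ⟨s0, hD⟩ := Vb_double hG hB
  obtain ⟨c, hc, s1, hL⟩ := kappa_lower hG.hyp hB
  obtain ⟨C, -, hC⟩ := Face.Vb_apriori hG F
  have hτ : 0 < F.τ1 := Face.τ1_pos (symNorm_mu G hG.hyp) F
  refine endgame (F.Vb G) (Face.one_le_Vb hG F) (fun a b h => Face.Vb_mono hG F h) hC (CH := 4 * CH)
    (c := 4 * c) (γ := F.τ1 / 20) (by positivity) (by positivity) (by positivity) (max s0 s1) ?_
  intro ε hε
  obtain ⟨r1, hr1, h⟩ := hR ε hε
  refine ⟨r1, hr1, fun m W hm hW hlog hV => ?_⟩
  obtain ⟨e, he, hs, h⟩ := h m W ⟨by simpa using Nat.pow_le_pow_right (by norm_num : 0 < 2) hm, hW, hlog, hV⟩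
  refine ⟨e, he, hs, fun j i h1 h2 h3 h4 h5 => ?_⟩
  have hr := h j i h1 h2 h3 h5
  have h6 := hD _ _ (le_trans (le_max_left _ _) h4) hr
  have h7 := hL _ _ (le_trans (le_max_right _ _) h4) hr
  rw [pow_succ, mul_comm (2 ^ j) 2]
  constructor
  · refine h6.trans (le_of_eq ?_); ring
  · have : 4 * CH * W * 2 ^ j / 2 ^ i = 4 * (CH * W * 2 ^ j / 2 ^ i) := by ring
    rw [this]; linarith

end Crest.Agent.R151
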