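import Crest.Agent.R151.D2Defs

/-! R151 part D2: Cesàro means along the hyperfilter. -/

set_option autoImplicit false
open MeasureTheory ProbabilityTheory Crest.ProbabilityR.FirstPassage Filter Topology
open scoped ENNReal

namespace Crest.Agent.R151

variable {a b : ℤ → ℝ} {κ κ' : ℝ}

theorem d2avg_of_tendsto (h : Tendsto (fun N : ℕ => (∑ n ∈ Finset.range N, a n) / N)
    (hyperfilter ℕ : Filter ℕ) (𝓝 κ)) : AvgLe a κ :=
  fun _ hη => h.eventually (ge_mem_nhds (lt_add_of_pos_right κ hη))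

theorem d2avg_of_le (h : AvgLe a κ) {C : ℝ}
    (hC : ∀ N : ℕ, ∑ n ∈ Finset.range N, b n ≤ ∑ n ∈ Finset.range N, a n + C) : AvgLe b κ := by
  intro η hη
  filter_upwards [h (η / 2) (half_pos hη), ((tendsto_const_div_atTop_nhds_zero_nat C).eventually
    (ge_mem_nhds (half_pos hη))).filter_mono Nat.hyperfilter_le_atTop] with N h1 h2
  have h3 := div_le_div_of_nonneg_right (hC N) (Nat.cast_nonneg N : (0 : ℝ) ≤ N)
  rw [add_div] at h3
  linarith

theorem AvgLe.add (h : AvgLe a κ) (h' : AvgLe b κ') : AvgLe (fun n => a n + b n) (κ + κ') := by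
  intro η hη
  filter_upwards [h (η / 2) (half_pos hη), h' (η / 2) (half_pos hη)] with N h1 h2
  rw [Finset.sum_add_distrib, add_div]
  linarith

theorem AvgLe.mono (h : AvgLe a κ) (hab : ∀ n, b n ≤ a n) (hκ : κ ≤ κ') : AvgLe b κ' := by
  intro η hη
  filter_upwards [h η hη] with N h1
  refine le_trans ?_ (h1.trans (by linarith))
  exact div_le_div_of_nonneg_right (Finset.sum_le_sum fun n _ => hab n) (Nat.cast_nonneg N)

theorem AvgLe.sum {a : ℕ → ℤ → ℝ} {κ : ℕ → ℝ} (K : ℕ) (h : ∀ k < K, AvgLe (a k) (κ k)) :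
    AvgLe (fun n => ∑ k ∈ Finset.range K, a k n) (∑ k ∈ Finset.range K, κ k) := by
  induction K with
  | zero => exact fun η hη => Eventually.of_forall fun N => by simpa using hη.le
  | succ K ih =>
    simp only [Finset.sum_range_succ]
    exact (ih fun k hk => h k (by omega)).add (h K (by omega))

/-- `hyperfilter_le_cofinite`, `Nat.cofinite_eq_atTop` -/
theorem AvgLe.of_tendsto
    (h : Tendsto (fun N : ℕ => (∑ n ∈ Finset.range N, a n) / N) atTop (𝓝 κ)) : AvgLe a κ := by
  exact d2avg_of_tendsto (h.mono_left Nat.hyperfilter_le_atTop)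

theorem AvgLe.const (c : ℝ) : AvgLe (fun _ => c) c := by
  refine AvgLe.of_tendsto (tendsto_const_nhds.congr' ?_)
  filter_upwards [eventually_gt_atTop 0] with N hN
  have : (N : ℝ) ≠ 0 := by exact_mod_cast hN.ne'
  rw [Finset.sum_const, Finset.card_range, nsmul_eq_mul, mul_div_cancel_left₀ _ this]

theorem AvgLe.exists_le (h : AvgLe a κ) {η : ℝ} (hη : 0 < η) : ∃ n, a n ≤ κ + η := by
  by_contra hc
  push Not at hc
  obtain ⟨N, h1, h2⟩ := ((h (η / 2) (half_pos hη)).and
    ((eventually_gt_atTop 0).filter_mono Nat.hyperfilter_le_atTop)).exists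
  have hN : (0 : ℝ) < N := by exact_mod_cast h2
  have h3 : ∑ _n ∈ Finset.range N, (κ + η) ≤ ∑ n ∈ Finset.range N, a n :=
    Finset.sum_le_sum fun n _ => (hc n).le
  rw [Finset.sum_const, Finset.card_range, nsmul_eq_mul] at h3
  rw [div_le_iff₀ hN] at h1
  nlinarith

theorem AvgLe.le_of_le {c : ℝ} (h : AvgLe a κ) (hc : ∀ n, c ≤ a n) : c ≤ κ := by
  refine le_of_forall_pos_le_add fun η hη => ?_
  obtain ⟨n, hn⟩ := h.exists_le hη
  exact (hc n).trans hn

/-- the partial sums change by at most `2 M |c|` -/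
theorem AvgLe.shift (h : AvgLe a κ) {M : ℝ} (hM : ∀ n, |a n| ≤ M) (c : ℤ) :
    AvgLe (fun n => a (n - c)) κ := by
  have key : ∀ (c : ℤ) (N : ℕ), |∑ n ∈ Finset.range N, a (n - c) -
      ∑ n ∈ Finset.range N, a (n - (c + 1))| ≤ 2 * M := by
    intro c N
    have h1 := Finset.sum_range_sub (fun n : ℕ => a (n - (c + 1))) N
    simp only [Nat.cast_add, Nat.cast_one, add_sub_add_right_eq_sub] at h1
    rw [← Finset.sum_sub_distrib, h1, two_mul]
    exact (abs_sub _ _).trans (add_le_add (hM _) (hM _))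
  induction c using Int.induction_on with
  | zero => simpa only [sub_zero] using h
  | succ c ih => exact d2avg_of_le ih (C := 2 * M) fun N => by linarith [(abs_le.1 (key c N)).1]
  | pred c ih =>
    refine d2avg_of_le ih (C := 2 * M) fun N => ?_
    have := (abs_le.1 (key (-c - 1) N)).2
    simp only [sub_add_cancel] at this
    linarith

/-- a bounded sequence converges along an ultrafilter -/
theorem exists_avg {M : ℝ} (hM : ∀ n, |a n| ≤ M) : ∃ κ, AvgLe a κ ∧ AvgLe (fun n => -a n) (-κ) := by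
  have hM0 : 0 ≤ M := (abs_nonneg _).trans (hM 0)
  have h1 : ∀ N : ℕ, (∑ n ∈ Finset.range N, a n) / N ∈ Set.Icc (-M) M := by
    intro N
    rw [Set.mem_Icc, ← abs_le, abs_div, Nat.abs_cast]
    refine div_le_of_le_mul₀ (Nat.cast_nonneg N) hM0 ((Finset.abs_sum_le_sum_abs _ _).trans
      ((Finset.sum_le_sum fun (n : ℕ) _ => hM n).trans_eq ?_))
    rw [Finset.sum_const, Finset.card_range, nsmul_eq_mul, mul_comm]
  obtain ⟨κ, -, hκ⟩ := isCompact_Icc.ultrafilter_le_nhds
    ((hyperfilter ℕ).map fun N : ℕ => (∑ n ∈ Finset.range N, a n) / N)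
    (le_principal_iff.2 (mem_map.2 (Eventually.of_forall h1)))
  refine ⟨κ, d2avg_of_tendsto hκ, d2avg_of_tendsto ?_⟩
  simpa only [Finset.sum_neg_distrib, neg_div] using Tendsto.neg hκ

end Crest.Agent.R151
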