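import Crest.Agent.R151.D2Avg

/-! R151 part D2: cheap random paths. -/

set_option autoImplicit false
set_option linter.unusedSectionVars false
open MeasureTheory ProbabilityTheory Crest.ProbabilityR.FirstPassage Filter Topology
open scoped ENNReal

namespace Crest.Agent.R151

section det
variable {t : Env} {b : V → ℝ} {S : Set V} {p : ℤ → V} {i j k i' j' : ℤ}

theorem wc_add (h1 : i ≤ j) (h2 : j ≤ k) : wc t b p i k = wc t b p i j + wc t b p j k := by
  unfold wc; rw [cost_add h1 h2]; ring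

theorem wc_nonneg (ht : ∀ e, 0 ≤ t e) (hb : ∀ x y, b x ≤ T t x y + b y) (hp : PathIn S p i j) :
    0 ≤ wc t b p i j := by
  have := T_le_cost ht hp
  have := hb (p i) (p j)
  unfold wc; linarith

theorem wc_sub_le (ht : ∀ e, 0 ≤ t e) (hb : ∀ x y, b x ≤ T t x y + b y) (hp : PathIn S p i j)
    (h1 : i ≤ i') (h2 : i' ≤ j') (h3 : j' ≤ j) : wc t b p i' j' ≤ wc t b p i j := by
  rw [wc_add h1 (h2.trans h3), wc_add h2 h3]
  have := wc_nonneg ht hb (hp.sub le_rfl h1 (h2.trans h3))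
  have := wc_nonneg ht hb (hp.sub (h1.trans h2) h3 le_rfl)
  linarith

/-- disjoint pieces -/
theorem wc_sum_le (ht : ∀ e, 0 ≤ t e) (hb : ∀ x y, b x ≤ T t x y + b y) (hp : PathIn S p i j) (K : ℕ)
    {a c : ℕ → ℤ} (h0 : i ≤ a 0) (hK : a K ≤ j) (h : ∀ k < K, a k ≤ c k ∧ c k ≤ a (k + 1)) :
    (∀ k < K, i ≤ a k ∧ c k ≤ j) ∧ ∑ k ∈ Finset.range K, wc t b p (a k) (c k) ≤ wc t b p i j := by
  have key : ∀ L, L ≤ K → a L ≤ j → (i ≤ a L ∧ ∀ k < L, i ≤ a k ∧ c k ≤ a L) ∧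
      ∑ k ∈ Finset.range L, wc t b p (a k) (c k) ≤ wc t b p i (a L) := by
    intro L
    induction L with
    | zero =>
      intro _ h1
      exact ⟨⟨h0, fun k hk => absurd hk (by omega)⟩, by simpa using wc_nonneg ht hb (hp.sub le_rfl h0 h1)⟩
    | succ L ih =>
      intro h1 h2
      obtain ⟨h3, h4⟩ := h L (by omega)
      obtain ⟨⟨h5, h6⟩, h7⟩ := ih (by omega) (by omega)
      refine ⟨⟨by omega, fun k hk => ?_⟩, ?_⟩
      · rcases eq_or_lt_of_le (Nat.lt_succ_iff.1 hk) with rfl | hk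
        · exact ⟨h5, h4⟩
        · exact ⟨(h6 k hk).1, by have := (h6 k hk).2; omega⟩
      · rw [Finset.sum_range_succ, wc_add h5 (h3.trans h4)]
        have := wc_sub_le ht hb (hp.sub h5 (h3.trans h4) h2) le_rfl h3 h4
        linarith
  obtain ⟨⟨h1, h2⟩, h3⟩ := key K le_rfl hK
  exact ⟨fun k hk => ⟨(h2 k hk).1, (h2 k hk).2.trans hK⟩, h3.trans (wc_sub_le ht hb hp le_rfl h1 hK)⟩

end det

variable {G : Measure ℝ} [IsProbabilityMeasure G] [NullSingletonClass G] {F : Face (mu G)}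
  {B : ℤ → Env → V → ℝ} {Q Q' : (ℤ → V) → ℤ → ℤ → Prop} {κ κ' : ℝ}

theorem Pot.integrable (hG : Hyp G) (hB : Pot G F B) (n : ℤ) (x y : V) :
    Integrable (fun t => B n t x - B n t y) (iidLaw G) := by
  refine (integrable_T G hG x y).mono' ((hB.meas n x).sub (hB.meas n y)).aestronglyMeasurable ?_
  filter_upwards [hB.lip] with t ht
  have h1 := ht n x y
  have h2 := ht n y x
  rw [T_comm] at h2
  rw [Real.norm_eq_abs, abs_le]
  constructor <;> linarith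

theorem Cheap.mono (h : Cheap G B Q κ) (hQ : ∀ p i j, Q p i j → Q' p i j) (hκ : κ ≤ κ') :
    Cheap G B Q' κ' := by
  obtain ⟨Y, h1, h2, h3, h4⟩ := h
  refine ⟨Y, h1, h2, h3.mono (fun _ => le_rfl) hκ, h4.mono ?_⟩
  rintro t ⟨p, i, j, h5, h6⟩
  exact ⟨p, i, j, hQ _ _ _ h5, h6⟩

theorem Cheap.nonneg (hG : Hyp G) (hB : Pot G F B) (h : Cheap G B Q κ)
    (hQ : ∀ p i j, Q p i j → PathIn Set.univ p i j) : 0 ≤ κ := by
  obtain ⟨Y, -, -, h3, h4⟩ := h
  refine h3.le_of_le fun n => integral_nonneg_of_ae ?_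
  filter_upwards [h4, hB.lip, ae_nonneg G hG.nonneg] with t ⟨p, i, j, h5, h6⟩ hl ht
  exact (wc_nonneg ht (hl n) (hQ _ _ _ h5)).trans (h6 n)

/-- `Y' n t = Y (n - v.2) (shift v t)` -/
theorem Cheap.shift (hB : Pot G F B) (h : Cheap G B Q κ) (v : V)
    (hQ : ∀ p i j, Q p i j → Q' (fun k => p k + v) i j) : Cheap G B Q' κ := by
  obtain ⟨Y, h1, ⟨M, h2⟩, h3, h4⟩ := h
  have mp := measurePreserving_shift G v
  have e : ∀ n, ∫ t, Y n (Crest.Agent.R151.shift v t) ∂iidLaw G = ∫ t, Y n t ∂iidLaw G := fun n => by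
    rw [← integral_map mp.measurable.aemeasurable (by rw [mp.map_eq]; exact (h1 n).aestronglyMeasurable),
      mp.map_eq]
  refine ⟨fun n t => Y (n - v.2) (Crest.Agent.R151.shift v t), fun n => (mp.integrable_comp_of_integrable (h1 _)),
    ⟨M, fun n => by rw [e]; exact h2 _⟩, ?_, ?_⟩
  · simp only [e]; exact h3.shift h2 v.2
  · filter_upwards [mp.quasiMeasurePreserving.ae h4, hB.shift] with t ⟨p, i, j, h5, h6⟩ hs
    refine ⟨_, i, j, hQ _ _ _ h5, fun n => le_trans (le_of_eq ?_) (h6 (n - v.2))⟩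
    simp only [wc, hs]
    rw [Crest.Agent.R151.shift, cost_act]; ring

/-- a countably valued code of a geodesic: `measurable_find` over an enumeration of `(ℤ →₀ V) × ℤ`,
`bmeas_fs`, `exists_geo` -/
theorem geo_code (S : Set V) (x y : V) (hc : Conn S x y) : ∃ (P : ℕ → ℤ → V) (N : ℕ → ℤ) (X : Env → ℕ),
    Measurable X ∧ ∀ t, Reg t → IsGeo t S (P (X t)) 0 (N (X t)) ∧ P (X t) 0 = x ∧ P (X t) (N (X t)) = y := by
  classical
  obtain ⟨e, he⟩ := exists_surjective_nat ((ℤ →₀ V) × ℤ)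
  let A : Env → ℕ → Prop := fun t m => IsGeo t S (e m).1 0 (e m).2 ∧ (e m).1 0 = x ∧ (e m).1 (e m).2 = y
  have hA : ∀ m, MeasurableSet {t | A t m} := fun m => by
    have : MeasurableSet {t : Env | cost t (e m).1 0 (e m).2 = TS t S ((e m).1 0) ((e m).1 (e m).2)} :=
      measurableSet_eq_fun (measurable_cost _ _ _) (measurable_TS _ _ _)
    simp only [A, IsGeo]
    measurability
  have hp : ∀ t, ∃ m, A t m ∨ ∀ m', ¬ A t m' := fun t => by
    by_cases h : ∃ m, A t m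
    · obtain ⟨m, hm⟩ := h; exact ⟨m, Or.inl hm⟩
    · exact ⟨0, Or.inr (not_exists.1 h)⟩
  refine ⟨fun m => (e m).1, fun m => (e m).2, fun t => Nat.find (hp t), measurable_find hp fun m => ?_,
    fun t ht => ?_⟩
  · have : MeasurableSet {t | ∀ m', ¬ A t m'} := by
      rw [Set.ofPred_forall]
      exact MeasurableSet.iInter fun m' => (hA m').compl
    exact (hA m).union this
  · refine (Nat.find_spec (hp t)).resolve_right fun h => ?_
    obtain ⟨p, n, h1, h2, h3⟩ := exists_geo ht hc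
    obtain ⟨q, hq⟩ := bmeas_fs p 0 n
    obtain ⟨m, hm⟩ := he (q, n)
    refine h m ?_
    simp only [A, hm]
    exact ⟨h1.congr hq, (hq 0 le_rfl h1.1.1).trans h2, (hq n h1.1.1 le_rfl).trans h3⟩

/-- Disjoint pieces of a geodesic.  `Y k n t` is the reduced cost of the `k`-th piece of the coded geodesic;
`0 ≤ Y k n ≤ Σ_k Y k n ≤ TS - B n x + B n y ≤ 2 TS`; `κ k` from `exists_avg`. -/
theorem cheap_split (hG : Hyp G) (hB : Pot G F B) {S : Set V} {x y : V} (hc : Conn S x y)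
    (hi : Integrable (fun t => TS t S x y) (iidLaw G)) (K : ℕ) (Q : ℕ → (ℤ → V) → ℤ → ℤ → Prop)
    (h : ∀ p n, PathIn S p 0 n → Set.InjOn p (Set.Icc 0 n) → p 0 = x → p n = y →
      ∃ a c : ℕ → ℤ, 0 ≤ a 0 ∧ a K ≤ n ∧ ∀ k < K, a k ≤ c k ∧ c k ≤ a (k + 1) ∧ Q k p (a k) (c k)) :
    ∃ κ : ℕ → ℝ, ∑ k ∈ Finset.range K, κ k ≤
        ∫ t, TS t S x y ∂iidLaw G - F.a0 * ((y.1 : ℝ) - x.1) - F.b0 * ((y.2 : ℝ) - x.2) ∧
      ∀ k < K, Cheap G B (Q k) (κ k) := by
  obtain ⟨P, N, X, hX, hg⟩ := geo_code S x y hc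
  choose! a c h0 hK hac using h
  set Y : ℕ → ℤ → Env → ℝ := fun k n t =>
    wc t (B n t) (P (X t)) (a (P (X t)) (N (X t)) k) (c (P (X t)) (N (X t)) k) with hY
  have hm : ∀ k n, Measurable (Y k n) := fun k n =>
    measurable_comp_countable (F := fun m t => wc t (B n t) (P m) (a (P m) (N m) k) (c (P m) (N m) k)) hX
      fun m => ((measurable_cost _ _ _).sub (hB.meas _ _)).add (hB.meas _ _)
  have hae : ∀ᵐ t ∂iidLaw G, (∀ k < K, Q k (P (X t)) (a (P (X t)) (N (X t)) k) (c (P (X t)) (N (X t)) k)) ∧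
      ∀ n, (∀ k < K, 0 ≤ Y k n t ∧ Y k n t ≤ 2 * TS t S x y) ∧
        ∑ k ∈ Finset.range K, Y k n t ≤ TS t S x y - (B n t x - B n t y) := by
    filter_upwards [ae_reg G hG.nonneg, hB.lip] with t ht hl
    obtain ⟨⟨g1, g2, g3⟩, g4, g5⟩ := hg t ht
    have ht' := ht.nonneg
    have h1 := hac _ _ g1 g2 g4 g5
    refine ⟨fun k hk => (h1 k hk).2.2, fun n => ?_⟩
    obtain ⟨h2, h3⟩ := wc_sum_le ht' (hl n) g1 K (h0 _ _ g1 g2 g4 g5) (hK _ _ g1 g2 g4 g5)
      fun k hk => ⟨(h1 k hk).1, (h1 k hk).2.1⟩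
    have h4 : wc t (B n t) (P (X t)) 0 (N (X t)) = TS t S x y - (B n t x - B n t y) := by
      unfold wc; rw [g3, g4, g5]; ring
    refine ⟨fun k hk => ⟨wc_nonneg ht' (hl n) (g1.sub (h2 k hk).1 (h1 k hk).1 (h2 k hk).2), ?_⟩, h4 ▸ h3⟩
    have h5 := wc_sub_le ht' (hl n) g1 (h2 k hk).1 (h1 k hk).1 (h2 k hk).2
    have h6 := hl n y x
    have h7 := T_le_TS ht' hc
    rw [T_comm] at h6
    simp only [hY]; linarith
  have hI : ∀ k < K, ∀ n, Integrable (Y k n) (iidLaw G) := fun k hk n => by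
    refine (hi.const_mul 2).mono' (hm k n).aestronglyMeasurable ?_
    filter_upwards [hae] with t ht
    rw [Real.norm_eq_abs, abs_of_nonneg ((ht.2 n).1 k hk).1]; exact ((ht.2 n).1 k hk).2
  have hM : ∀ k < K, ∀ n, |∫ t, Y k n t ∂iidLaw G| ≤ ∫ t, 2 * TS t S x y ∂iidLaw G := fun k hk n => by
    rw [abs_of_nonneg (integral_nonneg_of_ae (hae.mono fun t ht => ((ht.2 n).1 k hk).1))]
    exact integral_mono_ae (hI k hk n) (hi.const_mul 2) (hae.mono fun t ht => ((ht.2 n).1 k hk).2)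
  have hκ : ∀ k < K, ∃ κ, AvgLe (fun n => ∫ t, Y k n t ∂iidLaw G) κ ∧
      AvgLe (fun n => -∫ t, Y k n t ∂iidLaw G) (-κ) := fun k hk => exists_avg (hM k hk)
  choose! κ hκ1 hκ2 using hκ
  refine ⟨κ, ?_, fun k hk => ⟨Y k, hI k hk, ⟨_, hM k hk⟩, hκ1 k hk,
    hae.mono fun t ht => ⟨_, _, _, ht.1 k hk, fun n => le_rfl⟩⟩⟩
  have s1 := AvgLe.sum K hκ2
  have s2 : AvgLe (fun n => -∫ t, (B n t x - B n t y) ∂iidLaw G)
      (-(F.a0 * ((y.1 : ℝ) - x.1) + F.b0 * ((y.2 : ℝ) - x.2))) := by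
    refine AvgLe.of_tendsto ((hB.mean x y).neg.congr fun N => ?_)
    rw [Finset.sum_neg_distrib, neg_div]
  have s3 := (s1.add s2).le_of_le (c := -∫ t, TS t S x y ∂iidLaw G) fun n => by
    have := integral_mono_ae (integrable_finsetSum _ fun k hk => hI k (Finset.mem_range.1 hk) n)
      (hi.sub (hB.integrable hG n x y)) (hae.mono fun t ht => (ht.2 n).2)
    rw [integral_finsetSum _ fun k hk => hI k (Finset.mem_range.1 hk) n] at this
    have e := integral_sub hi (hB.integrable hG n x y)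
    simp only [Pi.sub_apply] at this
    rw [Finset.sum_neg_distrib]
    linarith
  rw [Finset.sum_neg_distrib] at s3
  linarith

end Crest.Agent.R151
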