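import Crest.Agent.R151.D0

/-! R151 part D2: definitions (owner helper26).

The potential `B n t x = inf_u T(x,(u,n)) - a0 u` makes the reduced cost `wc` of every path nonnegative and
additive.  Means are averaged over the level `n` (Cesàro means along an ultrafilter, so that they are additive). -/

set_option autoImplicit false
open MeasureTheory ProbabilityTheory Crest.ProbabilityR.FirstPassage Filter Topology
open scoped ENNReal

namespace Crest.Agent.R151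

/-- the Cesàro means of `a 0, a 1, …` are `≤ κ` along the hyperfilter -/
def AvgLe (a : ℤ → ℝ) (κ : ℝ) : Prop :=
  ∀ η > (0 : ℝ), ∀ᶠ N : ℕ in (hyperfilter ℕ : Filter ℕ), (∑ n ∈ Finset.range N, a n) / N ≤ κ + η

/-- reduced cost of a path segment with respect to the potential `b` -/
noncomputable def wc (t : Env) (b : V → ℝ) (p : ℤ → V) (i j : ℤ) : ℝ :=
  cost t p i j - b (p i) + b (p j)

/-- a family of potentials for the face `F` -/
structure Pot (G : Measure ℝ) (F : Face (mu G)) (B : ℤ → Env → V → ℝ) : Prop where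
  meas : ∀ n x, Measurable fun t => B n t x
  lip : ∀ᵐ t ∂iidLaw G, ∀ n x y, B n t x ≤ T t x y + B n t y
  shift : ∀ᵐ t ∂iidLaw G, ∀ n x v, B n t (x + v) = B (n - v.2) (shift v t) x - F.a0 * v.1
  mean : ∀ x y : V, Tendsto
    (fun N : ℕ => (∑ n ∈ Finset.range N, ∫ t, (B n t x - B n t y) ∂iidLaw G) / N) atTop
    (𝓝 (F.a0 * ((y.1 : ℝ) - x.1) + F.b0 * ((y.2 : ℝ) - x.2)))

/-- almost surely there is a path with the property `Q`, of averaged mean reduced cost `≤ κ` -/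
def Cheap (G : Measure ℝ) (B : ℤ → Env → V → ℝ) (Q : (ℤ → V) → ℤ → ℤ → Prop) (κ : ℝ) : Prop :=
  ∃ Y : ℤ → Env → ℝ, (∀ n, Integrable (Y n) (iidLaw G)) ∧
    (∃ M, ∀ n, |∫ t, Y n t ∂iidLaw G| ≤ M) ∧ AvgLe (fun n => ∫ t, Y n t ∂iidLaw G) κ ∧
    ∀ᵐ t ∂iidLaw G, ∃ p i j, Q p i j ∧ ∀ n, wc t (B n t) p i j ≤ Y n t

/-- points within horizontal distance `δ` of the line of slope `ξ` through `(x0, 0)` -/
def lane (ξ x0 δ : ℝ) : Set V := {v | |(v.1 : ℝ) - x0 - ξ * v.2| ≤ δ}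

/-- a self-avoiding crossing of the rows `0..H` inside a lane -/
def Hw (ξ x0 δ : ℝ) (H : ℤ) (p : ℤ → V) (i j : ℤ) : Prop :=
  PathIn (lane ξ x0 δ ∩ rows 0 H) p i j ∧ Set.InjOn p (Set.Icc i j) ∧ (p i).2 = 0 ∧ (p j).2 = H

/-- cheap highways of both extreme slopes, of every height `≤ 2s`, at every place -/
def Roads (G : Measure ℝ) (F : Face (mu G)) (B : ℤ → Env → V → ℝ) (s : ℕ) (κ : ℝ) : Prop :=
  ∃ ξ ξ' : ℝ, |ξ - F.ξp| ≤ F.τ1 / 10 ∧ |ξ' - F.ξn| ≤ F.τ1 / 10 ∧ ∀ (H : ℤ) (x0 : ℝ), 0 ≤ H → H ≤ 2 * s →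
    Cheap G B (Hw ξ x0 (F.τ1 / 20 * s + 1) H) κ ∧ Cheap G B (Hw ξ' x0 (F.τ1 / 20 * s + 1) H) κ

end Crest.Agent.R151
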