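import Crest.Agent.R151.D2Cheap

/-! R151 part D2: the deterministic geometry of highways. -/

set_option autoImplicit false
open MeasureTheory ProbabilityTheory Crest.ProbabilityR.FirstPassage Filter Topology
open scoped ENNReal

namespace Crest.Agent.R151

variable {ξ ξ' x0 x1 δ : ℝ} {H : ℤ} {p q σ : ℤ → V} {i j i' j' a c : ℤ}

theorem mem_lane {v : V} (h : v ∈ lane ξ x0 δ) :
    -δ ≤ (v.1 : ℝ) - x0 - ξ * v.2 ∧ (v.1 : ℝ) - x0 - ξ * v.2 ≤ δ := abs_le.1 h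

/-- sub-crossings of the rows `ya..yb` (`PathIn.exists_crossing`) change their order (`cross_strip`) -/
theorem lane_cross (hp : Hw ξ x0 δ H p i j) (hq : Hw ξ' x1 δ H q i' j') {ya yb : ℤ} (h0 : 0 ≤ ya)
    (hab : ya ≤ yb) (hb : yb ≤ H) (h1 : (ξ - ξ') * ya ≤ x1 - x0 - 2 * δ)
    (h2 : x1 - x0 + 2 * δ ≤ (ξ - ξ') * yb) :
    ∃ k l, i ≤ k ∧ k ≤ j ∧ i' ≤ l ∧ l ≤ j' ∧ p k = q l ∧ ya ≤ (p k).2 ∧
      (∀ m, i ≤ m → m ≤ k → (p m).2 ≤ yb) ∧ (∀ m, i' ≤ m → m ≤ l → (q m).2 ≤ yb) := by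
  obtain ⟨hp, -, hp0, hp1⟩ := hp
  obtain ⟨hq, -, hq0, hq1⟩ := hq
  obtain ⟨a1, c1, h11, h12, h13, e1, e2, hp', hf1, -⟩ := hp.exists_crossing (a := ya) (b := yb)
    (by omega) hab (by omega)
  obtain ⟨a2, c2, h21, h22, h23, e3, e4, hq', hf2, -⟩ := hq.exists_crossing (a := ya) (b := yb)
    (by omega) hab (by omega)
  have l1 := mem_lane (hp'.2.1 a1 le_rfl h12).1.1
  have l2 := mem_lane (hp'.2.1 c1 h12 le_rfl).1.1
  have l3 := mem_lane (hq'.2.1 a2 le_rfl h22).1.1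
  have l4 := mem_lane (hq'.2.1 c2 h22 le_rfl).1.1
  rw [e1] at l1; rw [e2] at l2; rw [e3] at l3; rw [e4] at l4
  obtain ⟨k, l, k1, k2, k3, k4, he⟩ := cross_strip (hp'.mono Set.inter_subset_right) e1 e2
    (hq'.mono Set.inter_subset_right) e3 e4
    (by have : ((p a1).1 : ℝ) ≤ (q a2).1 := by nlinarith [l1.2, l3.1]
        exact_mod_cast this)
    (by have : ((q c2).1 : ℝ) ≤ (p c1).1 := by nlinarith [l2.1, l4.2]
        exact_mod_cast this)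
  refine ⟨k, l, by omega, by omega, by omega, by omega, he, (hp'.2.1 k k1 k2).2.1, fun m m1 m2 => ?_,
    fun m m1 m2 => ?_⟩
  · rcases eq_or_lt_of_le (m2.trans k2) with rfl | h
    · exact e2.le
    · exact (hf1 m m1 h).le
  · rcases eq_or_lt_of_le (m2.trans k4) with rfl | h
    · exact e4.le
    · exact (hf2 m m1 h).le

/-- point reflection exchanging `0` and `(ζ, H)` -/
theorem Hw.refl (hp : Hw ξ x0 δ H p i j) (ζ : ℤ) :
    Hw ξ (ζ - x0 - ξ * H) δ H (fun k => (ζ, H) - p (-k)) (-j) (-i) := by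
  obtain ⟨hp, hi, h0, h1⟩ := hp
  refine ⟨(hp.rev.map (isAut_sub (ζ, H))).mono ?_, fun k hk l hl he => ?_, by simp [h1], by simp [h0]⟩
  · rintro _ ⟨v, ⟨hv, hv1, hv2⟩, rfl⟩
    refine ⟨?_, by simp; omega, by simp; omega⟩
    simp only [lane, Set.mem_ofPred_eq, Prod.fst_sub, Prod.snd_sub] at hv ⊢
    rw [← abs_neg] at hv
    convert hv using 2; push_cast; ring
  · have := hi (x₁ := -k) (x₂ := -l) ⟨by linarith [hk.2], by linarith [hk.1]⟩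
      ⟨by linarith [hl.2], by linarith [hl.1]⟩ (sub_right_injective he)
    omega

/-- The tent, abstract form: `p k0 = q l0` is the apex.  Cut `p`, `σ` at their first visits of row `y+1`
(`PathIn.exists_crossing`).  `p` and `q[i'..l0]` glued with `p[k0..]` are two crossings of the rows `0..y+1` with the
same end, starting on either side of `σ a`; so `σ` meets one of them (`cross_strip`). -/
theorem tent_abs {y k0 l0 : ℤ} (hp : PathIn (rows 0 H) p i j) (hq : PathIn (rows 0 H) q i' j')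
    (hp0 : (p i).2 = 0) (hq0 : (q i').2 = 0) (hp1 : y < (p j).2) (hk : i ≤ k0) (hk' : k0 ≤ j) (hl : i' ≤ l0)
    (hl' : l0 ≤ j') (he : p k0 = q l0) (hpk : ∀ r, i ≤ r → r ≤ k0 → (p r).2 ≤ y)
    (hql : ∀ r, i' ≤ r → r ≤ l0 → (q r).2 ≤ y) (hσ : PathIn (rows 0 H) σ a c) (h0 : (σ a).2 = 0)
    (h1 : y < (σ c).2)
    (hs : ((p i).1 ≤ (σ a).1 ∧ (σ a).1 ≤ (q i').1) ∨ ((q i').1 ≤ (σ a).1 ∧ (σ a).1 ≤ (p i).1)) :
    ∃ m k, a ≤ m ∧ m ≤ c ∧ i ≤ k ∧ k ≤ j ∧ (∀ r, i ≤ r → r ≤ k → (p r).2 ≤ y + 1) ∧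
      (σ m = p k ∨ ∃ l l', i' ≤ l ∧ l ≤ l' ∧ l' ≤ j' ∧ σ m = q l ∧ q l' = p k) := by
  have hy : 0 ≤ y := hp0 ▸ hpk i le_rfl hk
  obtain ⟨j1, a1, a2, a3, a4⟩ := hp.exists_first lip1_snd (c := y + 1) (by omega) (by omega)
  obtain ⟨c1, b1, b2, b3, b4⟩ := hσ.exists_first lip1_snd (c := y + 1) (by omega) (by omega)
  have hpre : ∀ r, i ≤ r → r ≤ j1 → (p r).2 ≤ y + 1 := fun r r1 r2 => by
    rcases eq_or_lt_of_le r2 with rfl | h
    · exact a3.le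
    · exact (a4 r r1 h).le
  have hk1 : k0 ≤ j1 := by
    by_contra h
    have := hpk j1 a1 (by omega); omega
  have hp' : PathIn (rows 0 (y + 1)) p i j1 := (hp.sub le_rfl a1 a2).restrict fun r r1 r2 =>
    ⟨(hp.2.1 r r1 (by omega)).1, hpre r r1 r2⟩
  have hσ' : PathIn (rows 0 (y + 1)) σ a c1 := (hσ.sub le_rfl b1 b2).restrict fun r r1 r2 =>
    ⟨(hσ.2.1 r r1 (by omega)).1, by
      rcases eq_or_lt_of_le r2 with rfl | h
      · exact b3.le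
      · exact (b4 r r1 h).le⟩
  have hq' : PathIn (rows 0 (y + 1)) q i' l0 := (hq.sub le_rfl hl hl').restrict fun r r1 r2 =>
    ⟨(hq.2.1 r r1 (by omega)).1, (hql r r1 r2).trans (by omega)⟩
  have hg := hq'.glue (hp'.sub hk hk1 le_rfl) he.symm
  have g0 : glue q l0 p k0 i' = q i' := glue_of_le hl
  have g1 : glue q l0 p k0 (l0 + (j1 - k0)) = p j1 := by
    rw [glue_of_ge he.symm (by omega)]; congr 1; ring
  have A : (∃ k m, i ≤ k ∧ k ≤ j1 ∧ a ≤ m ∧ m ≤ c1 ∧ p k = σ m) ∨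
      ∃ k m, i' ≤ k ∧ k ≤ l0 + (j1 - k0) ∧ a ≤ m ∧ m ≤ c1 ∧ glue q l0 p k0 k = σ m := by
    rcases hs with hs | hs <;> rcases le_total (σ c1).1 (p j1).1 with hu | hu
    · exact Or.inl (cross_strip hp' hp0 a3 hσ' h0 b3 hs.1 hu)
    · obtain ⟨m, k, m1, m2, k1, k2, e⟩ := cross_strip hσ' h0 b3 hg (g0 ▸ hq0) (g1 ▸ a3) (g0 ▸ hs.2) (g1 ▸ hu)
      exact Or.inr ⟨k, m, k1, k2, m1, m2, e.symm⟩
    · exact Or.inr (cross_strip hg (g0 ▸ hq0) (g1 ▸ a3) hσ' h0 b3 (g0 ▸ hs.1) (g1 ▸ hu))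
    · obtain ⟨m, k, m1, m2, k1, k2, e⟩ := cross_strip hσ' h0 b3 hp' hp0 a3 hs.2 hu
      exact Or.inl ⟨k, m, k1, k2, m1, m2, e.symm⟩
  rcases A with ⟨k, m, k1, k2, m1, m2, e⟩ | ⟨k, m, k1, k2, m1, m2, e⟩
  · exact ⟨m, k, m1, by omega, k1, by omega, fun r r1 r2 => hpre r r1 (by omega), Or.inl e.symm⟩
  · rcases le_total k l0 with h | h
    · rw [glue_of_le h] at e
      exact ⟨m, k0, m1, by omega, hk, hk', fun r r1 r2 => hpre r r1 (by omega),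
        Or.inr ⟨k, l0, k1, h, hl', e.symm, he.symm⟩⟩
    · rw [glue_of_ge he.symm h] at e
      exact ⟨m, k - l0 + k0, m1, by omega, by omega, by omega, fun r r1 r2 => hpre r r1 (by omega),
        Or.inl e.symm⟩

/-- the tent over `0` (apex from `lane_cross` in the rows `0..y`); either highway can be the main road -/
theorem tent (hp : Hw ξ (-2 * δ) δ H p i j) (hq : Hw ξ' (2 * δ) δ H q i' j') {y : ℤ} (hδ : 0 ≤ δ)
    (hy : 0 ≤ y) (hH : y < H) (hd : 6 * δ ≤ (ξ - ξ') * y) (hσ : PathIn (rows 0 H) σ a c)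
    (h0 : σ a = (0, 0)) (h1 : y < (σ c).2) :
    (∃ m k, a ≤ m ∧ m ≤ c ∧ i ≤ k ∧ k ≤ j ∧ (∀ r, i ≤ r → r ≤ k → (p r).2 ≤ y + 1) ∧
      (σ m = p k ∨ ∃ l l', i' ≤ l ∧ l ≤ l' ∧ l' ≤ j' ∧ σ m = q l ∧ q l' = p k)) ∧
    (∃ m l, a ≤ m ∧ m ≤ c ∧ i' ≤ l ∧ l ≤ j' ∧ (∀ r, i' ≤ r → r ≤ l → (q r).2 ≤ y + 1) ∧
      (σ m = q l ∨ ∃ k k', i ≤ k ∧ k ≤ k' ∧ k' ≤ j ∧ σ m = p k ∧ p k' = q l)) := by
  obtain ⟨k, l, k1, k2, l1, l2, he, -, hk, hl⟩ := lane_cross hp hq (ya := 0) (yb := y) le_rfl hy hH.le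
    (by simp; linarith) (by linarith)
  have e1 := mem_lane (hp.1.2.1 i le_rfl hp.1.1).1
  have e2 := mem_lane (hq.1.2.1 i' le_rfl hq.1.1).1
  rw [hp.2.2.1] at e1; rw [hq.2.2.1] at e2
  have f1 : (p i).1 ≤ (σ a).1 := by
    have : ((p i).1 : ℝ) ≤ 0 := by have := e1.2; simp at this; linarith
    rw [h0]; exact_mod_cast this
  have f2 : (σ a).1 ≤ (q i').1 := by
    have : (0 : ℝ) ≤ (q i').1 := by have := e2.1; simp at this; linarith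
    rw [h0]; exact_mod_cast this
  have hp' := hp.1.mono Set.inter_subset_right
  have hq' := hq.1.mono Set.inter_subset_right
  exact ⟨tent_abs hp' hq' hp.2.2.1 hq.2.2.1 (hp.2.2.2 ▸ hH) k1 k2 l1 l2 he hk hl hσ (by rw [h0]) h1
      (Or.inl ⟨f1, f2⟩),
    tent_abs hq' hp' hq.2.2.1 hp.2.2.1 (hq.2.2.2 ▸ hH) l1 l2 k1 k2 he.symm hl hk hσ (by rw [h0]) h1
      (Or.inr ⟨f1, f2⟩)⟩

/-- the inverted tent under `(ζ, H)` (second part of `tent` for the reflected paths, `Hw.refl`) -/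
theorem tent_top {ζ : ℤ} (hp : Hw ξ (ζ - ξ * H + 2 * δ) δ H p i j)
    (hq : Hw ξ' (ζ - ξ' * H - 2 * δ) δ H q i' j') {y : ℤ} (hδ : 0 ≤ δ)
    (hy : 0 ≤ y) (hH : y < H) (hd : 6 * δ ≤ (ξ - ξ') * y) (hσ : PathIn (rows 0 H) σ a c)
    (h0 : σ c = (ζ, H)) (h1 : (σ a).2 < H - y) :
    ∃ m l, a ≤ m ∧ m ≤ c ∧ i' ≤ l ∧ l ≤ j' ∧ (∀ r, l ≤ r → r ≤ j' → H - y - 1 ≤ (q r).2) ∧
      (σ m = q l ∨ ∃ k k', i ≤ k ∧ k ≤ k' ∧ k' ≤ j ∧ q l = p k ∧ p k' = σ m) := by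
  have hp' := hp.refl ζ
  have hq' := hq.refl ζ
  rw [show (ζ : ℝ) - (ζ - ξ * H + 2 * δ) - ξ * H = -2 * δ by ring] at hp'
  rw [show (ζ : ℝ) - (ζ - ξ' * H - 2 * δ) - ξ' * H = 2 * δ by ring] at hq'
  have hσ' : PathIn (rows 0 H) (fun k => (ζ, H) - σ (-k)) (-c) (-a) := by
    refine (hσ.rev.map (isAut_sub (ζ, H))).mono ?_
    rintro _ ⟨v, ⟨hv1, hv2⟩, rfl⟩
    exact ⟨by simp; omega, by simp; omega⟩
  obtain ⟨m, l, m1, m2, l1, l2, hr, h⟩ := (tent hp' hq' hδ hy hH hd hσ' (by simp [h0]; rfl) (by simp; omega)).2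
  refine ⟨-m, -l, by omega, by omega, by omega, by omega, fun r r1 r2 => ?_, ?_⟩
  · have := hr (-r) (by omega) (by omega)
    simp at this; omega
  · rcases h with h | ⟨k, k', k1, k2, k3, e1, e2⟩
    · exact Or.inl (sub_right_injective h)
    · exact Or.inr ⟨-k', -k, by omega, by omega, by omega, (sub_right_injective e2).symm,
        (sub_right_injective e1).symm⟩

variable {t t' : Env} {b b' : V → ℝ}

/-- moving along a piece of a path -/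
theorem reach_step (ht : ∀ e, 0 ≤ t e) (hb : ∀ x y, b x ≤ T t x y + b y) {S : Set V} {x : V}
    (hp : PathIn S p i j) (h1 : i ≤ i') (h2 : i' ≤ j') (h3 : j' ≤ j) (hc : Conn S x (p i')) :
    Conn S x (p j') ∧ TS t S x (p j') + b (p j') ≤ TS t S x (p i') + b (p i') + wc t b p i j := by
  have hp' := hp.sub h1 h2 h3
  refine ⟨hc.trans hp'.conn, ?_⟩
  have a1 := TS_triangle ht hc hp'.conn
  have a2 := TS_le_cost ht hp'
  have a3 := wc_sub_le ht hb hp h1 h2 h3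
  unfold wc at a3 ⊢
  linarith

/-- route: `σ1`, (`Q1`), `P1`, `Q2`, (`P2`), `σ2`; `P1` meets `Q2` in the rows `y+2..H-y-2` -/
theorem double_det (ht : ∀ e, 0 ≤ t e) (hb : ∀ x y, b x ≤ T t x y + b y) {ζ y : ℤ} (hδ : 0 < δ) (hy : 0 ≤ y)
    (hd : 6 * δ ≤ (ξ - ξ') * y) (hl : (ξ - ξ') * (y + 2) + 2 * δ ≤ ζ - ξ' * H)
    (hr : (ξ - ξ') * (y + 2) + 2 * δ ≤ ξ * H - ζ)
    {P1 Q1 P2 Q2 σ1 σ2 : ℤ → V} {i1 j1 i2 j2 i3 j3 i4 j4 a1 c1 a2 c2 : ℤ}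
    (hP1 : Hw ξ (-2 * δ) δ H P1 i1 j1) (hQ1 : Hw ξ' (2 * δ) δ H Q1 i2 j2)
    (hP2 : Hw ξ (ζ - ξ * H + 2 * δ) δ H P2 i3 j3) (hQ2 : Hw ξ' (ζ - ξ' * H - 2 * δ) δ H Q2 i4 j4)
    (h1 : PathIn (rows 0 H) σ1 a1 c1) (h1a : σ1 a1 = (0, 0)) (h1c : y < (σ1 c1).2)
    (h2 : PathIn (rows 0 H) σ2 a2 c2) (h2a : (σ2 a2).2 < H - y) (h2c : σ2 c2 = (ζ, H)) :
    TS t (rows 0 H) (0, 0) (ζ, H) - b (0, 0) + b (ζ, H) ≤ wc t b σ1 a1 c1 + wc t b σ2 a2 c2 +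
      (wc t b P1 i1 j1 + wc t b Q1 i2 j2 + wc t b P2 i3 j3 + wc t b Q2 i4 j4) := by
  have hd0 : 0 < ξ - ξ' := by
    by_contra h
    have : (ξ - ξ') * y ≤ 0 := mul_nonpos_of_nonpos_of_nonneg (not_lt.1 h) (by exact_mod_cast hy)
    linarith
  have hH : 2 * (y + 2) ≤ H := by
    have : (ξ - ξ') * (2 * (y + 2)) ≤ (ξ - ξ') * H := by nlinarith
    have := le_of_mul_le_mul_left this hd0
    exact_mod_cast this
  obtain ⟨m, k, m1, m2, k1, k2, hk, hA⟩ := (tent hP1 hQ1 hδ.le hy (by omega) hd h1 h1a h1c).1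
  obtain ⟨m', l, m3, m4, l1, l2, hl', hB⟩ := tent_top hP2 hQ2 hδ.le hy (by omega) hd h2 h2c h2a
  obtain ⟨k', l', k3, k4, l3, l4, he, hk', -, hl''⟩ := lane_cross hP1 hQ2 (ya := y + 2) (yb := H - y - 2)
    (by omega) (by omega) (by omega) (by push_cast; linarith) (by push_cast; linarith)
  have hkk : k ≤ k' := by
    by_contra h
    have := hk k' k3 (by omega); omega
  have hll : l' ≤ l := by
    by_contra h
    have := hl' l' (by omega) l4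
    have := hl'' l' l3 le_rfl; omega
  have p1 := hP1.1.mono Set.inter_subset_right
  have q1 := hQ1.1.mono Set.inter_subset_right
  have p2 := hP2.1.mono Set.inter_subset_right
  have q2 := hQ2.1.mono Set.inter_subset_right
  have n1 := wc_nonneg ht hb q1
  have n2 := wc_nonneg ht hb p2
  have c0 : Conn (rows 0 H) (0, 0) (σ1 a1) := by rw [h1a]; exact Conn.refl ⟨le_rfl, by simp only; omega⟩
  obtain ⟨c1, s1⟩ := reach_step ht hb h1 le_rfl m1 m2 c0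
  rw [h1a, TS_self ht] at s1
  have s2 : Conn (rows 0 H) (0, 0) (P1 k) ∧ TS t (rows 0 H) (0, 0) (P1 k) + b (P1 k) ≤
      TS t (rows 0 H) (0, 0) (σ1 m) + b (σ1 m) + wc t b Q1 i2 j2 := by
    rcases hA with e | ⟨r, r', r1, r2, r3, e, e'⟩
    · rw [← e]; exact ⟨c1, by linarith⟩
    · rw [← e', e]; exact reach_step ht hb q1 r1 r2 r3 (e ▸ c1)
  obtain ⟨c3, s3⟩ := reach_step ht hb p1 k1 hkk k4 s2.1
  rw [he] at c3 s3
  obtain ⟨c4, s4⟩ := reach_step ht hb q2 l3 hll l2 c3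
  have s5 : Conn (rows 0 H) (0, 0) (σ2 m') ∧ TS t (rows 0 H) (0, 0) (σ2 m') + b (σ2 m') ≤
      TS t (rows 0 H) (0, 0) (Q2 l) + b (Q2 l) + wc t b P2 i3 j3 := by
    rcases hB with e | ⟨r, r', r1, r2, r3, e, e'⟩
    · rw [e]; exact ⟨c4, by linarith⟩
    · rw [← e', e]; exact reach_step ht hb p2 r1 r2 r3 (e ▸ c4)
  obtain ⟨-, s6⟩ := reach_step ht hb h2 m3 m4 le_rfl s5.1
  rw [h2c] at s6
  linarith [s2.2, s5.2]

theorem d2geo_two (ht : ∀ e, 0 ≤ t e) (hb : ∀ x y, b x ≤ T t x y + b y) {S S' : Set V} {k k' l l' : ℤ}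
    (hp : PathIn S p i j) (hq : PathIn S' q i' j') (h1 : i ≤ k) (h2 : k ≤ k') (h3 : k' ≤ j) (h4 : i' ≤ l)
    (h5 : l ≤ l') (h6 : l' ≤ j') (he : p k' = q l) :
    T t (p k) (q l') ≤ cost t p k k' + cost t q l l' ∧
      cost t p k k' + cost t q l l' ≤ T t (p k) (q l') + (wc t b p i j + wc t b q i' j') := by
  have a1 := T_le_cost ht (hp.sub h1 h2 h3)
  have a2 := T_le_cost ht (hq.sub h4 h5 h6)
  have a3 := T_triangle (x := p k) (y := p k') (z := q l') ht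
  have a4 := wc_sub_le ht hb hp h1 h2 h3
  have a5 := wc_sub_le ht hb hq h4 h5 h6
  have a6 := hb (p k) (q l')
  rw [he] at a1 a3
  simp only [wc] at a4 a5 ⊢
  rw [he] at a4
  constructor <;> linarith

/-- The parallelogram.  Corners by `lane_cross`: `u = P1 ∩ Q1` (rows `0..2y`), `P1 ∩ Q2`, `P2 ∩ Q1` (rows
`4y..6y`), `w = P2 ∩ Q2` (rows `8y..10y`); `α = P1, Q2` and `β = Q1, P2` from `u` to `w`.  `Q1`, `P2` avoid the modified
region, so `cost t β = cost t' β ≤ T t' u w + wc' ≤ cost t' α + wc' ≤ cost t α - gain + wc'` and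
`cost t α ≤ T t u w + wc ≤ cost t β + wc`. -/
theorem lower_det (ht' : ∀ e, 0 ≤ t' e) (hb : ∀ x y, b x ≤ T t x y + b y)
    (hb' : ∀ x y, b' x ≤ T t' x y + b' y) {y : ℤ} (hδ : 0 < δ) (hy : 0 ≤ y) (hd : 2 * δ ≤ (ξ - ξ') * y)
    (hle : ∀ e, t' e ≤ t e)
    (heq : ∀ e, e ∉ edgesIn (lane ξ 0 δ ∩ rows (2 * y + 1) (4 * y)) → t' e = t e)
    {P1 Q1 P2 Q2 : ℤ → V} {i1 j1 i2 j2 i3 j3 i4 j4 : ℤ}
    (hP1 : Hw ξ 0 δ (10 * y) P1 i1 j1) (hQ1 : Hw ξ' ((ξ - ξ') * y) δ (10 * y) Q1 i2 j2)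
    (hP2 : Hw ξ (-4 * ((ξ - ξ') * y)) δ (10 * y) P2 i3 j3)
    (hQ2 : Hw ξ' (5 * ((ξ - ξ') * y)) δ (10 * y) Q2 i4 j4)
    (ha : i1 ≤ a) (hac : a ≤ c) (hc : c ≤ j1) (h1 : 2 * y < (P1 a).2)
    (h2 : ∀ l, i1 ≤ l → l < c → (P1 l).2 < 4 * y) :
    cost t P1 a c - cost t' P1 a c ≤
      (wc t b P1 i1 j1 + wc t b Q2 i4 j4) + (wc t' b' Q1 i2 j2 + wc t' b' P2 i3 j3) := by
  have ht : ∀ e, 0 ≤ t e := fun e => (ht' e).trans (hle e)
  have hy' : (0 : ℝ) ≤ y := by exact_mod_cast hy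
  have hd0 : 0 < ξ - ξ' := by
    by_contra h
    have : (ξ - ξ') * y ≤ 0 := mul_nonpos_of_nonpos_of_nonneg (not_lt.1 h) hy'
    linarith
  have hy1 : 0 < y := by
    rcases eq_or_lt_of_le hy with h | h
    · rw [← h] at hd; simp at hd; linarith
    · exact h
  obtain ⟨u1, u2, a1, a2, a3, a4, eu, -, a5, a6⟩ := lane_cross hP1 hQ1 (ya := 0) (yb := 2 * y) le_rfl
    (by omega) (by omega) (by push_cast; linarith) (by push_cast; linarith)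
  obtain ⟨r1, r2, b1, b2, b3, b4, er, b0, -, b6⟩ := lane_cross hP1 hQ2 (ya := 4 * y) (yb := 6 * y) (by omega)
    (by omega) (by omega) (by push_cast; linarith) (by push_cast; linarith)
  obtain ⟨l1, l2, c1, c2, c3, c4, el, c0, c5, -⟩ := lane_cross hP2 hQ1 (ya := 4 * y) (yb := 6 * y) (by omega)
    (by omega) (by omega) (by push_cast; linarith) (by push_cast; linarith)
  obtain ⟨w1, w2, d1, d2, d3, d4, ew, d0, -, -⟩ := lane_cross hP2 hQ2 (ya := 8 * y) (yb := 10 * y) (by omega)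
    (by omega) le_rfl (by push_cast; linarith) (by push_cast; linarith)
  have o1 : u1 ≤ a := by
    by_contra h
    have := a5 a ha (by omega); omega
  have o2 : c ≤ r1 := by
    by_contra h
    have := h2 r1 b1 (by omega); omega
  have o3 : r2 ≤ w2 := by
    by_contra h
    have := b6 w2 d3 (by omega); rw [← ew] at this; omega
  have o4 : u2 ≤ l2 := by
    by_contra h
    have := a6 l2 c3 (by omega); rw [← el] at this; omega
  have o5 : l1 ≤ w1 := by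
    by_contra h
    have := c5 w1 d1 (by omega); omega
  obtain ⟨-, A⟩ := d2geo_two ht hb hP1.1 hQ2.1 a1 (by omega : u1 ≤ r1) b2 b3 o3 d4 er
  obtain ⟨A', -⟩ := d2geo_two ht' hb' hP1.1 hQ2.1 a1 (by omega : u1 ≤ r1) b2 b3 o3 d4 er
  obtain ⟨C, -⟩ := d2geo_two ht hb hQ1.1 hP2.1 a3 o4 c4 c1 o5 d2 el.symm
  obtain ⟨-, C'⟩ := d2geo_two ht' hb' hQ1.1 hP2.1 a3 o4 c4 c1 o5 d2 el.symm
  rw [← eu, ew] at C C'
  have e1 : cost t' Q1 u2 l2 = cost t Q1 u2 l2 := by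
    refine cost_congr_env fun k k1 k2 => heq _ fun h => ?_
    obtain ⟨m1, m2, -⟩ := h (Q1 k) (by simp [edge])
    have m3 := mem_lane (hQ1.1.2.1 k (by omega) (by omega)).1
    have m1 := mem_lane m1
    have m2 : (2 * y + 1 : ℝ) ≤ (Q1 k).2 := by exact_mod_cast m2
    nlinarith [m1.1, m3.2]
  have e2 : cost t' P2 l1 w1 = cost t P2 l1 w1 := by
    refine cost_congr_env fun k k1 k2 => heq _ fun h => ?_
    obtain ⟨m1, -⟩ := h (P2 k) (by simp [edge])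
    have m3 := mem_lane (hP2.1.2.1 k (by omega) (by omega)).1
    have m1 := mem_lane m1
    linarith [m1.1, m3.2]
  have f1 := cost_add (t := t) (p := P1) o1 (hac.trans o2)
  have f2 := cost_add (t := t) (p := P1) hac o2
  have f3 := cost_add (t := t') (p := P1) o1 (hac.trans o2)
  have f4 := cost_add (t := t') (p := P1) hac o2
  have g1 : cost t' P1 u1 a ≤ cost t P1 u1 a := cost_mono_env fun _ _ _ => hle _
  have g2 : cost t' P1 c r1 ≤ cost t P1 c r1 := cost_mono_env fun _ _ _ => hle _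
  have g3 : cost t' Q2 r2 w2 ≤ cost t Q2 r2 w2 := cost_mono_env fun _ _ _ => hle _
  linarith

end Crest.Agent.R151
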