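import Crest.Agent.R151.DBasic2

/-! R151 part D: means of slab passage times, bias function, global lower bounds. -/

set_option autoImplicit false
set_option linter.unusedSectionVars false
open MeasureTheory ProbabilityTheory Crest.ProbabilityR.FirstPassage Filter Topology
open scoped ENNReal

namespace Crest.Agent.R151

section aux
variable {G : Measure ℝ} [IsProbabilityMeasure G]

theorem db_act {φ : V → V} (hφ : IsAut φ) {f : Env → ℝ} (hf : Measurable f) :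
    ∫ t, f (act φ t) ∂iidLaw G = ∫ t, f t ∂iidLaw G := by
  have h := measurePreserving_act G hφ.bij
  have h2 := integral_map (μ := iidLaw G) h.measurable.aemeasurable hf.aestronglyMeasurable
  rw [h.map_eq] at h2
  exact h2.symm

theorem db_eval {f : ℝ → ℝ} (hf : Measurable f) (e : Sym2 V) :
    ∫ t, f (t e) ∂iidLaw G = ∫ s, f s ∂G := by
  have h := measurePreserving_eval G e
  have h2 := integral_map (μ := iidLaw G) h.measurable.aemeasurable hf.aestronglyMeasurable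
  rw [h.map_eq] at h2
  exact h2.symm

theorem db_memLp_eval (hG : Nice G) (m : ℕ) (e : Sym2 V) :
    MemLp (fun t : Env => t e) m (iidLaw G) := by
  have h : MemLp (id : ℝ → ℝ) m G := by
    rcases eq_or_ne m 0 with rfl | hm
    · simpa using (measurable_id (α := ℝ)).aestronglyMeasurable
    · rw [← integrable_norm_rpow_iff aestronglyMeasurable_id (by simpa using hm) (by simp)]
      simpa using hG.mom m
  exact h.comp_measurePreserving (measurePreserving_eval G e)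

theorem db_memLp_sum (hG : Nice G) (m : ℕ) (I : Finset ℤ) (e : ℤ → Sym2 V) :
    MemLp (fun t : Env => ∑ k ∈ I, t (e k)) m (iidLaw G) :=
  memLp_finsetSum I fun k _ => db_memLp_eval hG m (e k)

theorem db_int_sum (hG : Nice G) (I : Finset ℤ) (e : ℤ → Sym2 V) :
    ∫ t, ∑ k ∈ I, t (e k) ∂iidLaw G = I.card * ∫ s, s ∂G := by
  rw [integral_finsetSum I fun k _ =>
    memLp_one_iff_integrable.1 (by simpa using db_memLp_eval hG 1 (e k))]
  simp only [db_eval (f := fun s => s) measurable_id, Finset.sum_const, nsmul_eq_mul]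

theorem db_int_sum_sq (hG : Nice G) (I : Finset ℤ) (e : ℤ → Sym2 V) :
    ∫ t, (∑ k ∈ I, t (e k)) ^ 2 ∂iidLaw G ≤ (I.card : ℝ) ^ 2 * ∫ s, s ^ 2 ∂G := by
  have h1 : ∀ k, Integrable (fun t : Env => t (e k) ^ 2) (iidLaw G) := fun k =>
    MemLp.integrable_sq (by simpa using db_memLp_eval hG 2 (e k))
  have h2 : Integrable (fun t : Env => (∑ k ∈ I, t (e k)) ^ 2) (iidLaw G) :=
    MemLp.integrable_sq (by simpa using db_memLp_sum hG 2 I e)
  refine (integral_mono h2 ((integrable_finsetSum I fun k _ => h1 k).const_mul I.card)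
    fun t => sq_sum_le_card_mul_sum_sq).trans (le_of_eq ?_)
  rw [integral_const_mul, integral_finsetSum I fun k _ => h1 k]
  simp only [db_eval (f := fun s => s ^ 2) (measurable_id.pow_const 2), Finset.sum_const,
    nsmul_eq_mul]
  ring

theorem db_measurable_c {μ : ℝ × ℝ → ℝ} (F : Face μ) (U : Set V) (y : ℤ) (h : ℕ) (x u : ℤ) :
    Measurable fun t => F.c t U y h x u :=
  ((measurable_tau U y h x u).sub_const _).sub_const _

theorem db_card (x u : ℤ) : ((Finset.Ico (min x u) (max x u)).card : ℝ) = |(u : ℝ) - x| := by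
  have h : ((Finset.Ico (min x u) (max x u)).card : ℤ) = |u - x| := by
    rw [Int.card_Ico_of_le _ _ min_le_max, max_sub_min_eq_abs]
  exact_mod_cast h

end aux

section coer
variable {μ : ℝ × ℝ → ℝ}

theorem db_horiz (hμ : SymNorm μ) (s : ℝ) : μ (s, 0) = |s| * μ (1, 0) := by
  rw [← hμ.smul]
  simp

theorem db_vert (hμ : SymNorm μ) (s : ℝ) : μ (0, s) = |s| * μ (1, 0) := by
  rw [← db_horiz hμ]
  exact hμ.swap (s, 0)

theorem db_lower (hμ : SymNorm μ) (v : ℝ × ℝ) : |v.1| * μ (1, 0) - |v.2| * μ (1, 0) ≤ μ v := by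
  have h := hμ.add_le v (0, -v.2)
  rw [db_vert hμ, abs_neg, show v + (0, -v.2) = (v.1, 0) from Prod.ext (by simp) (by simp),
    db_horiz hμ] at h
  linarith

theorem db_num2 {ε θ m c a b d1 d2 M C1 : ℝ} (hε : 0 < ε) (hθ : 0 ≤ θ) (e : 2 * ε + θ = 1)
    (hm : 0 < m) (hc : c ≤ m) (ha : |a| = θ * m) (hM : |d1| * m - |d2| * m ≤ M)
    (hC : m + |b| ≤ C1) : ε * c * |d1| - C1 * |d2| ≤ (1 - ε) * M - a * d1 - b * d2 := by
  have h1 : a * d1 ≤ θ * m * |d1| := by rw [← ha, ← abs_mul]; exact le_abs_self _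
  have h2 : b * d2 ≤ |b| * |d2| := by rw [← abs_mul]; exact le_abs_self _
  have h3 := mul_le_mul_of_nonneg_left hM (show 0 ≤ 1 - ε by linarith)
  have h4 := mul_le_mul_of_nonneg_right hC (abs_nonneg d2)
  have h5 := mul_le_mul_of_nonneg_right (mul_le_mul_of_nonneg_left hc hε.le) (abs_nonneg d1)
  have h6 : 0 ≤ ε * (|d2| * m) := by positivity
  have h7 : θ * m * |d1| = (1 - 2 * ε) * m * |d1| := by rw [← e]; ring
  nlinarith

theorem db_num3 {ε θ m c a s n M1 M2 : ℝ} (hε : 0 < ε) (hθ : 0 ≤ θ) (e : 2 * ε + θ = 1)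
    (ha : |a| = θ * m) (hs : |s| * m ≤ M1 + M2) (hn : c * n ≤ M1) (h2 : 0 ≤ M2) :
    ε * c * n ≤ (1 - ε) * M1 + (1 - ε) * M2 - a * s := by
  have h1 : a * s ≤ θ * m * |s| := by rw [← ha, ← abs_mul]; exact le_abs_self _
  have h3 := mul_le_mul_of_nonneg_left hs hθ
  have h4 := mul_le_mul_of_nonneg_left hn hε.le
  have h5 := mul_nonneg hε.le h2
  have h7 : θ * (M1 + M2) = (1 - 2 * ε) * (M1 + M2) := by rw [← e]; ring
  nlinarith

theorem db_coer (hμ : SymNorm μ) (F : Face μ) : ∃ ε > 0, ∃ c1 > 0, ∃ C1 > 0,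
    ∀ (t : Env) (L CE W : ℝ) (N : ℕ), (∀ e, 0 ≤ t e) →
      (∀ x y, (nrm x : ℝ) ≤ (N : ℝ) ^ 2 → (1 - ε) * μ (toR (y - x)) - L ≤ T t x y) → 0 ≤ L →
      C1 ≤ CE → 2 * L ≤ CE * W → F.Coer c1 CE W N t := by
  obtain ⟨c, hc, hl⟩ := hμ.lower
  obtain ⟨m, hm⟩ : ∃ m, m = μ (1, 0) := ⟨_, rfl⟩
  have hst : |F.a0| < m := hm ▸ F.steep
  have hm0 : 0 < m := (abs_nonneg _).trans_lt hst
  have hcm : c ≤ m := by simpa [← hm] using hl (1, 0)
  obtain ⟨θ, hθ⟩ : ∃ θ, θ = |F.a0| / m := ⟨_, rfl⟩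
  have hθ0 : 0 ≤ θ := by rw [hθ]; positivity
  have hθ1 : θ < 1 := by rw [hθ, div_lt_one hm0]; exact hst
  have ha : |F.a0| = θ * m := by rw [hθ, div_mul_cancel₀ _ hm0.ne']
  obtain ⟨ε, e⟩ : ∃ ε, 2 * ε + θ = 1 := ⟨(1 - θ) / 2, by ring⟩
  have hε : 0 < ε := by linarith
  refine ⟨ε, hε, ε * c, by positivity, m + |F.b0|, by positivity,
    fun t L CE W N ht hT hL hC hW => ⟨ht, fun p i j hp hi => ⟨?_, ?_, fun hy k h1 h2 hk => ?_⟩⟩⟩
  · have a1 := (hT _ (p j) hi).trans (T_le_cost ht hp)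
    have a2 := hl (toR (p j - p i))
    rw [norm_toR] at a2
    have a3 := db_num3 (a := 0) (s := 0) (m := 0) hε hθ0 e (by simp) (M2 := 0)
      (by simpa using hμ.nonneg _) a2 le_rfl
    linarith
  · have a1 := (hT _ (p j) hi).trans (T_le_cost ht hp)
    have a2 := db_lower hμ (toR (p j - p i))
    rw [← hm] at a2
    have a3 := db_num2 hε hθ0 e hm0 hcm ha a2 hC
    simp only [toR, Prod.fst_sub, Prod.snd_sub, Int.cast_sub] at a1 a3
    unfold Face.cc
    linarith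
  · have a1 := (hT _ (p k) hi).trans (T_le_cost ht (hp.sub le_rfl h1 h2))
    have a2 := (hT _ (p j) hk).trans (T_le_cost ht (hp.sub h1 h2 le_rfl))
    have a3 := hl (toR (p k - p i))
    rw [norm_toR] at a3
    have a4 := hμ.add_le (toR (p k - p i)) (toR (p j - p k))
    rw [show toR (p k - p i) + toR (p j - p k) = (((p j).1 : ℝ) - (p i).1, 0) from
      Prod.ext (by simp [toR]) (by simp [toR, hy]), db_horiz hμ, ← hm] at a4
    have a5 := db_num3 hε hθ0 e ha a4 a3 (hμ.nonneg _)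
    unfold Face.cc
    rw [cost_add h1 h2, hy, sub_self, mul_zero]
    linarith

end coer

section prob
variable {G : Measure ℝ} [IsProbabilityMeasure G] [NullSingletonClass G] (hG : Nice G) (F : Face (mu G))
include hG

theorem memLp_tau {U : Set V} {y x u : ℤ} {h : ℕ} (hc : Conn (U ∩ slabTo y h u) (x, y) (u, y + h))
    (m : ℕ) : MemLp (fun t => tau t U y h x u) m (iidLaw G) := by
  obtain ⟨p, i, j, hp, hi, hj⟩ := hc
  refine (db_memLp_sum hG m (Finset.Ico i j) (edge p)).mono'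
    (measurable_tau U y h x u).aestronglyMeasurable ?_
  filter_upwards [ae_nonneg G hG.hyp.nonneg] with t ht
  rw [Real.norm_of_nonneg (tau_nonneg ht)]
  have := TS_le_cost ht hp
  rwa [hi, hj] at this
theorem integral_tau_le : ∃ C > 0, ∀ (y x u : ℤ) (h : ℕ), 1 ≤ h →
    ∫ t, tau t Set.univ y h x u ∂iidLaw G ≤ C * (|(u : ℝ) - x| + h) ∧
    ∫ t, tau t Set.univ y h x u ^ 2 ∂iidLaw G ≤ C * (|(u : ℝ) - x| + h) ^ 2 := by
  obtain ⟨M1, hM1⟩ : ∃ M, M = ∫ s, s ∂G := ⟨_, rfl⟩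
  obtain ⟨M2, hM2⟩ : ∃ M, M = ∫ s, s ^ 2 ∂G := ⟨_, rfl⟩
  have h2 : 0 ≤ M2 := hM2 ▸ integral_nonneg fun s => sq_nonneg s
  refine ⟨|M1| + 2 * M2 + 1, by positivity, fun y x u h hh => ?_⟩
  have a1 : MemLp (fun t => tau t Set.univ y h x u) 2 (iidLaw G) := by
    simpa using memLp_tau hG (conn_slabTo hh) 2
  have a2 : MemLp (fun t => hseg t (min x u) (max x u) y) 2 (iidLaw G) := by
    simpa [hseg] using db_memLp_sum hG 2 (Finset.Ico (min x u) (max x u)) fun k => s((k, y), (k + 1, y))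
  have a3 : MemLp (fun t => vseg t u y (y + h)) 2 (iidLaw G) := by
    simpa [vseg] using db_memLp_sum hG 2 (Finset.Ico y (y + h)) fun k => s((u, k), (u, k + 1))
  have hcard : ((Finset.Ico y (y + h)).card : ℝ) = h := by simp
  have hd := abs_nonneg ((u : ℝ) - x)
  have hh0 : (0 : ℝ) ≤ h := Nat.cast_nonneg h
  constructor
  · have b1 : ∫ t, hseg t (min x u) (max x u) y ∂iidLaw G = |(u : ℝ) - x| * M1 := by
      rw [← db_card, hM1]
      exact db_int_sum hG _ _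
    have b2 : ∫ t, vseg t u y (y + h) ∂iidLaw G = h * M1 := by
      rw [← hcard, hM1]
      exact db_int_sum hG _ _
    refine (integral_mono_ae (a1.integrable one_le_two)
      ((a2.integrable one_le_two).add (a3.integrable one_le_two))
      ((ae_nonneg G hG.hyp.nonneg).mono fun t ht => tau_le_seg ht hh)).trans ?_
    rw [integral_add' (a2.integrable one_le_two) (a3.integrable one_le_two), b1, b2, ← add_mul,
      mul_comm]
    exact mul_le_mul_of_nonneg_right (by linarith [le_abs_self M1]) (by positivity)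
  · have b1 : ∫ t, hseg t (min x u) (max x u) y ^ 2 ∂iidLaw G ≤ |(u : ℝ) - x| ^ 2 * M2 := by
      rw [← db_card, hM2]
      exact db_int_sum_sq hG _ _
    have b2 : ∫ t, vseg t u y (y + h) ^ 2 ∂iidLaw G ≤ (h : ℝ) ^ 2 * M2 := by
      rw [← hcard, hM2]
      exact db_int_sum_sq hG _ _
    have b3 : ∫ t, tau t Set.univ y h x u ^ 2 ∂iidLaw G ≤
        ∫ t, (2 * hseg t (min x u) (max x u) y ^ 2 + 2 * vseg t u y (y + h) ^ 2) ∂iidLaw G := by
      refine integral_mono_ae a1.integrable_sq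
        ((a2.integrable_sq.const_mul 2).add (a3.integrable_sq.const_mul 2))
        ((ae_nonneg G hG.hyp.nonneg).mono fun t ht => ?_)
      refine (pow_le_pow_left₀ (tau_nonneg ht) (tau_le_seg ht hh) 2).trans ?_
      nlinarith [sq_nonneg (hseg t (min x u) (max x u) y - vseg t u y (y + h))]
    rw [integral_add (a2.integrable_sq.const_mul 2) (a3.integrable_sq.const_mul 2),
      integral_const_mul, integral_const_mul] at b3
    have b4 : 0 ≤ M2 * (|(u : ℝ) - x| * h) := by positivity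
    have b5 : 0 ≤ (|M1| + 1) * (|(u : ℝ) - x| + h) ^ 2 := by positivity
    nlinarith
theorem Face.integrable_c {U : Set V} {y x u : ℤ} {h : ℕ}
    (hc : Conn (U ∩ slabTo y h u) (x, y) (u, y + h)) :
    Integrable (fun t => F.c t U y h x u) (iidLaw G) := by
  have h1 : Integrable (fun t => tau t U y h x u) (iidLaw G) :=
    memLp_one_iff_integrable.1 (by simpa using memLp_tau hG hc 1)
  exact (h1.sub (integrable_const _)).sub (integrable_const _)
theorem Face.integral_c (y x u : ℤ) (h : ℕ) :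
    ∫ t, F.c t Set.univ y h x u ∂iidLaw G = F.ec G Set.univ h (u - x) := by
  rw [Face.ec, ← db_act (isAut_add (x, y)) (db_measurable_c F Set.univ 0 h 0 (u - x))]
  refine integral_congr_ae (Eventually.of_forall fun t => ?_)
  have := tau_shift_univ (t := t) (y := 0) (h := h) (x := 0) (u := u - x) (x, y)
  simp only [zero_add, sub_add_cancel] at this
  simp only [Face.c, ← this, shift, Int.cast_sub, Int.cast_zero, sub_zero]
theorem Face.ec_nonneg {h : ℕ} (hh : 1 ≤ h) (ζ : ℤ) : 0 ≤ F.ec G Set.univ h ζ := by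
  have hc : Conn (Set.univ ∩ slabTo 0 h ζ) (0, 0) (ζ, 0 + h) := conn_slabTo hh
  have h1 : Integrable (fun t => tau t Set.univ 0 h 0 ζ) (iidLaw G) :=
    memLp_one_iff_integrable.1 (by simpa using memLp_tau hG hc 1)
  have h2 : mT G (ζ, 0 + h) ≤ ∫ t, tau t Set.univ 0 h 0 ζ ∂iidLaw G :=
    integral_mono_ae (integrable_T G hG.hyp _ _) h1
      ((ae_nonneg G hG.hyp.nonneg).mono fun t ht => T_le_tau ht hc)
  have h3 := mu_le_mT G hG.hyp (ζ, 0 + h)
  have h4 := (F.supp F.ξn le_rfl F.lt.le).2 (toR (ζ, 0 + h))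
  simp only [toR, zero_add, Int.cast_natCast] at h2 h3 h4
  simp only [Face.ec, Face.c, sub_sub]
  rw [integral_sub h1 (integrable_const _)]
  simp only [integral_const, probReal_univ, smul_eq_mul, one_mul, Int.cast_zero, sub_zero]
  linarith
theorem Face.ec_le_Vb {h s : ℕ} {ζ : ℤ} (h1 : 1 ≤ h) (h2 : h ≤ s) (hm : F.Mid h ζ) :
    F.ec G Set.univ h ζ ≤ F.Vb G s := by
  refine le_max_of_le_right (le_csSup (Set.Finite.bddAbove ?_) ⟨h, ζ, h1, h2, hm, rfl⟩)
  obtain ⟨B, hB⟩ := exists_int_gt ((|F.ξm| + |F.τ1|) * s + 1)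
  refine (((Set.finite_Iic s).prod (Set.finite_Icc (-B) B)).image
    fun q => F.ec G Set.univ q.1 q.2).subset ?_
  rintro _ ⟨k, z, -, a2, a3, rfl⟩
  refine ⟨(k, z), ⟨a2, abs_le.1 ?_⟩, rfl⟩
  have b1 : (k : ℝ) ≤ s := by exact_mod_cast a2
  have b0 : (0 : ℝ) ≤ k := Nat.cast_nonneg k
  have b2 : |(z : ℝ)| ≤ |(z : ℝ) - F.ξm * k| + |F.ξm| * k := by
    have := abs_add_le ((z : ℝ) - F.ξm * k) (F.ξm * k)
    rwa [sub_add_cancel, abs_mul, abs_of_nonneg b0] at this
  have b3 := mul_le_mul_of_nonneg_right (le_abs_self F.τ1) b0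
  have b4 := mul_le_mul_of_nonneg_left b1 (add_nonneg (abs_nonneg F.ξm) (abs_nonneg F.τ1))
  have b5 : |(z : ℝ)| ≤ B := by
    unfold Face.Mid at a3
    linarith
  exact_mod_cast b5
theorem Face.one_le_Vb (s : ℕ) : 1 ≤ F.Vb G s := by
  exact le_max_left _ _
theorem Face.Vb_mono {s s' : ℕ} (h : s ≤ s') : F.Vb G s ≤ F.Vb G s' := by
  refine max_le (F.one_le_Vb hG s') (Real.sSup_le ?_ (zero_le_one.trans (F.one_le_Vb hG s')))
  rintro _ ⟨k, z, a1, a2, a3, rfl⟩
  exact F.ec_le_Vb hG a1 (a2.trans h) a3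
theorem Face.Vb_le {s : ℕ} {U : ℝ} (hU : 1 ≤ U)
    (h : ∀ (h : ℕ) (ζ : ℤ), 1 ≤ h → h ≤ s → F.Mid h ζ → F.ec G Set.univ h ζ ≤ U) : F.Vb G s ≤ U := by
  refine max_le hU (Real.sSup_le ?_ (zero_le_one.trans hU))
  rintro _ ⟨k, z, a1, a2, a3, rfl⟩
  exact h k z a1 a2 a3
theorem Face.Vb_refl (F' : Face (mu G)) (h1 : F'.a0 = -F.a0) (h2 : F'.b0 = F.b0) (h3 : F'.ξn = -F.ξp)
    (h4 : F'.ξp = -F.ξn) (s : ℕ) : F'.Vb G s = F.Vb G s := by
  have e1 : ∀ (h : ℕ) (ζ : ℤ), F'.Mid h ζ ↔ F.Mid h (-ζ) := fun h ζ => by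
    simp only [Face.Mid, Face.ξm, Face.τ1, h3, h4, Int.cast_neg]
    rw [← abs_neg]
    refine Eq.to_iff ?_
    congr 2 <;> ring
  have e2 : ∀ (h : ℕ) (ζ : ℤ), F'.ec G Set.univ h ζ = F.ec G Set.univ h (-ζ) := fun h ζ => by
    rw [Face.ec, Face.ec, ← db_act isAut_reflX (db_measurable_c F' Set.univ 0 h 0 ζ)]
    refine integral_congr_ae (Eventually.of_forall fun t => ?_)
    simp only [Face.c, tau_reflX, Set.image_univ, isAut_reflX.bij.2.range_eq, neg_zero, h1, h2,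
      Int.cast_neg, Int.cast_zero]
    ring
  unfold Face.Vb
  congr 2
  ext r
  constructor
  · rintro ⟨h, ζ, a1, a2, a3, rfl⟩
    exact ⟨h, -ζ, a1, a2, (e1 h ζ).1 a3, e2 h ζ⟩
  · rintro ⟨h, ζ, a1, a2, a3, rfl⟩
    exact ⟨h, -ζ, a1, a2, (e1 h (-ζ)).2 (by rwa [neg_neg]), by rw [e2, neg_neg]⟩
/-- `lowLD_global` with `ε` small: `μ d - ρ·d ≥ c|d.1| - C|d.2|`; for a return to the same row through `p k`,
`|a0| |s| ≤ (|a0|/μ(1,0)) (μ d1 + μ d2)`; `log N ≤ 11 W` -/
theorem Face.coer_prob : ∃ c1 > 0, ∃ CE > 0, ∀ (hmax : ℕ) (W : ℝ), F.Scale G hmax W → ∀ N : ℕ, 2 ≤ N →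
    N ≤ hmax ^ 11 → (iidLaw G).real {t | ¬ F.Coer c1 CE W N t} ≤ 1 / N := by
  obtain ⟨ε, hε, c1, hc1, C1, hC1, hco⟩ := db_coer (symNorm_mu G hG.hyp) F
  obtain ⟨C, hC, hL⟩ := lowLD_global G hG.hyp hε
  refine ⟨c1, hc1, C1 + 22 * C, by positivity, fun hmax W hS N h2 hN => ?_⟩
  have h2' : (2 : ℝ) ≤ N := by exact_mod_cast h2
  have hl0 : 0 ≤ Real.log N := Real.log_nonneg (by linarith)
  have hl : Real.log N ≤ 11 * W := by
    have a1 : (N : ℝ) ≤ (hmax : ℝ) ^ 11 := by exact_mod_cast hN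
    have a2 := Real.log_le_log (by linarith) a1
    rw [Real.log_pow] at a2
    have a3 := hS.log_le
    push_cast at a2
    linarith
  refine (lld_mono (ae_nonneg G hG.hyp.nonneg) fun t ht hn => ?_).trans (hL N h2')
  by_contra hcon
  refine hn (hco t (C * Real.log N) _ W N ht (fun x y hx => ?_) (by positivity) (by linarith) ?_)
  · exact not_lt.1 fun hlt => hcon ⟨x, y, hx, hlt⟩
  · have a1 := mul_le_mul_of_nonneg_left hl hC.le
    have a2 := mul_nonneg hC1.le (zero_le_one.trans hS.one_le)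
    linarith
end prob

end Crest.Agent.R151
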