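import Crest.Agent.R151.DDefs

/-! R151 part D: API of slab passage times. -/

set_option autoImplicit false
open MeasureTheory ProbabilityTheory Crest.ProbabilityR.FirstPassage Filter Topology
open scoped ENNReal

namespace Crest.Agent.R151

section det
variable {t : Env} {U : Set V} {y x u : ℤ} {h : ℕ}

theorem db1_mem {v : V} : v ∈ slabTo y h u ↔ (y ≤ v.2 ∧ v.2 ≤ y + h - 1) ∨ (v.1 = u ∧ v.2 = y + h) := by
  simp only [slabTo, rows, Set.mem_union, Set.mem_setOf_eq, Set.mem_singleton_iff, Prod.ext_iff]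

theorem db1_edge {a b : V} (hab : Adj a b) (ha : a ∈ slabTo y h u) (hb : b ∈ slabTo y h u) :
    s(a, b) ∈ slabEdges y h := by
  rw [db1_mem] at ha hb
  rw [adj_iff] at hab
  refine ⟨fun v hv => ?_, ?_⟩
  · rcases Sym2.mem_iff.1 hv with rfl | rfl <;> omega
  · by_cases h1 : a.2 < y + h
    · exact ⟨a, Sym2.mem_mk_left _ _, h1⟩
    · exact ⟨b, Sym2.mem_mk_right _ _, by omega⟩

theorem db1_rows : rows y (y + h - 1) ⊆ Set.univ ∩ slabTo y h u := fun _ hv => ⟨trivial, Or.inl hv⟩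

theorem db1_adj (u c : ℤ) : Adj (u, c - 1) (u, c) := by
  rw [adj_iff]
  dsimp only
  omega

theorem db1_top (hh : 1 ≤ h) : Conn (Set.univ ∩ slabTo y h u) (u, y + h - 1) (u, y + h) := by
  simpa using (bts_edge (S := Set.univ ∩ slabTo y h u) ⟨trivial, db1_mem.2 (by dsimp only; omega)⟩
    ⟨trivial, db1_mem.2 (by dsimp only; omega)⟩ (db1_adj u (y + h))).conn

theorem db1_conn (hh : 1 ≤ h) : Conn (rows y (y + h - 1)) (x, y) (u, y + h - 1) :=
  conn_rows ⟨le_rfl, by dsimp only; omega⟩ ⟨by dsimp only; omega, le_rfl⟩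

theorem disjoint_slabEdges {y y' : ℤ} {h h' : ℕ} (hy : y + h ≤ y') :
    Disjoint (slabEdges y h) (slabEdges y' h') := by
  refine Set.disjoint_left.2 fun e h1 h2 => ?_
  obtain ⟨v, hv, h3⟩ := h1.2
  have := (h2.1 v hv).1
  omega
theorem slabEdges_mono {y y' : ℤ} {h h' : ℕ} (h1 : y ≤ y') (h2 : y' + h' ≤ y + h) :
    slabEdges y' h' ⊆ slabEdges y h := by
  rintro e ⟨h3, v, hv, h4⟩
  exact ⟨fun w hw => by have := h3 w hw; omega, v, hv, by omega⟩
theorem dependsOnly_tau (U : Set V) (y : ℤ) (h : ℕ) (x u : ℤ) :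
    DependsOnly (fun t => tau t U y h x u) (slabEdges y h ∩ edgesIn U) := by
  intro t t' htt
  refine dependsOnly_TS' _ _ _ t t' fun e he => htt e ⟨?_, fun v hv => (he.1 v hv).1⟩
  induction e using Sym2.ind with
  | h a b => exact db1_edge he.2 (he.1 a (Sym2.mem_mk_left _ _)).2 (he.1 b (Sym2.mem_mk_right _ _)).2
theorem measurable_tau (U : Set V) (y : ℤ) (h : ℕ) (x u : ℤ) : Measurable fun t => tau t U y h x u := by
  exact measurable_TS _ _ _
theorem conn_slabTo (hh : 1 ≤ h) : Conn (Set.univ ∩ slabTo y h u) (x, y) (u, y + h) := by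
  exact ((db1_conn hh).mono db1_rows).trans (db1_top hh)
theorem tau_nonneg (ht : ∀ e, 0 ≤ t e) : 0 ≤ tau t U y h x u := by
  exact TS_nonneg ht
theorem T_le_tau (ht : ∀ e, 0 ≤ t e) (hc : Conn (U ∩ slabTo y h u) (x, y) (u, y + h)) :
    T t (x, y) (u, y + h) ≤ tau t U y h x u := by
  exact T_le_TS ht hc
theorem tau_univ_le (ht : ∀ e, 0 ≤ t e) (hc : Conn (U ∩ slabTo y h u) (x, y) (u, y + h)) :
    tau t Set.univ y h x u ≤ tau t U y h x u := by
  exact TS_anti ht (Set.inter_subset_inter_left _ (Set.subset_univ U)) hc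
theorem tau_eq (ht : ∀ e, 0 ≤ t e) (hh : 1 ≤ h) : tau t Set.univ y h x u =
    TS t (rows y (y + h - 1)) (x, y) (u, y + h - 1) + t s((u, y + h - 1), (u, y + h)) := by
  refine le_antisymm ((TS_triangle ht ((db1_conn hh).mono db1_rows) (db1_top hh)).trans
    (add_le_add (TS_anti ht db1_rows (db1_conn hh)) (TS_le_edge ht ⟨trivial, db1_mem.2 (by dsimp only; omega)⟩
      ⟨trivial, db1_mem.2 (by dsimp only; omega)⟩ (db1_adj u (y + h))))) ?_
  refine le_TS (conn_slabTo hh) fun p i j hp hi hj => ?_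
  obtain ⟨k, h1, h2, h3, h4⟩ := hp.exists_first lip1_snd (c := y + h) (by rw [hi]; dsimp only; omega)
    (by rw [hj])
  have hik : i ≠ k := fun e => by
    rw [← e, hi] at h3
    dsimp only at h3
    omega
  obtain ⟨l, rfl⟩ : ∃ l, k = l + 1 := ⟨k - 1, by omega⟩
  have h5 := db1_mem.1 (hp.2.1 (l + 1) h1 h2).2
  have h6 := (adj_iff _ _).1 (hp.2.2 l (by omega) (by omega))
  have h7 := h4 l (by omega) (by omega)
  have e1 : p (l + 1) = (u, y + h) := Prod.ext (by dsimp only; omega) h3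
  have e2 : p l = (u, y + h - 1) := Prod.ext (by dsimp only; omega) (by dsimp only; omega)
  have h8 : PathIn (rows y (y + h - 1)) p i l := (hp.sub le_rfl (by omega) (by omega)).restrict fun m a b => by
    have := db1_mem.1 (hp.2.1 m a (by omega)).2
    have := h4 m a (by omega)
    exact ⟨by omega, by omega⟩
  have h9 := TS_le_cost ht h8
  rw [hi, e2] at h9
  refine le_trans ?_ (cost_sub_le ht le_rfl h2)
  rw [cost_succ (by omega), edge, e1, e2]
  exact add_le_add h9 le_rfl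
theorem tau_le_seg (ht : ∀ e, 0 ≤ t e) (hh : 1 ≤ h) :
    tau t Set.univ y h x u ≤ hseg t (min x u) (max x u) y + vseg t u y (y + h) := by
  have hr : ∀ k : ℤ, (k, y) ∈ Set.univ ∩ slabTo y h u := fun k => ⟨trivial, db1_mem.2 (by dsimp only; omega)⟩
  have hv : ∀ k, y ≤ k → k ≤ y + h → (u, k) ∈ Set.univ ∩ slabTo y h u := fun k a b =>
    ⟨trivial, db1_mem.2 (by dsimp only; omega)⟩
  have c1 : Conn (Set.univ ∩ slabTo y h u) (x, y) (u, y) :=
    (conn_rows (a := y) (b := y + h - 1) ⟨le_rfl, by dsimp only; omega⟩ ⟨le_rfl, by dsimp only; omega⟩).mono db1_rows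
  refine (TS_triangle ht c1 (pathIn_vseg (by omega) hv).conn).trans (add_le_add ?_ (TS_le_vseg ht (by omega) hv))
  rcases le_total x u with h1 | h1
  · rw [min_eq_left h1, max_eq_right h1]
    exact TS_le_hseg ht h1 fun k _ _ => hr k
  · rw [min_eq_right h1, max_eq_left h1, TS_comm]
    exact TS_le_hseg ht h1 fun k _ _ => hr k
theorem tau_concat (ht : ∀ e, 0 ≤ t e) {h1 h2 : ℕ} (a1 : 1 ≤ h1) (a2 : 1 ≤ h2) (v : ℤ) :
    tau t Set.univ y (h1 + h2) x u ≤ tau t Set.univ y h1 x v + tau t Set.univ (y + h1) h2 v u := by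
  have s1 : Set.univ ∩ slabTo y h1 v ⊆ Set.univ ∩ slabTo y (h1 + h2) u := fun z hz =>
    ⟨trivial, db1_mem.2 (by have := db1_mem.1 hz.2; omega)⟩
  have s2 : Set.univ ∩ slabTo (y + h1) h2 u ⊆ Set.univ ∩ slabTo y (h1 + h2) u := fun z hz =>
    ⟨trivial, db1_mem.2 (by have := db1_mem.1 hz.2; omega)⟩
  have c1 := conn_slabTo (y := y) (x := x) (u := v) a1
  have c2 := conn_slabTo (y := y + h1) (x := v) (u := u) a2
  rw [tau, show y + ((h1 + h2 : ℕ) : ℤ) = y + h1 + h2 by omega]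
  exact (TS_triangle ht (c1.mono s1) (c2.mono s2)).trans (add_le_add (TS_anti ht s1 c1) (TS_anti ht s2 c2))
theorem tau_monge (ht : ∀ e, 0 ≤ t e) (hh : 1 ≤ h) {x' u' : ℤ} (hx : x ≤ x') (hu : u ≤ u') :
    tau t Set.univ y h x u + tau t Set.univ y h x' u' ≤
      tau t Set.univ y h x u' + tau t Set.univ y h x' u := by
  have := monge ht (a := y) (b := y + h - 1) (by omega) hx hu
  simp only [tau_eq ht hh]
  linarith
theorem tau_shift (v : V) : tau (shift v t) U y h x u =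
    tau t ((fun z => z + v) '' U) (y + v.2) h (x + v.1) (u + v.1) := by
  have e : (fun z => z + v) '' slabTo y h u = slabTo (y + v.2) h (u + v.1) := by
    ext z
    rw [Set.image_add_right, Set.mem_preimage, db1_mem, db1_mem]
    simp only [Prod.fst_add, Prod.snd_add, Prod.fst_neg, Prod.snd_neg]
    omega
  rw [tau, shift, TS_act (isAut_add v), Set.image_inter (isAut_add v).bij.1, e, tau]
  congr 1
  exact Prod.ext rfl (add_right_comm _ _ _)
theorem tau_shift_univ (v : V) : tau (shift v t) Set.univ y h x u =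
    tau t Set.univ (y + v.2) h (x + v.1) (u + v.1) := by
  rw [tau_shift, Set.image_univ_of_surjective (isAut_add v).bij.2]
theorem tau_reflX : tau (act reflX t) U y h x u = tau t (reflX '' U) y h (-x) (-u) := by
  have e : reflX '' slabTo y h u = slabTo y h (-u) := by
    ext z
    constructor
    · rintro ⟨w, hw, rfl⟩
      rw [db1_mem] at hw ⊢
      simp only [reflX]
      omega
    · intro hz
      refine ⟨reflX z, ?_, by simp [reflX]⟩
      rw [db1_mem] at hz ⊢
      simp only [reflX]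
      omega
  rw [tau, TS_act isAut_reflX, Set.image_inter isAut_reflX.bij.1, e, tau]
  rfl
theorem Cross.tau_le (ht : ∀ e, 0 ≤ t e) {p : ℤ → V} {i j : ℤ} (hp : Cross y h p i j) :
    tau t Set.univ y h (p i).1 (p j).1 ≤ cost t p i j := by
  have := TS_le_cost ht hp.1
  rw [tau, Set.univ_inter, show ((p i).1, y) = p i from Prod.ext rfl hp.2.1.symm,
    show ((p j).1, y + h) = p j from Prod.ext rfl hp.2.2.symm]
  exact this
theorem Cross.edge_mem {p : ℤ → V} {i j k : ℤ} (hp : Cross y h p i j) (h1 : i ≤ k) (h2 : k < j) :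
    edge p k ∈ slabEdges y h := by
  exact db1_edge (hp.1.2.2 k h1 h2) (hp.1.2.1 k h1 h2.le) (hp.1.2.1 (k + 1) (by omega) (by omega))
/-- the sub-crossing of the rows `[y', y'+h')`, ending at the FIRST visit of row `y'+h'` -/
theorem PathIn.exists_cross {S : Set V} {p : ℤ → V} {i j y' : ℤ} {h' : ℕ} (hp : PathIn S p i j)
    (hh : 1 ≤ h') (h1 : (p i).2 ≤ y') (h2 : y' + h' ≤ (p j).2) :
    ∃ i' j', i ≤ i' ∧ i' < j' ∧ j' ≤ j ∧ Cross y' h' p i' j' ∧ (∀ l, i ≤ l → l < j' → (p l).2 < y' + h') ∧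
      (∀ l, i' < l → l ≤ j' → y' < (p l).2) := by
  obtain ⟨i', j', a1, a2, a3, a4, a5, a6, a7, a8⟩ := hp.exists_crossing h1 (by omega) h2
  have hne : i' ≠ j' := fun e => by
    rw [e] at a4
    omega
  refine ⟨i', j', a1, by omega, a3, ⟨a6.restrict fun k b1 b2 => db1_mem.2 ?_, a4, a5⟩, a7, a8⟩
  rcases eq_or_lt_of_le b2 with rfl | b3
  · exact Or.inr ⟨rfl, a5⟩
  · have := a7 k (by omega) b3
    exact Or.inl ⟨(a6.2.1 k b1 b2).2.1, by omega⟩
end det

end Crest.Agent.R151
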