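import Crest.Agent.R151.DBasic1

/-! R151 part D: API of the face. -/

set_option autoImplicit false
open MeasureTheory ProbabilityTheory Crest.ProbabilityR.FirstPassage Filter Topology
open scoped ENNReal

namespace Crest.Agent.R151

section face
variable {μ : ℝ × ℝ → ℝ} (hμ : SymNorm μ) (F : Face μ)
include hμ

theorem Face.τ1_pos : 0 < F.τ1 := by
  have := F.lt
  unfold Face.τ1
  linarith

theorem Face.η_nonneg (ξ : ℝ) : 0 ≤ F.η ξ := by
  have := (F.supp F.ξp F.lt.le le_rfl).2 (ξ, 1)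
  unfold Face.η
  simp only [mul_one] at this
  linarith

theorem Face.η_convex : ConvexOn ℝ Set.univ F.η := by
  refine ⟨convex_univ, fun x _ y _ a b ha hb hab => ?_⟩
  have h := hμ.convexOn.2 (Set.mem_univ (x, 1)) (Set.mem_univ (y, 1)) ha hb hab
  have e : a • ((x, 1) : ℝ × ℝ) + b • ((y, 1) : ℝ × ℝ) = (a • x + b • y, 1) := by
    ext <;> simp [hab]
  rw [e] at h
  simp only [Face.η, smul_eq_mul] at h ⊢
  have e2 : F.b0 = (a + b) * F.b0 := by rw [hab, one_mul]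
  nlinarith

/-- linear growth, from `steep` -/
theorem Face.η_growth : ∃ c > 0, ∃ C, ∀ ξ, c * |ξ| - C ≤ F.η ξ := by
  refine ⟨μ (1, 0) - |F.a0|, sub_pos.2 F.steep, μ (0, -1) + F.b0, fun ξ => ?_⟩
  have h1 := hμ.add_le (ξ, 1) (0, -1)
  have h2 := hμ.smul ξ (1, 0)
  have e1 : ((ξ, 1) : ℝ × ℝ) + (0, -1) = ξ • ((1, 0) : ℝ × ℝ) := by ext <;> simp
  rw [e1, h2] at h1
  have h3 : F.a0 * ξ ≤ |F.a0| * |ξ| := by rw [← abs_mul]; exact le_abs_self _
  unfold Face.η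
  nlinarith

omit hμ in
theorem Face.dbasic2_zero : F.η F.ξp = 0 := by
  have := (F.supp F.ξp F.lt.le le_rfl).1
  unfold Face.η
  linarith

theorem Face.dbasic2_ub : ∃ C > 0, ∀ c s, 0 ≤ c → F.η (F.ξp + s) ≤ c → s ≤ C * (1 + c) := by
  obtain ⟨c1, hc1, C, h⟩ := F.η_growth hμ
  refine ⟨(1 + |C|) / c1 + |F.ξp|, by positivity, fun c s hc hs => ?_⟩
  have h1 : |F.ξp + s| ≤ (1 + |C|) / c1 * (1 + c) := by
    rw [div_mul_eq_mul_div, le_div_iff₀ hc1]
    nlinarith [h (F.ξp + s), le_abs_self C, mul_nonneg (abs_nonneg C) hc]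
  nlinarith [le_abs_self (F.ξp + s), neg_abs_le F.ξp, mul_nonneg (abs_nonneg F.ξp) hc]

theorem Face.dbasic2_bdd {c : ℝ} (hc : 0 ≤ c) : BddAbove {s | 0 ≤ s ∧ F.η (F.ξp + s) ≤ c} := by
  obtain ⟨C, -, h⟩ := F.dbasic2_ub hμ
  exact ⟨_, fun s hs => h c s hc hs.2⟩

theorem Face.dbasic2_mem {c : ℝ} (hc : 0 ≤ c) : 0 ≤ F.th c ∧ F.η (F.ξp + F.th c) ≤ c := by
  have h1 : Continuous fun s => F.η (F.ξp + s) := by
    have := hμ.continuous
    unfold Face.η
    fun_prop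
  have h2 : IsClosed {s | 0 ≤ s ∧ F.η (F.ξp + s) ≤ c} :=
    (isClosed_le continuous_const continuous_id).inter (isClosed_le h1 continuous_const)
  exact h2.csSup_mem ⟨0, le_rfl, by rwa [add_zero, F.dbasic2_zero]⟩ (F.dbasic2_bdd hμ hc)

theorem Face.th_nonneg {c : ℝ} (hc : 0 ≤ c) : 0 ≤ F.th c := by
  exact (F.dbasic2_mem hμ hc).1

theorem Face.th_mono {c c' : ℝ} (hc : 0 ≤ c) (h : c ≤ c') : F.th c ≤ F.th c' := by
  exact le_csSup (F.dbasic2_bdd hμ (hc.trans h))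
    ⟨(F.dbasic2_mem hμ hc).1, (F.dbasic2_mem hμ hc).2.trans h⟩

theorem Face.th_le : ∃ C > 0, ∀ c, 0 ≤ c → F.th c ≤ C * (1 + c) := by
  obtain ⟨C, hC, h⟩ := F.dbasic2_ub hμ
  exact ⟨C, hC, fun c hc => h c _ hc (F.dbasic2_mem hμ hc).2⟩

theorem Face.η_th_le {c : ℝ} (hc : 0 ≤ c) : F.η (F.ξp + F.th c) ≤ c := by
  exact (F.dbasic2_mem hμ hc).2

theorem Face.le_of_η_le {c ξ : ℝ} (hc : 0 ≤ c) (h : F.η ξ ≤ c) : ξ ≤ F.ξp + F.th c := by
  rcases le_total ξ F.ξp with h1 | h1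
  · linarith [F.th_nonneg hμ hc]
  · have : ξ - F.ξp ≤ F.th c := le_csSup (F.dbasic2_bdd hμ hc)
      ⟨sub_nonneg.2 h1, by rwa [add_sub_cancel]⟩
    linarith

theorem Face.th_small {ε : ℝ} (hε : 0 < ε) : ∃ c0 > 0, F.th c0 ≤ ε := by
  have h0 : 0 < F.η (F.ξp + ε) := by
    have := F.right (F.ξp + ε) (by linarith)
    unfold Face.η
    linarith
  refine ⟨F.η (F.ξp + ε) / 2, half_pos h0, le_of_not_gt fun hlt => ?_⟩
  have h1 := F.η_th_le hμ (half_pos h0).le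
  set s := F.th (F.η (F.ξp + ε) / 2)
  have hs : 0 < s := hε.trans hlt
  have h2 : ε / s ≤ 1 := (div_le_one hs).2 hlt.le
  have h3 := (F.η_convex hμ).2 (Set.mem_univ F.ξp) (Set.mem_univ (F.ξp + s)) (sub_nonneg.2 h2)
    (div_pos hε hs).le (sub_add_cancel _ _)
  have e : (1 - ε / s) • F.ξp + (ε / s) • (F.ξp + s) = F.ξp + ε := by
    simp only [smul_eq_mul]
    field_simp
    ring
  rw [e, F.dbasic2_zero, smul_zero, zero_add, smul_eq_mul] at h3
  nlinarith [F.η_nonneg hμ (F.ξp + s)]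

theorem Face.exists_mid (h : ℕ) : F.Mid h ⌊F.ξm * h⌋ := by
  have h1 := mul_nonneg (F.τ1_pos hμ).le (Nat.cast_nonneg (α := ℝ) h)
  unfold Face.Mid
  rw [abs_le]
  constructor <;> linarith [Int.floor_le (F.ξm * h), Int.lt_floor_add_one (F.ξm * h)]

omit hμ in
theorem Face.cc_add (t : Env) (p : ℤ → V) {i j k : ℤ} (h1 : i ≤ j) (h2 : j ≤ k) :
    F.cc t p i k = F.cc t p i j + F.cc t p j k := by
  unfold Face.cc
  rw [cost_add h1 h2]
  ring

omit hμ in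
theorem Face.c_le_cc {t : Env} (ht : ∀ e, 0 ≤ t e) {y : ℤ} {h : ℕ} {p : ℤ → V} {i j : ℤ}
    (hp : Cross y h p i j) : F.c t Set.univ y h (p i).1 (p j).1 ≤ F.cc t p i j := by
  have h1 := hp.tau_le ht
  unfold Face.c Face.cc
  rw [hp.2.1, hp.2.2]
  push_cast
  linarith

omit hμ in
theorem Face.dbasic2_LL (t : Env) (y : ℤ) (h : ℕ) (k : ℤ) (R : ℕ) : BddAbove
    {s | s = 0 ∨ ∃ x u : ℤ, |x - k| ≤ R ∧ |u - k| ≤ R ∧ s = -F.c t Set.univ y h x u} := by
  refine ((((Set.finite_Icc (k - R) (k + R)).prod (Set.finite_Icc (k - R) (k + R))).image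
    fun q : ℤ × ℤ => -F.c t Set.univ y h q.1 q.2).insert 0).bddAbove.mono ?_
  rintro s (rfl | ⟨x, u, hx, hu, rfl⟩)
  · exact Set.mem_insert _ _
  · rw [abs_le] at hx hu
    exact Set.mem_insert_of_mem _ ⟨(x, u), ⟨⟨by omega, by omega⟩, by omega, by omega⟩, rfl⟩

omit hμ in
theorem Face.neg_c_le_LL (t : Env) (y : ℤ) (h : ℕ) {k x u : ℤ} {R : ℕ} (hx : |x - k| ≤ R)
    (hu : |u - k| ≤ R) : -F.c t Set.univ y h x u ≤ F.LL t y h k R := by
  exact le_csSup (F.dbasic2_LL t y h k R) (Or.inr ⟨x, u, hx, hu, rfl⟩)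

omit hμ in
theorem Face.LL_nonneg (t : Env) (y : ℤ) (h : ℕ) (k : ℤ) (R : ℕ) : 0 ≤ F.LL t y h k R := by
  exact le_csSup (F.dbasic2_LL t y h k R) (Or.inl rfl)

omit hμ in
theorem Face.measurable_LL (y : ℤ) (h : ℕ) (k : ℤ) (R : ℕ) : Measurable fun t => F.LL t y h k R := by
  have e : (fun t => F.LL t y h k R) = fun t => ⨆ q : ℤ × ℤ,
      if |q.1 - k| ≤ R ∧ |q.2 - k| ≤ R then -F.c t Set.univ y h q.1 q.2 else 0 := by
    funext t
    refine congrArg sSup (Set.ext fun s => ⟨?_, ?_⟩)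
    · rintro (rfl | ⟨x, u, hx, hu, rfl⟩)
      · refine ⟨(k + R + 1, k), if_neg fun h' => ?_⟩
        have := (abs_le.1 h'.1).2
        simp only at this
        omega
      · exact ⟨(x, u), if_pos ⟨hx, hu⟩⟩
    · rintro ⟨q, rfl⟩
      simp only
      split_ifs with h'
      · exact Or.inr ⟨q.1, q.2, h'.1, h'.2, rfl⟩
      · exact Or.inl rfl
  rw [e]
  refine Measurable.iSup fun q => ?_
  split_ifs
  · exact (((measurable_tau _ _ _ _ _).sub_const _).sub_const _).neg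
  · exact measurable_const

omit hμ in
theorem Face.dependsOnly_LL (y : ℤ) (h : ℕ) (k : ℤ) (R : ℕ) :
    DependsOnly (fun t => F.LL t y h k R) (slabEdges y h) := by
  intro t t' ht
  have e : ∀ x u, F.c t Set.univ y h x u = F.c t' Set.univ y h x u := fun x u => by
    unfold Face.c
    rw [show tau t Set.univ y h x u = tau t' Set.univ y h x u from
      dependsOnly_tau Set.univ y h x u t t' fun e he => ht e he.1]
  simp only [Face.LL, e]

omit hμ in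
theorem Face.LL_shift (t : Env) (v : V) (y : ℤ) (h : ℕ) (k : ℤ) (R : ℕ) :
    F.LL (shift v t) y h k R = F.LL t (y + v.2) h (k + v.1) R := by
  have e : ∀ x u, F.c (shift v t) Set.univ y h x u =
      F.c t Set.univ (y + v.2) h (x + v.1) (u + v.1) := fun x u => by
    unfold Face.c
    rw [tau_shift_univ]
    push_cast
    ring
  refine congrArg sSup (Set.ext fun s => or_congr_right ⟨?_, ?_⟩)
  · rintro ⟨x, u, hx, hu, rfl⟩
    exact ⟨x + v.1, u + v.1, by rwa [add_sub_add_right_eq_sub], by rwa [add_sub_add_right_eq_sub],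
      by rw [e]⟩
  · rintro ⟨x, u, hx, hu, rfl⟩
    exact ⟨x - v.1, u - v.1, by rwa [sub_sub, add_comm], by rwa [sub_sub, add_comm],
      by rw [e, sub_add_cancel, sub_add_cancel]⟩


/-- the mirror image of a face -/
theorem Face.exists_refl : ∃ F' : Face μ, F'.a0 = -F.a0 ∧ F'.b0 = F.b0 ∧ F'.ξn = -F.ξp ∧ F'.ξp = -F.ξn := by
  have hr : ∀ ξ : ℝ, μ (-ξ, 1) = μ (ξ, 1) := fun ξ => hμ.refl (ξ, 1)
  have hs : ∀ ξ a b, Supp μ (-ξ) a b → Supp μ ξ (-a) b := fun ξ a b h =>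
    ⟨by rw [← hr, ← h.1]; ring, fun v => by
      have := h.2 (-v.1, v.2)
      rw [hμ.refl] at this
      simp only at this
      linarith⟩
  refine ⟨⟨-F.a0, F.b0, -F.ξp, -F.ξn, neg_lt_neg F.lt, fun ξ h1 h2 =>
    hs ξ _ _ (F.supp (-ξ) (by linarith) (by linarith)), fun ξ h => ?_, fun ξ h => ?_,
    by rw [abs_neg]; exact F.steep, ?_⟩, rfl, rfl, rfl, rfl⟩
  · have := F.left (-ξ) (by linarith)
    rw [hr] at this
    linarith
  · have := F.right (-ξ) (by linarith)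
    rw [hr] at this
    linarith
  · obtain ⟨ι, hι, A, hA, h⟩ := F.near
    refine ⟨ι, hι, A, hA, fun ξ h1 h2 => ?_⟩
    obtain ⟨a, b, ha, hab⟩ := h (-ξ) (by linarith) (by linarith)
    exact ⟨-a, b, by rwa [abs_neg], hs ξ a b hab⟩

end face

end Crest.Agent.R151
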