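import Crest.Agent.R151.Base

/-! R151 part D (blueprint `BlueD`): definitions. -/

set_option autoImplicit false
open MeasureTheory ProbabilityTheory Crest.ProbabilityR.FirstPassage Filter Topology
open scoped ENNReal

namespace Crest.Agent.R151

/-- rows `y .. y+h-1` and the single point `(u, y+h)` of the top row -/
def slabTo (y : ℤ) (h : ℕ) (u : ℤ) : Set V := rows y (y + h - 1) ∪ {(u, y + h)}

/-- the pairs read by passage times through the slab `[y, y+h)` -/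
def slabEdges (y : ℤ) (h : ℕ) : Set (Sym2 V) :=
  {e | (∀ v ∈ e, y ≤ v.2 ∧ v.2 ≤ y + h) ∧ ∃ v ∈ e, v.2 < y + h}

/-- passage time through the slab `[y,y+h)` from `(x,y)` to `(u,y+h)`, inside `U` -/
noncomputable def tau (t : Env) (U : Set V) (y : ℤ) (h : ℕ) (x u : ℤ) : ℝ :=
  TS t (U ∩ slabTo y h u) (x, y) (u, y + h)

/-- what part D uses of the exponential law -/
structure Nice (G : Measure ℝ) : Prop where
  hyp : Hyp G
  mom : ∀ m : ℕ, Integrable (fun s : ℝ => |s| ^ m) G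
  logc : ∀ (S : Set V) (x y : V) (u v : ℝ),
    (iidLaw G).real {t | u ≤ TS t S x y} * (iidLaw G).real {t | v ≤ TS t S x y} ≤
      (iidLaw G).real {t | (u + v) / 2 ≤ TS t S x y} ^ 2

/-- `(a,b)` is a supporting functional of `μ` at `(ξ,1)` -/
def Supp (μ : ℝ × ℝ → ℝ) (ξ a b : ℝ) : Prop :=
  a * ξ + b = μ (ξ, 1) ∧ ∀ v : ℝ × ℝ, a * v.1 + b * v.2 ≤ μ v

/-- a flat face of `μ` in the upper half plane -/
structure Face (μ : ℝ × ℝ → ℝ) where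
  a0 : ℝ
  b0 : ℝ
  ξn : ℝ
  ξp : ℝ
  lt : ξn < ξp
  supp : ∀ ξ, ξn ≤ ξ → ξ ≤ ξp → Supp μ ξ a0 b0
  right : ∀ ξ, ξp < ξ → a0 * ξ + b0 < μ (ξ, 1)
  left : ∀ ξ, ξ < ξn → a0 * ξ + b0 < μ (ξ, 1)
  steep : |a0| < μ (1, 0)
  near : ∃ ι > 0, ∃ A < μ (1, 0), ∀ ξ, ξn - ι ≤ ξ → ξ ≤ ξp + ι → ∃ a b, |a| ≤ A ∧ Supp μ ξ a b

namespace Face
variable {μ : ℝ × ℝ → ℝ} (F : Face μ)

noncomputable def ξm : ℝ := (F.ξn + F.ξp) / 2
noncomputable def τ1 : ℝ := (F.ξp - F.ξn) / 4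
/-- excess of `μ` over the face functional -/
noncomputable def η (ξ : ℝ) : ℝ := μ (ξ, 1) - F.a0 * ξ - F.b0
/-- how far beyond the right end of the face the excess rate `c` allows to go -/
noncomputable def th (c : ℝ) : ℝ := sSup {s | 0 ≤ s ∧ F.η (F.ξp + s) ≤ c}
/-- reduced slab passage time -/
noncomputable def c (t : Env) (U : Set V) (y : ℤ) (h : ℕ) (x u : ℤ) : ℝ :=
  tau t U y h x u - F.a0 * ((u : ℝ) - x) - F.b0 * h
/-- reduced cost of a path segment -/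
noncomputable def cc (t : Env) (p : ℤ → V) (i j : ℤ) : ℝ :=
  cost t p i j - F.a0 * (((p j).1 : ℝ) - (p i).1) - F.b0 * (((p j).2 : ℝ) - (p i).2)
/-- displacement `ζ` over height `h` is in the middle of the face -/
def Mid (h : ℕ) (ζ : ℤ) : Prop := |(ζ : ℝ) - F.ξm * h| ≤ F.τ1 * h + 1
/-- mean reduced passage time from `(0,0)` to `(ζ,h)` -/
noncomputable def ec (G : Measure ℝ) (U : Set V) (h : ℕ) (ζ : ℤ) : ℝ :=
  ∫ t, F.c t U 0 h 0 ζ ∂iidLaw G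
/-- the bias function `V` -/
noncomputable def Vb (G : Measure ℝ) (s : ℕ) : ℝ :=
  max 1 (sSup {x | ∃ (h : ℕ) (ζ : ℤ), 1 ≤ h ∧ h ≤ s ∧ F.Mid h ζ ∧ x = F.ec G Set.univ h ζ})
/-- most negative boundary to boundary cost in the window of radius `R` around column `k` -/
noncomputable def LL (t : Env) (y : ℤ) (h : ℕ) (k : ℤ) (R : ℕ) : ℝ :=
  sSup {s | s = 0 ∨ ∃ x u : ℤ, |x - k| ≤ R ∧ |u - k| ≤ R ∧ s = -F.c t Set.univ y h x u}

/-- a range of heights `≤ hmax` on which the bias is controlled by `W` -/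
structure Scale (G : Measure ℝ) (hmax : ℕ) (W : ℝ) : Prop where
  two_le : 2 ≤ hmax
  one_le : 1 ≤ W
  log_le : Real.log hmax ≤ W
  Vb_le : ∀ n : ℕ, 1 ≤ n → F.Vb G (n * hmax) ≤ W * (n : ℝ) ^ (9 / 10 : ℝ)

/-- the global lower bounds (event `E_N` of the blueprint) -/
def Coer (c1 CE W : ℝ) (N : ℕ) (t : Env) : Prop :=
  (∀ e, 0 ≤ t e) ∧ ∀ p i j, PathIn Set.univ p i j → (nrm (p i) : ℝ) ≤ (N : ℝ) ^ 2 →
    c1 * nrm (p j - p i) - CE * W ≤ cost t p i j ∧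
    c1 * |((p j).1 : ℝ) - (p i).1| - CE * |((p j).2 : ℝ) - (p i).2| - CE * W ≤ F.cc t p i j ∧
    ((p j).2 = (p i).2 → ∀ k, i ≤ k → k ≤ j → (nrm (p k) : ℝ) ≤ (N : ℝ) ^ 2 →
      c1 * nrm (p k - p i) - CE * W ≤ F.cc t p i j)

end Face

/-- points within horizontal distance `w` of the line through `0` and `(ζ,ℓ)` -/
def tube (ℓ : ℕ) (ζ : ℤ) (w : ℝ) : Set V := {v | |(v.1 : ℝ) - v.2 * (ζ / ℓ)| ≤ w}

/-- `p` on `i..j` crosses the slab `[y,y+h)` -/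
def Cross (y : ℤ) (h : ℕ) (p : ℤ → V) (i j : ℤ) : Prop :=
  PathIn (slabTo y h (p j).1) p i j ∧ (p i).2 = y ∧ (p j).2 = y + h

/-- Output of part D1: straight cheap highways along the right end of the face. -/
def HighwayStmt (G : Measure ℝ) (F : Face (mu G)) : Prop :=
  ∃ CH > 0, ∀ ε > (0 : ℝ), ∃ r1 : ℝ, 1 ≤ r1 ∧ ∀ (m : ℕ) (W : ℝ), F.Scale G (2 ^ m) W →
    ∃ e : ℕ → ℝ, (∀ i, 0 ≤ e i) ∧ ∑ i ∈ Finset.range (m + 1), e i ≤ ε ∧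
      ∀ i ≤ m, r1 * W ≤ 2 ^ i → ∃ ζ : ℤ, |(ζ : ℝ) / 2 ^ i - F.ξp| ≤ ε ∧
        Conn (tube (2 ^ i) ζ (e i * 2 ^ i) ∩ slabTo 0 (2 ^ i) ζ) (0, 0) (ζ, (2 ^ i : ℕ)) ∧
        Integrable (fun t => F.c t (tube (2 ^ i) ζ (e i * 2 ^ i)) 0 (2 ^ i) 0 ζ) (iidLaw G) ∧
        F.ec G (tube (2 ^ i) ζ (e i * 2 ^ i)) (2 ^ i) ζ ≤ CH * W

end Crest.Agent.R151
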