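import Mathlib
import Crest.Prelude.Def_PlanarFPP

/-!
# R151 (planar first-passage percolation): definitions

Paths are functions `p : ℤ → V` read on an index interval `[i,j]`; this covers finite paths, rays
and bigeodesics.  See `BlueA`, `BlueC`, `BlueD` for the paper proofs of the three parts.
-/

set_option autoImplicit false

open MeasureTheory ProbabilityTheory Crest.ProbabilityR.FirstPassage

namespace Crest.Agent.R151

abbrev V : Type := ℤ × ℤ
abbrev Env : Type := Sym2 V → ℝ

/-- lattice adjacency -/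
abbrev Adj (x y : V) : Prop := squareLattice.Adj x y

/-- the sup norm of a lattice point -/
def nrm (x : V) : ℤ := max |x.1| |x.2|

/-- the real vector of a lattice point (its Mathlib norm is the sup norm) -/
def toR (x : V) : ℝ × ℝ := ((x.1 : ℝ), (x.2 : ℝ))

/-- the coordinatewise floor -/
noncomputable def fl (v : ℝ × ℝ) : V := (⌊v.1⌋, ⌊v.2⌋)

/-- `p` is a nearest neighbour path on the indices `i..j`, inside `S` -/
def PathIn (S : Set V) (p : ℤ → V) (i j : ℤ) : Prop :=
  i ≤ j ∧ (∀ k, i ≤ k → k ≤ j → p k ∈ S) ∧ ∀ k, i ≤ k → k < j → Adj (p k) (p (k + 1))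

/-- the `k`-th edge of `p` -/
def edge (p : ℤ → V) (k : ℤ) : Sym2 V := s(p k, p (k + 1))

/-- cost of the segment `i..j` of `p` -/
noncomputable def cost (t : Env) (p : ℤ → V) (i j : ℤ) : ℝ := ∑ k ∈ Finset.Ico i j, t (edge p k)

/-- `x` and `y` are joined inside `S` -/
def Conn (S : Set V) (x y : V) : Prop := ∃ p i j, PathIn S p i j ∧ p i = x ∧ p j = y

/-- passage time among paths inside `S` (junk value `0` if not `Conn S x y`) -/
noncomputable def TS (t : Env) (S : Set V) (x y : V) : ℝ :=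
  sInf {c | ∃ p i j, PathIn S p i j ∧ p i = x ∧ p j = y ∧ c = cost t p i j}

/-- the unrestricted passage time (`= passageTime`, see `T_eq_passageTime`) -/
noncomputable def T (t : Env) (x y : V) : ℝ := TS t Set.univ x y

/-- `p` on `i..j` is a self-avoiding optimal path inside `S` -/
def IsGeo (t : Env) (S : Set V) (p : ℤ → V) (i j : ℤ) : Prop :=
  PathIn S p i j ∧ Set.InjOn p (Set.Icc i j) ∧ cost t p i j = TS t S (p i) (p j)

/-- `p` on `i, i+1, …` is a geodesic ray for the passage time restricted to `S` -/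
def IsRay (t : Env) (S : Set V) (p : ℤ → V) (i : ℤ) : Prop := ∀ j, i ≤ j → IsGeo t S p i j

/-- rows `a..b` -/
def rows (a b : ℤ) : Set V := {v | a ≤ v.2 ∧ v.2 ≤ b}
/-- rows `≥ a` -/
def upper (a : ℤ) : Set V := {v | a ≤ v.2}
/-- rows `≤ b` -/
def lower (b : ℤ) : Set V := {v | v.2 ≤ b}
/-- the rectangle `[a,b] × [c,d]` -/
def box (a b c d : ℤ) : Set V := {v | a ≤ v.1 ∧ v.1 ≤ b ∧ c ≤ v.2 ∧ v.2 ≤ d}
/-- the sup-norm ball -/
def ball (x : V) (r : ℤ) : Set V := {v | nrm (v - x) ≤ r}

/-- the pairs with both endpoints in `S` -/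
def edgesIn (S : Set V) : Set (Sym2 V) := {e | ∀ v ∈ e, v ∈ S}

/-- `f` reads only the weights of the pairs in `U` -/
def DependsOnly {α : Type} (f : Env → α) (U : Set (Sym2 V)) : Prop :=
  ∀ t t' : Env, (∀ e ∈ U, t e = t' e) → f t = f t'

/-- pull back of an environment along a map of the lattice -/
def act (φ : V → V) (t : Env) : Env := fun e => t (e.map φ)

/-- translation of the environment: `(shift v t) s(x,y) = t s(x+v,y+v)` -/
def shift (v : V) (t : Env) : Env := act (fun x => x + v) t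

def reflX (x : V) : V := (-x.1, x.2)
def reflY (x : V) : V := (x.1, -x.2)

/-- a bijection of the lattice preserving adjacency -/
structure IsAut (φ : V → V) : Prop where
  bij : Function.Bijective φ
  adj : ∀ x y, Adj (φ x) (φ y) ↔ Adj x y

/-- regular environments (almost sure, `ae_reg`): positive weights, distinct finite sets of pairs have
distinct total weights, balls of `T` are finite -/
structure Reg (t : Env) : Prop where
  pos : ∀ e, 0 < t e
  sum_ne : ∀ A B : Finset (Sym2 V), A ≠ B → ∑ e ∈ A, t e ≠ ∑ e ∈ B, t e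
  fin : ∀ (x : V) (M : ℝ), {y | T t x y ≤ M}.Finite

/-- the hypotheses of S0213 on the edge law -/
structure Hyp (G : Measure ℝ) : Prop where
  nonneg : G (Set.Iio 0) = 0
  mom : ∫⁻ x, ENNReal.ofReal ((⨅ i, x i) ^ 2) ∂(Measure.pi fun _ : Fin 4 => G) < ⊤

/-- mean passage time -/
noncomputable def mT (G : Measure ℝ) (z : V) : ℝ := ∫ t, T t 0 z ∂(iidLaw G)

/-- the time constant -/
noncomputable def mu (G : Measure ℝ) (v : ℝ × ℝ) : ℝ :=
  Filter.limUnder Filter.atTop fun n : ℕ => mT G (fl ((n : ℝ) • v)) / n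

/-- a norm on the plane with the symmetries of the square lattice -/
structure SymNorm (μ : ℝ × ℝ → ℝ) : Prop where
  add_le : ∀ v w, μ (v + w) ≤ μ v + μ w
  smul : ∀ (c : ℝ) v, μ (c • v) = |c| * μ v
  lower : ∃ c > 0, ∀ v, c * ‖v‖ ≤ μ v
  upper : ∃ C > 0, ∀ v, μ v ≤ C * ‖v‖
  swap : ∀ v : ℝ × ℝ, μ (v.2, v.1) = μ v
  refl : ∀ v : ℝ × ℝ, μ (-v.1, v.2) = μ v

/-- the cost of the straight horizontal segment from `(a,y)` to `(b,y)`, `a ≤ b` -/
noncomputable def hseg (t : Env) (a b y : ℤ) : ℝ := ∑ k ∈ Finset.Ico a b, t s((k, y), (k + 1, y))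
/-- the cost of the straight vertical segment from `(x,c)` to `(x,d)`, `c ≤ d` -/
noncomputable def vseg (t : Env) (x c d : ℤ) : ℝ := ∑ k ∈ Finset.Ico c d, t s((x, k), (x, k + 1))

/-- Bypass variable: total cost of the cheapest `#` around `x` (cheapest of the `K` horizontal segments
of half-length `3K` above `x`, below `x`, and of the vertical ones right and left of `x`). -/
noncomputable def Yv (K : ℕ) (t : Env) (x : V) : ℝ :=
  (⨅ j : Fin K, hseg t (x.1 - 3 * K) (x.1 + 3 * K) (x.2 + (j + 1))) +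
  (⨅ j : Fin K, hseg t (x.1 - 3 * K) (x.1 + 3 * K) (x.2 - (j + 1))) +
  (⨅ j : Fin K, vseg t (x.1 + (j + 1)) (x.2 - 3 * K) (x.2 + 3 * K)) +
  (⨅ j : Fin K, vseg t (x.1 - (j + 1)) (x.2 - 3 * K) (x.2 + 3 * K))

/-- cheapest of the four straight segments of length `K` at `x` (each of them reaches the `#` of `x`) -/
noncomputable def Zv (K : ℕ) (t : Env) (x : V) : ℝ :=
  min (min (hseg t x.1 (x.1 + K) x.2) (hseg t (x.1 - K) x.1 x.2))
    (min (vseg t x.1 x.2 (x.2 + K)) (vseg t x.1 (x.2 - K) x.2))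

/-- the environment in which the useful (`q ≤ t e`) pairs of `C` get the new weights `a e` -/
noncomputable def lowerOn (q : ℝ) (C : Finset (Sym2 V)) (a : Sym2 V → ℝ) (t : Env) : Env :=
  fun e => if e ∈ C ∧ q ≤ t e then a e else t e

/-- probability that a `ϑ`-random subset of `S` has the property `P` -/
noncomputable def coinProb (S : Finset (Sym2 V)) (ϑ : ℝ) (P : Finset (Sym2 V) → Prop) : ℝ := by
  classical
  exact ∑ C ∈ S.powerset, if P C then ϑ ^ C.card * (1 - ϑ) ^ (S.card - C.card) else 0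

end Crest.Agent.R151
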