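import Crest.Agent.R151.GDefs
import Crest.Agent.R151.BPath

/-! # R151 / GAvg: averaging boxes (deterministic)
Keep the statements; helper lemmas get the prefix `gav_`. -/

set_option autoImplicit false
set_option linter.unusedVariables false
set_option linter.unusedSectionVars false

open MeasureTheory ProbabilityTheory Crest.ProbabilityR.FirstPassage Filter Topology

namespace Crest.Agent.R151

theorem avg_mono {B : Finset V} {φ ψ : V → ℝ} (h : ∀ u ∈ B, φ u ≤ ψ u) : avg B φ ≤ avg B ψ := by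
  exact div_le_div_of_nonneg_right (Finset.sum_le_sum h) (Nat.cast_nonneg _)

theorem avg_add (B : Finset V) (φ ψ : V → ℝ) : (avg B fun u => φ u + ψ u) = avg B φ + avg B ψ := by
  simp only [avg, Finset.sum_add_distrib, add_div]

theorem avg_sub (B : Finset V) (φ ψ : V → ℝ) : (avg B fun u => φ u - ψ u) = avg B φ - avg B ψ := by
  simp only [avg, Finset.sum_sub_distrib, sub_div]

theorem avg_const_mul (B : Finset V) (c : ℝ) (φ : V → ℝ) : (avg B fun u => c * φ u) = c * avg B φ := by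
  simp only [avg, ← Finset.mul_sum, mul_div_assoc]

theorem avg_const {B : Finset V} (h : B.Nonempty) (c : ℝ) : (avg B fun _ => c) = c := by
  have : (B.card : ℝ) ≠ 0 := Nat.cast_ne_zero.2 h.card_pos.ne'
  simp only [avg, Finset.sum_const, nsmul_eq_mul]
  field_simp

theorem avg_sum {κ : Type} (B : Finset V) (s : Finset κ) (φ : κ → V → ℝ) :
    (avg B fun u => ∑ i ∈ s, φ i u) = ∑ i ∈ s, avg B (φ i) := by
  simp only [avg, ← Finset.sum_div]
  rw [Finset.sum_comm]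

theorem exists_le_avg {B : Finset V} (h : B.Nonempty) (φ : V → ℝ) : ∃ u ∈ B, φ u ≤ avg B φ := by
  refine Finset.exists_le_of_sum_le h (le_of_eq ?_)
  have : (B.card : ℝ) ≠ 0 := Nat.cast_ne_zero.2 h.card_pos.ne'
  simp only [avg, Finset.sum_const, nsmul_eq_mul]
  field_simp

/-- the square `u₀ + [0, ℓ)²` -/
noncomputable def sqr (u₀ : V) (ℓ : ℕ) : Finset V := Finset.Ico u₀.1 (u₀.1 + ℓ) ×ˢ Finset.Ico u₀.2 (u₀.2 + ℓ)

theorem gav_tel (f : ℤ → ℝ) (a : ℤ) (ℓ : ℕ) :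
    ∑ i ∈ Finset.Ico a (a + ℓ), (f (i - 1) - f i) = f (a - 1) - f (a + ℓ - 1) := by
  induction ℓ with
  | zero => simp
  | succ n ih =>
    rw [Nat.cast_succ, ← add_assoc, ← Finset.insert_Ico_right_eq_Ico_add_one (by omega),
      Finset.sum_insert Finset.right_notMem_Ico, ih, add_sub_cancel_right]
    ring

theorem gav_core (a b : ℤ) {ℓ : ℕ} (hℓ : 0 < ℓ) (F : ℤ → ℤ → ℝ) {c D : ℝ}
    (h : ∀ j, b ≤ j → j < b + ℓ → |F (a - 1) j - F (a + ℓ - 1) j - c * ℓ| ≤ D * ℓ) :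
    |(∑ j ∈ Finset.Ico b (b + ℓ), ∑ i ∈ Finset.Ico a (a + ℓ), (F (i - 1) j - F i j)) / (ℓ * ℓ) - c| ≤ D := by
  have hl : (0 : ℝ) < ℓ := Nat.cast_pos.2 hℓ
  have h1 : ∑ j ∈ Finset.Ico b (b + ℓ), ∑ i ∈ Finset.Ico a (a + ℓ), (F (i - 1) j - F i j) =
      ∑ j ∈ Finset.Ico b (b + ℓ), (F (a - 1) j - F (a + ℓ - 1) j - c * ℓ) + c * (ℓ * ℓ) := by
    rw [Finset.sum_congr rfl fun j _ => gav_tel (fun i => F i j) a ℓ,
      Finset.sum_sub_distrib _ (fun _ => c * (ℓ : ℝ)), Finset.sum_const]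
    simp
    ring
  have h2 : |∑ j ∈ Finset.Ico b (b + ℓ), (F (a - 1) j - F (a + ℓ - 1) j - c * ℓ)| ≤ D * (ℓ * ℓ) := by
    refine (Finset.abs_sum_le_sum_abs _ _).trans ((Finset.sum_le_sum fun j hj =>
      h j (Finset.mem_Ico.1 hj).1 (Finset.mem_Ico.1 hj).2).trans (le_of_eq ?_))
    simp
    ring
  rw [h1, add_div, mul_div_cancel_right₀ _ (by positivity), add_sub_cancel_right, abs_div,
    abs_of_pos (mul_pos hl hl), div_le_iff₀ (mul_pos hl hl)]
  exact h2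

/-- Telescoping in each row: the average of `φ (u - e₁) - φ u` is `ℓ⁻²` times a sum of `ℓ` differences
`φ (u₀ + (-1, b)) - φ (u₀ + (ℓ - 1, b))`.  Same for `e₂`. -/
theorem avg_sqr_step (u₀ : V) {ℓ : ℕ} (hℓ : 0 < ℓ) (φ : V → ℝ) {c D : ℝ} :
    ((∀ b : ℤ, 0 ≤ b → b < ℓ → |φ (u₀ + (-1, b)) - φ (u₀ + ((ℓ : ℤ) - 1, b)) - c * ℓ| ≤ D * ℓ) →
      |(avg (sqr u₀ ℓ) fun u => φ (u - (1, 0)) - φ u) - c| ≤ D) ∧
    ((∀ b : ℤ, 0 ≤ b → b < ℓ → |φ (u₀ + (b, -1)) - φ (u₀ + (b, (ℓ : ℤ) - 1)) - c * ℓ| ≤ D * ℓ) →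
      |(avg (sqr u₀ ℓ) fun u => φ (u - (0, 1)) - φ u) - c| ≤ D) := by
  have hc : ((sqr u₀ ℓ).card : ℝ) = ℓ * ℓ := by simp [sqr]
  refine ⟨fun h => ?_, fun h => ?_⟩
  · rw [avg, hc, sqr, Finset.sum_product_right]
    refine (le_of_eq ?_).trans (gav_core u₀.1 u₀.2 hℓ (fun i j => φ (i, j)) (c := c) fun j h1 h2 => ?_)
    · simp only [Prod.mk_sub_mk, sub_zero]
    · convert h (j - u₀.2) (by omega) (by omega) using 5 <;> ext <;> simp <;> ring
  · rw [avg, hc, sqr, Finset.sum_product]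
    refine (le_of_eq ?_).trans (gav_core u₀.2 u₀.1 hℓ (fun i j => φ (j, i)) (c := c) fun j h1 h2 => ?_)
    · simp only [Prod.mk_sub_mk, sub_zero]
    · convert h (j - u₀.1) (by omega) (by omega) using 5 <;> ext <;> simp <;> ring

theorem gav_ind {P : V → Prop} (h1 : P (1, 0)) (h2 : P (0, 1)) (hadd : ∀ w w', P w → P w' → P (w + w'))
    (hneg : ∀ w, P w → P (-w)) (w : V) : P w := by
  have h0 : P 0 := by simpa only [add_neg_cancel] using hadd _ _ h1 (hneg _ h1)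
  have key : ∀ e, P e → ∀ n : ℤ, P (n • e) := fun e he n => by
    induction n using Int.induction_on with
    | zero => simpa using h0
    | succ n ih => rw [add_smul, one_smul]; exact hadd _ _ ih he
    | pred n ih => rw [sub_smul, one_smul, sub_eq_add_neg]; exact hadd _ _ ih (hneg _ he)
  simpa using hadd _ _ (key _ h1 w.1) (key _ h2 w.2)

/-- Squares of side `→ ∞` are Følner: for `w = e₁, e₂` use `avg_sqr_step` with `c = 0`, `D = 2 C / ℓ`; the set of `w` for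
which the statement holds for all bounded `φ` is closed under `+` and `-` (apply it to translates of `φ`). -/
theorem sqr_inv (u₀ : ℕ → V) (ℓ : ℕ → ℕ) (hℓ : Tendsto ℓ atTop atTop) (φ : V → ℝ) (C : ℝ) (h : ∀ u, |φ u| ≤ C)
    (w : V) : Tendsto (fun k => avg (sqr (u₀ k) (ℓ k)) (fun u => φ (u - w)) - avg (sqr (u₀ k) (ℓ k)) φ) atTop (𝓝 0) := by
  have key : ∀ (φ : V → ℝ) (C : ℝ), (∀ u, |φ u| ≤ C) → ∀ (e : V), e = (1, 0) ∨ e = (0, 1) →
      Tendsto (fun k => avg (sqr (u₀ k) (ℓ k)) (fun u => φ (u - e)) - avg (sqr (u₀ k) (ℓ k)) φ) atTop (𝓝 0) := by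
    intro φ C h e he
    have t : Tendsto (fun k => 2 * C / (ℓ k : ℝ)) atTop (𝓝 0) :=
      (tendsto_natCast_atTop_atTop.comp hℓ).const_div_atTop _
    refine squeeze_zero_norm' ?_ t
    filter_upwards [hℓ.eventually_gt_atTop 0] with k hk
    have hl : (0 : ℝ) < ℓ k := Nat.cast_pos.2 hk
    have hb : ∀ x y, |φ x - φ y - 0 * (ℓ k : ℝ)| ≤ 2 * C / (ℓ k : ℝ) * ℓ k := fun x y => by
      rw [div_mul_cancel₀ _ hl.ne', zero_mul, sub_zero]
      linarith [abs_sub (φ x) (φ y), h x, h y]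
    have := avg_sqr_step (u₀ k) hk φ (c := 0) (D := 2 * C / (ℓ k : ℝ))
    rw [← avg_sub, Real.norm_eq_abs]
    rcases he with rfl | rfl
    · simpa using this.1 fun _ _ _ => hb _ _
    · simpa using this.2 fun _ _ _ => hb _ _
  revert φ C
  refine gav_ind (P := fun w => ∀ (φ : V → ℝ) (C : ℝ), (∀ u, |φ u| ≤ C) →
    Tendsto (fun k => avg (sqr (u₀ k) (ℓ k)) (fun u => φ (u - w)) - avg (sqr (u₀ k) (ℓ k)) φ) atTop (𝓝 0))
    (fun φ C h => key φ C h _ (Or.inl rfl)) (fun φ C h => key φ C h _ (Or.inr rfl))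
    (fun w w' h1 h2 φ C h => ?_) (fun w h1 φ C h => ?_) w
  · simpa only [sub_sub, sub_add_sub_cancel, add_zero] using
      (h1 (fun u => φ (u - w')) C fun u => h _).add (h2 φ C h)
  · simpa only [neg_sub, sub_sub_cancel_left, sub_neg_eq_add, sub_add_cancel, neg_zero] using
      (h1 (fun u => φ (u - -w)) C fun u => h _).neg

/-- One good square.  Choose `η ≤ ‖v‖ / 2` with `|μ (v + h) - μ v - L h| ≤ τ ‖h‖` for `‖h‖ ≤ η`, let `ℓ` be large,
`n = (ℓ + 2) / η`, `u₀ = fl (n • v)`.  For `x` with `‖toR x - n • v‖ ≤ ℓ + 2` homogeneity gives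
`|μ (toR x) - n μ v - L (toR x - n • v)| ≤ τ (ℓ + 2)`, and `|m x - μ (toR x)| ≤ ε ‖toR x‖ + r ≤ τ ℓ` for `ε` small (in terms of
`τ, η, ‖v‖`) and `ℓ` large; `avg_sqr_step` (use `τ / 10`).  `‖toR x‖ = nrm x ≥ n ‖v‖ / 2`. -/
theorem exists_sqr {μ : ℝ × ℝ → ℝ} (hμ : SymNorm μ) {v : ℝ × ℝ} (hv : v ≠ 0) {L : ℝ × ℝ →L[ℝ] ℝ}
    (hL : HasFDerivAt μ L v) {m : V → ℝ} (hm : ∀ ε > 0, ∃ r : ℝ, ∀ u, |m u - μ (toR u)| ≤ ε * nrm u + r)
    {τ : ℝ} (hτ : 0 < τ) (k : ℕ) : ∃ (u₀ : V) (ℓ : ℕ), k < ℓ ∧ (∀ u ∈ sqr u₀ ℓ, (k : ℤ) ≤ nrm u) ∧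
      |(avg (sqr u₀ ℓ) fun u => m (u - (1, 0)) - m u) + L (1, 0)| ≤ τ ∧
      |(avg (sqr u₀ ℓ) fun u => m (u - (0, 1)) - m u) + L (0, 1)| ≤ τ := by
  have hv' : 0 < ‖v‖ := norm_pos_iff.2 hv
  obtain ⟨σ, rfl⟩ : ∃ σ, τ = 18 * σ := ⟨τ / 18, by ring⟩
  have hσ : 0 < σ := by linarith
  obtain ⟨η₀, hη₀, hd⟩ := Metric.eventually_nhds_iff.1
    ((hasFDerivAt_iff_isLittleO_nhds_zero.1 hL).def hσ)
  set η := min (η₀ / 2) (‖v‖ / 2) with hη
  have hη1 : 0 < η := lt_min (by linarith) (by linarith)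
  have hη2 : η < η₀ := (min_le_left _ _).trans_lt (by linarith)
  have hη3 : 2 * η ≤ ‖v‖ := by linarith [min_le_right (η₀ / 2) (‖v‖ / 2)]
  obtain ⟨r, hr⟩ := hm (σ * η / (‖v‖ + η)) (by positivity)
  obtain ⟨ℓ, hℓ⟩ := exists_nat_gt (max (k : ℝ) (r / σ))
  have hk : k < ℓ := by exact_mod_cast (le_max_left _ _).trans_lt hℓ
  have hl1 : (1 : ℝ) ≤ ℓ := by exact_mod_cast (by omega : 1 ≤ ℓ)
  have hr' : r ≤ σ * ℓ := by
    have := (div_lt_iff₀ hσ).1 ((le_max_right _ _).trans_lt hℓ)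
    linarith
  set n : ℝ := (ℓ + 2) / η with hn
  have hn0 : 0 < n := by positivity
  have hnη : n * η = ℓ + 2 := div_mul_cancel₀ _ hη1.ne'
  have near : ∀ d : V, nrm d ≤ ℓ → ‖toR (fl (n • v) + d) - n • v‖ ≤ n * η := fun d hd => by
    have h1 := norm_toR_fl_sub (n • v)
    have h2 : ‖toR d‖ ≤ ℓ := by rw [norm_toR]; exact_mod_cast hd
    have h3 := norm_add_le (toR (fl (n • v)) - n • v) (toR d)
    rw [toR_add, add_sub_right_comm]
    linarith
  have hnv : ‖n • v‖ = n * ‖v‖ := by rw [norm_smul, Real.norm_of_nonneg hn0.le]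
  have est : ∀ x : V, ‖toR x - n • v‖ ≤ n * η → |m x - n * μ v - L (toR x - n • v)| ≤ 9 * σ * ℓ := fun x hx => by
    have hh : ‖n⁻¹ • (toR x - n • v)‖ ≤ η := by
      rw [norm_smul, Real.norm_of_nonneg (inv_pos.2 hn0).le, inv_mul_le_iff₀ hn0]
      exact hx
    have h1 := hd (y := n⁻¹ • (toR x - n • v)) (by rw [dist_zero_right]; exact hh.trans_lt hη2)
    have h2 : μ (toR x) = n * μ (v + n⁻¹ • (toR x - n • v)) := by
      rw [← abs_of_pos hn0, ← hμ.smul, abs_of_pos hn0, smul_add, smul_inv_smul₀ hn0.ne', add_sub_cancel]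
    have h3 : L (toR x - n • v) = n * L (n⁻¹ • (toR x - n • v)) := by
      rw [map_smul L n⁻¹, smul_eq_mul, mul_inv_cancel_left₀ hn0.ne']
    have h4 : |μ (toR x) - n * μ v - L (toR x - n • v)| ≤ σ * (ℓ + 2) := by
      rw [h2, h3, ← mul_sub, ← mul_sub, abs_mul, abs_of_pos hn0, ← hnη, mul_left_comm]
      exact mul_le_mul_of_nonneg_left (h1.trans (mul_le_mul_of_nonneg_left hh hσ.le)) hn0.le
    have h5 : (nrm x : ℝ) ≤ n * (‖v‖ + η) := by
      rw [← norm_toR]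
      linarith [norm_le_insert' (toR x) (n • v)]
    have h6 : σ * η / (‖v‖ + η) * nrm x ≤ σ * (ℓ + 2) := by
      refine (mul_le_mul_of_nonneg_left h5 (by positivity)).trans (le_of_eq ?_)
      rw [← hnη]
      field_simp
    have h7 := hr x
    have h8 := abs_add_le (m x - μ (toR x)) (μ (toR x) - n * μ v - L (toR x - n • v))
    rw [show m x - μ (toR x) + (μ (toR x) - n * μ v - L (toR x - n • v)) =
      m x - n * μ v - L (toR x - n • v) by ring] at h8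
    nlinarith
  have est2 : ∀ (d d' : V) (e : ℝ × ℝ), nrm d ≤ ℓ → nrm d' ≤ ℓ → toR d' - toR d = (ℓ : ℝ) • e →
      |m (fl (n • v) + d) - m (fl (n • v) + d') - -L e * ℓ| ≤ 18 * σ * ℓ := fun d d' e hd hd' he => by
    have h1 := est _ (near d hd)
    have h2 := est _ (near d' hd')
    have h3 : L (toR (fl (n • v) + d') - n • v) - L (toR (fl (n • v) + d) - n • v) = L e * ℓ := by
      rw [← map_sub, toR_add, toR_add, sub_sub_sub_cancel_right, add_sub_add_left_eq_sub, he, map_smul,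
        smul_eq_mul, mul_comm]
    rw [abs_le] at h1 h2 ⊢
    constructor <;> linarith [h1.1, h1.2, h2.1, h2.2]
  have step := fun c => avg_sqr_step (fl (n • v)) (ℓ := ℓ) (by omega) m (c := c) (D := 18 * σ)
  refine ⟨fl (n • v), ℓ, hk, fun u hu => ?_, ?_, ?_⟩
  · have h1 := near (u - fl (n • v)) (by
      simp only [sqr, Finset.mem_product, Finset.mem_Ico] at hu
      simp only [nrm, Prod.fst_sub, Prod.snd_sub, abs_eq_max_neg]
      omega)
    rw [add_sub_cancel] at h1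
    have h2 := norm_le_insert (toR u) (n • v)
    rw [hnv, norm_toR] at h2
    have h3 := mul_le_mul_of_nonneg_left hη3 hn0.le
    have h4 : (k : ℝ) < ℓ := by exact_mod_cast hk
    have h5 : (k : ℝ) ≤ nrm u := by linarith
    exact_mod_cast h5
  · rw [← sub_neg_eq_add]
    refine (step _).1 fun b h0 h1 => est2 _ _ _ ?_ ?_ ?_
    · simp only [nrm, abs_eq_max_neg]; omega
    · simp only [nrm, abs_eq_max_neg]; omega
    · simp [toR]
  · rw [← sub_neg_eq_add]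
    refine (step _).2 fun b h0 h1 => est2 _ _ _ ?_ ?_ ?_
    · simp only [nrm, abs_eq_max_neg]; omega
    · simp only [nrm, abs_eq_max_neg]; omega
    · simp [toR]

/-- `exists_sqr` with `τ = 1 / (k + 1)`.  The set of `w` with `grad` contains `e₁, e₂` and is closed under `+` and `-`:
`m (u - w - w') - m u = (m (u - w - w') - m (u - w)) + (m (u - w) - m u)`, and the first bracket is the translate of the
bounded function `u ↦ m (u - w') - m u` (`sqr_inv`). -/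
theorem exists_boxes {μ : ℝ × ℝ → ℝ} (hμ : SymNorm μ) {v : ℝ × ℝ} (hv : v ≠ 0) {L : ℝ × ℝ →L[ℝ] ℝ}
    (hL : HasFDerivAt μ L v) {m : V → ℝ} (hlip : ∀ w, ∃ C : ℝ, ∀ u, |m (u - w) - m u| ≤ C)
    (hm : ∀ ε > 0, ∃ r : ℝ, ∀ u, |m u - μ (toR u)| ≤ ε * nrm u + r) : ∃ B, Boxes m L B := by
  choose u₀ ℓ h1 h2 h3 h4 using fun k : ℕ =>
    exists_sqr hμ hv hL hm (τ := 1 / ((k : ℝ) + 1)) Nat.one_div_pos_of_nat k
  have hℓ : Tendsto ℓ atTop atTop := tendsto_atTop_mono (fun k => (h1 k).le) tendsto_id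
  have inv := sqr_inv u₀ ℓ hℓ
  refine ⟨fun k => sqr (u₀ k) (ℓ k), fun k => ⟨u₀ k, ?_⟩, h2, inv, gav_ind ?_ ?_ (fun w w' a a' => ?_) fun w a => ?_⟩
  · have := h1 k
    simp only [sqr, Finset.mem_product, Finset.mem_Ico]
    omega
  · rw [← tendsto_sub_nhds_zero_iff]
    refine squeeze_zero_norm (fun k => ?_) tendsto_one_div_add_atTop_nhds_zero_nat
    simpa [toR] using h3 k
  · rw [← tendsto_sub_nhds_zero_iff]
    refine squeeze_zero_norm (fun k => ?_) tendsto_one_div_add_atTop_nhds_zero_nat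
    simpa [toR] using h4 k
  · obtain ⟨C, hC⟩ := hlip w'
    have := ((inv (fun u => m (u - w') - m u) C hC w).add a').add a
    rw [zero_add, ← neg_add, ← map_add, ← toR_add, add_comm w' w] at this
    refine this.congr fun k => ?_
    rw [sub_add_cancel, ← avg_add]
    simp only [sub_sub, sub_add_sub_cancel]
  · obtain ⟨C, hC⟩ := hlip w
    have := ((inv (fun u => m (u - w) - m u) C hC (-w)).add a).neg
    rw [zero_add, ← map_neg, ← toR_neg] at this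
    refine this.congr fun k => ?_
    rw [sub_add_cancel, ← neg_one_mul, ← avg_const_mul]
    simp only [sub_neg_eq_add, add_sub_cancel_right, neg_one_mul, neg_sub]

end Crest.Agent.R151
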