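import Crest.Agent.R151.GDefs

/-! # R151 / GBK: the van den Berg - Kesten inequality for sums of weights
Keep the statements; helper lemmas get the prefix `gbk_`. -/

set_option autoImplicit false
set_option linter.unusedVariables false
set_option linter.unusedSectionVars false

open MeasureTheory ProbabilityTheory Crest.ProbabilityR.FirstPassage Filter Topology

namespace Crest.Agent.R151

variable {G : Measure ℝ} [IsProbabilityMeasure G]

theorem gbk_mp {κ α : Type} {f : α → κ} (hf : Function.Injective f) :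
    MeasurePreserving (fun (ω : κ → ℝ) (i : α) => ω (f i)) (Measure.infinitePi fun _ : κ => G)
      (Measure.infinitePi fun _ : α => G) :=
  ⟨by fun_prop, Measure.map_infinitePi_infinitePi_of_inj (P := fun _ : κ => G) hf⟩

/-- One splitting step.  `A` and the `c j` do not read the coordinates in `K`.  Let `B j` be the event that `j` is the
first minimiser of `c · ω` (in some enumeration of `J`); the `B j` partition the space (if `J` is nonempty), are measurable and
invariant under the measure preserving map `σ j ω = ω ∘ Equiv.swap k₀ (k j)` (`Measure.map_infinitePi_infinitePi_of_inj`).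
On `B j` the left event is contained in `A ∪ {c j ω + ω k₀ ≤ s} = σ j ⁻¹' (A ∪ {c j ω + ω (k j) ≤ s})`. -/
theorem bk_step {κ J : Type} [Fintype J] (K : Set κ) (A : Set (κ → ℝ)) (hA : MeasurableSet A)
    (hA' : ∀ ω ω' : κ → ℝ, (∀ x ∉ K, ω x = ω' x) → ω ∈ A → ω' ∈ A)
    (c : J → (κ → ℝ) → ℝ) (hc : ∀ j, Measurable (c j))
    (hc' : ∀ j, ∀ ω ω' : κ → ℝ, (∀ x ∉ K, ω x = ω' x) → c j ω = c j ω')
    {k₀ : κ} (hk₀ : k₀ ∈ K) (k : J → κ) (hk : ∀ j, k j ∈ K) (s : ℝ) :
    (Measure.infinitePi fun _ : κ => G) (A ∪ {ω | ∃ j, c j ω + ω k₀ ≤ s}) ≤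
      (Measure.infinitePi fun _ : κ => G) (A ∪ {ω | ∃ j, c j ω + ω (k j) ≤ s}) := by
  classical
  rcases isEmpty_or_nonempty J with hJ | hJ
  · simp
  obtain ⟨e, he⟩ := exists_injective_nat J
  let M : J → Set (κ → ℝ) := fun j => {ω | ∀ i, c j ω ≤ c i ω}
  let B : J → Set (κ → ℝ) := fun j => M j ∩ {ω | ∀ i, e i < e j → ω ∉ M i}
  have mM : ∀ j, MeasurableSet (M j) := fun j => by
    simp only [M, Set.ofPred_forall]
    exact MeasurableSet.iInter fun i => measurableSet_le (hc j) (hc i)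
  have mB : ∀ j, MeasurableSet (B j) := fun j => by
    refine (mM j).inter ?_
    simp only [Set.ofPred_forall]
    exact MeasurableSet.iInter fun i => MeasurableSet.iInter fun _ => (mM i).compl
  have dB : Pairwise (Function.onFun Disjoint B) := fun i j hij => by
    refine Set.disjoint_left.2 fun ω hi hj => ?_
    rcases lt_or_gt_of_ne (he.ne hij) with h | h
    exacts [hj.2 i h hi.1, hi.2 j h hj.1]
  have cB : ∀ ω, ∃ j, ω ∈ B j := fun ω => by
    obtain ⟨j₀, hj₀⟩ := Finite.exists_min fun j => c j ω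
    obtain ⟨j, hj, hj'⟩ := Set.exists_min_image {j | ω ∈ M j} e (Set.toFinite _) ⟨j₀, hj₀⟩
    exact ⟨j, hj, fun i hi hM => absurd (hj' i hM) (not_le.2 hi)⟩
  have split : ∀ X : Set (κ → ℝ), MeasurableSet X →
      (Measure.infinitePi fun _ : κ => G) X = ∑' j, (Measure.infinitePi fun _ : κ => G) (X ∩ B j) := fun X hX => by
    rw [← measure_iUnion (fun i j hij => (dB hij).mono Set.inter_subset_right Set.inter_subset_right)
      fun j => hX.inter (mB j)]
    congr 1
    ext ω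
    simp only [Set.mem_iUnion, Set.mem_inter_iff]
    exact ⟨fun h => (cB ω).imp fun j hj => ⟨h, hj⟩, fun ⟨j, h, _⟩ => h⟩
  have mX : ∀ k : J → κ, MeasurableSet (A ∪ {ω | ∃ j, c j ω + ω (k j) ≤ s}) := fun k => by
    refine hA.union ?_
    simp only [Set.ofPred_exists]
    exact MeasurableSet.iUnion fun j => measurableSet_le ((hc j).add (measurable_pi_apply _)) measurable_const
  rw [split _ (mX fun _ => k₀), split _ (mX k)]
  refine ENNReal.tsum_le_tsum fun j => ?_
  rw [← (gbk_mp (G := G) (Equiv.swap k₀ (k j)).injective).measure_preimage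
    ((mX k).inter (mB j)).nullMeasurableSet]
  refine measure_mono fun ω hω => ?_
  have hoff : ∀ x ∉ K, ω x = ω (Equiv.swap k₀ (k j) x) := fun x hx => by
    rw [Equiv.swap_apply_of_ne_of_ne (fun h : x = k₀ => hx (h ▸ hk₀)) fun h : x = k j => hx (h ▸ hk j)]
  have hcc : ∀ i, c i (fun x => ω (Equiv.swap k₀ (k j) x)) = c i ω := fun i => (hc' i _ _ hoff).symm
  have hM : ∀ i, (fun x => ω (Equiv.swap k₀ (k j) x)) ∈ M i ↔ ω ∈ M i := fun i => by
    simp only [M, Set.mem_ofPred_eq, hcc]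
  obtain ⟨h1, h2, h3⟩ := hω
  refine ⟨?_, (hM j).2 h2, fun i hi h => h3 i hi ((hM i).1 h)⟩
  rcases h1 with h1 | ⟨i, hi⟩
  · exact Or.inl (hA' _ _ hoff h1)
  · refine Or.inr ⟨j, ?_⟩
    simp only [hcc, Equiv.swap_apply_right]
    linarith [h2 i]

theorem gbk_meas {Ω α : Type} [MeasurableSpace Ω] {S : Set α} (hS : S.Finite) (f : α → Ω → ℝ) (hf : ∀ a, Measurable (f a))
    (s : ℝ) : MeasurableSet {ω | ∃ a ∈ S, f a ω ≤ s} := by
  have : {ω | ∃ a ∈ S, f a ω ≤ s} = ⋃ a ∈ S, {ω | f a ω ≤ s} := by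
    ext ω; simp
  rw [this]
  exact hS.measurableSet_biUnion fun a _ => measurableSet_le (hf a) measurable_const

theorem gbk_fin {ι E : Type} [Fintype ι] [DecidableEq ι] (Fam : ι → Finset (Finset E)) (P : (ι → Finset E) → Prop) :
    {π : ι → Finset E | (∀ i, π i ∈ Fam i) ∧ P π}.Finite :=
  (Fintype.piFinset Fam).finite_toSet.subset fun π h => by simpa using h.1

theorem gbk_split {ι E : Type} [Fintype ι] [DecidableEq ι] [DecidableEq E] {π : ι → Finset E} {e₀ : E} {i : ι}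
    (hi : e₀ ∈ π i) (hi' : ∀ j, j ≠ i → e₀ ∉ π j) (F : ι → E → ℝ) :
    ∑ j, ∑ e ∈ π j, F j e = ∑ j, ∑ e ∈ (π j).erase e₀, F j e + F i e₀ := by
  rw [← Finset.add_sum_erase _ _ (Finset.mem_univ i), ← Finset.add_sum_erase _ _ (Finset.mem_univ i),
    ← Finset.add_sum_erase _ _ hi]
  have : ∑ j ∈ Finset.univ.erase i, ∑ e ∈ (π j).erase e₀, F j e = ∑ j ∈ Finset.univ.erase i, ∑ e ∈ π j, F j e :=
    Finset.sum_congr rfl fun j hj => by rw [Finset.erase_eq_of_notMem (hi' j (Finset.ne_of_mem_erase hj))]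
  rw [this]
  ring

/-- the interpolating events -/
def gbkA {ι E : Type} [Fintype ι] [DecidableEq E] (Fam : ι → Finset (Finset E)) (s : ℝ) (D : Finset E) :
    Set (Option ι × E → ℝ) :=
  {ω | ∃ π ∈ {π : ι → Finset E | (∀ i, π i ∈ Fam i) ∧ ∀ i j, i ≠ j → ∀ e, e ∈ π i → e ∈ π j → e ∈ D},
    ∑ i, ∑ e ∈ π i, ω (if e ∈ D then some i else none, e) ≤ s}

theorem gbk_insert {ι E : Type} [Fintype ι] [DecidableEq ι] [DecidableEq E] (Fam : ι → Finset (Finset E)) (s : ℝ)
    {D : Finset E} {e₀ : E} (he : e₀ ∉ D) :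
    (Measure.infinitePi fun _ => G) (gbkA Fam s D) ≤ (Measure.infinitePi fun _ => G) (gbkA Fam s (insert e₀ D)) := by
  let S : Set (ι → Finset E) := {π | (∀ i, π i ∈ Fam i) ∧ ∀ i j, i ≠ j → ∀ e, e ∈ π i → e ∈ π j → e ∈ D}
  have hS : S.Finite := gbk_fin Fam _
  let J : Type := {x : (ι → Finset E) × ι // x.1 ∈ S ∧ e₀ ∈ x.1 x.2}
  have : Finite J := ((hS.prod Set.finite_univ).subset fun x (h : x.1 ∈ S ∧ e₀ ∈ x.1 x.2) => ⟨h.1, trivial⟩).to_subtype
  let _ := Fintype.ofFinite J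
  let A : Set (Option ι × E → ℝ) := {ω | ∃ π ∈ S ∩ {π | ∀ i, e₀ ∉ π i},
    ∑ i, ∑ e ∈ π i, ω (if e ∈ D then some i else none, e) ≤ s}
  let c : J → (Option ι × E → ℝ) → ℝ := fun x ω =>
    ∑ i, ∑ e ∈ (x.1.1 i).erase e₀, ω (if e ∈ D then some i else none, e)
  have uniq : ∀ π ∈ S, ∀ i, e₀ ∈ π i → ∀ j, j ≠ i → e₀ ∉ π j := fun π hπ i hi j hj h => he (hπ.2 j i hj e₀ h hi)
  have key := bk_step (G := G) (J := J) {x : Option ι × E | x.2 = e₀} A
    (gbk_meas (hS.inter_of_left _) _ (fun π => by fun_prop) s)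
    (by
      rintro ω ω' h ⟨π, hπ, hs⟩
      refine ⟨π, hπ, le_of_eq_of_le ?_ hs⟩
      refine Finset.sum_congr rfl fun i _ => Finset.sum_congr rfl fun e hee => (h _ ?_).symm
      exact fun (h' : e = e₀) => hπ.2 i (h' ▸ hee))
    c (fun x => by fun_prop)
    (fun x ω ω' h => Finset.sum_congr rfl fun i _ => Finset.sum_congr rfl fun e hee =>
      h _ (Finset.ne_of_mem_erase hee))
    (k₀ := (none, e₀)) rfl (fun x => (some x.1.2, e₀)) (fun _ => rfl) s
  refine (measure_mono ?_).trans (key.trans (measure_mono ?_))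
  · rintro ω ⟨π, hπ, hs⟩
    by_cases h : ∃ i, e₀ ∈ π i
    · obtain ⟨i, hi⟩ := h
      refine Or.inr ⟨⟨(π, i), hπ, hi⟩, ?_⟩
      rw [gbk_split hi (uniq π hπ i hi), if_neg he] at hs
      exact hs
    · exact Or.inl ⟨π, ⟨hπ, fun i hi => h ⟨i, hi⟩⟩, hs⟩
  · have adm : ∀ π ∈ S, (∀ i, π i ∈ Fam i) ∧ ∀ i j, i ≠ j → ∀ e, e ∈ π i → e ∈ π j → e ∈ insert e₀ D := fun π hπ =>
      ⟨hπ.1, fun i j hij e h1 h2 => Finset.mem_insert_of_mem (hπ.2 i j hij e h1 h2)⟩
    rintro ω (⟨π, hπ, hs⟩ | ⟨⟨⟨π, i⟩, hπ, hi⟩, hs⟩)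
    · refine ⟨π, adm π hπ.1, le_of_eq_of_le ?_ hs⟩
      refine Finset.sum_congr rfl fun i _ => Finset.sum_congr rfl fun e hee => ?_
      have : e ≠ e₀ := fun h' => hπ.2 i (h' ▸ hee)
      simp [this]
    · refine ⟨π, adm π hπ, le_of_eq_of_le ?_ hs⟩
      rw [gbk_split hi (uniq π hπ i hi), if_pos (Finset.mem_insert_self _ _)]
      congr 1
      refine Finset.sum_congr rfl fun i _ => Finset.sum_congr rfl fun e hee => ?_
      have : e ≠ e₀ := Finset.ne_of_mem_erase hee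
      simp [this]

/-- On `Ω = Option ι × E → ℝ` put, for a finite set `D ⊆ E`,
`A D = {ω | ∃ π ∈ Fam, (∀ i ≠ j, π i ∩ π j ⊆ D) ∧ ∑ i, ∑ e ∈ π i, ω (if e ∈ D then some i else none, e) ≤ s}`.
`P (A D) ≤ P (A (insert e D))` for `e ∉ D` by `bk_step` with `K = {x | x.2 = e}`, `k₀ = (none, e)`, `J` = pairs of an admissible
family `π` (for `D`) and the unique `i` with `e ∈ π i`, `A` = families that do not use `e`.  Induction up to `D` = all
elements that occur in `Fam`; both ends are preimages under `ω ↦ ω ∘ f` with `f` injective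
(`Measure.map_infinitePi_infinitePi_of_inj`). -/
theorem bk_sum {ι E : Type} [Fintype ι] [DecidableEq ι] [DecidableEq E] (Fam : ι → Finset (Finset E)) (s : ℝ) :
    (Measure.infinitePi fun _ : E => G)
        {t | ∃ π : ι → Finset E, (∀ i, π i ∈ Fam i) ∧ (∀ i j, i ≠ j → Disjoint (π i) (π j)) ∧ ∑ i, ∑ e ∈ π i, t e ≤ s} ≤
      (Measure.infinitePi fun _ : ι × E => G)
        {ω | ∃ π : ι → Finset E, (∀ i, π i ∈ Fam i) ∧ ∑ i, ∑ e ∈ π i, ω (i, e) ≤ s} := by
  have h1 : ∀ D : Finset E,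
      (Measure.infinitePi fun _ => G) (gbkA Fam s ∅) ≤ (Measure.infinitePi fun _ => G) (gbkA Fam s D) := fun D => by
    induction D using Finset.induction_on with
    | empty => exact le_rfl
    | insert e D he ih => exact ih.trans (gbk_insert Fam s he)
  have m1 : MeasurableSet {t : E → ℝ | ∃ π : ι → Finset E, (∀ i, π i ∈ Fam i) ∧ (∀ i j, i ≠ j → Disjoint (π i) (π j)) ∧
      ∑ i, ∑ e ∈ π i, t e ≤ s} := by
    convert gbk_meas (gbk_fin Fam fun π => ∀ i j, i ≠ j → Disjoint (π i) (π j))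
      (fun π (t : E → ℝ) => ∑ i, ∑ e ∈ π i, t e) (fun π => by fun_prop) s using 4
    simp [and_assoc]
  have m2 : MeasurableSet {ω : ι × E → ℝ | ∃ π : ι → Finset E, (∀ i, π i ∈ Fam i) ∧ ∑ i, ∑ e ∈ π i, ω (i, e) ≤ s} := by
    convert gbk_meas (gbk_fin Fam fun _ => True)
      (fun π (ω : ι × E → ℝ) => ∑ i, ∑ e ∈ π i, ω (i, e)) (fun π => by fun_prop) s using 4
    simp
  rw [← (gbk_mp (G := G) (f := fun e : E => ((none, e) : Option ι × E))
      (fun a b h => by simpa using h)).measure_preimage m1.nullMeasurableSet,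
    ← (gbk_mp (G := G) (f := fun x : ι × E => ((some x.1, x.2) : Option ι × E))
      (fun a b h => by simpa [Prod.ext_iff] using h)).measure_preimage m2.nullMeasurableSet]
  refine (measure_mono ?_).trans ((h1 (Finset.univ.biUnion fun i => (Fam i).biUnion id)).trans (measure_mono ?_))
  · rintro ω ⟨π, hπ, hd, hs⟩
    exact ⟨π, ⟨hπ, fun i j hij e h1 h2 => (Finset.disjoint_left.1 (hd i j hij) h1 h2).elim⟩, by simpa using hs⟩
  · rintro ω ⟨π, hπ, hs⟩
    refine ⟨π, hπ.1, le_of_eq_of_le ?_ hs⟩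
    refine Finset.sum_congr rfl fun i _ => Finset.sum_congr rfl fun e hee => ?_
    rw [if_pos]
    exact Finset.mem_biUnion.2 ⟨i, Finset.mem_univ _, Finset.mem_biUnion.2 ⟨π i, hπ.1 i, hee⟩⟩

theorem gbk_markov {ι E : Type} [Fintype ι] (X : ι → (E → ℝ) → ℝ) (hX : ∀ i, Measurable (X i)) {lam : ℝ}
    (hlam : 0 ≤ lam) (s : ℝ) :
    (Measure.infinitePi fun _ : ι => Measure.infinitePi fun _ : E => G) {ω | ∑ i, X i (ω i) ≤ s} ≤
      ENNReal.ofReal (Real.exp (lam * s)) *
        ∏ i, ∫⁻ t, ENNReal.ofReal (Real.exp (-(lam * X i t))) ∂(Measure.infinitePi fun _ : E => G) := by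
  have hm : ∀ i, Measurable fun t => ENNReal.ofReal (Real.exp (-(lam * X i t))) := fun i => by
    have := hX i
    fun_prop
  have h1 := lintegral_prod_eq_prod_lintegral_of_indepFun Finset.univ _
    (iIndepFun_infinitePi (P := fun _ : ι => Measure.infinitePi fun _ : E => G) hm)
    fun i => (hm i).comp (measurable_pi_apply i)
  have h2 : ∀ i, ∫⁻ ω, ENNReal.ofReal (Real.exp (-(lam * X i (ω i))))
      ∂(Measure.infinitePi fun _ : ι => Measure.infinitePi fun _ : E => G) =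
      ∫⁻ t, ENNReal.ofReal (Real.exp (-(lam * X i t))) ∂(Measure.infinitePi fun _ : E => G) := fun i => by
    conv_rhs => rw [← Measure.infinitePi_map_eval (fun _ : ι => Measure.infinitePi fun _ : E => G) i]
    rw [lintegral_map (hm i) (measurable_pi_apply i)]
  simp only [h2] at h1
  rw [← h1, ← lintegral_const_mul' _ _ ENNReal.ofReal_ne_top]
  have ms : MeasurableSet {ω : ι → E → ℝ | ∑ i, X i (ω i) ≤ s} :=
    measurableSet_le (Finset.measurable_sum _ fun i _ => (hX i).comp (measurable_pi_apply i)) measurable_const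
  rw [← lintegral_indicator_one ms]
  refine lintegral_mono fun ω => ?_
  by_cases h : ω ∈ {ω : ι → E → ℝ | ∑ i, X i (ω i) ≤ s}
  · rw [Set.indicator_of_mem h, ← ENNReal.ofReal_prod_of_nonneg fun i _ => (Real.exp_pos _).le,
      ← ENNReal.ofReal_mul (Real.exp_pos _).le, ← Real.exp_sum, ← Real.exp_add, Pi.one_apply, ENNReal.one_le_ofReal,
      Real.one_le_exp_iff, Finset.sum_neg_distrib, ← Finset.mul_sum]
    have := mul_le_mul_of_nonneg_left (show ∑ i, X i (ω i) ≤ s from h) hlam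
    linarith
  · rw [Set.indicator_of_notMem h]
    exact zero_le

/-- Exponential form, for arbitrary families of finite sets over a countable `E`.  Exhaust `Fam i` by finite subfamilies
(`Finset E` is countable; `Monotone.measure_iUnion`), `bk_sum`; a.s. `X i (ω (i, ·)) ≤ ∑ e ∈ π i, ω (i, e)`; Markov's inequality
for `∏ i, exp (-lam * X i (ω (i, ·)))` and independence (`Measure.infinitePi_map_curry`, `Measure.infinitePi_eq_pi`,
`lintegral_fintype_prod_eq_prod` or `iIndepFun.lintegral_prod…`). -/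
theorem bk_exp {ι E : Type} [Fintype ι] [DecidableEq ι] [DecidableEq E] [Countable E] (Fam : ι → Set (Finset E))
    (X : ι → (E → ℝ) → ℝ) (hX : ∀ i, Measurable (X i))
    (hle : ∀ᵐ t ∂(Measure.infinitePi fun _ : E => G), ∀ i, ∀ π ∈ Fam i, X i t ≤ ∑ e ∈ π, t e) {lam : ℝ}
    (hlam : 0 ≤ lam) (s : ℝ) :
    (Measure.infinitePi fun _ : E => G)
        {t | ∃ π : ι → Finset E, (∀ i, π i ∈ Fam i) ∧ (∀ i j, i ≠ j → Disjoint (π i) (π j)) ∧ ∑ i, ∑ e ∈ π i, t e ≤ s} ≤
      ENNReal.ofReal (Real.exp (lam * s)) *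
        ∏ i, ∫⁻ t, ENNReal.ofReal (Real.exp (-(lam * X i t))) ∂(Measure.infinitePi fun _ : E => G) := by
  obtain ⟨enc, henc⟩ := exists_injective_nat (Finset E)
  have hfin : ∀ (n : ℕ) i, {π ∈ Fam i | enc π < n}.Finite := fun n i =>
    ((Set.finite_Iio n).preimage henc.injOn).subset fun π h => h.2
  let Ev : ℕ → Set (E → ℝ) := fun n => {t | ∃ π : ι → Finset E, (∀ i, π i ∈ (hfin n i).toFinset) ∧
    (∀ i j, i ≠ j → Disjoint (π i) (π j)) ∧ ∑ i, ∑ e ∈ π i, t e ≤ s}
  have hmono : Monotone Ev := by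
    rintro n m hnm t ⟨π, h1, h2⟩
    refine ⟨π, fun i => ?_, h2⟩
    have := h1 i
    rw [Set.Finite.mem_toFinset] at this ⊢
    exact ⟨this.1, this.2.trans_le hnm⟩
  refine (measure_mono (t := ⋃ n, Ev n) ?_).trans ?_
  · rintro t ⟨π, h1, h2⟩
    obtain ⟨n, hn⟩ := (Set.finite_range fun i => enc (π i)).bddAbove
    refine Set.mem_iUnion.2 ⟨n + 1, π, fun i => ?_, h2⟩
    rw [Set.Finite.mem_toFinset]
    exact ⟨h1 i, Nat.lt_succ_of_le (hn ⟨i, rfl⟩)⟩
  rw [hmono.measure_iUnion]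
  refine iSup_le fun n => (bk_sum _ s).trans (le_trans ?_ (gbk_markov X hX hlam s))
  have ms : MeasurableSet {ω : ι → E → ℝ | ∑ i, X i (ω i) ≤ s} :=
    measurableSet_le (Finset.measurable_sum _ fun i _ => (hX i).comp (measurable_pi_apply i)) measurable_const
  rw [← Measure.infinitePi_map_curry (fun (_ : ι) (_ : E) => G), Measure.map_apply (MeasurableEquiv.measurable _) ms]
  refine measure_mono_ae ?_
  have hae : ∀ᵐ ω ∂(Measure.infinitePi fun _ : ι × E => G), ∀ i, ∀ π ∈ Fam i,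
      X i (fun e => ω (i, e)) ≤ ∑ e ∈ π, ω (i, e) := by
    rw [ae_all_iff]
    intro i
    have := (gbk_mp (G := G) (f := fun e : E => ((i, e) : ι × E))
      (fun a b h => by simpa using h)).quasiMeasurePreserving.ae hle
    filter_upwards [this] with ω h using h i
  filter_upwards [hae] with ω h
  rintro ⟨π, h1, h2⟩
  refine le_trans (Finset.sum_le_sum fun i _ => ?_) h2
  have := h1 i
  rw [Set.Finite.mem_toFinset] at this
  exact h i _ this.1

end Crest.Agent.R151
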