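import Crest.Agent.R151.GBK
import Crest.Agent.R151.BLowLD
import Crest.Agent.R151.BMu
import Crest.Agent.R151.BMeas
import Crest.Agent.R151.BTS

/-! # R151 / GCut: exponential lower bound for self-avoiding paths cut into pieces
Keep the statements; helper lemmas get the prefix `gcu_`. -/

set_option autoImplicit false
set_option linter.unusedVariables false
set_option linter.unusedSectionVars false

open MeasureTheory ProbabilityTheory Crest.ProbabilityR.FirstPassage Filter Topology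

namespace Crest.Agent.R151

open scoped ENNReal

variable {G : Measure ℝ} [IsProbabilityMeasure G] [NullSingletonClass G]

/-- `lowLD`: `P (T < (1 - ε) μ) ≤ C₀ exp (-c n)`, `n = nrm (y - x)`, `μ ≤ C₁ n`.  With `lam = c / C₁` and `T ≥ 0` a.s.,
`exp (-lam T) ≤ exp (-lam (1 - ε) μ) + 1 {T < (1 - ε) μ}` and `exp (-c n) ≤ exp (-lam (1 - ε) μ)`; `C = log (1 + C₀)`. -/
theorem exp_T (hG : Hyp G) {ε : ℝ} (hε : 0 < ε) : ∃ lam > 0, ∃ C : ℝ, ∀ x y : V,
    ∫⁻ t, ENNReal.ofReal (Real.exp (-(lam * T t x y))) ∂iidLaw G ≤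
      ENNReal.ofReal (Real.exp (C - lam * (1 - ε) * mu G (toR (y - x)))) := by
  obtain ⟨C₀, hC₀, c, hc, h⟩ := lowLD G hG hε
  have hN := symNorm_mu G hG
  obtain ⟨C₁, hC₁, hup⟩ := hN.upper
  refine ⟨c / C₁, by positivity, Real.log (1 + C₀), fun x y => ?_⟩
  set m := mu G (toR (y - x)) with hm
  set a := Real.exp (-(c / C₁ * (1 - ε) * m)) with ha
  have hm0 : 0 ≤ m := hN.nonneg _
  have hlam : 0 < c / C₁ := by positivity
  have hS : MeasurableSet {t : Env | T t x y < (1 - ε) * m} :=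
    measurableSet_lt (measurable_T x y) measurable_const
  have h1 : ∀ᵐ t ∂iidLaw G, ENNReal.ofReal (Real.exp (-(c / C₁ * T t x y))) ≤
      ENNReal.ofReal a + {t : Env | T t x y < (1 - ε) * m}.indicator 1 t := by
    filter_upwards [ae_nonneg G hG.nonneg] with t ht
    by_cases h2 : T t x y < (1 - ε) * m
    · rw [Set.indicator_of_mem (show t ∈ {t : Env | T t x y < (1 - ε) * m} from h2)]
      refine le_trans ?_ le_add_self
      rw [Pi.one_apply, ENNReal.ofReal_le_one, Real.exp_le_one_iff]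
      have := mul_nonneg hlam.le (T_nonneg (x := x) (y := y) ht)
      linarith
    · refine le_trans (ENNReal.ofReal_le_ofReal (Real.exp_le_exp.2 ?_)) le_self_add
      rw [not_lt] at h2
      have := mul_le_mul_of_nonneg_left h2 hlam.le
      linarith
  refine (lintegral_mono_ae h1).trans ?_
  rw [lintegral_add_left measurable_const, lintegral_const, measure_univ, mul_one,
    lintegral_indicator_one hS]
  have h2 : iidLaw G {t : Env | T t x y < (1 - ε) * m} ≤ ENNReal.ofReal (C₀ * a) := by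
    rw [← ENNReal.ofReal_toReal (measure_ne_top (iidLaw G) _)]
    refine ENNReal.ofReal_le_ofReal ((h x y).trans ?_)
    refine mul_le_mul_of_nonneg_left (Real.exp_le_exp.2 ?_) hC₀.le
    have h3 := hup (toR (y - x))
    rw [norm_toR, ← hm] at h3
    have h4 : c / C₁ * m ≤ c * nrm (y - x) := by
      rw [div_mul_eq_mul_div, div_le_iff₀ hC₁]; nlinarith
    have h5 : 0 ≤ c / C₁ * ε * m := by positivity
    nlinarith
  have ha0 : 0 < a := Real.exp_pos _
  refine (add_le_add le_rfl h2).trans (le_of_eq ?_)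
  rw [← ENNReal.ofReal_add ha0.le (by positivity), sub_eq_add_neg, Real.exp_add,
    Real.exp_log (by positivity), ← ha]
  congr 1; ring

theorem gcu_mono {c : ℕ → ℤ} {n : ℕ} (h : ∀ k < n, c k ≤ c (k + 1)) {k l : ℕ} (hkl : k ≤ l) (hl : l ≤ n) :
    c k ≤ c l := by
  induction l, hkl using Nat.le_induction with
  | base => exact le_rfl
  | succ l _ ih => exact (ih (by omega)).trans (h l (by omega))

theorem gcu_sum (t : Env) (p : ℤ → V) {c : ℕ → ℤ} {n : ℕ} (h : ∀ k < n, c k ≤ c (k + 1)) :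
    ∑ k ∈ Finset.range n, cost t p (c k) (c (k + 1)) = cost t p (c 0) (c n) := by
  induction n with
  | zero => simp [cost_self]
  | succ n ih =>
    rw [Finset.sum_range_succ, ih fun k hk => h k (by omega),
      ← cost_add (gcu_mono h (Nat.zero_le _) (Nat.le_succ _)) (h n (by omega))]

/-- `bk_exp` with `ι = Fin n`, `Fam k` = the edge sets `(Finset.Ico i j).image (edge q)` of self-avoiding paths from `z k` to
`z (k + 1)`, `X k t = T t (z k) (z (k + 1))` (`cost_eq_sum_image`, `TS_le_cost`, `ae_nonneg`); the pieces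
`(Finset.Ico (c k) (c (k + 1))).image (edge p)` are disjoint by `edge_injOn`; `cost_add` by induction.
`iidLaw G` unfolds to `Measure.infinitePi fun _ => G`. -/
theorem cut_fixed (hG : Hyp G) (n : ℕ) (z : ℕ → V) {lam : ℝ} (hlam : 0 ≤ lam) (s : ℝ) :
    iidLaw G {t | ∃ (p : ℤ → V) (c : ℕ → ℤ), (∀ k < n, c k ≤ c (k + 1)) ∧ PathIn Set.univ p (c 0) (c n) ∧
        Set.InjOn p (Set.Icc (c 0) (c n)) ∧ (∀ k ≤ n, p (c k) = z k) ∧ cost t p (c 0) (c n) ≤ s} ≤
      ENNReal.ofReal (Real.exp (lam * s)) *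
        ∏ k ∈ Finset.range n, ∫⁻ t, ENNReal.ofReal (Real.exp (-(lam * T t (z k) (z (k + 1))))) ∂iidLaw G := by
  have key := bk_exp (G := G) (ι := Fin n) (E := Sym2 V)
    (fun k => {π | ∃ q i j, PathIn Set.univ q i j ∧ Set.InjOn q (Set.Icc i j) ∧ q i = z k ∧
      q j = z (k + 1) ∧ π = (Finset.Ico i j).image (edge q)})
    (fun k t => T t (z k) (z (k + 1))) (fun k => measurable_T _ _) ?_ hlam s
  · rw [← Fin.prod_univ_eq_prod_range
      (fun k => ∫⁻ t, ENNReal.ofReal (Real.exp (-(lam * T t (z k) (z (k + 1))))) ∂iidLaw G) n]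
    refine le_trans (measure_mono ?_) key
    rintro t ⟨p, c, hc, hp, hi, hz, hs⟩
    have hsub : ∀ k : Fin n, Set.Icc (c k) (c (k + 1)) ⊆ Set.Icc (c 0) (c n) := fun k =>
      Set.Icc_subset_Icc (gcu_mono hc (Nat.zero_le _) k.2.le) (gcu_mono hc k.2 le_rfl)
    refine ⟨fun k => (Finset.Ico (c k) (c (k + 1))).image (edge p), fun k => ?_, ?_, ?_⟩
    · exact ⟨p, c k, c (k + 1), hp.sub (gcu_mono hc (Nat.zero_le _) k.2.le) (hc k k.2)
        (gcu_mono hc k.2 le_rfl), hi.mono (hsub k), hz k k.2.le, hz (k + 1) k.2, rfl⟩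
    · intro k l hkl
      rw [Finset.disjoint_left]
      intro e he he'
      obtain ⟨a, ha, rfl⟩ := Finset.mem_image.1 he
      obtain ⟨b, hb, hab⟩ := Finset.mem_image.1 he'
      rw [Finset.mem_Ico] at ha hb
      have h1 := gcu_mono hc (Nat.zero_le k) k.2.le
      have h2 := gcu_mono hc (k := k + 1) k.2 le_rfl
      have h3 := gcu_mono hc (Nat.zero_le l) l.2.le
      have h4 := gcu_mono hc (k := l + 1) l.2 le_rfl
      have h5 : b = a := edge_injOn hi ⟨by omega, by omega⟩ ⟨by omega, by omega⟩ hab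
      rcases lt_or_gt_of_ne hkl with h | h
      · have := gcu_mono hc (k := k + 1) (l := l) h l.2.le
        omega
      · have := gcu_mono hc (k := l + 1) (l := k) h k.2.le
        omega
    · refine le_trans (le_of_eq ?_) hs
      rw [← gcu_sum t p hc, ← Fin.sum_univ_eq_sum_range (fun k => cost t p (c k) (c (k + 1))) n]
      exact Finset.sum_congr rfl fun k _ => (cost_eq_sum_image (hi.mono (hsub k))).symm
  · filter_upwards [ae_nonneg G hG.nonneg] with t ht
    rintro k π ⟨q, i, j, hq, hi, h1, h2, rfl⟩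
    rw [← cost_eq_sum_image hi, ← h1, ← h2]
    exact TS_le_cost ht hq

/-- `nrm z ≥ (|z.1| + |z.2|) / 2`, product of two geometric series over `ℤ` (`ENNReal.tsum_prod`) -/
theorem tsum_exp_nrm {κ : ℝ} (hκ : 0 < κ) : ∑' z : V, ENNReal.ofReal (Real.exp (-(κ * nrm z))) ≠ ⊤ := by
  have h := lld_summable hκ
  simp only [neg_mul] at h
  rw [← ENNReal.ofReal_tsum_of_nonneg (fun _ => (Real.exp_pos _).le) h]
  exact ENNReal.ofReal_ne_top

/-- induction, `Fin.consEquiv` / `Fin.insertNthEquiv`, `ENNReal.tsum_prod` -/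
theorem tsum_pi_prod {α : Type} (f : α → ℝ≥0∞) (n : ℕ) : ∑' d : Fin n → α, ∏ k, f (d k) = (∑' a, f a) ^ n := by
  induction n with
  | zero => simp
  | succ n ih =>
    rw [← (Fin.consEquiv fun _ : Fin (n + 1) => α).tsum_eq, ENNReal.tsum_prod', pow_succ', ← ih,
      ← ENNReal.tsum_mul_right]
    refine tsum_congr fun a => ?_
    rw [← ENNReal.tsum_mul_left]
    refine tsum_congr fun d => ?_
    rw [Fin.prod_univ_succ]
    simp [Fin.consEquiv]

/-- the cut points with prescribed displacements -/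
def gcuZ (x : V) {n : ℕ} (d : Fin n → V) (k : ℕ) : V :=
  x + ∑ l ∈ Finset.range k, if h : l < n then d ⟨l, h⟩ else 0

theorem gcu_step (x : V) {n : ℕ} (d : Fin n → V) (k : Fin n) : gcuZ x d (k + 1) - gcuZ x d k = d k := by
  simp only [gcuZ, Finset.sum_range_succ, k.2, dite_true]
  abel

theorem gcu_eq (p : ℤ → V) (c : ℕ → ℤ) (n : ℕ) {k : ℕ} (hk : k ≤ n) :
    gcuZ (p (c 0)) (fun l : Fin n => p (c (l + 1)) - p (c l)) k = p (c k) := by
  induction k with
  | zero => simp [gcuZ]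
  | succ k ih =>
    have h := gcu_step (p (c 0)) (fun l : Fin n => p (c (l + 1)) - p (c l)) ⟨k, hk⟩
    simp only at h
    rw [ih (by omega)] at h
    exact sub_left_injective h

/-- `exp_T` with `ε / 2` gives `lam, C₀`.  Union over `n` and the displacements `d : Fin n → V` (`z k = x + ∑_{l < k} d l`):
by `cut_fixed` with `s = (1 - ε) S - C n - B`, `S = ∑ μ (d k)`, the term is at most
`exp (-lam B) ∏ₖ exp (C₀ - lam C) exp (-lam ε μ (d k) / 2)`.  Choose `C ≥ 0` with `exp (C₀ - lam C) Z ≤ 1 / 2`,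
`Z = ∑' d, exp (-lam ε μ d / 2) < ∞` (`tsum_exp_nrm`, `SymNorm.lower`); `tsum_pi_prod`, geometric series. -/
theorem cut_tail (hG : Hyp G) {ε : ℝ} (hε : 0 < ε) : ∃ lam > 0, ∃ C ≥ 0, ∀ (x : V) (B : ℝ),
    iidLaw G {t | ∃ p a b n S, PathIn Set.univ p a b ∧ Set.InjOn p (Set.Icc a b) ∧ Cuts p (mu G) a b n S ∧ p a = x ∧
        cost t p a b < (1 - ε) * S - C * n - B} ≤ ENNReal.ofReal (2 * Real.exp (-(lam * B))) := by
  obtain ⟨lam, hlam, C₀, hE⟩ := exp_T hG (ε := ε / 2) (by positivity)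
  have hN := symNorm_mu G hG
  obtain ⟨c, hc, hlow⟩ := hN.lower
  set κ := lam * (ε / 2) * c with hκ
  have hZ := tsum_exp_nrm (κ := κ) (by positivity)
  set Z := ∑' z : V, ENNReal.ofReal (Real.exp (-(κ * nrm z))) with hZdef
  have hZ0 : 0 ≤ Z.toReal := ENNReal.toReal_nonneg
  set C := max 0 ((C₀ + Real.log (2 * (Z.toReal + 1))) / lam) with hC
  have hC1 : Real.exp (C₀ - lam * C) * Z.toReal ≤ 2⁻¹ := by
    have h1 : (C₀ + Real.log (2 * (Z.toReal + 1))) / lam ≤ C := le_max_right _ _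
    rw [div_le_iff₀ hlam] at h1
    have h2 : Real.exp (C₀ - lam * C) ≤ (2 * (Z.toReal + 1))⁻¹ := by
      rw [← Real.exp_log (x := (2 * (Z.toReal + 1))⁻¹) (by positivity), Real.log_inv, Real.exp_le_exp]
      linarith
    calc Real.exp (C₀ - lam * C) * Z.toReal ≤ (2 * (Z.toReal + 1))⁻¹ * (Z.toReal + 1) := by
          gcongr; linarith
      _ = 2⁻¹ := by field_simp
  have hC2 : ∑' v : V, ENNReal.ofReal (Real.exp (C₀ - lam * C)) *
      ENNReal.ofReal (Real.exp (-(κ * nrm v))) ≤ 2⁻¹ := by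
    rw [ENNReal.tsum_mul_left, ← hZdef, ← ENNReal.ofReal_toReal hZ,
      ← ENNReal.ofReal_mul (Real.exp_pos _).le]
    refine (ENNReal.ofReal_le_ofReal hC1).trans (le_of_eq ?_)
    rw [ENNReal.ofReal_inv_of_pos two_pos]; simp
  refine ⟨lam, hlam, C, le_max_left _ _, fun x B => ?_⟩
  let E : (n : ℕ) → (Fin n → V) → Set Env := fun n d =>
    {t | ∃ (p : ℤ → V) (c : ℕ → ℤ), (∀ k < n, c k ≤ c (k + 1)) ∧ PathIn Set.univ p (c 0) (c n) ∧
        Set.InjOn p (Set.Icc (c 0) (c n)) ∧ (∀ k ≤ n, p (c k) = gcuZ x d k) ∧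
        cost t p (c 0) (c n) ≤ (1 - ε) * (∑ k, mu G (toR (d k))) - C * n - B}
  have hsub : {t : Env | ∃ p a b n S, PathIn Set.univ p a b ∧ Set.InjOn p (Set.Icc a b) ∧
      Cuts p (mu G) a b n S ∧ p a = x ∧ cost t p a b < (1 - ε) * S - C * n - B} ⊆ ⋃ n, ⋃ d, E n d := by
    rintro t ⟨p, a, b, n, S, hp, hi, ⟨c, rfl, rfl, hc, rfl⟩, rfl, hs⟩
    refine Set.mem_iUnion.2 ⟨n, Set.mem_iUnion.2 ⟨fun l : Fin n => p (c (l + 1)) - p (c l),
      p, c, hc, hp, hi, fun k hk => (gcu_eq p c n hk).symm, ?_⟩⟩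
    rw [Fin.sum_univ_eq_sum_range (fun k => mu G (toR (p (c (k + 1)) - p (c k)))) n]
    exact hs.le
  have hEb : ∀ n d, iidLaw G (E n d) ≤ ENNReal.ofReal (Real.exp (-(lam * B))) *
      ∏ k, (ENNReal.ofReal (Real.exp (C₀ - lam * C)) * ENNReal.ofReal (Real.exp (-(κ * nrm (d k))))) := by
    intro n d
    refine (cut_fixed hG n (gcuZ x d) hlam.le _).trans ?_
    rw [← Fin.prod_univ_eq_prod_range (fun k => ∫⁻ t, ENNReal.ofReal
      (Real.exp (-(lam * T t (gcuZ x d k) (gcuZ x d (k + 1))))) ∂iidLaw G) n]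
    refine (mul_le_mul_right (Finset.prod_le_prod' fun k _ => hE _ _) _).trans ?_
    simp only [gcu_step, ← ENNReal.ofReal_mul (Real.exp_pos _).le, ← Real.exp_add]
    rw [← ENNReal.ofReal_prod_of_nonneg fun _ _ => (Real.exp_pos _).le,
      ← ENNReal.ofReal_prod_of_nonneg fun _ _ => (Real.exp_pos _).le, ← Real.exp_sum, ← Real.exp_sum,
      ← ENNReal.ofReal_mul (Real.exp_pos _).le, ← ENNReal.ofReal_mul (Real.exp_pos _).le,
      ← Real.exp_add, ← Real.exp_add]
    refine ENNReal.ofReal_le_ofReal (Real.exp_le_exp.2 ?_)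
    have h1 : ∀ k ∈ (Finset.univ : Finset (Fin n)),
        lam * (1 - ε) * mu G (toR (d k)) - lam * C + (C₀ - lam * (1 - ε / 2) * mu G (toR (d k))) ≤
          C₀ - lam * C + -(κ * nrm (d k)) := by
      intro k _
      have h2 := hlow (toR (d k))
      rw [norm_toR] at h2
      have h3 := mul_le_mul_of_nonneg_left h2 (by positivity : 0 ≤ lam * (ε / 2))
      rw [hκ]; linarith
    have h2 := Finset.sum_le_sum h1
    rw [Finset.sum_add_distrib, Finset.sum_sub_distrib, ← Finset.mul_sum, Finset.sum_const,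
      Finset.card_univ, Fintype.card_fin, nsmul_eq_mul] at h2
    linarith
  refine (measure_mono hsub).trans ((measure_iUnion_le _).trans ?_)
  have h3 : ∀ n, iidLaw G (⋃ d, E n d) ≤ ENNReal.ofReal (Real.exp (-(lam * B))) * 2⁻¹ ^ n := by
    intro n
    refine (measure_iUnion_le _).trans ((ENNReal.tsum_le_tsum (hEb n)).trans ?_)
    rw [ENNReal.tsum_mul_left, tsum_pi_prod (fun v : V => ENNReal.ofReal (Real.exp (C₀ - lam * C)) *
      ENNReal.ofReal (Real.exp (-(κ * nrm v))))]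
    gcongr
  refine (ENNReal.tsum_le_tsum h3).trans (le_of_eq ?_)
  rw [ENNReal.tsum_mul_left, ENNReal.tsum_geometric, ENNReal.one_sub_inv_two, inv_inv,
    ENNReal.ofReal_mul zero_le_two, mul_comm]
  simp

end Crest.Agent.R151
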