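import Crest.Agent.R151.GCut
import Crest.Agent.R151.BPeierls

/-! # R151 / GCutAS: almost sure forms
Keep the statements; helper lemmas get the prefix `gca_`. -/

set_option autoImplicit false
set_option linter.unusedVariables false
set_option linter.unusedSectionVars false

open MeasureTheory ProbabilityTheory Crest.ProbabilityR.FirstPassage Filter Topology

namespace Crest.Agent.R151

variable {G : Measure ℝ} [IsProbabilityMeasure G] [NullSingletonClass G]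

/-- For `ε' = 1 / (m + 1)` (`ae_all_iff`) the sets `E r = ⋃ x, A x (ε' * nrm x + r)`, `r : ℕ`, have measure
`≤ C exp (-c r) ∑' x, exp (-c ε' nrm x) → 0` (`tsum_exp_nrm`), so `⋂ r, E r` is null. -/
theorem ae_bc {Ω : Type} [MeasurableSpace Ω] {P : Measure Ω} {A : V → ℝ → Set Ω} (hA : ∀ x, Antitone (A x)) {C c : ℝ}
    (hc : 0 < c) (h : ∀ x r, P (A x r) ≤ ENNReal.ofReal (C * Real.exp (-(c * r)))) :
    ∀ᵐ t ∂P, ∀ ε' > (0 : ℝ), ∃ r₀ : ℝ, ∀ x, t ∉ A x (ε' * nrm x + r₀) := by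
  have key : ∀ ε' > (0 : ℝ), ∀ᵐ t ∂P, ∃ r₀ : ℝ, ∀ x, t ∉ A x (ε' * nrm x + r₀) := fun ε' hε' => by
    have hZ := tsum_exp_nrm (κ := c * ε') (by positivity)
    have hb : ∀ r : ℕ, P {t | ¬ ∃ r₀ : ℝ, ∀ x, t ∉ A x (ε' * nrm x + r₀)} ≤
        ENNReal.ofReal (|C| * Real.exp (-(c * r))) * ∑' z : V, ENNReal.ofReal (Real.exp (-(c * ε' * nrm z))) := fun r => by
      refine (measure_mono (t := ⋃ x, A x (ε' * nrm x + r)) fun t ht => ?_).trans ((measure_iUnion_le _).trans ?_)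
      · by_contra hcon
        exact ht ⟨r, fun x hx => hcon (Set.mem_iUnion.2 ⟨x, hx⟩)⟩
      · rw [← ENNReal.tsum_mul_left]
        refine ENNReal.tsum_le_tsum fun x => (h x _).trans ?_
        rw [← ENNReal.ofReal_mul (by positivity), mul_assoc, ← Real.exp_add]
        refine ENNReal.ofReal_le_ofReal (mul_le_mul (le_abs_self C) (le_of_eq ?_) (by positivity) (abs_nonneg C))
        congr 1
        ring
    have ht : Tendsto (fun r : ℕ => |C| * Real.exp (-(c * r))) atTop (𝓝 0) := by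
      simpa using (Real.tendsto_exp_neg_atTop_nhds_zero.comp
        (tendsto_natCast_atTop_atTop.const_mul_atTop hc)).const_mul |C|
    have ht' := ENNReal.Tendsto.mul_const (ENNReal.tendsto_ofReal ht) (Or.inr hZ)
    rw [ENNReal.ofReal_zero, zero_mul] at ht'
    exact ae_iff.2 (le_antisymm (ge_of_tendsto' ht' hb) zero_le)
  filter_upwards [ae_all_iff.2 fun n : ℕ => key (1 / ((n : ℝ) + 1)) (by positivity)] with t ht ε hε
  obtain ⟨n, hn⟩ := exists_nat_one_div_lt hε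
  obtain ⟨r₀, hr₀⟩ := ht n
  refine ⟨r₀, fun x hx => hr₀ x (hA x ?_ hx)⟩
  have hz0 : (0 : ℝ) ≤ nrm x := by exact_mod_cast nrm_nonneg x
  gcongr

/-- `cut_tail`, `ae_bc` -/
theorem ae_cutOK (hG : Hyp G) {ε : ℝ} (hε : 0 < ε) : ∃ C ≥ 0, ∀ᵐ t ∂iidLaw G, CutOK (mu G) ε C t := by
  obtain ⟨lam, hlam, C, hC, h⟩ := cut_tail hG hε
  refine ⟨C, hC, ?_⟩
  filter_upwards [ae_bc (A := fun x B => {t | ∃ p a b n S, PathIn Set.univ p a b ∧ Set.InjOn p (Set.Icc a b) ∧
    Cuts p (mu G) a b n S ∧ p a = x ∧ cost t p a b < (1 - ε) * S - C * n - B}) (fun x B B' hB t ht => by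
      obtain ⟨p, a, b, n, S, h1, h2, h3, h4, h5⟩ := ht
      exact ⟨p, a, b, n, S, h1, h2, h3, h4, by linarith⟩) hlam h] with t ht ε' hε'
  obtain ⟨r₀, hr₀⟩ := ht ε' hε'
  refine ⟨r₀, fun p a b n S h1 h2 h3 => ?_⟩
  by_contra hcon
  exact hr₀ (p a) ⟨p, a, b, n, S, h1, h2, h3, rfl, by linarith⟩

theorem gca_geo (r : ℝ) : ∑' n : ℕ, ENNReal.ofReal (Real.exp (-((⌈r⌉₊ + n : ℕ) : ℝ))) ≤
    ENNReal.ofReal (2 * Real.exp (-(1 * r))) := by
  have h1 : ∀ n : ℕ, ENNReal.ofReal (Real.exp (-((⌈r⌉₊ + n : ℕ) : ℝ))) ≤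
      ENNReal.ofReal (Real.exp (-(1 * r))) * 2⁻¹ ^ n := fun n => by
    have e : (2⁻¹ : ENNReal) = ENNReal.ofReal 2⁻¹ := by
      rw [ENNReal.ofReal_inv_of_pos two_pos, ENNReal.ofReal_ofNat]
    rw [e, ← ENNReal.ofReal_pow (by norm_num), ← ENNReal.ofReal_mul (Real.exp_pos _).le]
    refine ENNReal.ofReal_le_ofReal ?_
    have h2 : Real.exp (-1) ≤ 2⁻¹ := by
      rw [Real.exp_neg]
      exact inv_anti₀ two_pos (by linarith [Real.add_one_le_exp (1 : ℝ)])
    calc Real.exp (-((⌈r⌉₊ + n : ℕ) : ℝ)) = Real.exp (-(⌈r⌉₊ : ℝ)) * Real.exp (-1) ^ n := by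
          rw [← Real.exp_nat_mul, ← Real.exp_add]
          congr 1
          push_cast
          ring
      _ ≤ _ := by
          gcongr
          linarith [Nat.le_ceil r]
  refine (ENNReal.tsum_le_tsum h1).trans (le_of_eq ?_)
  rw [ENNReal.tsum_mul_left, ENNReal.tsum_geometric_two, ENNReal.ofReal_mul zero_le_two, ENNReal.ofReal_ofNat, mul_comm]

open Classical in
/-- For `r ≤ 0` trivial.  Otherwise `n = b - a ≥ card > r`; reindex the path (`PathIn.reindex`), `peierls_marked`, and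
`∑_{n > r} exp (-n) ≤ 2 exp (-r)`. -/
theorem mark_tail {η : ℝ} (hη : 0 < η) : ∃ p₀ > 0, ∀ q : ℝ, G.real (Set.Iio q) ≤ p₀ → ∀ (x : V) (r : ℝ),
    iidLaw G {t | ∃ p a b, PathIn Set.univ p a b ∧ Set.InjOn p (Set.Icc a b) ∧ p a = x ∧
        η * (b - a) + r < (((Finset.Ico a b).filter fun k => t (edge p k) < q).card : ℝ)} ≤
      ENNReal.ofReal (2 * Real.exp (-(1 * r))) := by
  obtain ⟨p₀, hp₀, h⟩ := peierls_marked G hη
  refine ⟨p₀, hp₀, fun q hq x r => ?_⟩
  rcases le_or_gt r 0 with hr | hr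
  · refine prob_le_one.trans (ENNReal.one_le_ofReal.2 ?_)
    linarith [Real.add_one_le_exp (-(1 * r))]
  refine le_trans (measure_mono fun t ht => ?_) ((measure_iUnion_le _).trans ((ENNReal.tsum_le_tsum fun n : ℕ =>
    (ENNReal.le_ofReal_iff_toReal_le (measure_ne_top _ _) (Real.exp_pos _).le).2
      (h _ measurableSet_Iio hq x (⌈r⌉₊ + n))).trans (gca_geo r)))
  obtain ⟨p, a, b, h1, h2, h3, h4⟩ := ht
  obtain ⟨n, rfl⟩ : ∃ n : ℕ, b = a + n := ⟨(b - a).toNat, by have := h1.1; omega⟩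
  have e : ((Finset.Ico a (a + n)).filter fun k => t (edge p k) < q).card =
      ((Finset.Ico (0 : ℤ) n).filter fun k => t (edge (fun k => p (k + a)) k) ∈ Set.Iio q).card := by
    refine Finset.card_bij (fun k _ => k - a) (fun k hk => ?_) (fun k _ l _ e => by omega) fun k hk => ⟨k + a, ?_, by omega⟩
    · rw [Finset.mem_filter, Finset.mem_Ico] at hk ⊢
      refine ⟨by omega, ?_⟩
      simp only [edge, Set.mem_Iio]
      rw [sub_add_cancel, show k - a + 1 + a = k + 1 by ring]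
      exact hk.2
    · rw [Finset.mem_filter, Finset.mem_Ico] at hk ⊢
      refine ⟨by omega, ?_⟩
      simp only [edge]
      rw [add_right_comm k a 1]
      exact hk.2
  have c1 : (((Finset.Ico a (a + n)).filter fun k => t (edge p k) < q).card : ℝ) ≤ n := by
    have := Finset.card_filter_le (Finset.Ico a (a + n)) fun k => t (edge p k) < q
    rw [Int.card_Ico, add_sub_cancel_left, Int.toNat_natCast] at this
    exact_mod_cast this
  push_cast at h4
  rw [add_sub_cancel_left] at h4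
  have c2 : 0 ≤ η * n := by positivity
  obtain ⟨m, rfl⟩ : ∃ m, n = ⌈r⌉₊ + m := Nat.exists_eq_add_of_le (Nat.ceil_le.2 (by linarith))
  refine Set.mem_iUnion.2 ⟨m, fun k => p (k + a), by simpa using h1.reindex a, fun k hk l hl e => ?_, by simpa using h3, ?_⟩
  · have := h2 (x₁ := k + a) ⟨by have := hk.1; omega, by have := hk.2; omega⟩ (x₂ := l + a)
      ⟨by have := hl.1; omega, by have := hl.2; omega⟩ e
    omega
  · rw [e] at h4
    convert (show η * (⌈r⌉₊ + m : ℕ) ≤ _ from le_trans (by linarith) h4.le)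

/-- `mark_tail`, `ae_bc` -/
theorem ae_markOK {η : ℝ} (hη : 0 < η) : ∃ p₀ > 0, ∀ q : ℝ, G.real (Set.Iio q) ≤ p₀ →
    ∀ᵐ t ∂iidLaw G, MarkOK q η t := by
  obtain ⟨p₀, hp₀, h⟩ := mark_tail (G := G) hη
  refine ⟨p₀, hp₀, fun q hq => ?_⟩
  have key := ae_bc (P := iidLaw G) (fun x B B' hB t ht => by
      obtain ⟨p, a, b, h1, h2, h3, h4⟩ := ht
      exact ⟨p, a, b, h1, h2, h3, by linarith⟩) one_pos (h q hq)
  filter_upwards [key] with t ht ε' hε'
  obtain ⟨r₀, hr₀⟩ := ht ε' hε'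
  refine ⟨r₀, fun p a b h1 h2 => ?_⟩
  by_contra hcon
  exact hr₀ (p a) ⟨p, a, b, h1, h2, rfl, by linarith⟩

end Crest.Agent.R151
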