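import Crest.Agent.R151.CDefs
import Crest.Agent.R151.CFact0

/-!
# R151 / Cgeom: definitions (owner helper37; DO NOT EDIT)

Map of the files.  `CFact0` convex calculus.  C1 (directed rays): `GAvg` (averaging boxes), `GMax` (maximal
inequality), `GLin` (linear Busemann approximants), `GRay` (rays).  C2: `GTop` (separation lemmas), `GEsc` (escape paths,
staircases), `GWedge`, `GLabel`, `GTube`, `GBar`.  C3: `GBK` (BK inequality), `GCut`, `GCutAS` (lower bound for cut paths),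
`GGreedy`, `GStr`.  Assembly: `CGeom`.
-/

set_option autoImplicit false

open MeasureTheory ProbabilityTheory Crest.ProbabilityR.FirstPassage Filter Topology

namespace Crest.Agent.R151

/-- average over a finite set -/
noncomputable def avg (B : Finset V) (φ : V → ℝ) : ℝ := (∑ u ∈ B, φ u) / B.card

/-- far away Følner sets on which the increments of `m` average to `-L` -/
structure Boxes (m : V → ℝ) (L : ℝ × ℝ →L[ℝ] ℝ) (B : ℕ → Finset V) : Prop where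
  ne : ∀ k, (B k).Nonempty
  far : ∀ k, ∀ u ∈ B k, (k : ℤ) ≤ nrm u
  inv : ∀ (φ : V → ℝ) (C : ℝ), (∀ u, |φ u| ≤ C) → ∀ w,
    Tendsto (fun k => avg (B k) (fun u => φ (u - w)) - avg (B k) φ) atTop (𝓝 0)
  grad : ∀ w, Tendsto (fun k => avg (B k) fun u => m (u - w) - m u) atTop (𝓝 (-L (toR w)))

/-- increment of `T(·, u)` along `w`, corrected by `L` -/
noncomputable def incr (L : ℝ × ℝ →L[ℝ] ℝ) (w u y : V) (t : Env) : ℝ := T t (y + w) u - T t y u + L (toR w)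

/-- some average of increments along the multiples of `w` is large -/
def badSet (L : ℝ × ℝ →L[ℝ] ℝ) (w u : V) (lam : ℝ) (M : ℕ) : Set Env :=
  {t | ∃ m ∈ Finset.Icc 1 M, lam * m < ∑ i ∈ Finset.range m, |incr L w u ((i : ℤ) • w) t|}

/-- `T(·, u) - T(0, u)` is close to `-L` on larger and larger balls, for suitable far targets `u` -/
def Lin (L : ℝ × ℝ →L[ℝ] ℝ) (t : Env) : Prop :=
  ∀ ε > 0, ∃ r₀ : ℝ, ∀ R : ℤ, ∃ u : V, R ≤ nrm u ∧
    ∀ z, nrm z ≤ R → |T t z u - T t 0 u + L (toR z)| ≤ ε * nrm z + r₀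

/-- two-point shape theorem -/
def Shape (μ : ℝ × ℝ → ℝ) (t : Env) : Prop :=
  ∀ ε > 0, ∃ r₀ : ℝ, ∀ x y : V, |T t x y - μ (toR (y - x))| ≤ ε * (nrm x + nrm y) + r₀

/-- from every point there is a geodesic ray inside a prescribed cone -/
def ConeRays (μ : ℝ × ℝ → ℝ) (t : Env) : Prop :=
  ∀ ξ₁ ξ₂ : ℝ, deriv (fs μ) ξ₁ < deriv (fs μ) ξ₂ → ∀ ε > 0, ∃ r₀ : ℝ, ∀ s : V, ∃ h : ℤ → V, h 0 = s ∧
    IsRay t Set.univ h 0 ∧ ∀ k, 0 ≤ k → h k - s ∈ cone ξ₁ ξ₂ ∨ (nrm (h k - s) : ℝ) ≤ ε * nrm s + r₀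

/-- forward wedge property of geodesics -/
def Wedge (μ : ℝ × ℝ → ℝ) (t : Env) : Prop :=
  ∀ ξ₁' ξ₁ ξ₂ ξ₂' : ℝ, deriv (fs μ) ξ₁' < deriv (fs μ) ξ₁ → ξ₁ ≤ ξ₂ → deriv (fs μ) ξ₂ < deriv (fs μ) ξ₂' →
    ∀ ε > 0, ∃ r₀ : ℝ, ∀ s : V, ∃ r₁ : ℤ, ∀ p i j, IsGeo t Set.univ p i j → p i = s → r₁ ≤ nrm (p j - s) →
      p j - s ∈ cone ξ₁ ξ₂ → ∀ k, i ≤ k → k ≤ j →
        p k - s ∈ cone ξ₁' ξ₂' ∨ (nrm (p k - s) : ℝ) ≤ ε * nrm s + r₀

/-- the tube property of the curves with labels in `[α, β]` -/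
def TubeG (G : Measure ℝ) (t : Env) (ξ σ α β : ℝ) : Prop :=
  ∀ ε > 0, ∃ r₀ : ℝ, ∀ γ a, Curve G t γ a → α ≤ a → a ≤ β → ∀ i k,
    |((γ k).1 - (γ i).1 : ℝ) - ξ * ((γ k).2 - (γ i).2)| ≤ σ * |((γ k).2 - (γ i).2 : ℝ)| + ε * nrm (γ i) + r₀

/-- the point reflection and the coordinate reflections -/
def sgn (σ₁ σ₂ : ℤˣ) (v : V) : V := (σ₁ * v.1, σ₂ * v.2)

/-- `γ` on `a..b` is cut into `n` consecutive pieces; `S` is the sum of `g` over their displacements -/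
def Cuts (γ : ℤ → V) (g : ℝ × ℝ → ℝ) (a b : ℤ) (n : ℕ) (S : ℝ) : Prop :=
  ∃ c : ℕ → ℤ, c 0 = a ∧ c n = b ∧ (∀ k < n, c k ≤ c (k + 1)) ∧
    S = ∑ k ∈ Finset.range n, g (toR (γ (c (k + 1)) - γ (c k)))

/-- lower bound for the cost of self-avoiding paths that are cut into pieces -/
def CutOK (μ : ℝ × ℝ → ℝ) (ε C : ℝ) (t : Env) : Prop :=
  ∀ ε' > 0, ∃ r₀ : ℝ, ∀ p a b n S, PathIn Set.univ p a b → Set.InjOn p (Set.Icc a b) → Cuts p μ a b n S →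
    (1 - ε) * S - C * n - ε' * nrm (p a) - r₀ ≤ cost t p a b

open Classical in
/-- self-avoiding paths have few edges of weight `< q` -/
def MarkOK (q η : ℝ) (t : Env) : Prop :=
  ∀ ε' > 0, ∃ r₀ : ℝ, ∀ p a b, PathIn Set.univ p a b → Set.InjOn p (Set.Icc a b) →
    (((Finset.Ico a b).filter fun k => t (edge p k) < q).card : ℝ) ≤ η * (b - a) + ε' * nrm (p a) + r₀

/-- `e` is the last index before the first visit to row `j + 1` -/
def IsEn (γ : ℤ → V) (j e : ℤ) : Prop := (γ e).2 = j ∧ (γ (e + 1)).2 = j + 1 ∧ ∀ m, m ≤ e → (γ m).2 ≤ j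

/-- `k` is the last visit to the rows `≤ j` -/
def IsEx (γ : ℤ → V) (j k : ℤ) : Prop := (γ k).2 = j ∧ Last γ k

end Crest.Agent.R151
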