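import Crest.Agent.R151.GDefs
import Crest.Agent.R151.BGeo

/-! # R151 / GEsc: escape paths and staircases (plane geometry, no probability)
Keep the statements; helper lemmas get the prefix `ges_`. -/

set_option autoImplicit false
set_option linter.unusedVariables false
set_option linter.unusedSectionVars false

open MeasureTheory ProbabilityTheory Crest.ProbabilityR.FirstPassage Filter Topology

namespace Crest.Agent.R151

/-- cones only contain finitely many points below a given height -/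
theorem cone_nrm_le {ξ₁ ξ₂ Ξ : ℝ} (h₁ : |ξ₁| ≤ Ξ) (h₂ : |ξ₂| ≤ Ξ) (hΞ : 1 ≤ Ξ) {v : V} (hv : v ∈ cone ξ₁ ξ₂) :
    (nrm v : ℝ) ≤ Ξ * v.2 := by
  obtain ⟨h0, h1, h2⟩ := hv
  have h0' : (0 : ℝ) < v.2 := by exact_mod_cast h0
  obtain ⟨a1, a2⟩ := abs_le.1 h₁
  obtain ⟨a3, a4⟩ := abs_le.1 h₂
  simp only [nrm, Int.cast_max, Int.cast_abs, max_le_iff, abs_le]
  refine ⟨⟨?_, ?_⟩, ?_, ?_⟩ <;> nlinarith

theorem cone_mono {ξ₁ ξ₂ η₁ η₂ : ℝ} (h₁ : η₁ ≤ ξ₁) (h₂ : ξ₂ ≤ η₂) : cone ξ₁ ξ₂ ⊆ cone η₁ η₂ := by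
  rintro v ⟨h0, h1, h2⟩
  have h0' : (0 : ℝ) < v.2 := by exact_mod_cast h0
  exact ⟨h0, by nlinarith, by nlinarith⟩

theorem mem_cone_iff {ξ₁ ξ₂ : ℝ} {v : V} : v ∈ cone ξ₁ ξ₂ ↔ toR v ∈ coneR ξ₁ ξ₂ := by
  simp [cone, coneR, toR]

/-- an injective sequence leaves every ball -/
theorem tendsto_nrm {p : ℤ → V} (s : V) {l : Filter ℤ} (hl : l ≤ cofinite) {I : Set ℤ} (hI : ∀ᶠ k in l, k ∈ I)
    (hp : Set.InjOn p I) : Tendsto (fun k => nrm (p k - s)) l atTop := by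
  refine tendsto_atTop.2 fun R => ?_
  have hf : {k ∈ I | p k ∈ ball s R}.Finite :=
    Set.Finite.of_injOn (fun k hk => hk.2) (hp.mono fun k hk => hk.1) (ball_finite s R)
  filter_upwards [hI, hl hf.compl_mem_cofinite] with k h1 h2
  exact (not_le.1 fun h => h2 ⟨h1, h⟩).le

/-- Changing the apex of a cone. -/
theorem eventually_cone {α : Type} {l : Filter α} {u : α → V} {s : V} {ξ₁ ξ₂ η₁ η₂ : ℝ} (h₁ : η₁ < ξ₁)
    (h₂ : ξ₂ < η₂) (hu : ∀ᶠ k in l, u k - s ∈ cone ξ₁ ξ₂) (hn : Tendsto (fun k => nrm (u k - s)) l atTop) (s' : V) :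
    Tendsto (fun k => (u k).2) l atTop ∧ ∀ᶠ k in l, u k - s' ∈ cone η₁ η₂ := by
  set Ξ := max 1 (max |ξ₁| |ξ₂|) with hΞ
  have hΞ1 : 1 ≤ Ξ := le_max_left _ _
  have t0 : Tendsto (fun k => ((nrm (u k - s) : ℤ) : ℝ) / Ξ) l atTop :=
    (tendsto_intCast_atTop_atTop.comp hn).atTop_div_const (by linarith)
  have t1 : Tendsto (fun k => (((u k - s).2 : ℤ) : ℝ)) l atTop := by
    refine tendsto_atTop_mono' _ ?_ t0
    filter_upwards [hu] with k hk
    rw [div_le_iff₀ (by linarith), mul_comm]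
    exact cone_nrm_le ((le_max_left _ _).trans (le_max_right _ _))
      ((le_max_right _ _).trans (le_max_right _ _)) hΞ1 hk
  have t2 : Tendsto (fun k => (u k).2) l atTop := by
    have := tendsto_atTop_add_const_right _ s.2 (tendsto_intCast_atTop_iff.1 t1)
    simpa using this
  refine ⟨t2, ?_⟩
  filter_upwards [hu, t2.eventually_gt_atTop s'.2,
    (t1.const_mul_atTop (sub_pos.2 h₁)).eventually_ge_atTop (η₁ * (s.2 - s'.2) - (s.1 - s'.1)),
    (t1.const_mul_atTop (sub_pos.2 h₂)).eventually_ge_atTop ((s.1 - s'.1) - η₂ * (s.2 - s'.2))]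
    with k ⟨_, a1, a2⟩ a3 a4 a5
  simp only [Prod.fst_sub, Prod.snd_sub, Int.cast_sub] at a1 a2 a4 a5
  refine ⟨by simpa using a3, ?_, ?_⟩
  · simp only [Prod.fst_sub, Prod.snd_sub, Int.cast_sub]; linarith
  · simp only [Prod.fst_sub, Prod.snd_sub, Int.cast_sub]; linarith

/-- Escape to the bottom.  Write `z - s = (x, y)`.  If `y < -r` go straight down.  If `|y| ≤ r` then `|x| > Ξ r`: go straight
down.  If `y > r` go horizontally away from the cone until `|x| > Ξ y`, then straight down. -/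
theorem escape {ξ₁ ξ₂ Ξ r : ℝ} (h₁ : |ξ₁| ≤ Ξ) (h₂ : |ξ₂| ≤ Ξ) (hΞ : 1 ≤ Ξ) (hr : 0 ≤ r) {s z : V}
    (hz : z - s ∉ cone ξ₁ ξ₂) (hz' : Ξ * r < nrm (z - s)) (b : ℤ) :
    ∃ c : V, c.2 < b ∧ Conn {v | v.2 ≤ z.2 ∧ v - s ∉ cone ξ₁ ξ₂ ∧ r < nrm (v - s)} c z := by
  have hfst : ∀ v : V, |(v.1 : ℝ)| ≤ nrm v := fun v => by
    exact_mod_cast (le_max_left _ _ : |v.1| ≤ nrm v)
  have hsnd : ∀ v : V, |(v.2 : ℝ)| ≤ nrm v := fun v => by
    exact_mod_cast (le_max_right _ _ : |v.2| ≤ nrm v)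
  have down : ∀ w : V, w.2 = z.2 → (((z - s).2 : ℝ) < -r ∨ (r < |((w - s).1 : ℝ)| ∧
      Ξ * (z - s).2 < |((w - s).1 : ℝ)|)) →
      ∃ c : V, c.2 < b ∧ Conn {v | v.2 ≤ z.2 ∧ v - s ∉ cone ξ₁ ξ₂ ∧ r < nrm (v - s)} c w := fun w hw h => by
    refine ⟨(w.1, min w.2 (b - 1)), by simp only; omega, bts_conn fun v a1 a2 a3 a4 => ?_⟩
    have e1 : (v - s).1 = (w - s).1 := by simp only [Prod.fst_sub] at *; omega
    have e2 : v.2 ≤ z.2 := by simp only at *; omega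
    have e3 : ((v - s).2 : ℝ) ≤ (z - s).2 := by
      have : (v - s).2 ≤ (z - s).2 := by simp only [Prod.snd_sub]; omega
      exact_mod_cast this
    have f1 := hfst (v - s)
    have f2 := hsnd (v - s)
    rw [e1] at f1
    refine ⟨e2, fun hc => ?_, ?_⟩
    · have c0 : (0 : ℝ) < (v - s).2 := by exact_mod_cast hc.1
      have c1 := cone_nrm_le h₁ h₂ hΞ hc
      rcases h with h | h
      · linarith
      · nlinarith [h.2]
    · rcases h with h | h
      · linarith [neg_le_abs ((v - s).2 : ℝ)]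
      · linarith [h.1]
  rcases lt_or_ge ((z - s).2 : ℝ) (-r) with h | h
  · exact down z rfl (Or.inl h)
  rcases le_or_gt ((z - s).2 : ℝ) r with h' | h'
  · have h3 : |((z - s).2 : ℝ)| ≤ r := abs_le.2 ⟨h, h'⟩
    have h4 : Ξ * r < |((z - s).1 : ℝ)| := by
      simp only [nrm, Int.cast_max, Int.cast_abs, lt_max_iff] at hz'
      rcases hz' with h4 | h4
      · exact h4
      · nlinarith
    exact down z rfl (Or.inr ⟨by nlinarith, by nlinarith⟩)
  have y0 : (0 : ℝ) < (z - s).2 := by linarith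
  have y0' : 0 < (z - s).2 := by exact_mod_cast y0
  obtain ⟨N, hN⟩ := exists_nat_gt (max (Ξ * (z - s).2) |((z - s).1 : ℝ)|)
  have N1 := (le_max_left _ _).trans_lt hN
  obtain ⟨N2, N3⟩ := abs_lt.1 ((le_max_right _ _).trans_lt hN)
  have N2' : -(N : ℤ) < (z - s).1 := by exact_mod_cast N2
  have N3' : (z - s).1 < N := by exact_mod_cast N3
  have row : ∀ w : V, w.2 = z.2 → |((w - s).1 : ℝ)| = N →
      (∀ v : V, v.2 = z.2 → min w.1 z.1 ≤ v.1 → v.1 ≤ max w.1 z.1 → v - s ∉ cone ξ₁ ξ₂) →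
      ∃ c : V, c.2 < b ∧ Conn {v | v.2 ≤ z.2 ∧ v - s ∉ cone ξ₁ ξ₂ ∧ r < nrm (v - s)} c z := fun w hw e hv => by
    obtain ⟨c, hc, hc'⟩ := down w hw (Or.inr ⟨by nlinarith, by linarith⟩)
    refine ⟨c, hc, hc'.trans (bts_conn fun v a1 a2 a3 a4 => ?_)⟩
    have e2 : v.2 = z.2 := by omega
    have e3 : (v - s).2 = (z - s).2 := by simp only [Prod.snd_sub, e2]
    have f2 := hsnd (v - s)
    rw [e3] at f2
    exact ⟨e2.le, hv v e2 a1 a2, by linarith [le_abs_self ((z - s).2 : ℝ)]⟩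
  rcases lt_or_ge ((z - s).1 : ℝ) (ξ₁ * (z - s).2) with hx | hx
  · refine row (s.1 - N, z.2) rfl (by simp) fun v e2 a1 a2 hc => ?_
    have e3 : (v - s).2 = (z - s).2 := by simp only [Prod.snd_sub, e2]
    have e4 : ((v - s).1 : ℝ) ≤ (z - s).1 := by
      have : (v - s).1 ≤ (z - s).1 := by simp only [Prod.fst_sub] at *; omega
      exact_mod_cast this
    have := hc.2.1
    rw [e3] at this
    linarith
  · have hx' : ξ₂ * (z - s).2 < (z - s).1 := not_le.1 fun h => hz ⟨y0', hx, h⟩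
    refine row (s.1 + N, z.2) rfl (by simp) fun v e2 a1 a2 hc => ?_
    have e3 : (v - s).2 = (z - s).2 := by simp only [Prod.snd_sub, e2]
    have e4 : ((z - s).1 : ℝ) ≤ (v - s).1 := by
      have : (z - s).1 ≤ (v - s).1 := by simp only [Prod.fst_sub] at *; omega
      exact_mod_cast this
    have := hc.2.2
    rw [e3] at this
    linarith

/-- Staircase inside the open cone of slopes in `(η₁, η₂)`.  With `η` the midpoint: first move in the row of `c` to the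
column `s.1 + ⌊η y⌋`, then climb row by row (one step up, then horizontally to `s.1 + ⌊η (y + 1)⌋`); all these points are in
the open cone if `y ≥ y₀`. -/
theorem staircase {η₁ η₂ : ℝ} (h : η₁ < η₂) : ∃ y₀ : ℤ, ∀ (s c : V) (H : ℤ), y₀ ≤ (c - s).2 → c.2 ≤ H →
    η₁ * (c - s).2 < (c - s).1 → ((c - s).1 : ℝ) < η₂ * (c - s).2 →
    ∃ d : V, d.2 = H ∧
      Conn {v | c.2 ≤ v.2 ∧ v.2 ≤ H ∧ η₁ * (v - s).2 < (v - s).1 ∧ ((v - s).1 : ℝ) < η₂ * (v - s).2} c d := by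
  obtain ⟨δ, rfl⟩ : ∃ δ, η₂ = η₁ + 2 * δ := ⟨(η₂ - η₁) / 2, by ring⟩
  have hδ : 0 < δ := by linarith
  obtain ⟨y₀, hy₀⟩ := exists_int_gt ((1 + |η₁| + |η₁ + 2 * δ|) / δ)
  rw [div_lt_iff₀ hδ] at hy₀
  refine ⟨y₀, fun s c H hy hH c1 c2 => ?_⟩
  suffices h : ∃ d : V, d.2 = H ∧ η₁ * (d - s).2 < (d - s).1 ∧ ((d - s).1 : ℝ) < (η₁ + 2 * δ) * (d - s).2 ∧
      Conn {v | c.2 ≤ v.2 ∧ v.2 ≤ H ∧ η₁ * (v - s).2 < (v - s).1 ∧
        ((v - s).1 : ℝ) < (η₁ + 2 * δ) * (v - s).2} c d by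
    obtain ⟨d, h1, -, -, h2⟩ := h
    exact ⟨d, h1, h2⟩
  induction H, hH using Int.le_induction with
  | base => exact ⟨c, rfl, c1, c2, Conn.refl ⟨le_rfl, le_rfl, c1, c2⟩⟩
  | succ H hH ih =>
    obtain ⟨d, rfl, d1, d2, hd⟩ := ih
    set m := ⌊(η₁ + δ) * (d - s).2⌋ with hm
    have m1 : (m : ℝ) ≤ (η₁ + δ) * (d - s).2 := Int.floor_le _
    have m2 : (η₁ + δ) * (d - s).2 < m + 1 := Int.lt_floor_add_one _
    have hy' : (y₀ : ℝ) ≤ (d - s).2 := by
      have : y₀ ≤ (d - s).2 := by simp only [Prod.snd_sub] at *; omega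
      exact_mod_cast this
    have hδy := mul_le_mul_of_nonneg_right hy' hδ.le
    have b1 := le_abs_self η₁
    have b2 := neg_abs_le (η₁ + 2 * δ)
    have b3 := abs_nonneg η₁
    have b4 := abs_nonneg (η₁ + 2 * δ)
    have up : ∀ v : V, v.1 = s.1 + m → v.2 = d.2 ∨ v.2 = d.2 + 1 →
        η₁ * (v - s).2 < (v - s).1 ∧ ((v - s).1 : ℝ) < (η₁ + 2 * δ) * (v - s).2 := fun v e1 e2 => by
      simp only [Prod.fst_sub, Prod.snd_sub, e1, add_sub_cancel_left, Int.cast_sub] at *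
      rcases e2 with e2 | e2 <;> rw [e2] <;> push_cast <;> constructor <;> linarith
    have u := up (s.1 + m, d.2 + 1) rfl (Or.inr rfl)
    refine ⟨(s.1 + m, d.2 + 1), rfl, u.1, u.2, Conn.trans (Conn.trans (y := d) (z := (s.1 + m, d.2))
      (hd.mono fun v hv => ⟨hv.1, hv.2.1.trans (by omega), hv.2.2⟩)
        (bts_conn fun v a1 a2 a3 a4 => ?_)) (bts_conn fun v a1 a2 a3 a4 => ?_)⟩
    · have e2 : v.2 = d.2 := by simp only at *; omega
      have u' := up (s.1 + m, d.2) rfl (Or.inl rfl)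
      simp only [Prod.fst_sub, Prod.snd_sub, add_sub_cancel_left, Int.cast_sub] at u' d1 d2
      have a1' : ((min d.1 (s.1 + m) : ℤ) : ℝ) ≤ v.1 := by exact_mod_cast a1
      have a2' : (v.1 : ℝ) ≤ (max d.1 (s.1 + m) : ℤ) := by exact_mod_cast a2
      push_cast at a1' a2'
      refine ⟨by omega, by omega, ?_, ?_⟩
      · simp only [Prod.fst_sub, Prod.snd_sub, Int.cast_sub, e2]
        rcases min_le_iff.1 a1' with a | a <;> linarith [u'.1]
      · simp only [Prod.fst_sub, Prod.snd_sub, Int.cast_sub, e2]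
        rcases le_max_iff.1 a2' with a | a <;> linarith [u'.2]
    · simp only at a1 a2 a3 a4
      exact ⟨by omega, by omega, up v (by omega) (by omega)⟩

end Crest.Agent.R151
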