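import Crest.Agent.R151.GTop

/-! # R151 / GGreedy: few rows are not tame (deterministic)
Keep the statements; helper lemmas get the prefix `ggr_`. -/

set_option autoImplicit false
set_option linter.unusedVariables false
set_option linter.unusedSectionVars false

open MeasureTheory ProbabilityTheory Crest.ProbabilityR.FirstPassage Filter Topology

namespace Crest.Agent.R151

theorem Cuts.refl (γ : ℤ → V) (g : ℝ × ℝ → ℝ) (a : ℤ) : Cuts γ g a a 0 0 := by
  exact ⟨fun _ => a, rfl, rfl, fun k hk => le_rfl, by simp⟩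

theorem Cuts.cons {γ : ℤ → V} {g : ℝ × ℝ → ℝ} {a a' b : ℤ} {n : ℕ} {S : ℝ} (h : a ≤ a') (hc : Cuts γ g a' b n S) :
    Cuts γ g a b (n + 1) (g (toR (γ a' - γ a)) + S) := by
  obtain ⟨c, h0, hn, hm, hS⟩ := hc
  refine ⟨fun k => Nat.casesOn k a c, rfl, hn, fun k hk => ?_, ?_⟩
  · cases k with
    | zero => exact h.trans h0.ge
    | succ k => exact hm k (by omega)
  · rw [Finset.sum_range_succ', hS, add_comm]
    simp [h0]

/-- telescoping -/
theorem Cuts.add_dot {γ : ℤ → V} {μ : ℝ × ℝ → ℝ} {ρ : ℝ × ℝ} {a b : ℤ} {n : ℕ} {S : ℝ}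
    (hc : Cuts γ (fun p => μ p - dot ρ p) a b n S) : Cuts γ μ a b n (S + dot ρ (toR (γ b - γ a))) := by
  obtain ⟨c, h0, hn, hm, hS⟩ := hc
  refine ⟨c, h0, hn, hm, ?_⟩
  have := Finset.sum_range_sub (fun k => dot ρ (toR (γ (c k)))) n
  have e : ∀ x y : V, dot ρ (toR (x - y)) = dot ρ (toR x) - dot ρ (toR y) := fun x y => by
    simp only [dot, toR, Prod.fst_sub, Prod.snd_sub, Int.cast_sub]
    ring
  rw [hS, Finset.sum_sub_distrib]
  simp only [e]
  rw [this, h0, hn]
  ring

open Classical in
/-- Greedy choice of disjoint stretches.  Strong induction on `J - j`, for all `a` with `a ≤ Q` and `a ≤ en j` if `j < J`.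
If `j = J` use one piece.  If the exit `ex j` is tame pass to `j + 1`.  Otherwise let `m ∈ [en j, ex j]` maximise
`D = nrm (γ m - γ (ex j))`; `D ≥ L + 1` (a point `l` higher than row `j` has `en j < l`).  All points with index `≤ ex j` have
height `≤ j + D`, so `ex j ≤ en j'` for `j' ≥ j + D`.  Cut at `en j, m, ex j` (the two middle pieces have opposite vertical
displacements and contribute `≥ c D`) and continue with `j' = min J (j + D)` and `a = ex j`; at most `D` rows are skipped. -/
theorem greedy {γ : ℤ → V} {en ex : ℤ → ℤ} (hen : ∀ j, IsEn γ j (en j)) (hex : ∀ j, IsEx γ j (ex j))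
    {g : ℝ × ℝ → ℝ} {c : ℝ} (hc : 0 ≤ c) (hg : ∀ p, 0 ≤ g p)
    (hg' : ∀ p q : ℝ × ℝ, p.2 + q.2 = 0 → c * ‖q‖ ≤ g p + g q) (L : ℕ) {j₀ J : ℤ} (hJ : j₀ < J) :
    ∃ (n : ℕ) (S : ℝ), Cuts γ g (en j₀) (ex (J - 1) + 1) n S ∧
      c * (((Finset.Ico j₀ J).filter fun j => ¬ Tame L γ (ex j)).card : ℝ) ≤ S ∧ c * L * ((n : ℝ) - 1) ≤ 3 * S := by
  have key : ∀ (k : ℕ) (j a : ℤ), J - j ≤ k → a ≤ ex (J - 1) + 1 → (j < J → a ≤ en j) →
      ∃ (n : ℕ) (S : ℝ), Cuts γ g a (ex (J - 1) + 1) n S ∧
        c * (((Finset.Ico j J).filter fun j => ¬ Tame L γ (ex j)).card : ℝ) ≤ S ∧ c * L * ((n : ℝ) - 1) ≤ 3 * S := by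
    have base : ∀ j a : ℤ, J ≤ j → a ≤ ex (J - 1) + 1 → ∃ (n : ℕ) (S : ℝ), Cuts γ g a (ex (J - 1) + 1) n S ∧
        c * (((Finset.Ico j J).filter fun j => ¬ Tame L γ (ex j)).card : ℝ) ≤ S ∧ c * L * ((n : ℝ) - 1) ≤ 3 * S := by
      intro j a hj ha
      refine ⟨_, _, (Cuts.refl γ g _).cons ha, ?_, ?_⟩
      · rw [Finset.Ico_eq_empty_of_le hj]
        simpa using hg _
      · simpa using hg _
    intro k
    induction k with
    | zero => exact fun j a h ha _ => base j a (by omega) ha
    | succ k ih =>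
      intro j a h ha ha'
      rcases le_or_gt J j with hj | hj
      · exact base j a hj ha
      have ha'' := ha' hj
      by_cases ht : Tame L γ (ex j)
      · obtain ⟨n, S, h1, h2, h3⟩ := ih (j + 1) a (by omega) ha fun _ =>
          ha''.trans ((hen j).le_en (hen (j + 1)) (by omega))
        refine ⟨n, S, h1, le_trans (mul_le_mul_of_nonneg_left (Nat.cast_le.2 (Finset.card_le_card fun i hi => ?_)) hc) h2, h3⟩
        simp only [Finset.mem_filter, Finset.mem_Ico] at hi ⊢
        refine ⟨⟨?_, hi.1.2⟩, hi.2⟩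
        rcases hi.1.1.eq_or_lt with e | e
        · exact absurd (e ▸ ht) hi.2
        · omega
      have hee : en j ≤ ex j := (hen j).le_ex (hex j) le_rfl
      obtain ⟨m, hm, hmax⟩ := Finset.exists_max_image (Finset.Icc (en j) (ex j)) (fun m => nrm (γ (ex j) - γ m))
        ⟨en j, Finset.mem_Icc.2 ⟨le_rfl, hee⟩⟩
      rw [Finset.mem_Icc] at hm
      obtain ⟨D, hD⟩ : ∃ D, D = nrm (γ (ex j) - γ m) := ⟨_, rfl⟩
      have hLD : (L : ℤ) < D := by
        by_contra hcon
        refine ht ⟨(hex j).2, fun l m' h1 h2 h3 => ?_⟩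
        have h4 : en j < l := by
          by_contra h5
          have := (hen j).2.2 l (by omega)
          have := (hex j).1
          omega
        have h5 := hmax m' (Finset.mem_Icc.2 ⟨by omega, h3⟩)
        have h6 : |(γ (ex j) - γ m').1| ≤ nrm (γ (ex j) - γ m') := le_max_left _ _
        rw [Prod.fst_sub, abs_sub_comm] at h6
        omega
      have hD0 : 0 < D := by omega
      have hup : ex j ≤ en (j + D) := by
        by_contra hcon
        have h1 := (hen (j + D)).2.1
        rcases le_or_gt (en (j + D) + 1) (en j) with h2 | h2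
        · have := (hen j).2.2 _ h2
          omega
        · have h5 := hmax (en (j + D) + 1) (Finset.mem_Icc.2 ⟨by omega, by omega⟩)
          have h6 : |(γ (ex j) - γ (en (j + D) + 1)).2| ≤ nrm (γ (ex j) - γ (en (j + D) + 1)) := le_max_right _ _
          rw [Prod.snd_sub, h1, (hex j).1] at h6
          have := (abs_le.1 h6).1
          omega
      have hQ : ex j ≤ ex (J - 1) + 1 := by
        rcases (show j ≤ J - 1 by omega).eq_or_lt with e | e
        · rw [← e]; omega
        · have := (hex j).lt (hex (J - 1)) e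
          omega
      obtain ⟨n, S, h1, h2, h3⟩ := ih (j + D) (ex j) (by omega) hQ fun _ => hup
      have hgap : c * D ≤ g (toR (γ m - γ (en j))) + g (toR (γ (ex j) - γ m)) := by
        rw [hD, ← norm_toR]
        refine hg' _ _ ?_
        simp only [toR, Prod.snd_sub, (hen j).1, (hex j).1]
        push_cast
        ring
      have g0 := hg (toR (γ (en j) - γ a))
      refine ⟨_, _, ((h1.cons hm.2).cons hm.1).cons ha'', ?_, ?_⟩
      · have hsub : ((Finset.Ico j J).filter fun j => ¬ Tame L γ (ex j)) ⊆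
            Finset.Ico j (j + D) ∪ ((Finset.Ico (j + D) J).filter fun j => ¬ Tame L γ (ex j)) := by
          intro i hi
          simp only [Finset.mem_union, Finset.mem_filter, Finset.mem_Ico] at hi ⊢
          rcases lt_or_ge i (j + D) with e | e
          · exact Or.inl ⟨hi.1.1, e⟩
          · exact Or.inr ⟨⟨e, hi.1.2⟩, hi.2⟩
        have hcard := (Finset.card_le_card hsub).trans (Finset.card_union_le _ _)
        rw [Int.card_Ico] at hcard
        have hcard' := (Nat.cast_le (α := ℝ)).2 hcard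
        have e : (((j + D - j).toNat : ℕ) : ℝ) = D := by
          have : (((j + D - j).toNat : ℕ) : ℤ) = D := by omega
          exact_mod_cast this
        rw [Nat.cast_add, e] at hcard'
        have := mul_le_mul_of_nonneg_left hcard' hc
        linarith
      · have : c * L ≤ c * D := mul_le_mul_of_nonneg_left (by exact_mod_cast hLD.le) hc
        push_cast
        linarith
  refine key (J - j₀).toNat j₀ (en j₀) (by omega) ?_ fun _ => le_rfl
  have := (hen j₀).le_ex (hex (J - 1)) (by omega)
  omega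

end Crest.Agent.R151
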