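import Crest.Agent.R151.GMax
import Crest.Agent.R151.BShape
import Crest.Agent.R151.BErg

/-! # R151 / GLin: approximate Busemann functions are linear
Keep the statements; helper lemmas get the prefix `gli_`. -/

set_option autoImplicit false
set_option linter.unusedVariables false
set_option linter.unusedSectionVars false

open MeasureTheory ProbabilityTheory Crest.ProbabilityR.FirstPassage Filter Topology

namespace Crest.Agent.R151

variable {G : Measure ℝ} [IsProbabilityMeasure G] [NullSingletonClass G] {L : ℝ × ℝ →L[ℝ] ℝ} {v : ℝ × ℝ}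

theorem gli_coord {n N a B z : ℤ} (hn : 0 < n) (hN : 0 ≤ N) (ha : 0 ≤ a) (hz : |z| ≤ n) (h1 : a * N ≤ n)
    (h2 : n ≤ a * N + B) : |N * z / n| ≤ N ∧ |z - a * (N * z / n)| ≤ a + B := by
  obtain ⟨z1, z2⟩ := abs_le.1 hz
  have e := Int.mul_ediv_add_emod (N * z) n
  have r1 := Int.emod_nonneg (N * z) hn.ne'
  have r2 := Int.emod_lt_of_pos (N * z) hn
  generalize N * z / n = d at *
  generalize N * z % n = r at *
  constructor
  · rw [abs_le]
    constructor
    · by_contra h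
      push Not at h
      nlinarith
    · by_contra h
      push Not at h
      nlinarith
  · have key : n * (z - a * d) = z * (n - a * N) + a * r := by linear_combination (-a) * e
    have b1 : |z * (n - a * N)| ≤ n * B := by
      rw [abs_mul, abs_of_nonneg (by omega : 0 ≤ n - a * N)]
      exact mul_le_mul hz (by omega) (by omega) hn.le
    have b2 : 0 ≤ a * r := mul_nonneg ha r1
    have b3 : a * r ≤ n * a := by nlinarith
    obtain ⟨b4, b5⟩ := abs_le.1 b1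
    rw [abs_le]
    constructor
    · by_contra h
      push Not at h
      nlinarith
    · by_contra h
      push Not at h
      nlinarith

/-- `m = ⌊nrm z / (q N)⌋`, `d = fl ((N / nrm z) • toR z)` (`d = 0`, `m = 0` if `z = 0`) -/
theorem exists_net {N q : ℕ} (hN : 1 ≤ N) (hq : 1 ≤ q) (z : V) : ∃ (d : V) (m : ℕ), nrm d ≤ N ∧
    (m : ℤ) * q * N ≤ nrm z ∧ (nrm (z - (m : ℤ) • ((q : ℤ) • d)) : ℝ) ≤ nrm z / N + q * N := by
  rcases (nrm_nonneg z).eq_or_lt with h0 | hn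
  · refine ⟨0, 0, by simp [nrm], by simp [← h0], ?_⟩
    simp only [Nat.cast_zero, zero_smul, sub_zero, ← h0, Int.cast_zero, zero_div, zero_add]
    positivity
  have hqN : (0 : ℤ) < q * N := by positivity
  obtain ⟨m, hm⟩ := Int.eq_ofNat_of_zero_le (Int.ediv_nonneg hn.le hqN.le)
  have e := Int.mul_ediv_add_emod (nrm z) (q * N)
  have r1 := Int.emod_nonneg (nrm z) hqN.ne'
  have r2 := Int.emod_lt_of_pos (nrm z) hqN
  rw [hm] at e
  have h1 : (m : ℤ) * q * N ≤ nrm z := by nlinarith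
  have h2 : nrm z ≤ (m : ℤ) * q * N + q * N := by nlinarith
  obtain ⟨a1, a2⟩ := gli_coord (z := z.1) hn (Int.natCast_nonneg N) (by positivity) (le_max_left _ _) h1 h2
  obtain ⟨b1, b2⟩ := gli_coord (z := z.2) hn (Int.natCast_nonneg N) (by positivity) (le_max_right _ _) h1 h2
  refine ⟨(N * z.1 / nrm z, N * z.2 / nrm z), m, max_le a1 b1, h1, ?_⟩
  have h3 : nrm (z - (m : ℤ) • ((q : ℤ) • ((N * z.1 / nrm z, N * z.2 / nrm z) : V))) ≤ m * q + q * N := by
    refine max_le ?_ ?_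
    · simpa [mul_assoc] using a2
    · simpa [mul_assoc] using b2
  have h4 : ((m : ℝ) * q) ≤ nrm z / N := by
    rw [le_div_iff₀ (by positivity)]
    exact_mod_cast h1
  have h5 := (Int.cast_le (R := ℝ)).2 h3
  push_cast at h5 ⊢
  linarith

theorem gli_toR_zsmul (c : ℤ) (d : V) : toR (c • d) = (c : ℝ) • toR d := by
  ext <;> simp [toR]

theorem gli_nrm_zsmul (c : ℤ) (hc : 0 ≤ c) (d : V) : nrm (c • d) = c * nrm d := by
  simp only [nrm, Prod.smul_fst, Prod.smul_snd, smul_eq_mul, abs_mul, abs_of_nonneg hc, mul_max_of_nonneg _ _ hc]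

/-- `0 ≤ mu (S v + d) - L (S v + d) = S (mu (v + d/S) - mu v - L (d/S)) ≤ τ/4` for `‖d‖ ≤ N` and `S` large (`sn_deriv_self`,
`sn_deriv_le`); `w₂ = fl ((q S) • v)`; `L1_conv` with a small `ε` (in terms of `τ, S, N, ‖v‖`), Lipschitz bounds for the rounding
error, `q` large. -/
theorem exists_small_eL (hG : Hyp G) (hL : HasFDerivAt (mu G) L v) (N : ℕ) {τ : ℝ} (hτ : 0 < τ) :
    ∃ q : ℕ, 1 ≤ q ∧ ∃ w₂ : V, eL G L w₂ ≤ τ * q ∧ ∀ d : V, nrm d ≤ N → eL G L ((q : ℤ) • d + w₂) ≤ τ * q := by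
  have hμ := symNorm_mu G hG
  obtain ⟨δ, hδ, hb⟩ := Metric.eventually_nhds_iff.1
    ((hasFDerivAt_iff_isLittleO_nhds_zero.1 hL).def (c := τ / 4 / (N + 1)) (by positivity))
  obtain ⟨S, hSdef⟩ : ∃ S : ℝ, S = (N + 2) / δ := ⟨_, rfl⟩
  have hS : 0 < S := by rw [hSdef]; positivity
  have exc : ∀ h : ℝ × ℝ, ‖h‖ ≤ N + 1 → mu G (S • v + h) - L (S • v + h) ≤ τ / 4 := fun h hh => by
    have hn : ‖S⁻¹ • h‖ = S⁻¹ * ‖h‖ := by rw [norm_smul, norm_inv, Real.norm_of_nonneg hS.le]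
    have h1 : dist (S⁻¹ • h) 0 < δ := by
      rw [dist_zero_right, hn, inv_mul_lt_iff₀ hS, hSdef, div_mul_cancel₀ _ hδ.ne']
      linarith
    have h2 := (le_abs_self _).trans (hb h1)
    have h3 : S • v + h = S • (v + S⁻¹ • h) := by rw [smul_add, smul_inv_smul₀ hS.ne']
    rw [h3, hμ.smul, map_smul, map_add, sn_deriv_self hμ hL, abs_of_pos hS, smul_eq_mul, ← mul_sub]
    calc S * (mu G (v + S⁻¹ • h) - (mu G v + L (S⁻¹ • h))) ≤ S * (τ / 4 / (N + 1) * (S⁻¹ * (N + 1))) := by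
          refine mul_le_mul_of_nonneg_left ?_ hS.le
          rw [hn] at h2
          have : τ / 4 / (N + 1) * (S⁻¹ * ‖h‖) ≤ τ / 4 / (N + 1) * (S⁻¹ * (N + 1)) := by gcongr
          linarith
      _ = τ / 4 := by field_simp
  obtain ⟨K, hK⟩ : ∃ K : ℝ, K = S * ‖v‖ + (N + 1) := ⟨_, rfl⟩
  have hK0 : 0 < K := by rw [hK]; positivity
  obtain ⟨C, hC⟩ := L1_conv G hG (ε := τ / 4 / K) (by positivity)
  obtain ⟨q₀, hq₀⟩ := exists_nat_ge (C / (τ / 2))
  have hq : (0 : ℝ) < (q₀ + 1 : ℕ) := by positivity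
  have key : ∀ d : V, nrm d ≤ N →
      eL G L (((q₀ + 1 : ℕ) : ℤ) • d + fl (((q₀ + 1 : ℕ) * S : ℝ) • v)) ≤ τ * (q₀ + 1 : ℕ) := fun d hd => by
    generalize hqq : q₀ + 1 = q at *
    have hq1 : (1 : ℝ) ≤ q := by exact_mod_cast (show 1 ≤ q by omega)
    have hCq : C ≤ τ / 2 * q := by
      rw [div_le_iff₀ (by positivity)] at hq₀
      have : (q₀ : ℝ) ≤ q := by exact_mod_cast (show q₀ ≤ q by omega)
      nlinarith
    obtain ⟨w, hw⟩ : ∃ w : V, w = (q : ℤ) • d + fl ((q * S : ℝ) • v) := ⟨_, rfl⟩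
    rw [← hw]
    obtain ⟨h, hh, hw'⟩ : ∃ h : ℝ × ℝ, ‖h‖ ≤ N + 1 ∧ toR w = (q : ℝ) • (S • v + h) := by
      refine ⟨toR d + (q : ℝ)⁻¹ • (toR (fl ((q * S : ℝ) • v)) - (q * S : ℝ) • v), (norm_add_le _ _).trans ?_, ?_⟩
      · rw [norm_toR, norm_smul, norm_inv, Real.norm_of_nonneg hq.le]
        have h1 : (nrm d : ℝ) ≤ N := by exact_mod_cast hd
        have h2 := mul_le_mul (inv_le_one_of_one_le₀ hq1) (norm_toR_fl_sub ((q * S : ℝ) • v)) (norm_nonneg _) zero_le_one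
        linarith
      · rw [hw, toR_add, gli_toR_zsmul, smul_add, smul_add, smul_inv_smul₀ hq.ne', smul_smul]
        simp only [Int.cast_natCast]
        abel
    have e1 : mu G (toR w) - L (toR w) ≤ τ / 4 * q := by
      rw [hw', hμ.smul, map_smul, abs_of_pos hq, smul_eq_mul, ← mul_sub, mul_comm]
      exact mul_le_mul_of_nonneg_right (exc h hh) hq.le
    have e2 : 0 ≤ mu G (toR w) - L (toR w) := sub_nonneg.2 (sn_deriv_le hμ hL _)
    have e3 : (nrm w : ℝ) ≤ q * K := by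
      rw [← norm_toR, hw', norm_smul, Real.norm_of_nonneg hq.le, hK]
      refine mul_le_mul_of_nonneg_left ((norm_add_le _ _).trans ?_) hq.le
      rw [norm_smul, Real.norm_of_nonneg hS.le]
      linarith
    have e4 := hC 0 w
    rw [sub_zero] at e4
    have i1 : Integrable (fun t => |T t 0 w - mu G (toR w)|) (iidLaw G) :=
      ((integrable_T G hG 0 w).sub (integrable_const _)).abs
    have e5 : eL G L w ≤ ∫ t, (|T t 0 w - mu G (toR w)| + (mu G (toR w) - L (toR w))) ∂iidLaw G := by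
      refine integral_mono ((integrable_T G hG 0 w).sub (integrable_const _)).abs (i1.add (integrable_const _))
        fun t => ?_
      have := abs_add_le (T t 0 w - mu G (toR w)) (mu G (toR w) - L (toR w))
      rw [abs_of_nonneg e2, sub_add_sub_cancel] at this
      exact this
    rw [integral_add i1 (integrable_const _), integral_const, probReal_univ, one_smul] at e5
    have e6 : τ / 4 / K * nrm w ≤ τ / 4 * q := by
      calc τ / 4 / K * nrm w ≤ τ / 4 / K * (q * K) := by gcongr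
        _ = τ / 4 * q := by field_simp
    linarith
  refine ⟨q₀ + 1, by omega, _, ?_, key⟩
  simpa using key 0 (by simp [nrm])

/-- `exists_boxes` (`mT_lip`, `mu_le_mT`, `mT_le_mu`), `exists_small_eL`, `avg_bad_le` for the finitely many `d`, `avg_sum`,
`exists_le_avg`, union bound. -/
theorem lin_prob (hG : Hyp G) (hv : v ≠ 0) (hL : HasFDerivAt (mu G) L v) (N : ℕ) {lam η : ℝ} (hlam : 0 < lam)
    (hη : 0 < η) : ∃ q : ℕ, 1 ≤ q ∧ ∀ R : ℕ, ∃ u : V, (R : ℤ) ≤ nrm u ∧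
      (iidLaw G).real (⋃ d ∈ ball 0 N, badSet L ((q : ℤ) • d) u (lam * q) R) ≤ η := by
  have hμ := symNorm_mu G hG
  obtain ⟨B, hB⟩ := exists_boxes hμ hv hL (m := mT G)
    (fun w => by
      obtain ⟨C, -, hC⟩ := mT_lip G hG
      exact ⟨C * nrm (-w), fun u => by simpa using hC (u - w) u⟩)
    (fun ε hε => by
      obtain ⟨C, hC⟩ := mT_le_mu G hG hε
      refine ⟨C, fun u => ?_⟩
      rw [abs_of_nonneg (sub_nonneg.2 (mu_le_mT G hG u))]
      linarith [hC u])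
  obtain ⟨F, hF⟩ : ∃ F : Finset V, ∀ d, d ∈ F ↔ d ∈ ball 0 N := ⟨(ball_finite 0 N).toFinset, by simp⟩
  obtain ⟨n, hn⟩ : ∃ n : ℝ, n = F.card + 1 := ⟨_, rfl⟩
  have hn0 : 0 < n := by rw [hn]; positivity
  obtain ⟨q, hq, w₂, h₂, hd⟩ := exists_small_eL hG hL N (τ := lam * η / (16 * n)) (by positivity)
  have hq0 : (0 : ℝ) < q := by exact_mod_cast hq
  refine ⟨q, hq, fun R => ?_⟩
  have hev : ∀ᶠ k in atTop, ∀ d ∈ F,
      (avg (B k) fun u => (iidLaw G).real (badSet L ((q : ℤ) • d) u (lam * q) R)) ≤ η / n := by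
    rw [eventually_all_finset]
    intro d hdF
    filter_upwards [avg_bad_le hG hB ((q : ℤ) • d) w₂ (lam := lam * q) (by positivity) R (η := η / (2 * n))
      (by positivity)] with k hk
    have h1 := hd d (by simpa [ball] using (hF d).1 hdF)
    refine hk.trans ?_
    calc 4 * (eL G L ((q : ℤ) • d + w₂) + eL G L w₂) / (lam * q) + η / (2 * n)
        ≤ 4 * (lam * η / (16 * n) * q + lam * η / (16 * n) * q) / (lam * q) + η / (2 * n) := by gcongr
      _ = η / n := by field_simp; ring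
  obtain ⟨k, hk, hkR⟩ := (hev.and (eventually_ge_atTop R)).exists
  obtain ⟨u, hu, hu'⟩ := exists_le_avg (hB.ne k)
    fun u => ∑ d ∈ F, (iidLaw G).real (badSet L ((q : ℤ) • d) u (lam * q) R)
  refine ⟨u, le_trans (by exact_mod_cast hkR) (hB.far k u hu), ?_⟩
  have e : (⋃ d ∈ ball 0 N, badSet L ((q : ℤ) • d) u (lam * q) R) = ⋃ d ∈ F, badSet L ((q : ℤ) • d) u (lam * q) R := by
    simp only [hF]
  rw [e]
  refine (measureReal_biUnion_finset_le _ _).trans (hu'.trans ?_)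
  rw [avg_sum]
  refine (Finset.sum_le_sum hk).trans ?_
  rw [Finset.sum_const, nsmul_eq_mul, mul_div_assoc', div_le_iff₀ hn0, hn]
  nlinarith

theorem gli_tele (w u : V) (t : Env) (m : ℕ) : ∑ i ∈ Finset.range m, incr L w u ((i : ℤ) • w) t =
    T t ((m : ℤ) • w) u - T t 0 u + L (toR ((m : ℤ) • w)) := by
  induction m with
  | zero => simp [toR, ← Prod.zero_eq_mk]
  | succ m ih =>
    rw [Finset.sum_range_succ, ih, incr]
    push_cast
    rw [add_smul, one_smul, toR_add, map_add]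
    ring

/-- Deterministic step.  For `nrm z ≤ R` take `d, m` from `exists_net`, `w = q • d`; `m ≤ R`; telescoping gives
`|T(m w, u) - T(0, u) + L (m w)| ≤ lam q m ≤ lam nrm z`; `|T(z, u) - T(m w, u)| ≤ T(z, m w)`, bounded by `Shape`. -/
theorem lin_det {μ : ℝ × ℝ → ℝ} (hμ : SymNorm μ) (L : ℝ × ℝ →L[ℝ] ℝ) {ε : ℝ} (hε : 0 < ε) :
    ∃ (N : ℕ) (lam : ℝ), 1 ≤ N ∧ 0 < lam ∧ ∀ q : ℕ, 1 ≤ q → ∀ t : Env, (∀ e, 0 ≤ t e) → Shape μ t → ∃ r₀ : ℝ,
      ∀ (R : ℕ) (u : V), t ∉ (⋃ d ∈ ball 0 N, badSet L ((q : ℤ) • d) u (lam * q) R) →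
        ∀ z, nrm z ≤ R → |T t z u - T t 0 u + L (toR z)| ≤ ε * nrm z + r₀ := by
  obtain ⟨Cμ, hC₀, hC⟩ := hμ.upper
  obtain ⟨N, hN⟩ := exists_nat_ge ((Cμ + ‖L‖) / (ε / 4))
  have hN0 : (0 : ℝ) < (N + 1 : ℕ) := by positivity
  have hN' : (Cμ + ‖L‖) / (N + 1 : ℕ) ≤ ε / 4 := by
    rw [div_le_iff₀ (by positivity)] at hN
    rw [div_le_iff₀ hN0]
    push_cast
    nlinarith
  refine ⟨N + 1, ε / 4, by omega, by positivity, fun q hq t ht hs => ?_⟩
  have hN1 : 1 ≤ N + 1 := by omega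
  generalize N + 1 = N at *
  obtain ⟨r, hr⟩ := hs (ε / 4) (by positivity)
  refine ⟨r + (Cμ + ‖L‖) * (q * N), fun R u hu z hz => ?_⟩
  obtain ⟨d, m, hd, hm, hzm⟩ := exists_net hN1 hq z
  have hq' : (1 : ℤ) ≤ q := by exact_mod_cast hq
  have hN'' : (1 : ℤ) ≤ N := by exact_mod_cast hN1
  have hmq : (m : ℤ) * q ≤ nrm z := le_trans (le_mul_of_one_le_right (by positivity) hN'') hm
  have hmR : m ≤ R := by
    have : (m : ℤ) ≤ R := (le_mul_of_one_le_right (by positivity) hq').trans (hmq.trans hz)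
    exact_mod_cast this
  obtain ⟨y, hy⟩ : ∃ y : V, y = (m : ℤ) • ((q : ℤ) • d) := ⟨_, rfl⟩
  have e1 : |T t y u - T t 0 u + L (toR y)| ≤ ε / 4 * nrm z := by
    rw [hy, ← gli_tele]
    refine (Finset.abs_sum_le_sum_abs _ _).trans ?_
    have hmq' : ((m : ℝ) * q) ≤ nrm z := by exact_mod_cast hmq
    refine le_trans ?_ (mul_le_mul_of_nonneg_left hmq' (by positivity))
    rcases Nat.eq_zero_or_pos m with rfl | hm0
    · simp
    · by_contra hcon
      refine hu (Set.mem_biUnion (show d ∈ ball 0 N by simpa [ball] using hd) ⟨m, Finset.mem_Icc.2 ⟨hm0, hmR⟩, ?_⟩)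
      rw [not_le] at hcon
      linarith
  rw [← hy] at hzm
  have e2 : (nrm y : ℝ) ≤ nrm z := by
    have : nrm y ≤ nrm z := by
      rw [hy, gli_nrm_zsmul _ (by positivity), gli_nrm_zsmul _ (by positivity), ← mul_assoc]
      exact le_trans (mul_le_mul_of_nonneg_left hd (by positivity)) hm
    exact_mod_cast this
  have e3 : |T t z u - T t y u| ≤ T t y z := by
    have h1 : T t z u ≤ T t z y + T t y u := T_triangle ht
    have h2 : T t y u ≤ T t y z + T t z u := T_triangle ht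
    rw [T_comm (x := z) (y := y)] at h1
    exact abs_le.2 ⟨by linarith, by linarith⟩
  have e4 : T t y z ≤ Cμ * nrm (z - y) + ε / 4 * (nrm y + nrm z) + r := by
    have h1 := (abs_le.1 (hr y z)).2
    have h2 := hC (toR (z - y))
    rw [norm_toR] at h2
    linarith
  have e5 : |L (toR z) - L (toR y)| ≤ ‖L‖ * nrm (z - y) := by
    rw [← map_sub, ← toR_sub, ← norm_toR]
    exact L.le_opNorm _
  have hz0 : (0 : ℝ) ≤ nrm z := by exact_mod_cast nrm_nonneg z
  have e6 : (Cμ + ‖L‖) * nrm (z - y) ≤ ε / 4 * nrm z + (Cμ + ‖L‖) * (q * N) := by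
    calc (Cμ + ‖L‖) * nrm (z - y) ≤ (Cμ + ‖L‖) * (nrm z / N + q * N) := by gcongr
      _ = (Cμ + ‖L‖) / N * nrm z + (Cμ + ‖L‖) * (q * N) := by ring
      _ ≤ _ := by gcongr
  obtain ⟨a1, a2⟩ := abs_le.1 e1
  obtain ⟨b1, b2⟩ := abs_le.1 e3
  obtain ⟨c1, c2⟩ := abs_le.1 e5
  have e7 : ε / 4 * nrm y ≤ ε / 4 * nrm z := by gcongr
  exact abs_le.2 ⟨by linarith, by linarith⟩

theorem gli_ev {Ω : Type} [MeasurableSpace Ω] (P : Measure Ω) (A : ℕ → Set Ω) {c : ENNReal} (h : ∀ n, P (A n) ≤ c) :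
    P {t | ∀ᶠ n in atTop, t ∈ A n} ≤ c := by
  have e : {t | ∀ᶠ n in atTop, t ∈ A n} = ⋃ M : ℕ, {t | ∀ n ≥ M, t ∈ A n} := by
    ext t
    simp [eventually_atTop]
  have hm : Monotone fun M : ℕ => {t | ∀ n ≥ M, t ∈ A n} := fun M M' hM t ht n hn => ht n (hM.trans hn)
  rw [e, hm.measure_iUnion]
  exact iSup_le fun M => le_trans (measure_mono fun t ht => ht M le_rfl) (h M)

/-- For `ε = 1/(n+1)` and every `η > 0`: the set of `t` that lie in all but finitely many of the bad sets of `lin_prob` has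
measure `≤ η` (`le_measure_frequently`, or continuity from below); off this set `lin_det` applies for infinitely many `R`. -/
theorem ae_lin (hG : Hyp G) (hv : v ≠ 0) (hL : HasFDerivAt (mu G) L v) : ∀ᵐ t ∂iidLaw G, Lin L t := by
  have key : ∀ ε > (0 : ℝ), ∀ᵐ t ∂iidLaw G, ∃ r₀ : ℝ, ∀ R : ℤ, ∃ u : V, R ≤ nrm u ∧
      ∀ z, nrm z ≤ R → |T t z u - T t 0 u + L (toR z)| ≤ ε * nrm z + r₀ := fun ε hε => by
    obtain ⟨N, lam, hN, hlam, hdet⟩ := lin_det (symNorm_mu G hG) L hε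
    choose q hq u hu hP using fun k : ℕ => lin_prob hG hv hL N hlam (η := 1 / ((k : ℝ) + 1)) (by positivity)
    have h0 : ∀ᵐ t ∂iidLaw G, ∃ k, ∃ᶠ R : ℕ in atTop,
        t ∉ ⋃ d ∈ ball 0 N, badSet L ((q k : ℤ) • d) (u k R) (lam * q k) R := by
      rw [ae_iff]
      refine le_antisymm (ENNReal.le_of_forall_pos_le_add fun η hη _ => ?_) zero_le
      obtain ⟨k, hk⟩ := exists_nat_one_div_lt (show (0 : ℝ) < η from hη)
      rw [zero_add]
      refine le_trans (measure_mono fun t ht => ?_)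
        (gli_ev _ (fun R => ⋃ d ∈ ball 0 N, badSet L ((q k : ℤ) • d) (u k R) (lam * q k) R) fun R => ?_)
      · exact not_frequently.1 (not_exists.1 ht k) |>.mono fun R hR => not_not.1 hR
      · rw [← ENNReal.ofReal_coe_nnreal, ← ofReal_measureReal (measure_ne_top _ _)]
        exact ENNReal.ofReal_le_ofReal ((hP k R).trans hk.le)
    filter_upwards [h0, ae_nonneg G hG.nonneg, ae_shape G hG] with t ⟨k, hk⟩ ht hs
    obtain ⟨r₀, hr₀⟩ := hdet (q k) (hq k) t ht hs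
    refine ⟨r₀, fun R => ?_⟩
    obtain ⟨R', h1, h2⟩ := (hk.and_eventually (eventually_ge_atTop R.toNat)).exists
    have h3 : R ≤ R' := by omega
    exact ⟨u k R', h3.trans (hu k R'), fun z hz => hr₀ R' _ h1 z (hz.trans h3)⟩
  filter_upwards [ae_all_iff.2 fun n : ℕ => key (1 / ((n : ℝ) + 1)) (by positivity)] with t ht ε hε
  obtain ⟨n, hn⟩ := exists_nat_one_div_lt hε
  obtain ⟨r₀, hr₀⟩ := ht n
  refine ⟨r₀, fun R => (hr₀ R).imp fun u hu => ⟨hu.1, fun z hz => (hu.2 z hz).trans ?_⟩⟩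
  have hz0 : (0 : ℝ) ≤ nrm z := by exact_mod_cast nrm_nonneg z
  gcongr

end Crest.Agent.R151
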