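import Crest.Agent.R151.GAvg
import Crest.Agent.R151.BCross
import Crest.Agent.R151.BUpper

/-! # R151 / GMax: maximal inequality for the increments of T(.,u)
Keep the statements; helper lemmas get the prefix `gmx_`. -/

set_option autoImplicit false
set_option linter.unusedVariables false
set_option linter.unusedSectionVars false

open MeasureTheory ProbabilityTheory Crest.ProbabilityR.FirstPassage Filter Topology

namespace Crest.Agent.R151

variable {G : Measure ℝ} [IsProbabilityMeasure G] [NullSingletonClass G] {L : ℝ × ℝ →L[ℝ] ℝ}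

/-- `E |T(0, w) - L w|` -/
noncomputable def eL (G : Measure ℝ) (L : ℝ × ℝ →L[ℝ] ℝ) (w : V) : ℝ := ∫ t, |T t 0 w - L (toR w)| ∂iidLaw G

theorem eL_nonneg (w : V) : 0 ≤ eL G L w := by
  exact integral_nonneg fun t => abs_nonneg _

theorem measurable_incr (w u y : V) : Measurable (incr L w u y) := by
  exact ((measurable_T _ _).sub (measurable_T _ _)).add_const _

theorem integrable_incr (hG : Hyp G) (w u y : V) : Integrable (incr L w u y) (iidLaw G) := by
  exact ((integrable_T G hG _ _).sub (integrable_T G hG _ _)).add (integrable_const _)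

theorem measurableSet_badSet (w u : V) (lam : ℝ) (M : ℕ) : MeasurableSet (badSet L w u lam M) := by
  have : badSet L w u lam M =
      ⋃ m ∈ Finset.Icc 1 M, {t | lam * m < ∑ i ∈ Finset.range m, |incr L w u ((i : ℤ) • w) t|} := by
    ext t
    simp only [badSet, Set.mem_ofPred_eq, Set.mem_iUnion, exists_prop]
  rw [this]
  exact Finset.measurableSet_biUnion _ fun m _ => measurableSet_lt measurable_const
    (Finset.measurable_sum _ fun i _ => (measurable_incr w u _).abs)

theorem incr_shift (w u y v : V) (t : Env) : incr L w u y (shift v t) = incr L w (u + v) (y + v) t := by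
  simp only [incr, T_shift, add_right_comm y w v]

theorem gmx_shift (v : V) {f : Env → ℝ} (hf : Measurable f) : ∫ t, f (shift v t) ∂iidLaw G = ∫ t, f t ∂iidLaw G := by
  conv_rhs => rw [← (measurePreserving_shift G v).map_eq]
  rw [integral_map (measurable_shift v).aemeasurable hf.aestronglyMeasurable]

/-- `|Z| = Z + 2 Z⁻`, and `Z ≥ -(T(y, y + w) - L w)` a.s. by the triangle inequality; `integral_T`, stationarity. -/
theorem integral_abs_incr_le (hG : Hyp G) (w u y : V) : ∫ t, |incr L w u y t| ∂iidLaw G ≤
    mT G (u - y - w) - mT G (u - y) + L (toR w) + 2 * eL G L w := by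
  have i1 : Integrable (fun t => |T t y (y + w) - L (toR w)|) (iidLaw G) :=
    ((integrable_T G hG _ _).sub (integrable_const _)).abs
  have e1 : ∫ t, |T t y (y + w) - L (toR w)| ∂iidLaw G = eL G L w := by
    rw [eL, ← gmx_shift y (f := fun t => |T t 0 w - L (toR w)|) ((measurable_T _ _).sub_const _).abs]
    simp only [T_shift, zero_add, add_comm w y]
  have e2 : ∫ t, incr L w u y t ∂iidLaw G = mT G (u - y - w) - mT G (u - y) + L (toR w) := by
    simp only [incr]
    have i2 : Integrable (fun t => T t (y + w) u - T t y u) (iidLaw G) :=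
      (integrable_T G hG _ _).sub (integrable_T G hG _ _)
    rw [integral_add i2 (integrable_const _),
      integral_sub (integrable_T G hG _ _) (integrable_T G hG _ _), integral_T, integral_T, integral_const,
      probReal_univ, one_smul, sub_sub u y w]
  rw [← e1, ← e2, ← integral_const_mul, ← integral_add (integrable_incr hG w u y) (i1.const_mul 2)]
  refine integral_mono_ae (integrable_incr hG w u y).abs ((integrable_incr hG w u y).add (i1.const_mul 2)) ?_
  filter_upwards [ae_nonneg G hG.nonneg] with t ht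
  have h1 : T t y u ≤ T t y (y + w) + T t (y + w) u := T_triangle ht
  have h2 := le_abs_self (T t y (y + w) - L (toR w))
  have h3 := abs_nonneg (T t y (y + w) - L (toR w))
  rw [abs_le]
  unfold incr
  constructor <;> linarith

/-- `incr w u 0 = incr (w + w₂) u 0 - incr w₂ u w` -/
theorem integral_abs_incr_le₂ (hG : Hyp G) (w w₂ u : V) : ∫ t, |incr L w u 0 t| ∂iidLaw G ≤
    (mT G (u - (w + w₂)) - mT G u + L (toR (w + w₂)) + 2 * eL G L (w + w₂)) +
      (mT G (u - (w + w₂)) - mT G (u - w) + L (toR w₂) + 2 * eL G L w₂) := by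
  have h1 := integral_abs_incr_le (L := L) hG (w + w₂) u 0
  have h2 := integral_abs_incr_le (L := L) hG w₂ u w
  rw [sub_zero] at h1
  rw [sub_sub] at h2
  refine le_trans ?_ (add_le_add h1 h2)
  rw [← integral_add (integrable_incr hG _ _ _).abs (integrable_incr hG _ _ _).abs]
  refine integral_mono (integrable_incr hG _ _ _).abs
    ((integrable_incr hG _ _ _).abs.add (integrable_incr hG _ _ _).abs) fun t => ?_
  have : incr L w u 0 t = incr L (w + w₂) u 0 t - incr L w₂ u w t := by
    simp only [incr, zero_add, toR_add, map_add]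
    ring
  simp only [this]
  exact abs_sub _ _

/-- By stationarity (`shift (j • w)`) the `j`-th event has the probability of
`{t | ∃ m ∈ Icc 1 M, lam m < ∑ i < m, |incr L w u ((j + i) • w) t|}`; integrate `maximal_1d`. -/
theorem sum_bad_le (hG : Hyp G) (w u : V) (lam : ℝ) (J M : ℕ) :
    lam * ∑ j ∈ Finset.range J, (iidLaw G).real (badSet L w (u - (j : ℤ) • w) lam M) ≤
      ∑ i ∈ Finset.range (J + M), ∫ t, |incr L w (u - (i : ℤ) • w) 0 t| ∂iidLaw G := by
  classical
  let E : ℕ → Set Env := fun j => shift ((j : ℤ) • w) ⁻¹' badSet L w (u - (j : ℤ) • w) lam M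
  have mE : ∀ j, MeasurableSet (E j) := fun j => measurable_shift _ (measurableSet_badSet _ _ _ _)
  have e1 : ∀ j : ℕ, (iidLaw G).real (badSet L w (u - (j : ℤ) • w) lam M) =
      ∫ t, (E j).indicator (fun _ => (1 : ℝ)) t ∂iidLaw G := fun j => by
    rw [integral_indicator_const _ (mE j), smul_eq_mul, mul_one,
      (measurePreserving_shift G _).measureReal_preimage (measurableSet_badSet _ _ _ _).nullMeasurableSet]
  have e2 : ∀ i : ℕ, ∫ t, |incr L w (u - (i : ℤ) • w) 0 t| ∂iidLaw G = ∫ t, |incr L w u ((i : ℤ) • w) t| ∂iidLaw G :=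
    fun i => by
    rw [← gmx_shift ((i : ℤ) • w) (measurable_incr w _ 0).abs]
    simp only [incr_shift, sub_add_cancel, zero_add]
  have iE : ∀ j, Integrable ((E j).indicator fun _ => (1 : ℝ)) (iidLaw G) := fun j =>
    (integrable_const _).indicator (mE j)
  simp only [e1, e2]
  rw [← integral_finsetSum _ fun j _ => iE j, ← integral_finsetSum _ fun i _ => (integrable_incr hG _ _ _).abs,
    ← integral_const_mul]
  refine integral_mono ((integrable_finsetSum _ fun j _ => iE j).const_mul _)
    (integrable_finsetSum _ fun i _ => (integrable_incr hG _ _ _).abs) fun t => ?_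
  refine le_trans (le_of_eq ?_) (maximal_1d (fun n => |incr L w u ((n : ℤ) • w) t|) (fun n => abs_nonneg _) lam J M)
  congr 1
  rw [Finset.card_filter, Nat.cast_sum]
  refine Finset.sum_congr rfl fun j _ => ?_
  have : t ∈ E j ↔ ∃ m ∈ Finset.Icc 1 M, lam * m < ∑ k ∈ Finset.range m, |incr L w u (((j + k : ℕ) : ℤ) • w) t| := by
    simp only [E, badSet, Set.mem_preimage, Set.mem_ofPred_eq, incr_shift, sub_add_cancel, Nat.cast_add, add_smul,
      add_comm ((j : ℤ) • w)]
  rw [Set.indicator_apply, Nat.cast_ite, Nat.cast_one, Nat.cast_zero]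
  simp only [this]
  congr

theorem gmx_grad {m : V → ℝ} {B : ℕ → Finset V} (hB : Boxes m L B) (a b : V) (c : ℝ) :
    Tendsto (fun k => avg (B k) fun u => m (u - (a + b)) - m (u - a) + L (toR b) + c) atTop (𝓝 c) := by
  have h := (((hB.grad (a + b)).sub (hB.grad a)).add_const (L (toR b))).add_const c
  have e : -L (toR (a + b)) - -L (toR a) + L (toR b) + c = c := by
    rw [toR_add, map_add]
    ring
  rw [e] at h
  refine h.congr fun k => ?_
  rw [avg_add, avg_add, avg_const (hB.ne k), avg_const (hB.ne k), ← avg_sub]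
  simp only [sub_sub_sub_cancel_right]

/-- Average `sum_bad_le` (with `J = M`; trivial if `M = 0`) over `u ∈ B k`.  On the left use `Boxes.inv`; on the right
`integral_abs_incr_le₂` and `Boxes.grad` (write `m (u - a) - m (u - b) = (m (u - a) - m u) - (m (u - b) - m u)`): the
average of each term tends to `2 eL (w + w₂) + 2 eL w₂`. -/
theorem avg_bad_le (hG : Hyp G) {B : ℕ → Finset V} (hB : Boxes (mT G) L B) (w w₂ : V) {lam : ℝ} (hlam : 0 < lam)
    (M : ℕ) {η : ℝ} (hη : 0 < η) : ∀ᶠ k in atTop,
      (avg (B k) fun u => (iidLaw G).real (badSet L w u lam M)) ≤ 4 * (eL G L (w + w₂) + eL G L w₂) / lam + η := by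
  have e0 := eL_nonneg (G := G) (L := L) (w + w₂)
  have e0' := eL_nonneg (G := G) (L := L) w₂
  rcases Nat.eq_zero_or_pos M with rfl | hM
  · refine Eventually.of_forall fun k => ?_
    have : ∀ u, badSet L w u lam 0 = ∅ := fun u => by simp [badSet]
    simp only [this, measureReal_empty, avg_const (hB.ne k)]
    positivity
  have hM' : (0 : ℝ) < M := by exact_mod_cast hM
  let φ : V → ℝ := fun u => (iidLaw G).real (badSet L w u lam M)
  let ψ : ℕ → V → ℝ := fun i u =>
    (mT G (u - ((i : ℤ) • w + (w + w₂))) - mT G (u - (i : ℤ) • w) + L (toR (w + w₂)) + 2 * eL G L (w + w₂)) +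
      (mT G (u - ((i : ℤ) • w + w + w₂)) - mT G (u - ((i : ℤ) • w + w)) + L (toR w₂) + 2 * eL G L w₂)
  have h1 : ∀ u, lam * ∑ j ∈ Finset.range M, φ (u - (j : ℤ) • w) ≤ ∑ i ∈ Finset.range (M + M), ψ i u := fun u => by
    refine (sum_bad_le hG w u lam M M).trans (Finset.sum_le_sum fun i _ => ?_)
    simpa only [ψ, sub_sub, add_assoc] using integral_abs_incr_le₂ (L := L) hG w w₂ (u - (i : ℤ) • w)
  have h2 : ∀ i, Tendsto (fun k => avg (B k) (ψ i)) atTop (𝓝 (2 * eL G L (w + w₂) + 2 * eL G L w₂)) := fun i =>
    ((gmx_grad hB _ _ _).add (gmx_grad hB _ _ _)).congr fun k => (avg_add _ _ _).symm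
  have h3 : ∀ j : ℕ, Tendsto (fun k => avg (B k) (fun u => φ (u - (j : ℤ) • w)) - avg (B k) φ) atTop (𝓝 0) := fun j =>
    hB.inv φ 1 (fun u => by rw [abs_of_nonneg measureReal_nonneg]; exact measureReal_le_one) _
  have h4 := (tendsto_finsetSum (Finset.range (M + M)) fun i _ => h2 i).sub
    ((tendsto_finsetSum (Finset.range M) fun j _ => h3 j).const_mul lam)
  have h5 : ∑ _ ∈ Finset.range (M + M), (2 * eL G L (w + w₂) + 2 * eL G L w₂) - lam * ∑ _ ∈ Finset.range M, (0 : ℝ) <
      lam * M * (4 * (eL G L (w + w₂) + eL G L w₂) / lam + η) := by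
    simp only [Finset.sum_const, Finset.card_range, nsmul_eq_mul, mul_zero, sub_zero, Nat.cast_add]
    have : lam * M * (4 * (eL G L (w + w₂) + eL G L w₂) / lam + η) =
        (M + M) * (2 * eL G L (w + w₂) + 2 * eL G L w₂) + lam * M * η := by
      field_simp
      ring
    rw [this]
    have : 0 < lam * M * η := by positivity
    linarith
  filter_upwards [h4.eventually_lt_const h5] with k hk
  have h6 := avg_mono (B := B k) fun u _ => h1 u
  rw [avg_const_mul, avg_sum, avg_sum] at h6
  rw [Finset.sum_sub_distrib, Finset.sum_const, Finset.card_range, nsmul_eq_mul] at hk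
  refine le_of_mul_le_mul_left (a := lam * M) ?_ (by positivity)
  change lam * M * avg (B k) φ ≤ _
  linarith

end Crest.Agent.R151
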