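import Crest.Agent.R151.GLin
import Crest.Agent.R151.GEsc

/-! # R151 / GRay: directed geodesic rays
Keep the statements; helper lemmas get the prefix `gry_`. -/

set_option autoImplicit false
set_option linter.unusedVariables false
set_option linter.unusedSectionVars false

open MeasureTheory ProbabilityTheory Crest.ProbabilityR.FirstPassage Filter Topology

namespace Crest.Agent.R151

variable {G : Measure ℝ} [IsProbabilityMeasure G] [NullSingletonClass G]

/-- `exists_geo` from `s` to the targets `u R`, `exists_ray_limit` (the lengths are `≥ nrm (u R - s)`).  If `h k` lies on the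
geodesic `s → u` then `T(s, h k) = T(s, u) - T(h k, u) ≤ L (h k - s) + ε' (nrm s + nrm (h k)) + 2 r`; lower half of `Shape`. -/
theorem ray_of_lin {μ : ℝ × ℝ → ℝ} {L : ℝ × ℝ →L[ℝ] ℝ} {t : Env} (hr : Reg t) (hs : Shape μ t) (hl : Lin L t)
    {ε : ℝ} (hε : 0 < ε) : ∃ r₀ : ℝ, ∀ s : V, ∃ h : ℤ → V, h 0 = s ∧ IsRay t Set.univ h 0 ∧ ∀ k, 0 ≤ k →
      μ (toR (h k - s)) - L (toR (h k - s)) ≤ ε * nrm (h k - s) + ε * nrm s + r₀ := by
  obtain ⟨r₁, h₁⟩ := hl (ε / 4) (by positivity)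
  obtain ⟨r₂, h₂⟩ := hs (ε / 4) (by positivity)
  choose u hu hu' using h₁
  refine ⟨2 * r₁ + r₂, fun s => ?_⟩
  choose P b hP h0 hb using fun n : ℕ => exists_geo hr (conn_univ s (u n))
  have tb : Tendsto b atTop atTop := by
    refine tendsto_atTop_mono (fun n => ?_)
      (tendsto_atTop_add_const_right _ (-nrm s) tendsto_natCast_atTop_atTop)
    have e1 := (hP n).1.nrm_le
    have e2 := nrm_add_le (u n - s) s
    have e3 := hu n
    rw [h0, hb] at e1
    rw [sub_add_cancel] at e2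
    omega
  obtain ⟨q, φ, hφ, hq, q0, hlim⟩ := exists_ray_limit P b hr.nonneg hP h0 tb
  refine ⟨q, q0, hq, fun k hk => ?_⟩
  have tφ : Tendsto (fun n => (φ n : ℤ)) atTop atTop := tendsto_natCast_atTop_atTop.comp hφ.tendsto_atTop
  obtain ⟨n, e1, e2, e3, e4⟩ := ((hlim k hk).and (((tb.comp hφ.tendsto_atTop).eventually_ge_atTop k).and
    ((tφ.eventually_ge_atTop (nrm s)).and (tφ.eventually_ge_atTop (nrm (q k)))))).exists
  replace e2 : k ≤ b (φ n) := e2
  have g0 := (hP (φ n)).2.2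
  have g1 := ((hP (φ n)).sub hr.nonneg le_rfl hk e2).2.2
  have g2 := ((hP (φ n)).sub hr.nonneg hk e2 le_rfl).2.2
  rw [cost_add hk e2, g1, g2, h0, hb, e1] at g0
  have g3 : T t s (q k) + T t (q k) (u (φ n)) = T t s (u (φ n)) := g0
  have l1 := (abs_le.1 (hu' _ s e3)).2
  have l2 := (abs_le.1 (hu' _ (q k) e4)).1
  have l3 := (abs_le.1 (h₂ s (q k))).1
  have l4 : L (toR (q k - s)) = L (toR (q k)) - L (toR s) := by rw [toR_sub, map_sub]
  have l5 : (nrm (q k) : ℝ) ≤ nrm (q k - s) + nrm s := by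
    have := nrm_add_le (q k - s) s
    rw [sub_add_cancel] at this
    exact_mod_cast this
  have l6 : (0 : ℝ) ≤ nrm (q k - s) := by exact_mod_cast nrm_nonneg _
  nlinarith

/-- `ae_lin` for all rational `ξ` with `L = fderiv ℝ (mu G) (ξ, 1)`; `exists_rat_dfs`, `exists_cone_gap`, `fderiv_rho`. -/
theorem ae_coneRays (H : HypC G) : ∀ᵐ t ∂iidLaw G, ConeRays (mu G) t := by
  have hμ := symNorm_mu G H.hyp
  have hd : DiffOff (mu G) := H.diff
  filter_upwards [ae_reg G H.hyp.nonneg, ae_shape G H.hyp, ae_all_iff.2 fun ξ : ℚ =>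
    ae_lin H.hyp (f0_ne ξ) (hd _ (f0_ne ξ)).hasFDerivAt] with t hr hs hl
  intro ξ₁ ξ₂ h12 ε hε
  obtain ⟨ξ, a1, a2⟩ := exists_rat_dfs hμ hd h12
  obtain ⟨κ, hκ, hg⟩ := exists_cone_gap hμ hd a1 a2
  have hm : 0 < min 1 ε := lt_min one_pos hε
  obtain ⟨r₀, h⟩ := ray_of_lin hr hs (hl ξ) (ε := κ / 2 * min 1 ε) (by positivity)
  refine ⟨r₀ / (κ / 2), fun s => ?_⟩
  obtain ⟨p, p0, hp, hk⟩ := h s
  refine ⟨p, p0, hp, fun k h0 => (hg (toR (p k - s))).imp mem_cone_iff.2 fun h1 => ?_⟩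
  have h2 := hk k h0
  rw [fderiv_rho hμ hd] at h2
  rw [norm_toR] at h1
  have n1 : (0 : ℝ) ≤ nrm (p k - s) := by exact_mod_cast nrm_nonneg _
  have n2 : (0 : ℝ) ≤ nrm s := by exact_mod_cast nrm_nonneg _
  have m1 := mul_le_mul_of_nonneg_right (min_le_left 1 ε) n1
  have m2 := mul_le_mul_of_nonneg_right (min_le_right 1 ε) n2
  rw [← sub_le_iff_le_add', le_div_iff₀ (by positivity)]
  nlinarith

end Crest.Agent.R151
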