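import Crest.Agent.R151.GLabel

/-! # R151 / GTube: wedge in both directions, tubes (deterministic)
Keep the statements; helper lemmas get the prefix `gtu_`. -/

set_option autoImplicit false
set_option linter.unusedVariables false
set_option linter.unusedSectionVars false

open MeasureTheory ProbabilityTheory Crest.ProbabilityR.FirstPassage Filter Topology

namespace Crest.Agent.R151

variable {G : Measure ℝ} [IsProbabilityMeasure G] [NullSingletonClass G] {t : Env}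

/-- the second half is the first half for the path `k ↦ -p (-k)` in `act (fun x => -x) t` (`isGeo_act`, `IsGeo.rev`) -/
theorem wedge_both {μ : ℝ × ℝ → ℝ} (h₁ : Wedge μ t) (h₂ : Wedge μ (act (fun x => -x) t)) {ξ₁' ξ₁ ξ₂ ξ₂' ε : ℝ}
    (e₁ : deriv (fs μ) ξ₁' < deriv (fs μ) ξ₁) (e : ξ₁ ≤ ξ₂) (e₂ : deriv (fs μ) ξ₂ < deriv (fs μ) ξ₂') (hε : 0 < ε) :
    ∃ r₀ : ℝ, ∀ s : V, ∃ r₁ : ℤ,
    ∀ p i j, IsGeo t Set.univ p i j → r₁ ≤ nrm (p j - p i) → p j - p i ∈ cone ξ₁ ξ₂ → ∀ k, i ≤ k → k ≤ j →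
      (p i = s → p k - s ∈ cone ξ₁' ξ₂' ∨ (nrm (p k - s) : ℝ) ≤ ε * nrm s + r₀) ∧
      (p j = s → s - p k ∈ cone ξ₁' ξ₂' ∨ (nrm (p k - s) : ℝ) ≤ ε * nrm s + r₀) := by
  obtain ⟨ra, ha⟩ := h₁ _ _ _ _ e₁ e e₂ ε hε
  obtain ⟨rb, hb⟩ := h₂ _ _ _ _ e₁ e e₂ ε hε
  refine ⟨max ra rb, fun s => ?_⟩
  obtain ⟨r₁, h₁⟩ := ha s
  obtain ⟨r₂, h₂⟩ := hb (-s)
  refine ⟨max r₁ r₂, fun p i j hp hr hc k hik hkj => ⟨fun hs => ?_, fun hs => ?_⟩⟩
  · rw [hs] at hr hc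
    exact (h₁ p i j hp hs (le_of_max_le_left hr) hc k hik hkj).imp_right fun h => by linarith [le_max_left ra rb]
  · have e : ∀ x : V, -x - -s = s - x := fun x => by abel
    have hg : IsGeo (act (fun x => -x) t) Set.univ (fun k => -p (-k)) (-j) (-i) := by
      rw [isGeo_act isAut_neg, Set.image_univ_of_surjective isAut_neg.bij.2]
      simpa using hp.rev
    rw [hs] at hr hc
    have := h₂ _ _ _ hg (by simp [hs]) (by simpa only [neg_neg, e] using le_of_max_le_right hr)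
      (by simpa only [neg_neg, e] using hc) (-k) (by omega) (by omega)
    simp only [neg_neg, e, nrm_neg] at this
    refine this.imp_right fun h => ?_
    rw [nrm_sub_comm]
    linarith [le_max_right ra rb]

theorem gtu_est {ξ σ ε r n : ℝ} (hσ : 0 ≤ σ) (hε : 0 < ε) (hn : 0 ≤ n) {v : V}
    (h : v ∈ cone (ξ - σ) (ξ + σ) ∨ (nrm v : ℝ) ≤ ε / (1 + |ξ|) * n + r) :
    |(v.1 : ℝ) - ξ * v.2| ≤ σ * |(v.2 : ℝ)| + ε * n + (1 + |ξ|) * |r| := by
  have h0 := abs_nonneg ξ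
  have h1 : 0 ≤ ε * n := by positivity
  have h2 : 0 ≤ (1 + |ξ|) * |r| := by positivity
  rcases h with ⟨c1, c2, c3⟩ | h
  · have : (0 : ℝ) < v.2 := by exact_mod_cast c1
    rw [abs_of_pos this]
    exact abs_le.2 ⟨by linarith, by linarith⟩
  · have a1 : |(v.1 : ℝ)| ≤ nrm v := by exact_mod_cast le_max_left _ _
    have a2 : |(v.2 : ℝ)| ≤ nrm v := by exact_mod_cast le_max_right _ _
    have a3 : |(v.1 : ℝ) - ξ * v.2| ≤ (1 + |ξ|) * nrm v := by
      refine (abs_sub _ _).trans ?_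
      rw [abs_mul]
      nlinarith
    have a4 : (1 + |ξ|) * nrm v ≤ (1 + |ξ|) * (ε / (1 + |ξ|) * n + |r|) := by
      gcongr
      linarith [le_abs_self r]
    have a5 : (1 + |ξ|) * (ε / (1 + |ξ|) * n + |r|) = ε * n + (1 + |ξ|) * |r| := by field_simp
    have a6 : 0 ≤ σ * |(v.2 : ℝ)| := by positivity
    linarith

/-- Nothing to prove unless `max α (-fp 1) ≤ min β (fp 1)`.  Choose (intermediate values of the continuous monotone `fp`)
`ξ - σ < ξ₁ < ζ₁`, `ζ₂ < ξ₂ < ξ + σ` with `fp (ξ - σ) < fp ξ₁ < fp ζ₁ < min α (fp 1)`..., so that every admissible label `a` has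
`fp ζ₁ < a < fp ζ₂`.  `eventually_cone_of_label` and `eventually_cone` show that `γ k - γ i ∈ cone ξ₁ ξ₂` for `k → ∞` and
`γ i - γ k ∈ cone ξ₁ ξ₂` for `k → -∞`; `wedge_both` with `ε / (1 + |ξ|)`. -/
theorem tube_of_wedge (H : HypC G) (h₁ : Wedge (mu G) t) (h₂ : Wedge (mu G) (act (fun x => -x) t)) {ξ σ α β : ℝ}
    (e₁ : fp G (ξ - σ) < α) (e₂ : β < fp G (ξ + σ)) : TubeG G t ξ σ α β := by
  intro ε hε
  rcases lt_or_ge β α with hαβ | hαβ
  · exact ⟨0, fun γ a _ h1 h2 => absurd (h1.trans h2) (not_le.2 hαβ)⟩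
  have hμ := symNorm_mu G H.hyp
  have hm := gla_mono H
  have hlt : ξ - σ < ξ + σ := hm.reflect_lt (by linarith)
  have ivt : ∀ b, fp G (ξ - σ) < b → b < fp G (ξ + σ) → ∃ ζ, fp G ζ = b := fun b h1 h2 => by
    obtain ⟨ζ, -, h⟩ := intermediate_value_Ioo hlt.le (dfs_continuous hμ H.diff).continuousOn
      (show b ∈ Set.Ioo _ _ from ⟨h1, h2⟩)
    exact ⟨ζ, h⟩
  obtain ⟨b₁, b₁a, b₁b⟩ := exists_between e₁
  obtain ⟨b₂, b₂a, b₂b⟩ := exists_between e₂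
  obtain ⟨ζ₁, rfl⟩ := ivt b₁ b₁a (by linarith)
  obtain ⟨ζ₂, rfl⟩ := ivt b₂ (by linarith) b₂b
  obtain ⟨ξ₁, a₁, a₂⟩ := exists_rat_dfs hμ H.diff b₁a
  obtain ⟨ξ₂, a₃, a₄⟩ := exists_rat_dfs hμ H.diff b₂b
  have l₁ : (ξ₁ : ℝ) < ζ₁ := hm.reflect_lt a₂
  have l₂ : ζ₂ < ξ₂ := hm.reflect_lt a₃
  have l₃ : ζ₁ < ζ₂ := hm.reflect_lt (by linarith)
  obtain ⟨r₀, hr₀⟩ := wedge_both h₁ h₂ a₁ (by linarith) a₄ (ε := ε / (1 + |ξ|)) (by positivity)
  refine ⟨(1 + |ξ|) * |r₀|, fun γ a hγ ha hb i k => ?_⟩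
  obtain ⟨r₁, hr₁⟩ := hr₀ (γ i)
  have hn : ∀ (s : V) {l : Filter ℤ}, l ≤ cofinite → Tendsto (fun k => nrm (γ k - s)) l atTop := fun s l hl =>
    tendsto_nrm s hl (I := Set.univ) (Eventually.of_forall fun _ => trivial) hγ.bi.injective.injOn
  have h0 : (0 : ℝ) ≤ nrm (γ i) := by exact_mod_cast nrm_nonneg _
  rcases le_total i k with hik | hik
  · have c1 := eventually_cone_of_label H hγ.lab.up hγ.lab.top (b₁b.trans_le ha) (hb.trans_lt b₂a)
    have c2 := (eventually_cone (s := 0) l₁ l₂ (by simpa using c1) (hn 0 atTop_le_cofinite) (γ i)).2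
    obtain ⟨j, j1, j2, j3⟩ := (c2.and (((hn (γ i) atTop_le_cofinite).eventually_ge_atTop r₁).and
      (eventually_ge_atTop k))).exists
    simpa using gtu_est (by linarith) hε h0 ((hr₁ γ i j (hγ.bi i j (hik.trans j3)) j2 j1 k hik j3).1 rfl)
  · have c1 := eventually_cone_of_label H (u := fun k => -γ k) (tendsto_neg_atBot_atTop.comp hγ.lab.down)
      (by simpa only [slope_neg] using hγ.lab.bot) (b₁b.trans_le ha) (hb.trans_lt b₂a)
    have c2 := (eventually_cone (u := fun k => -γ k) (s := 0) l₁ l₂ (by simpa only [sub_zero] using c1)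
      (by simpa only [sub_zero, nrm_neg] using hn 0 atBot_le_cofinite) (-γ i)).2
    obtain ⟨j, j1, j2, j3⟩ := (c2.and (((hn (γ i) atBot_le_cofinite).eventually_ge_atTop r₁).and
      (eventually_le_atBot k))).exists
    have e : -γ j - -γ i = γ i - γ j := by abel
    rw [e] at j1
    rw [nrm_sub_comm] at j2
    have c3 := (hr₁ γ j i (hγ.bi j i (j3.trans hik)) j2 j1 k j3 hik).2 rfl
    rw [nrm_sub_comm] at c3
    have := gtu_est (by linarith) hε h0 c3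
    simp only [Prod.fst_sub, Prod.snd_sub, Int.cast_sub] at this
    rw [abs_sub_comm ((γ k).2 : ℝ), ← abs_neg]
    convert this using 2
    ring

end Crest.Agent.R151
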