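import Crest.Agent.R151.GTop
import Crest.Agent.R151.GEsc

/-! # R151 / GWedge: geodesics are trapped between two directed rays
Keep the statements; helper lemmas get the prefix `gwe_`. -/

set_option autoImplicit false
set_option linter.unusedVariables false
set_option linter.unusedSectionVars false

open MeasureTheory ProbabilityTheory Crest.ProbabilityR.FirstPassage Filter Topology

namespace Crest.Agent.R151

theorem gwe_snd_le (v : V) : |v.2| ≤ nrm v := le_max_right _ _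

theorem gwe_first {t : Env} {g : ℤ → V} {s : V} {a b Ξ r : ℝ} (ha : |a| ≤ Ξ) (hb : |b| ≤ Ξ) (hΞ : 1 ≤ Ξ) (hg0 : g 0 = s)
    (hg : IsRay t Set.univ g 0) (hc : ∀ k, 0 ≤ k → g k - s ∈ cone a b ∨ (nrm (g k - s) : ℝ) ≤ r) {H : ℤ}
    (hH : r < (H - s.2 : ℝ)) (hr : 0 ≤ r) :
    ∃ i, PathIn (lower H) g 0 i ∧ (g i).2 = H ∧ g i - s ∈ cone a b := by
  have hadj : ∀ k, 0 ≤ k → Adj (g k) (g (k + 1)) := fun k hk =>
    (hg (k + 1) (by omega)).1.2.2 k hk (by omega)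
  have hsH : s.2 < H := by
    have : (0 : ℝ) < (H - s.2 : ℝ) := by linarith
    have : (s.2 : ℝ) < H := by linarith
    exact_mod_cast this
  have hup : ∃ k, 0 ≤ k ∧ H ≤ (g k).2 := by
    obtain ⟨M, hM⟩ := exists_int_gt (Ξ * (H - s.2) + r)
    obtain ⟨k, hk, hk0⟩ := ((hg.tendsto_nrm.eventually_ge_atTop (M + nrm s)).and (eventually_ge_atTop 0)).exists
    refine ⟨k, hk0, ?_⟩
    have h1 : M ≤ nrm (g k - s) := by
      have := nrm_add_le (g k - s) s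
      rw [sub_add_cancel] at this
      omega
    have h1' : (M : ℝ) ≤ nrm (g k - s) := by exact_mod_cast h1
    have hpos : (0 : ℝ) ≤ Ξ * (H - s.2) := by
      apply mul_nonneg <;> linarith
    rcases hc k hk0 with h | h
    · have h2 := cone_nrm_le ha hb hΞ h
      have h3 : Ξ * (H - s.2 : ℝ) < Ξ * ((g k - s).2 : ℝ) := by linarith
      have h4 := lt_of_mul_lt_mul_left h3 (by linarith)
      simp only [Prod.snd_sub, Int.cast_sub] at h4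
      have : (H : ℝ) < (g k).2 := by linarith
      exact_mod_cast this.le
    · linarith
  obtain ⟨i, hi0, hiH, hi⟩ := exists_first_row hadj (H := H) (by rw [hg0]; omega) hup
  refine ⟨i, (hg i hi0).1.restrict fun k h1 h2 => ?_, hiH, ?_⟩
  · rcases h2.lt_or_eq with h | h
    · exact (hi k h1 h).le
    · rw [h]; exact hiH.le
  · refine (hc i hi0).resolve_right fun h => ?_
    have h1 := gwe_snd_le (g i - s)
    have h2 : H - s.2 ≤ nrm (g i - s) := by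
      rw [Prod.snd_sub, hiH] at h1
      exact (le_abs_self _).trans h1
    have h3 : (H - s.2 : ℝ) ≤ nrm (g i - s) := by exact_mod_cast h2
    linarith

theorem wedge_of_rays {μ : ℝ × ℝ → ℝ} (hμ : SymNorm μ) (hd : DiffOff μ) {t : Env} (hr : Reg t) (hc : ConeRays μ t) :
    Wedge μ t := by
  intro ξ₁' ξ₁ ξ₂ ξ₂' e₁ e e₂ ε hε
  have hmono := dfs_mono hμ hd
  obtain ⟨η₁, a₁, a₂⟩ : ∃ η : ℝ, deriv (fs μ) ξ₁' < deriv (fs μ) η ∧ deriv (fs μ) η < deriv (fs μ) ξ₁ := by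
    obtain ⟨η, h⟩ := exists_rat_dfs hμ hd e₁
    exact ⟨η, h⟩
  obtain ⟨η₂, b₁, b₂⟩ : ∃ η : ℝ, deriv (fs μ) ξ₂ < deriv (fs μ) η ∧ deriv (fs μ) η < deriv (fs μ) ξ₂' := by
    obtain ⟨η, h⟩ := exists_rat_dfs hμ hd e₂
    exact ⟨η, h⟩
  have l₁ : ξ₁' < η₁ := hmono.reflect_lt a₁
  have l₂ : η₁ < ξ₁ := hmono.reflect_lt a₂
  have l₃ : ξ₂ < η₂ := hmono.reflect_lt b₁
  have l₄ : η₂ < ξ₂' := hmono.reflect_lt b₂
  obtain ⟨Ξ, hΞ, x₁, x₂⟩ : ∃ Ξ : ℝ, 1 ≤ Ξ ∧ |ξ₁'| ≤ Ξ ∧ |ξ₂'| ≤ Ξ :=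
    ⟨max 1 (max |ξ₁'| |ξ₂'|), le_max_left _ _, le_max_of_le_right (le_max_left _ _), le_max_of_le_right (le_max_right _ _)⟩
  have mid : ∀ x : ℝ, ξ₁' ≤ x → x ≤ ξ₂' → |x| ≤ Ξ := fun x h1 h2 =>
    abs_le.2 ⟨by linarith [(abs_le.1 x₁).1], by linarith [(abs_le.1 x₂).2]⟩
  have hΞ0 : 0 < Ξ := by linarith
  obtain ⟨ra, hra⟩ := hc ξ₁' η₁ a₁ (ε / Ξ) (by positivity)
  obtain ⟨rb, hrb⟩ := hc η₂ ξ₂' b₂ (ε / Ξ) (by positivity)
  obtain ⟨y₀, hy₀⟩ := staircase (η₁ := η₁) (η₂ := η₂) (by linarith)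
  obtain ⟨r', r'0, r'a, r'b⟩ : ∃ r' : ℝ, 0 ≤ r' ∧ ra ≤ r' ∧ rb ≤ r' :=
    ⟨max 0 (max ra rb), le_max_left _ _, le_max_of_le_right (le_max_left _ _), le_max_of_le_right (le_max_right _ _)⟩
  refine ⟨Ξ * r', fun s => ?_⟩
  obtain ⟨g, g0, gray, hg⟩ := hra s
  obtain ⟨h, h0, hray, hh⟩ := hrb s
  obtain ⟨r, hrdef⟩ : ∃ r : ℝ, r = ε / Ξ * nrm s + r' := ⟨_, rfl⟩
  have hs0 : (0 : ℝ) ≤ nrm s := by exact_mod_cast nrm_nonneg s
  have hr0 : 0 ≤ r := by rw [hrdef]; positivity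
  have hg' : ∀ k, 0 ≤ k → g k - s ∈ cone ξ₁' η₁ ∨ (nrm (g k - s) : ℝ) ≤ r := fun k hk =>
    (hg k hk).imp_right fun h => by linarith
  have hh' : ∀ k, 0 ≤ k → h k - s ∈ cone η₂ ξ₂' ∨ (nrm (h k - s) : ℝ) ≤ r := fun k hk =>
    (hh k hk).imp_right fun h => by linarith
  obtain ⟨r₁, hr₁⟩ := exists_int_gt (Ξ * max (y₀ : ℝ) r)
  refine ⟨r₁, fun p i j hp hpi hj hcone k hik hkj => ?_⟩
  by_contra hcon
  rw [not_or, not_le] at hcon
  obtain ⟨z₁, z₂⟩ := hcon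
  have z₃ : Ξ * r < nrm (p k - s) := by
    have : Ξ * r = ε * nrm s + Ξ * r' := by rw [hrdef]; field_simp
    linarith
  have z₄ : r < nrm (p k - s) := by nlinarith
  -- the height of the endpoint
  have y₁ : max (y₀ : ℝ) r < ((p j - s).2 : ℝ) := by
    have h2 := cone_nrm_le (mid ξ₁ (by linarith) (by linarith)) (mid ξ₂ (by linarith) (by linarith)) hΞ hcone
    have h3 : (r₁ : ℝ) ≤ nrm (p j - s) := by exact_mod_cast hj
    exact lt_of_mul_lt_mul_left (a := Ξ) (by linarith) hΞ0.le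
  have y₂ : y₀ ≤ (p j - s).2 := by
    have : (y₀ : ℝ) ≤ ((p j - s).2 : ℝ) := (le_max_left _ _).trans y₁.le
    exact_mod_cast this
  have y₃ : r < ((p j - s).2 : ℝ) := (le_max_right _ _).trans_lt y₁
  obtain ⟨H, hH⟩ : ∃ H : ℤ, ∀ m, k ≤ m → m ≤ j → (p m).2 ≤ H := by
    obtain ⟨H, hH⟩ := ((Set.finite_Icc k j).image fun m => (p m).2).bddAbove
    exact ⟨H, fun m h1 h2 => hH ⟨m, ⟨h1, h2⟩, rfl⟩⟩
  have hHr : r < (H - s.2 : ℝ) := by
    have h1 : ((p j).2 : ℝ) ≤ H := by exact_mod_cast hH j hkj le_rfl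
    simp only [Prod.snd_sub, Int.cast_sub] at y₃
    linarith
  obtain ⟨i₁, gi₁, gi₂, gi₃⟩ := gwe_first x₁ (mid η₁ l₁.le (by linarith)) hΞ g0 gray hg' hHr hr0
  obtain ⟨j₁, hj₁, hj₂, hj₃⟩ := gwe_first (mid η₂ (by linarith) l₄.le) x₂ hΞ h0 hray hh' hHr hr0
  have hU : ∀ v ∈ g '' Set.Icc 0 i₁ ∪ h '' Set.Icc 0 j₁,
      v - s ∈ cone ξ₁' η₁ ∨ v - s ∈ cone η₂ ξ₂' ∨ (nrm (v - s) : ℝ) ≤ r := by
    rintro v (⟨a, ha, rfl⟩ | ⟨a, ha, rfl⟩)
    · rcases hg' a ha.1 with h | h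
      exacts [Or.inl h, Or.inr (Or.inr h)]
    · rcases hh' a ha.1 with h | h
      exacts [Or.inr (Or.inl h), Or.inr (Or.inr h)]
  have hU' : ∀ v, v - s ∉ cone ξ₁' ξ₂' → r < nrm (v - s) → v ∉ g '' Set.Icc 0 i₁ ∪ h '' Set.Icc 0 j₁ := by
    intro v h1 h2 hv
    rcases hU v hv with h | h | h
    · exact h1 (cone_mono le_rfl (by linarith) h)
    · exact h1 (cone_mono (by linarith) le_rfl h)
    · linarith
  obtain ⟨c, hc₁, hc₂⟩ := escape x₁ x₂ hΞ hr0 z₁ z₃ (s.2 - ⌈r⌉)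
  have hpos : (0 : ℝ) < ((p j - s).2 : ℝ) := by exact_mod_cast hcone.1
  obtain ⟨d, hd₁, hd₂⟩ := hy₀ s (p j) H y₂ (hH j hkj le_rfl)
    (lt_of_lt_of_le (mul_lt_mul_of_pos_right l₂ hpos) hcone.2.1)
    (lt_of_le_of_lt hcone.2.2 (mul_lt_mul_of_pos_right l₃ hpos))
  have hdmem : η₁ * ((d - s).2 : ℝ) < (d - s).1 ∧ ((d - s).1 : ℝ) < η₂ * (d - s).2 := by
    obtain ⟨w, a, b, hw, -, hb⟩ := hd₂
    have := hw.2.1 b hw.1 le_rfl
    rw [hb] at this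
    exact this.2.2
  refine sep_U gi₁ hj₁ (g0.trans h0.symm) gi₂ hj₂ (c := c) (d := d) ?_ hd₁ ?_ ?_ ?_
  · intro v hv
    have hce : (0 : ℤ) ≤ ⌈r⌉ := Int.ceil_nonneg hr0
    rcases hU v hv with h | h | h
    · have := h.1
      rw [Prod.snd_sub] at this
      omega
    · have := h.1
      rw [Prod.snd_sub] at this
      omega
    · have h1 : nrm (v - s) ≤ ⌈r⌉ := by
        have : (nrm (v - s) : ℝ) ≤ (⌈r⌉ : ℤ) := h.trans (Int.le_ceil r)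
        exact_mod_cast this
      have h2 := (abs_le.1 ((gwe_snd_le (v - s)).trans h1)).1
      rw [Prod.snd_sub] at h2
      omega
  · have h1 := gi₃.2.2
    have h2 := hdmem.1
    simp only [Prod.snd_sub, Prod.fst_sub, Int.cast_sub, gi₂, hd₁] at h1 h2
    have : ((g i₁).1 : ℝ) < d.1 := by linarith
    exact_mod_cast this
  · have h1 := hj₃.2.1
    have h2 := hdmem.2
    simp only [Prod.snd_sub, Prod.fst_sub, Int.cast_sub, hj₂, hd₁] at h1 h2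
    have : (d.1 : ℝ) < (h j₁).1 := by linarith
    exact_mod_cast this
  · refine (Conn.mono hc₂ ?_).trans (Conn.trans (y := p j) ?_ (Conn.mono hd₂ ?_))
    · rintro v ⟨h1, h2, h3⟩
      exact ⟨h1.trans (hH k le_rfl hkj), hU' v h2 h3⟩
    · refine PathIn.conn ((hp.1.sub hik hkj le_rfl).restrict fun m h1 h2 => ⟨hH m h1 h2, ?_⟩)
      rintro (⟨a, ha, e⟩ | ⟨a, ha, e⟩)
      · obtain ⟨b, hb1, hb2, hb⟩ := geo_mem_of_meet hr hp (gray i₁ gi₁.1) (a := i) (b := k) (c := m) (a' := 0) (c' := a)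
          le_rfl hik h1 h2 ⟨le_rfl, gi₁.1⟩ ha (hpi.trans g0.symm) e.symm
        refine hU' (p k) z₁ z₄ (Or.inl ⟨b, ⟨?_, ?_⟩, hb.symm⟩)
        · rwa [min_eq_left ha.1] at hb1
        · rw [max_eq_right ha.1] at hb2
          exact hb2.trans ha.2
      · obtain ⟨b, hb1, hb2, hb⟩ := geo_mem_of_meet hr hp (hray j₁ hj₁.1) (a := i) (b := k) (c := m) (a' := 0) (c' := a)
          le_rfl hik h1 h2 ⟨le_rfl, hj₁.1⟩ ha (hpi.trans h0.symm) e.symm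
        refine hU' (p k) z₁ z₄ (Or.inr ⟨b, ⟨?_, ?_⟩, hb.symm⟩)
        · rwa [min_eq_left ha.1] at hb1
        · rw [max_eq_right ha.1] at hb2
          exact hb2.trans ha.2
    · rintro v ⟨h1, h2, h3, h4⟩
      refine ⟨h2, fun hv => ?_⟩
      rcases hU v hv with h | h | h
      · exact absurd h.2.2 (not_le.2 h3)
      · exact absurd h.2.1 (not_le.2 h4)
      · have h5 : (p j - s).2 ≤ nrm (v - s) := by
          refine le_trans ?_ ((le_abs_self _).trans (gwe_snd_le (v - s)))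
          simp only [Prod.snd_sub]
          omega
        have h6 : ((p j - s).2 : ℝ) ≤ nrm (v - s) := by exact_mod_cast h5
        linarith

end Crest.Agent.R151
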