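import Crest.Agent.R151.GStrA
import Crest.Agent.R151.GCutAS
import Crest.Agent.R151.GTube
import Crest.Agent.R151.GWedge
import Crest.Agent.R151.GRay
import Crest.Agent.R151.BTilt
import Crest.Agent.R151.BShape

/-! # R151 / GStr: good rows
Keep the statements; helper lemmas get the prefix `gst_`. -/

set_option autoImplicit false
set_option linter.unusedVariables false
set_option linter.unusedSectionVars false

open MeasureTheory ProbabilityTheory Crest.ProbabilityR.FirstPassage Filter Topology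

namespace Crest.Agent.R151

variable {G : Measure ℝ} [IsProbabilityMeasure G] [NullSingletonClass G] {t : Env}

theorem gst_ev {a b : ℝ} (ha : 0 < a) : ∀ᶠ w : ℕ in atTop, b ≤ a * w :=
  (tendsto_natCast_atTop_atTop.const_mul_atTop ha).eventually_ge_atTop b

open Classical in
theorem str_one (H : HypC G) (ht : ∀ e, 0 ≤ t e) (hs : Shape (mu G) t) {ξ σ α β Ξ Cμ c ε C q₀ q η : ℝ} {L : ℕ}
    (htube : TubeG G t ξ σ α β) (hσ : 0 ≤ σ) (hΞ : |ξ| + σ ≤ Ξ) (hC₀ : 0 < Cμ) (hCμ : ∀ v, mu G v ≤ Cμ * ‖v‖)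
    (hc : 0 < c) (hc1 : c ≤ 1) (hgap : ∀ p : ℝ × ℝ, c * ‖p‖ ≤ mu G p - fp G ξ * p.1)
    (hι : (fp G (ξ + σ) - fp G (ξ - σ)) * (2 * σ) ≤ c / 320 / 2) (hε₀ : 0 ≤ ε) (hε : ε ≤ 1 / 2)
    (hεc : ε * (Cμ * (Ξ + 1)) ≤ c / 320) (hC : 0 ≤ C) (hL : 12 * C ≤ c * L) (hcut : CutOK (mu G) ε C t) (hq₀ : 0 < q₀)
    (hm₀ : MarkOK q₀ (1 / 2) t) (hη₀ : 0 ≤ η) (hη₁ : η ≤ 1) (hη : η * (2 * (Cμ * (Ξ + 1) + 1) / q₀) ≤ 1 / 60)
    (hm : MarkOK q η t) (K : ℕ) :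
    ∀ᶠ w : ℕ in atTop, ∀ γ a, Curve G t γ a → α ≤ a → a ≤ β → (∃ k, nrm (γ k) ≤ K * w) → ∀ j₀ : ℤ,
      -(K * w : ℤ) ≤ j₀ → j₀ + w ≤ K * w →
      (1 - 1 / 10 : ℝ) * w ≤ (((Finset.Ico j₀ (j₀ + w)).filter fun j => ∃ k, (γ k).2 = j ∧ Good L q t γ k).card : ℝ) := by
  have hμ := symNorm_mu G H.hyp
  obtain ⟨C₁, hC₁, hev⟩ := str_cost H hs htube hσ hΞ hC₀ hCμ (τ := c / 320) (by positivity) hι K
  obtain ⟨r₁, hr₁⟩ := hcut (c / 320 / C₁) (by positivity)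
  obtain ⟨r₂, hr₂⟩ := hm₀ (1 / 240 / C₁) (by positivity)
  obtain ⟨r₃, hr₃⟩ := hm (1 / 120 / C₁) (by positivity)
  filter_upwards [hev, gst_ev (a := c / 320) (b := C + r₁) (by positivity), gst_ev (a := 1 / 240) (b := r₂) (by positivity),
    gst_ev (a := 1 / 120) (b := r₃) (by positivity), eventually_gt_atTop 0] with w hw e₁ e₂ e₃ hw0
  intro γ a hγ ha hb hk j₀ hj₀ hj₁
  have hadj := hγ.bi.adjG
  choose en hen using exists_en hadj hγ.lab.up hγ.lab.down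
  choose ex hex using exists_ex hadj hγ.lab.up hγ.lab.down
  have hw0' : (0 : ℤ) < w := by exact_mod_cast hw0
  have hJ : j₀ < j₀ + w := by omega
  set P := en j₀ with hP
  set Q := ex (j₀ + w - 1) + 1 with hQ
  have hPQ : P ≤ Q := by
    have := (hen j₀).le_ex (hex (j₀ + w - 1)) (by omega)
    omega
  have hP2 : (γ P).2 = j₀ := (hen j₀).1
  have hQ2 : (γ Q).2 = j₀ + w := by
    have := (hex (j₀ + w - 1)).succ hadj
    rw [hQ, this]; ring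
  obtain ⟨k₁, k₂, k₃⟩ := hw γ a hγ ha hb hk P Q hPQ (by omega) (by omega) (by omega)
  have hgeo := hγ.bi P Q hPQ
  have n₁ : c / 320 / C₁ * nrm (γ P) ≤ c / 320 * w := by
    calc c / 320 / C₁ * nrm (γ P) ≤ c / 320 / C₁ * (C₁ * w) := by gcongr
      _ = c / 320 * w := by field_simp
  have n₂ : 1 / 240 / C₁ * nrm (γ P) ≤ 1 / 240 * w := by
    calc 1 / 240 / C₁ * nrm (γ P) ≤ 1 / 240 / C₁ * (C₁ * w) := by gcongr
      _ = 1 / 240 * w := by field_simp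
  have n₃ : 1 / 120 / C₁ * nrm (γ P) ≤ 1 / 120 * w := by
    calc 1 / 120 / C₁ * nrm (γ P) ≤ 1 / 120 / C₁ * (C₁ * w) := by gcongr
      _ = 1 / 120 * w := by field_simp
  have hwR : (0 : ℝ) ≤ w := Nat.cast_nonneg w
  have t₁ := str_tame_static (μ := mu G) (ρ := rho (mu G) ξ) (dot_rho_le hμ H.diff ξ) hc hgap hen hex hε₀ hε hC hL hJ
    (D := Cμ * (Ξ + 1) * w) (E := c / 320 * w + c / 320 * w + r₁) k₂ (by
      intro n S hS
      have := hr₁ γ P Q n S hgeo.1 hgeo.2.1 hS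
      rw [← hP, ← hQ]
      linarith)
  have t₂ := str_use_static ht hen hex hJ hP hQ hq₀ hη₀ (q := q) (E := 1 / 120 * w) (E' := 1 / 60 * w)
    (M := (Cμ * (Ξ + 1) + 1) * w)
    (by have := hr₂ γ P Q hgeo.1 hgeo.2.1; linarith) (by have := hr₃ γ P Q hgeo.1 hgeo.2.1; linarith)
    (by nlinarith)
  have u₁ : (((Finset.Ico j₀ (j₀ + w)).filter fun j => ¬ Tame L γ (ex j)).card : ℝ) ≤ w / 20 := by
    have h1 : ε * (Cμ * (Ξ + 1) * w) ≤ c / 320 * w := by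
      rw [← mul_assoc]; exact mul_le_mul_of_nonneg_right hεc hwR
    have h2 : c * (((Finset.Ico j₀ (j₀ + w)).filter fun j => ¬ Tame L γ (ex j)).card : ℝ) ≤ c * (w / 20) := by
      linarith
    exact le_of_mul_le_mul_left h2 hc
  have u₂ : (((Finset.Ico j₀ (j₀ + w)).filter fun j => t (edge γ (ex j)) < q).card : ℝ) ≤ w / 20 := by
    have h1 : η * (2 * ((Cμ * (Ξ + 1) + 1) * w) / q₀) ≤ 1 / 60 * w := by
      calc η * (2 * ((Cμ * (Ξ + 1) + 1) * w) / q₀) = η * (2 * (Cμ * (Ξ + 1) + 1) / q₀) * w := by ring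
        _ ≤ 1 / 60 * w := mul_le_mul_of_nonneg_right hη hwR
    have h2 : η * (2 * (1 / 120 * w)) ≤ 1 * (2 * (1 / 120 * w)) := by gcongr
    rw [mul_add] at t₂
    linarith
  have hsub : Finset.Ico j₀ (j₀ + w) ⊆
      ((Finset.Ico j₀ (j₀ + w)).filter fun j => ∃ k, (γ k).2 = j ∧ Good L q t γ k) ∪
        (((Finset.Ico j₀ (j₀ + w)).filter fun j => ¬ Tame L γ (ex j)) ∪
          ((Finset.Ico j₀ (j₀ + w)).filter fun j => t (edge γ (ex j)) < q)) := by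
    intro j hj
    simp only [Finset.mem_union, Finset.mem_filter]
    by_cases h1 : Tame L γ (ex j)
    · by_cases h2 : t (edge γ (ex j)) < q
      · exact Or.inr (Or.inr ⟨hj, h2⟩)
      · exact Or.inl ⟨hj, ex j, (hex j).1, h1, not_lt.1 h2⟩
    · exact Or.inr (Or.inl ⟨hj, h1⟩)
  have hcard := (Finset.card_le_card hsub).trans ((Finset.card_union_le _ _).trans
    (Nat.add_le_add_left (Finset.card_union_le _ _) _))
  rw [Int.card_Ico] at hcard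
  have e : (j₀ + w - j₀).toNat = w := by omega
  rw [e] at hcard
  have hcard' := (Nat.cast_le (α := ℝ)).2 hcard
  push_cast at hcard'
  linarith

theorem ae_wedge_act (H : HypC G) {φ : V → V} (hφ : IsAut φ) : ∀ᵐ t ∂iidLaw G, Wedge (mu G) (act φ t) := by
  have h : ∀ᵐ t ∂iidLaw G, Wedge (mu G) t := by
    filter_upwards [ae_reg G H.hyp.nonneg, ae_coneRays H] with t h1 h2
    exact wedge_of_rays (symNorm_mu G H.hyp) H.diff h1 h2
  exact (measurePreserving_act G hφ.bij).quasiMeasurePreserving.ae h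

theorem ae_wedge_id (H : HypC G) : ∀ᵐ t ∂iidLaw G, Wedge (mu G) t := by
  filter_upwards [ae_reg G H.hyp.nonneg, ae_coneRays H] with t h1 h2
  exact wedge_of_rays (symNorm_mu G H.hyp) H.diff h1 h2

theorem ae_str (H : HypC G) : ∃ (L : ℕ) (q δ : ℝ), CPar G L q δ := by
  have hμ := symNorm_mu G H.hyp
  obtain ⟨Ξ, A, hΞ, hA, hcell⟩ := exists_cellG H
  obtain ⟨c', hc', hgap'⟩ := exists_side_gap hμ hA
  obtain ⟨Cμ, hC₀, hCμ⟩ := hμ.upper
  set c := min c' 1 with hcdef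
  have hc : 0 < c := lt_min hc' one_pos
  have hgap : ∀ (a : ℝ) (p : ℝ × ℝ), |a| ≤ A → c * ‖p‖ ≤ mu G p - a * p.1 := fun a p ha =>
    (mul_le_mul_of_nonneg_right (min_le_left _ _) (norm_nonneg p)).trans (hgap' a p ha)
  set ε := min (1 / 2) (c / 320 / (Cμ * (Ξ + 1))) with hεdef
  have hε : 0 < ε := lt_min (by norm_num) (by positivity)
  have hεc : ε * (Cμ * (Ξ + 1)) ≤ c / 320 := by
    calc ε * (Cμ * (Ξ + 1)) ≤ c / 320 / (Cμ * (Ξ + 1)) * (Cμ * (Ξ + 1)) := by gcongr; exact min_le_right _ _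
      _ = c / 320 := by field_simp
  obtain ⟨C, hC, hcut⟩ := ae_cutOK H.hyp hε
  obtain ⟨L, hL⟩ := exists_nat_ge (12 * C / c)
  have hL' : 12 * C ≤ c * L := by rw [div_le_iff₀ hc] at hL; linarith
  obtain ⟨p₀, hp₀, hm₀⟩ := ae_markOK (G := G) (η := 1 / 2) (by norm_num)
  obtain ⟨q₀, δ₀, hδ₀, hq₀', hq₀p, -⟩ := exists_quantile G H.hyp.nonneg hp₀
  have hq₀ : 0 < q₀ := hδ₀.trans hq₀'
  set η := min 1 (1 / 60 / (2 * (Cμ * (Ξ + 1) + 1) / q₀)) with hηdef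
  have hη₀ : 0 < η := lt_min one_pos (by positivity)
  have hη : η * (2 * (Cμ * (Ξ + 1) + 1) / q₀) ≤ 1 / 60 := by
    calc η * (2 * (Cμ * (Ξ + 1) + 1) / q₀)
        ≤ 1 / 60 / (2 * (Cμ * (Ξ + 1) + 1) / q₀) * (2 * (Cμ * (Ξ + 1) + 1) / q₀) := by gcongr; exact min_le_right _ _
      _ = 1 / 60 := by field_simp
  obtain ⟨p₁, hp₁, hm₁⟩ := ae_markOK (G := G) hη₀
  obtain ⟨q, δ, hδ, hq', hqp, hpos⟩ := exists_quantile G H.hyp.nonneg hp₁
  refine ⟨L, q, δ, hδ, ?_, fun K => ?_⟩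
  · refine lt_of_lt_of_le ?_ (measure_mono Set.Ico_subset_Iio_self (s := Set.Ico 0 (q - δ)))
    rw [pos_iff_ne_zero]
    intro h0
    rw [Measure.real, h0] at hpos
    simp at hpos
  filter_upwards [ae_nonneg G H.hyp.nonneg, ae_shape G H.hyp, hcut, hm₀ q₀ hq₀p, hm₁ q hqp, ae_wedge_id H,
    ae_wedge_act H isAut_neg] with t ht hs hcut hm₀ hm₁ w₁ w₂
  classical
  let Φ : ℕ → ℝ → Prop := fun w a => ∀ γ, Curve G t γ a → (∃ k, nrm (γ k) ≤ K * w) → ∀ j₀ : ℤ,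
      -(K * w : ℤ) ≤ j₀ → j₀ + w ≤ K * w →
      (1 - 1 / 10 : ℝ) * w ≤ (((Finset.Ico j₀ (j₀ + w)).filter fun j => ∃ k, (γ k).2 = j ∧ Good L q t γ k).card : ℝ)
  have key : ∀ᶠ w : ℕ in atTop, ∀ a ∈ Set.Icc (-fp G 1) (fp G 1), Φ w a := by
    refine IsCompact.induction_on (p := fun s => ∀ᶠ w : ℕ in atTop, ∀ a ∈ s, Φ w a) isCompact_Icc (by simp) ?_ ?_ ?_
    · intro s s' hs' h
      exact h.mono fun w hw a ha => hw a (hs' ha)
    · intro s s' h h'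
      filter_upwards [h, h'] with w hw hw' a ha
      rcases ha with ha | ha
      exacts [hw a ha, hw' a ha]
    · intro a ha
      obtain ⟨ξ, σ, α, β, h1, h2, h3, h4, h5, h6, h7, h8⟩ := hcell (c / 320 / 2 / (2 * Ξ)) (by positivity) a
        (abs_le.2 ha)
      refine ⟨Set.Icc α β, mem_nhdsWithin_of_mem_nhds (Icc_mem_nhds h1 h2), ?_⟩
      have hι : (fp G (ξ + σ) - fp G (ξ - σ)) * (2 * σ) ≤ c / 320 / 2 := by
        have hσΞ : σ ≤ Ξ := by linarith [abs_nonneg ξ]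
        calc (fp G (ξ + σ) - fp G (ξ - σ)) * (2 * σ) ≤ c / 320 / 2 / (2 * Ξ) * (2 * σ) := by gcongr
          _ ≤ c / 320 / 2 / (2 * Ξ) * (2 * Ξ) := by gcongr
          _ = c / 320 / 2 := by field_simp
      have := str_one H ht hs (tube_of_wedge H w₁ w₂ h6 h7) h3 h4 hC₀ hCμ hc (min_le_right _ _)
        (fun p => hgap _ p h5) hι hε.le (min_le_left _ _) hεc hC hL' hcut hq₀ hm₀ hη₀.le (min_le_left _ _) hη hm₁ K
      filter_upwards [this] with w hw a ha γ hγ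
      exact hw γ a hγ ha.1 ha.2
  filter_upwards [key] with w hw γ a hγ hk j₀ h1 h2
  exact hw a (abs_le.1 hγ.le) γ hγ hk j₀ h1 h2

end Crest.Agent.R151
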