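import Crest.Agent.R151.GGreedy
import Crest.Agent.R151.GLabel

/-! # R151 / GStrA: good rows: deterministic estimates for one window
Keep the statements; helper lemmas get the prefix `gsa_`. -/

set_option autoImplicit false
set_option linter.unusedVariables false
set_option linter.unusedSectionVars false

open MeasureTheory ProbabilityTheory Crest.ProbabilityR.FirstPassage Filter Topology

namespace Crest.Agent.R151

variable {G : Measure ℝ} [IsProbabilityMeasure G] [NullSingletonClass G] {t : Env}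

/-- `Ξ` from `sn_fact0`, `A = (fp 1 + fp Ξ) / 2` (`dfs_abs_le`), `δ = min (ι / 2) (A - fp 1)`.  `exists_dfs_eq` gives `ξ₋, ξ₊` with
`fp ξ± = a ± δ`; `ξ = (ξ₊ + ξ₋) / 2`, `σ = (ξ₊ - ξ₋) / 2`, `α = a - δ / 2`, `β = a + δ / 2`. -/
theorem exists_cellG (H : HypC G) : ∃ Ξ A : ℝ, 0 < Ξ ∧ A < mu G (1, 0) ∧ ∀ ι > 0, ∀ a, |a| ≤ fp G 1 →
    ∃ ξ σ α β : ℝ, α < a ∧ a < β ∧ 0 ≤ σ ∧ |ξ| + σ ≤ Ξ ∧ |fp G ξ| ≤ A ∧ fp G (ξ - σ) < α ∧ β < fp G (ξ + σ) ∧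
      fp G (ξ + σ) - fp G (ξ - σ) ≤ ι := by
  have hS := symNorm_mu G H.hyp
  have hd : DiffOff (mu G) := H.diff
  obtain ⟨Ξ, hΞ1, hΞ⟩ := sn_fact0 hS hd
  have hle := (le_abs_self _).trans (dfs_abs_le hS Ξ)
  simp only [fp_eq]
  refine ⟨Ξ, (deriv (fs (mu G)) 1 + deriv (fs (mu G)) Ξ) / 2, by linarith, by linarith, fun ι hι a ha => ?_⟩
  obtain ⟨δ, hδ0, hδ1, hδ2⟩ : ∃ δ : ℝ, 0 < δ ∧ δ ≤ ι / 2 ∧
      δ ≤ (deriv (fs (mu G)) Ξ - deriv (fs (mu G)) 1) / 2 :=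
    ⟨min _ _, lt_min (by linarith) (by linarith), min_le_left _ _, min_le_right _ _⟩
  obtain ⟨ha1, ha2⟩ := abs_le.1 ha
  obtain ⟨x, hx, ex⟩ := exists_dfs_eq hS hd (Ξ := Ξ) (a := a - δ) (abs_lt.2 ⟨by linarith, by linarith⟩)
  obtain ⟨y, hy, ey⟩ := exists_dfs_eq hS hd (Ξ := Ξ) (a := a + δ) (abs_lt.2 ⟨by linarith, by linarith⟩)
  have hxy : x ≤ y := le_of_not_gt fun h => by
    have := dfs_mono hS hd h.le
    linarith
  obtain ⟨hx1, hx2⟩ := abs_lt.1 hx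
  obtain ⟨hy1, hy2⟩ := abs_lt.1 hy
  have e1 : (y + x) / 2 - (y - x) / 2 = x := by ring
  have e2 : (y + x) / 2 + (y - x) / 2 = y := by ring
  have m1 := dfs_mono hS hd (show x ≤ (y + x) / 2 by linarith)
  have m2 := dfs_mono hS hd (show (y + x) / 2 ≤ y by linarith)
  refine ⟨(y + x) / 2, (y - x) / 2, a - δ / 2, a + δ / 2, by linarith, by linarith, by linarith, ?_,
    abs_le.2 ⟨by linarith, by linarith⟩, ?_, ?_, ?_⟩
  · have : |(y + x) / 2| ≤ Ξ - (y - x) / 2 := abs_le.2 ⟨by linarith, by linarith⟩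
    linarith
  · rw [e1]; linarith
  · rw [e2]; linarith
  · rw [e1, e2]; linarith

open Classical in
/-- `greedy` with `g p = μ p - dot ρ p`, `Cuts.add_dot`; `C (n - 1) ≤ S / 4`. -/
theorem str_tame_static {μ : ℝ × ℝ → ℝ} {ρ : ℝ × ℝ} (hρ : ∀ p, dot ρ p ≤ μ p) {c : ℝ} (hc : 0 < c)
    (hgap : ∀ p : ℝ × ℝ, c * ‖p‖ ≤ μ p - ρ.1 * p.1) {γ : ℤ → V} {en ex : ℤ → ℤ} (hen : ∀ j, IsEn γ j (en j))
    (hex : ∀ j, IsEx γ j (ex j)) {L : ℕ} {ε C D E : ℝ} (hε₀ : 0 ≤ ε) (hε : ε ≤ 1 / 2) (hC : 0 ≤ C) (hL : 12 * C ≤ c * L)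
    {j₀ J : ℤ} (hJ : j₀ < J) (hD : dot ρ (toR (γ (ex (J - 1) + 1) - γ (en j₀))) ≤ D)
    (hcut : ∀ n S, Cuts γ μ (en j₀) (ex (J - 1) + 1) n S →
      (1 - ε) * S - C * n ≤ dot ρ (toR (γ (ex (J - 1) + 1) - γ (en j₀))) + E) :
    c * (((Finset.Ico j₀ J).filter fun j => ¬ Tame L γ (ex j)).card : ℝ) ≤ 4 * (ε * D + C + E) := by
  obtain ⟨n, S, h1, h2, h3⟩ := greedy hen hex (g := fun p => μ p - dot ρ p) hc.le (fun p => sub_nonneg.2 (hρ p))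
    (fun p q hpq => by
      have e1 := hgap p
      have e2 := hgap q
      have e3 := mul_nonneg hc.le (norm_nonneg p)
      have e4 : ρ.2 * p.2 + ρ.2 * q.2 = 0 := by rw [← mul_add, hpq, mul_zero]
      simp only [dot]
      linarith) L hJ
  have h4 := hcut _ _ h1.add_dot
  have hS : 0 ≤ S := (mul_nonneg hc.le (Nat.cast_nonneg _)).trans h2
  have h5 : C * ((n : ℝ) - 1) ≤ S / 4 := by
    rcases Nat.eq_zero_or_pos n with rfl | hn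
    · simp only [Nat.cast_zero, zero_sub, mul_neg, mul_one]
      linarith
    · have : (0 : ℝ) ≤ (n : ℝ) - 1 := sub_nonneg.2 (by exact_mod_cast hn)
      have := mul_le_mul_of_nonneg_right hL this
      linarith
  have h6 := mul_le_mul_of_nonneg_left hD hε₀
  have h7 := mul_le_mul_of_nonneg_right hε hS
  linarith

open Classical in
/-- `q₀ · #{k | q₀ ≤ t (edge γ k)} ≤ cost`, so `Q - P ≤ 2 M / q₀ + 2 E`; `ex` is injective (`IsEx.lt`) with values in `[P, Q)`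
(`IsEn.le_ex`). -/
theorem str_use_static (ht : ∀ e, 0 ≤ t e) {γ : ℤ → V} {en ex : ℤ → ℤ} (hen : ∀ j, IsEn γ j (en j))
    (hex : ∀ j, IsEx γ j (ex j)) {j₀ J P Q : ℤ} (hJ : j₀ < J) (hP : P = en j₀) (hQ : Q = ex (J - 1) + 1)
    {q₀ q η E E' M : ℝ} (hq₀ : 0 < q₀) (hη : 0 ≤ η)
    (h₀ : (((Finset.Ico P Q).filter fun k => t (edge γ k) < q₀).card : ℝ) ≤ 1 / 2 * (Q - P) + E)
    (h₁ : (((Finset.Ico P Q).filter fun k => t (edge γ k) < q).card : ℝ) ≤ η * (Q - P) + E')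
    (hM : cost t γ P Q ≤ M) :
    (((Finset.Ico j₀ J).filter fun j => t (edge γ (ex j)) < q).card : ℝ) ≤ η * (2 * M / q₀ + 2 * E) + E' := by
  have hex' : ∀ j, j < J → ex j < Q := fun j hj => by
    rcases (show j ≤ J - 1 by omega).eq_or_lt with rfl | h
    · omega
    · have := (hex j).lt (hex (J - 1)) h
      omega
  have hen' : ∀ j, j₀ ≤ j → P ≤ ex j := fun j hj => hP ▸ (hen j₀).le_ex (hex j) hj
  have hPQ : P ≤ Q := (hen' j₀ le_rfl).trans (hex' j₀ hJ).le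
  have c1 : ((Finset.Ico j₀ J).filter fun j => t (edge γ (ex j)) < q).card ≤
      ((Finset.Ico P Q).filter fun k => t (edge γ k) < q).card := by
    refine Finset.card_le_card_of_injOn ex (fun j hj => ?_) fun j _ j' _ e => ?_
    · obtain ⟨hj, hq⟩ := Finset.mem_filter.1 (Finset.mem_coe.1 hj)
      obtain ⟨h1, h2⟩ := Finset.mem_Ico.1 hj
      exact Finset.mem_coe.2 (Finset.mem_filter.2 ⟨Finset.mem_Ico.2 ⟨hen' j h1, hex' j h2⟩, hq⟩)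
    · rw [← (hex j).1, ← (hex j').1, e]
  have c2 := Finset.card_filter_add_card_filter_not (s := Finset.Ico P Q) fun k => t (edge γ k) < q₀
  have c3 : (((Finset.Ico P Q).card : ℕ) : ℝ) = Q - P := by
    have := Int.card_Ico_of_le P Q hPQ
    exact_mod_cast this
  have c4 : (((Finset.Ico P Q).filter fun k => ¬ t (edge γ k) < q₀).card : ℝ) * q₀ ≤ M := by
    rw [← nsmul_eq_mul]
    refine (Finset.card_nsmul_le_sum _ (fun k => t (edge γ k)) _ fun k hk =>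
      not_lt.1 (Finset.mem_filter.1 hk).2).trans (le_trans ?_ hM)
    exact Finset.sum_le_sum_of_subset_of_nonneg (Finset.filter_subset _ _) fun k _ _ => ht _
  have c5 := (le_div_iff₀ hq₀).2 c4
  have c6 : ((Q : ℝ) - P) ≤ 2 * M / q₀ + 2 * E := by
    have c2' := congrArg (Nat.cast : ℕ → ℝ) c2
    rw [Nat.cast_add, c3] at c2'
    rw [mul_div_assoc]
    linarith
  have c7 := mul_le_mul_of_nonneg_left c6 hη
  have c1' := (Nat.cast_le (α := ℝ)).2 c1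
  linarith

/-- excess of a point near the cone: project `p` horizontally into the cone, `excess_le`, `dot_rho_le` for the difference -/
theorem excess_near {μ : ℝ × ℝ → ℝ} (h : SymNorm μ) (hd : DiffOff μ) {ξ σ e C : ℝ} (hσ : 0 ≤ σ) (he : 0 ≤ e)
    (hC : ∀ v, μ v ≤ C * ‖v‖) {p : ℝ × ℝ} (hp : 0 < p.2) (hx : |p.1 - ξ * p.2| ≤ σ * p.2 + e) :
    μ p - dot (rho μ ξ) p ≤ (deriv (fs μ) (ξ + σ) - deriv (fs μ) (ξ - σ)) * (2 * σ) * p.2 + 2 * C * e := by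
  have hC0 : 0 ≤ C := by
    have h1 := (sn_nonneg h (1, 0)).trans (hC _)
    simpa using h1
  obtain ⟨hx1, hx2⟩ := abs_le.1 hx
  have hσp := mul_nonneg hσ hp.le
  obtain ⟨x', h1, h2, h3⟩ : ∃ x' : ℝ, (ξ - σ) * p.2 ≤ x' ∧ x' ≤ (ξ + σ) * p.2 ∧ |p.1 - x'| ≤ e := by
    rcases le_total p.1 ((ξ - σ) * p.2) with e1 | e1
    · exact ⟨_, le_rfl, by linarith, abs_le.2 ⟨by linarith, by linarith⟩⟩
    rcases le_total p.1 ((ξ + σ) * p.2) with e2 | e2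
    · exact ⟨_, e1, e2, by simpa using he⟩
    · exact ⟨_, by linarith, le_rfl, abs_le.2 ⟨by linarith, by linarith⟩⟩
  have e1 := excess_le h hd (ξ1 := ξ - σ) (ξ := ξ) (ξ2 := ξ + σ) (by linarith) (by linarith) (p := (x', p.2))
    ⟨hp, h1, h2⟩
  have hn : C * ‖((p.1 - x', 0) : ℝ × ℝ)‖ ≤ C * e := mul_le_mul_of_nonneg_left (by simpa using h3) hC0
  have e2 := h.add_le (x', p.2) (p.1 - x', 0)
  have e3 : ((x', p.2) : ℝ × ℝ) + (p.1 - x', 0) = p := by ext <;> simp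
  have e4 := dot_rho_le h hd ξ (-(p.1 - x', 0))
  have e5 := hC (p.1 - x', 0)
  rw [sn_neg h] at e4
  rw [e3] at e2
  have e6 : ξ + σ - (ξ - σ) = 2 * σ := by ring
  rw [e6] at e1
  simp only [dot, Prod.fst_neg, Prod.snd_neg] at e1 e4 ⊢
  linarith

theorem gsa_abs {x y ξ σ Ξ e r : ℝ} (h : |x - ξ * y| ≤ σ * |y| + e + r) (hΞ : |ξ| + σ ≤ Ξ) :
    |x| ≤ Ξ * |y| + e + r := by
  have h1 : |x| ≤ |x - ξ * y| + |ξ| * |y| := by
    rw [← abs_mul]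
    simpa using abs_add_le (x - ξ * y) (ξ * y)
  have h2 := mul_le_mul_of_nonneg_right hΞ (abs_nonneg y)
  linarith

/-- `Tube` from the visit `k` (first with `ε = 1`) bounds `nrm (γ P)` and `nrm (γ Q)` by `C₁ w`.  `Tube` from `P` with a small `ε`:
`|Δx - ξ w| ≤ σ w + e`, `e = ε C₁ w + r₀`.  `cost = T ≤ μ Δ + ε (nrm (γ P) + nrm (γ Q)) + r₀` (`Shape`), `excess_near`;
`dot ≤ μ Δ ≤ Cμ ‖Δ‖`. -/
theorem str_cost (H : HypC G) (hs : Shape (mu G) t) {ξ σ α β Ξ τ Cμ : ℝ} (htube : TubeG G t ξ σ α β) (hσ : 0 ≤ σ)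
    (hΞ : |ξ| + σ ≤ Ξ) (hC₀ : 0 < Cμ) (hC : ∀ v, mu G v ≤ Cμ * ‖v‖) (hτ : 0 < τ)
    (hι : (fp G (ξ + σ) - fp G (ξ - σ)) * (2 * σ) ≤ τ / 2) (K : ℕ) :
    ∃ C₁ > 0, ∀ᶠ w : ℕ in atTop, ∀ γ a, Curve G t γ a → α ≤ a → a ≤ β → (∃ k, nrm (γ k) ≤ K * w) →
      ∀ P Q : ℤ, P ≤ Q → -(K * w : ℤ) ≤ (γ P).2 → (γ Q).2 = (γ P).2 + w → (γ Q).2 ≤ K * w →
        cost t γ P Q ≤ dot (rho (mu G) ξ) (toR (γ Q - γ P)) + τ * w ∧
        dot (rho (mu G) ξ) (toR (γ Q - γ P)) ≤ Cμ * (Ξ + 1) * w ∧ (nrm (γ P) : ℝ) ≤ C₁ * w := by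
  have hS := symNorm_mu G H.hyp
  have hd : DiffOff (mu G) := H.diff
  have hΞ0 : 0 ≤ Ξ := (add_nonneg (abs_nonneg ξ) hσ).trans hΞ
  obtain ⟨r₁, hr₁⟩ := htube 1 one_pos
  set C₁ : ℝ := 2 * K + 2 * K * Ξ + 1 with hC₁
  have hC₁0 : 0 < C₁ := by positivity
  obtain ⟨η, hη0, hη1, hη2⟩ : ∃ η : ℝ, 0 < η ∧ η ≤ 1 / 2 ∧ η * (1 + Cμ) ≤ τ / 8 :=
    ⟨min (1 / 2) (τ / 8 / (1 + Cμ)), by positivity, min_le_left _ _,
      (le_div_iff₀ (by positivity)).1 (min_le_right _ _)⟩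
  obtain ⟨r₂, hr₂⟩ := htube (η / C₁) (by positivity)
  obtain ⟨r₃, hr₃⟩ := hs (η / C₁) (by positivity)
  refine ⟨C₁, hC₁0, ?_⟩
  have t1 : Tendsto (fun N : ℕ => (N : ℝ)) atTop atTop := tendsto_natCast_atTop_atTop
  filter_upwards [t1.eventually_ge_atTop r₁, t1.eventually_ge_atTop (2 * |r₂|), t1.eventually_gt_atTop 0,
    (t1.const_mul_atTop (show 0 < τ / 4 by positivity)).eventually_ge_atTop (r₃ + 2 * Cμ * |r₂|)]
    with w w1 w2 w3 w4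
  rintro γ a hγ ha1 ha2 ⟨k, hk⟩ P Q hPQ hP hQ hQ'
  have hkR : (nrm (γ k) : ℝ) ≤ K * w := by exact_mod_cast hk
  have hk1 : |((γ k).1 : ℝ)| ≤ K * w := by exact_mod_cast (le_max_left _ _).trans hk
  have hk2 : |((γ k).2 : ℝ)| ≤ K * w := by exact_mod_cast (le_max_right _ _).trans hk
  have hbd : ∀ l, |(γ l).2| ≤ K * w → (nrm (γ l) : ℝ) ≤ C₁ * w := by
    intro l hl
    have hl' : |((γ l).2 : ℝ)| ≤ K * w := by exact_mod_cast hl
    have e1 := hr₁ γ a hγ ha1 ha2 k l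
    have e2 : |((γ l).2 - (γ k).2 : ℝ)| ≤ 2 * K * w := (abs_sub _ _).trans (by linarith)
    have e3 := gsa_abs e1 hΞ
    have e4 := mul_le_mul_of_nonneg_left e2 hΞ0
    have e5 : |((γ l).1 : ℝ)| ≤ |((γ l).1 - (γ k).1 : ℝ)| + |((γ k).1 : ℝ)| := by
      simpa using abs_add_le ((γ l).1 - (γ k).1 : ℝ) (γ k).1
    have e6 : 0 ≤ (K : ℝ) * w := by positivity
    have e7 : 0 ≤ (K : ℝ) * w * Ξ := by positivity
    rw [nrm, Int.cast_max, Int.cast_abs, Int.cast_abs, hC₁]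
    exact max_le (by linarith) (by linarith)
  have hw0 : (0 : ℤ) ≤ w := Int.natCast_nonneg w
  have bP := hbd P (abs_le.2 ⟨hP, by omega⟩)
  have bQ := hbd Q (abs_le.2 ⟨by omega, hQ'⟩)
  have hη' : ∀ x : ℝ, x ≤ C₁ * w → η / C₁ * x ≤ η * w := fun x hx => by
    refine (mul_le_mul_of_nonneg_left hx (by positivity)).trans (le_of_eq ?_)
    field_simp
  have d2 : ((γ Q).2 - (γ P).2 : ℝ) = w := by rw [hQ]; push_cast; ring
  have p1 : (toR (γ Q - γ P)).1 = (γ Q).1 - (γ P).1 := by simp [toR]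
  have p2 : (toR (γ Q - γ P)).2 = w := by rw [← d2]; simp [toR]
  have e1 : |((γ Q).1 - (γ P).1 : ℝ) - ξ * w| ≤ σ * |(w : ℝ)| + (η * w + |r₂|) := by
    have := hr₂ γ a hγ ha1 ha2 P Q
    rw [d2] at this
    linarith [hη' _ bP, le_abs_self r₂]
  have e2 := gsa_abs (r := 0) (by simpa only [add_zero] using e1) hΞ
  rw [abs_of_pos w3] at e1 e2
  have e3 := excess_near hS hd (ξ := ξ) hσ (show 0 ≤ η * w + |r₂| by positivity) hC (p := toR (γ Q - γ P))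
    (by rwa [p2]) (by rwa [p1, p2])
  rw [p2, ← fp_eq] at e3
  have e4 := mul_le_mul_of_nonneg_right hι w3.le
  have e5 : cost t γ P Q = T t (γ P) (γ Q) := (hγ.bi P Q hPQ).2.2
  have e6 := (abs_le.1 (hr₃ (γ P) (γ Q))).2
  have e7 := mul_le_mul_of_nonneg_right hη2 w3.le
  have e8 := mul_le_mul_of_nonneg_right hη1 w3.le
  have e9 : ‖toR (γ Q - γ P)‖ ≤ (Ξ + 1) * w := by
    rw [Prod.norm_def, p1, p2, Real.norm_eq_abs, Real.norm_eq_abs, abs_of_pos w3]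
    have := mul_nonneg hΞ0 w3.le
    exact max_le (by linarith) (by linarith)
  refine ⟨?_, ?_, bP⟩
  · rw [mul_add] at e6
    linarith [hη' _ bP, hη' _ bQ]
  · refine ((dot_rho_le hS hd ξ _).trans (hC _)).trans ?_
    rw [mul_assoc]
    exact mul_le_mul_of_nonneg_left e9 hC₀.le

end Crest.Agent.R151
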