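import Crest.Agent.R151.GDefs
import Crest.Agent.R151.BCross

/-! # R151 / GTop: separation lemmas (from cross_LR_BT)
Keep the statements; helper lemmas get the prefix `gtop_`. -/

set_option autoImplicit false
set_option linter.unusedVariables false
set_option linter.unusedSectionVars false

open MeasureTheory ProbabilityTheory Crest.ProbabilityR.FirstPassage Filter Topology

namespace Crest.Agent.R151

/-- A `U`-shaped curve (`g` and `h` start at the same point and end in row `H`) separates the bottom from the part of row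
`H` between its ends.  Left-right crossing: row `H + 1` from the far left to the column of `g i`, down to `g i`, `g` reversed,
`h`, up, row `H + 1` to the far right.  Bottom-top crossing: from `c` to `d`, then two steps up (the box has the rows
`min … H + 2`; extend `c` downwards if the connecting path goes lower than `c`, or start at its lowest point). -/
theorem sep_U {H : ℤ} {g h : ℤ → V} {i j : ℤ} (hg : PathIn (lower H) g 0 i) (hh : PathIn (lower H) h 0 j)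
    (h0 : g 0 = h 0) (hi : (g i).2 = H) (hj : (h j).2 = H) {c d : V}
    (hc : ∀ v ∈ g '' Set.Icc 0 i ∪ h '' Set.Icc 0 j, c.2 < v.2) (hd : d.2 = H) (h₁ : (g i).1 < d.1)
    (h₂ : d.1 < (h j).1) : ¬ Conn (lower H \ (g '' Set.Icc 0 i ∪ h '' Set.Icc 0 j)) c d := by
  rintro ⟨p, a, b, hp, hpa, hpb⟩
  set U := g '' Set.Icc 0 i ∪ h '' Set.Icc 0 j with hU
  obtain ⟨R, hR⟩ : ∃ R : ℤ, ∀ v ∈ U ∪ p '' Set.Icc a b, -R ≤ v.1 ∧ v.1 ≤ R ∧ -R ≤ v.2 := by
    have hf : (U ∪ p '' Set.Icc a b).Finite :=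
      (((Set.finite_Icc _ _).image _).union ((Set.finite_Icc _ _).image _)).union ((Set.finite_Icc _ _).image _)
    obtain ⟨R, hR⟩ := (hf.image nrm).bddAbove
    refine ⟨R, fun v hv => ?_⟩
    have h1 : max |v.1| |v.2| ≤ R := hR ⟨v, hv, rfl⟩
    have h2 := abs_le.1 (le_of_max_le_left h1)
    have h3 := abs_le.1 (le_of_max_le_right h1)
    exact ⟨h2.1, h2.2, h3.1⟩
  have gU : ∀ k, 0 ≤ k → k ≤ i → g k ∈ U := fun k h1 h2 => Or.inl ⟨k, ⟨h1, h2⟩, rfl⟩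
  have hU' : ∀ k, 0 ≤ k → k ≤ j → h k ∈ U := fun k h1 h2 => Or.inr ⟨k, ⟨h1, h2⟩, rfl⟩
  have g1 := hR _ (Or.inl (gU i hg.1 le_rfl))
  have h1 := hR _ (Or.inl (hU' j hh.1 le_rfl))
  have c1 := hR _ (Or.inr ⟨a, ⟨le_rfl, hp.1⟩, hpa⟩)
  have cH : c.2 ≤ H := hpa ▸ (hp.2.1 a le_rfl hp.1).1
  have inU : ∀ v ∈ U, v.2 ≤ H → v ∈ box (-R) R (-R) (H + 2) := fun v hv hH => by
    have := hR v (Or.inl hv)
    exact ⟨this.1, this.2.1, this.2.2, by omega⟩
  -- the left-right crossing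
  let S₁ : Set V := {v | v ∈ box (-R) R (-R) (H + 2) ∧ ((v ∈ U ∧ v.2 ≤ H) ∨ (v.2 = H + 1 ∧ v.1 ≠ d.1))}
  have k₁ : Conn S₁ (-R, H + 1) ((g i).1, H + 1) :=
    (pathIn_hseg (S := S₁) g1.1 fun k e1 e2 => ⟨⟨e1, by omega, by omega, by omega⟩, Or.inr ⟨rfl, by omega⟩⟩).conn
  have gi : g i = ((g i).1, H) := Prod.ext rfl hi
  have hj' : h j = ((h j).1, H) := Prod.ext rfl hj
  have k₂ : Conn S₁ ((g i).1, H) ((g i).1, H + 1) := by
    refine (pathIn_vseg (S := S₁) (by omega) fun k e1 e2 => ⟨⟨g1.1, g1.2.1, by omega, by omega⟩, ?_⟩).conn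
    rcases e1.eq_or_lt with e | e
    · exact Or.inl ⟨by rw [← e, ← gi]; exact gU i hg.1 le_rfl, e.ge⟩
    · exact Or.inr ⟨by omega, h₁.ne⟩
  have k₃ : Conn S₁ (g 0) (g i) :=
    PathIn.conn (hg.restrict fun k e1 e2 => ⟨inU _ (gU k e1 e2) (hg.2.1 k e1 e2), Or.inl ⟨gU k e1 e2, hg.2.1 k e1 e2⟩⟩)
  have k₄ : Conn S₁ (h 0) (h j) :=
    PathIn.conn (hh.restrict fun k e1 e2 => ⟨inU _ (hU' k e1 e2) (hh.2.1 k e1 e2), Or.inl ⟨hU' k e1 e2, hh.2.1 k e1 e2⟩⟩)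
  have k₅ : Conn S₁ ((h j).1, H) ((h j).1, H + 1) := by
    refine (pathIn_vseg (S := S₁) (by omega) fun k e1 e2 => ⟨⟨h1.1, h1.2.1, by omega, by omega⟩, ?_⟩).conn
    rcases e1.eq_or_lt with e | e
    · exact Or.inl ⟨by rw [← e, ← hj']; exact hU' j hh.1 le_rfl, e.ge⟩
    · exact Or.inr ⟨by omega, h₂.ne'⟩
  have k₆ : Conn S₁ ((h j).1, H + 1) (R, H + 1) :=
    (pathIn_hseg (S := S₁) h1.2.1 fun k e1 e2 => ⟨⟨by omega, e2, by omega, by omega⟩, Or.inr ⟨rfl, by omega⟩⟩).conn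
  rw [← gi] at k₂
  rw [← hj'] at k₅
  rw [h0] at k₃
  obtain ⟨w₁, a₁, b₁, hw₁, e₁, f₁⟩ := k₁.trans (k₂.symm.trans (k₃.symm.trans (k₄.trans (k₅.trans k₆))))
  -- the bottom-top crossing
  let S₂ : Set V := {v | v ∈ box (-R) R (-R) (H + 2) ∧ ((v ∉ U ∧ v.2 ≤ H) ∨ (H < v.2 ∧ v.1 = d.1))}
  have l₁ : Conn S₂ (c.1, -R) (c.1, c.2) :=
    (pathIn_vseg (S := S₂) c1.2.2 fun k e1 e2 => ⟨⟨c1.1, c1.2.1, e1, by omega⟩,
      Or.inl ⟨fun hv => absurd (hc _ hv) (not_lt.2 e2), e2.trans cH⟩⟩).conn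
  have l₂ : Conn S₂ (p a) (p b) := by
    refine PathIn.conn (hp.restrict fun k e1 e2 => ?_)
    have t1 := hR _ (Or.inr ⟨k, ⟨e1, e2⟩, rfl⟩)
    have t2 := hp.2.1 k e1 e2
    have t3 : (p k).2 ≤ H := t2.1
    exact ⟨⟨t1.1, t1.2.1, t1.2.2, by omega⟩, Or.inl ⟨t2.2, t3⟩⟩
  have dd : d = (d.1, H) := Prod.ext rfl hd
  have l₃ : Conn S₂ (d.1, H) (d.1, H + 2) := by
    refine (pathIn_vseg (S := S₂) (by omega) fun k e1 e2 => ⟨⟨by omega, by omega, by omega, e2⟩, ?_⟩).conn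
    rcases e1.eq_or_lt with e | e
    · exact Or.inl ⟨by rw [← e, ← dd, ← hpb]; exact (hp.2.1 b hp.1 le_rfl).2, e.ge⟩
    · exact Or.inr ⟨e, rfl⟩
  rw [hpa, hpb] at l₂
  rw [← dd] at l₃
  obtain ⟨w₂, a₂, b₂, hw₂, e₂, f₂⟩ := l₁.trans (l₂.trans l₃)
  obtain ⟨k, l, t1, t2, t3, t4, e⟩ := cross_LR_BT (hw₁.mono fun v hv => hv.1) (by rw [e₁]) (by rw [f₁])
    (hw₂.mono fun v hv => hv.1) (by rw [e₂]) (by rw [f₂])
  have m₁ := (hw₁.2.1 k t1 t2).2
  have m₂ := (hw₂.2.1 l t3 t4).2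
  rw [e] at m₁
  rcases m₁ with m₁ | m₁ <;> rcases m₂ with m₂ | m₂
  · exact m₂.1 m₁.1
  · omega
  · omega
  · exact m₁.2 m₂.2

theorem gtop_path {p : ℤ → V} {i k : ℤ} (hp : ∀ k, i ≤ k → Adj (p k) (p (k + 1))) (hk : i ≤ k) : PathIn Set.univ p i k :=
  ⟨hk, fun _ _ _ => trivial, fun l h _ => hp l h⟩

/-- first visit to a row -/
theorem exists_first_row {p : ℤ → V} {i : ℤ} (hp : ∀ k, i ≤ k → Adj (p k) (p (k + 1))) {H : ℤ} (hi : (p i).2 ≤ H)
    (hup : ∃ k, i ≤ k ∧ H ≤ (p k).2) : ∃ j, i ≤ j ∧ (p j).2 = H ∧ ∀ k, i ≤ k → k < j → (p k).2 < H := by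
  obtain ⟨k, hk, hH⟩ := hup
  obtain ⟨j, h1, -, h3, h4⟩ := (gtop_path hp hk).exists_first lip1_snd hi hH
  exact ⟨j, h1, h3, h4⟩

/-- last visit to a row -/
theorem exists_last_row {p : ℤ → V} {i : ℤ} (hp : ∀ k, i ≤ k → Adj (p k) (p (k + 1))) {H : ℤ} (hi : (p i).2 ≤ H)
    (hup : Tendsto (fun k => (p k).2) atTop atTop) : ∃ j, i ≤ j ∧ (p j).2 = H ∧ ∀ k, j < k → H < (p k).2 := by
  obtain ⟨M, hM⟩ := eventually_atTop.1 (hup.eventually_gt_atTop H)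
  obtain ⟨j, h1, -, h3, h4⟩ := (gtop_path hp (le_max_left i M)).exists_last lip1_snd hi (hM _ (le_max_right i M)).le
  refine ⟨j, h1, h3, fun k hk => ?_⟩
  rcases le_or_gt k (max i M) with h | h
  · exact h4 k hk h
  · exact hM k ((le_max_right i M).trans h.le)

theorem exists_ex {γ : ℤ → V} (hp : ∀ k, Adj (γ k) (γ (k + 1))) (hup : Tendsto (fun k => (γ k).2) atTop atTop)
    (hdown : Tendsto (fun k => (γ k).2) atBot atBot) (j : ℤ) : ∃ k, IsEx γ j k := by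
  obtain ⟨i, hi⟩ := (hdown.eventually_le_atBot j).exists
  obtain ⟨k, -, h1, h2⟩ := exists_last_row (fun k _ => hp k) hi hup
  exact ⟨k, h1, fun m hm => h1 ▸ h2 m hm⟩

theorem exists_en {γ : ℤ → V} (hp : ∀ k, Adj (γ k) (γ (k + 1))) (hup : Tendsto (fun k => (γ k).2) atTop atTop)
    (hdown : Tendsto (fun k => (γ k).2) atBot atBot) (j : ℤ) : ∃ e, IsEn γ j e := by
  obtain ⟨i, hi⟩ := eventually_atBot.1 (hdown.eventually_le_atBot j)
  obtain ⟨k, h0, h1, h2⟩ := exists_first_row (i := i) (fun k _ => hp k) (H := j + 1) (by have := hi i le_rfl; omega)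
    ((eventually_ge_atTop i).and (hup.eventually_ge_atTop (j + 1))).exists
  have h3 : ∀ m, m < k → (γ m).2 ≤ j := fun m hm => by
    rcases le_or_gt m i with h | h
    · exact hi m h
    · have := h2 m h.le hm
      omega
  have h4 : (γ (k - 1 + 1)).2 ≤ (γ (k - 1)).2 + 1 := lip1_snd _ _ (hp (k - 1))
  have h5 := h3 (k - 1) (by omega)
  rw [sub_add_cancel] at h4
  refine ⟨k - 1, by omega, by rw [sub_add_cancel, h1], fun m hm => h3 m (by omega)⟩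

theorem IsEx.succ {γ : ℤ → V} (hp : ∀ k, Adj (γ k) (γ (k + 1))) {j k : ℤ} (h : IsEx γ j k) :
    (γ (k + 1)).2 = j + 1 := by
  have h1 : (γ (k + 1)).2 ≤ (γ k).2 + 1 := lip1_snd _ _ (hp k)
  have h2 := h.2 (k + 1) (by omega)
  have h3 := h.1
  omega

theorem IsEx.lt {γ : ℤ → V} {j k j' k' : ℤ} (h : IsEx γ j k) (h' : IsEx γ j' k') (hj : j < j') : k < k' := by
  by_contra hcon
  rcases (not_lt.1 hcon).eq_or_lt with e | e
  · have := h.1
    have := h'.1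
    subst e
    omega
  · have := h'.2 k e
    have := h.1
    have := h'.1
    omega

theorem IsEn.le_en {γ : ℤ → V} {j e j' e' : ℤ} (h : IsEn γ j e) (h' : IsEn γ j' e') (hj : j ≤ j') : e ≤ e' := by
  rcases hj.eq_or_lt with e1 | e1
  · by_contra hcon
    have := h.2.2 (e' + 1) (by omega)
    have := h'.2.1
    omega
  · by_contra hcon
    have := h.2.2 e' (by omega)
    have := h'.1
    omega

theorem IsEn.le_ex {γ : ℤ → V} {j e j' k : ℤ} (h : IsEn γ j e) (h' : IsEx γ j' k) (hj : j ≤ j') : e ≤ k := by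
  by_contra hcon
  have := h'.2 e (by omega)
  have := h.1
  have := h'.1
  omega

end Crest.Agent.R151
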