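import Crest.Agent.R151.AFin

/-! R151 part A (blueprint `BlueA`, definitions and overview in `ADefs`): differentiability of the time constant. -/

set_option autoImplicit false
open MeasureTheory ProbabilityTheory Crest.ProbabilityR.FirstPassage

namespace Crest.Agent.R151

theorem partA (G : Measure ℝ) [IsProbabilityMeasure G] [NullSingletonClass G] (hG : Hyp G)
    (v : ℝ × ℝ) (hv : v ≠ 0) : DifferentiableAt ℝ (mu G) v := by
  by_contra hd
  obtain ⟨P⟩ := PA.exists_setup hG hv hd
  exact PA.setup_false P

end Crest.Agent.R151
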