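import Crest.Agent.R151.SFin

/-! R151 part C (blueprint `BlueC`): no bigeodesics, given differentiability. -/

set_option autoImplicit false
open MeasureTheory ProbabilityTheory Crest.ProbabilityR.FirstPassage

namespace Crest.Agent.R151

theorem partC (G : Measure ℝ) [IsProbabilityMeasure G] [NullSingletonClass G] (hG : Hyp G)
    (hd : ∀ v : ℝ × ℝ, v ≠ 0 → DifferentiableAt ℝ (mu G) v) :
    iidLaw G {t | ∃ v : ℤ → ℤ × ℤ, IsBigeodesic t v} = 0 :=
  no_bigeodesic ⟨hG, hd⟩

end Crest.Agent.R151
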