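import Crest.Agent.R151.D1
import Crest.Agent.R151.D2

/-! R151 part D (blueprint `BlueD`): strict convexity for exponential weights. -/

set_option autoImplicit false
open MeasureTheory ProbabilityTheory Crest.ProbabilityR.FirstPassage

namespace Crest.Agent.R151

theorem partD (r : ℝ) (hr : 0 < r)
    (hd : ∀ v : ℝ × ℝ, v ≠ 0 → DifferentiableAt ℝ (mu (gammaMeasure 1 r)) v) :
    StrictConvex ℝ {v : ℝ × ℝ | mu (gammaMeasure 1 r) v ≤ 1} := by
  have := isProbabilityMeasure_gammaMeasure one_pos hr
  have := gamma_nullSingleton 1 r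
  have hG := nice_gamma hr
  by_contra hn
  obtain ⟨F⟩ := exists_face (symNorm_mu _ hG.hyp) hd hn
  exact no_face hG (fun F => highway hG F) F

end Crest.Agent.R151
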