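import Crest.Agent.R151.SDefs

/-! R151 part C soft: deterministic API for curves.  Helper lemmas get the prefix `sb_`. -/

set_option autoImplicit false

open MeasureTheory ProbabilityTheory Crest.ProbabilityR.FirstPassage Filter Topology
open scoped ENNReal

namespace Crest.Agent.R151

variable {G : Measure ℝ} {t : Env} {γ γ' : ℤ → V} {a : ℝ} {i j k l y : ℤ}

theorem Bi.adj (h : Bi t γ) (k : ℤ) : Adj (γ k) (γ (k + 1)) := by
  exact (h k (k + 1) (by omega)).1.2.2 k le_rfl (by omega)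
theorem Bi.inj (h : Bi t γ) : Function.Injective γ := by
  intro a b e
  rcases le_total a b with hab | hab
  · exact (h a b hab).2.1 ⟨le_rfl, hab⟩ ⟨hab, le_rfl⟩ e
  · exact (h b a hab).2.1 ⟨hab, le_rfl⟩ ⟨le_rfl, hab⟩ e
theorem Curve.line (h : Curve G t γ a) : Line γ := by
  exact ⟨h.bi.adj, h.bi.inj, h.lab.up, h.lab.down⟩
theorem Line.pathIn (h : Line γ) (hij : i ≤ j) : PathIn Set.univ γ i j := by
  exact ⟨hij, fun _ _ _ => trivial, fun k _ _ => h.adj k⟩
theorem sb_cofinite (h : Function.Injective γ) {F : Set V} (hF : F.Finite) : ∀ᶠ k in cofinite, γ k ∉ F :=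
  (hF.preimage h.injOn).eventually_cofinite_notMem

theorem sb_nrm (h : Function.Injective γ) (v : V) : Tendsto (fun k => nrm (γ k - v)) cofinite atTop :=
  tendsto_atTop.2 fun r => (sb_cofinite h (ball_finite v r)).mono fun _ hk => (not_le.1 hk).le

/-- `γ` is injective and balls are finite -/
theorem tendsto_nrm_atTop (h : Function.Injective γ) (v : V) :
    Tendsto (fun k => nrm (γ k - v)) atTop atTop := by
  exact (sb_nrm h v).mono_left atTop_le_cofinite
theorem tendsto_nrm_atBot (h : Function.Injective γ) (v : V) :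
    Tendsto (fun k => nrm (γ k - v)) atBot atTop := by
  exact (sb_nrm h v).mono_left atBot_le_cofinite

theorem sb_cost_ge {p : ℤ → V} (h : j ≤ i) : cost t p i j = 0 := by
  rw [cost, Finset.Ico_eq_empty_of_le h, Finset.sum_empty]

theorem pot_zero : pot t γ 0 = 0 := by
  exact sub_self _
theorem pot_sub (hij : i ≤ j) : cost t γ i j = pot t γ j - pot t γ i := by
  unfold pot
  rcases le_total 0 i with hi | hi
  · rw [sb_cost_ge hi, sb_cost_ge (hi.trans hij), cost_add hi hij]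
    ring
  · rcases le_total 0 j with hj | hj
    · rw [sb_cost_ge hi, sb_cost_ge hj, cost_add hi hj]
      ring
    · rw [sb_cost_ge hi, sb_cost_ge hj, cost_add hij hj]
      ring
theorem pot_mono (ht : ∀ e, 0 ≤ t e) : Monotone (pot t γ) := by
  exact fun i j hij => sub_nonneg.1 (pot_sub hij ▸ cost_nonneg ht)
theorem Bi.T_eq (h : Bi t γ) (hij : i ≤ j) : T t (γ i) (γ j) = pot t γ j - pot t γ i := by
  exact (h i j hij).2.2.symm.trans (pot_sub hij)
theorem Bi.T_eq_abs (ht : ∀ e, 0 ≤ t e) (h : Bi t γ) (i j : ℤ) :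
    T t (γ i) (γ j) = |pot t γ j - pot t γ i| := by
  rcases le_total i j with hij | hij
  · rw [h.T_eq hij, abs_of_nonneg (sub_nonneg.2 (pot_mono ht hij))]
  · rw [T_comm, h.T_eq hij, abs_sub_comm, abs_of_nonneg (sub_nonneg.2 (pot_mono ht hij))]
/-- `pot k = T (γ 0) (γ k)` for `k ≥ 0`, `Reg.fin` -/
theorem Bi.pot_tendsto (hr : Reg t) (h : Bi t γ) : Tendsto (pot t γ) atTop atTop := by
  refine tendsto_atTop.2 fun M => ?_
  filter_upwards [atTop_le_cofinite (sb_cofinite h.inj (hr.fin (γ 0) M)), eventually_ge_atTop 0] with k h1 h2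
  have h3 : M < T t (γ 0) (γ k) := not_le.1 h1
  rw [h.T_eq h2, pot_zero, sub_zero] at h3
  exact h3.le
theorem Bi.pot_tendsto_atBot (hr : Reg t) (h : Bi t γ) : Tendsto (pot t γ) atBot atBot := by
  refine tendsto_atBot.2 fun M => ?_
  filter_upwards [atBot_le_cofinite (sb_cofinite h.inj (hr.fin (γ 0) (-M))), eventually_le_atBot 0] with k h1 h2
  have h3 : -M < T t (γ 0) (γ k) := not_le.1 h1
  rw [T_comm, h.T_eq h2, pot_zero] at h3
  linarith
/-- a criterion: `isGeo_of_cost_le` -/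
theorem bi_of_le (ht : ∀ e, 0 < t e) (ha : ∀ k, Adj (γ k) (γ (k + 1)))
    (h : ∀ i j, i ≤ j → cost t γ i j ≤ T t (γ i) (γ j)) : Bi t γ := by
  exact fun i j hij => isGeo_of_cost_le ht ⟨hij, fun _ _ _ => trivial, fun k _ _ => ha k⟩ (h i j hij)
/-- a geodesic splits at each of its points -/
theorem IsGeo.split {S : Set V} {p : ℤ → V} (ht : ∀ e, 0 ≤ t e) (h : IsGeo t S p i j) (h1 : i ≤ k) (h2 : k ≤ j) :
    TS t S (p i) (p j) = TS t S (p i) (p k) + TS t S (p k) (p j) := by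
  rw [← h.2.2, ← (h.sub ht le_rfl h1 h2).2.2, ← (h.sub ht h1 h2 le_rfl).2.2, cost_add h1 h2]
/-- a piece of a bigeodesic inside `S` is optimal inside `S` -/
theorem Bi.TS_eq {S : Set V} (ht : ∀ e, 0 ≤ t e) (h : Bi t γ) (hij : i ≤ j) (hS : ∀ k, i ≤ k → k ≤ j → γ k ∈ S) :
    TS t S (γ i) (γ j) = pot t γ j - pot t γ i := by
  exact ((h i j hij).restrict ht (Set.subset_univ S) hS).2.2.symm.trans (pot_sub hij)

/-! first and last visits (`Int.csInf_mem`, `Int.csSup_mem`; one step changes the row by at most one) -/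
theorem sb_fi (h : Line γ) (y : ℤ) : {k | y ≤ (γ k).2}.Nonempty ∧ BddBelow {k | y ≤ (γ k).2} := by
  refine ⟨(h.up.eventually_ge_atTop y).exists, ?_⟩
  obtain ⟨b, hb⟩ := eventually_atBot.1 (h.down.eventually_lt_atBot y)
  exact ⟨b, fun k hk => by_contra fun e => absurd (hb k (not_le.1 e).le) (not_lt.2 hk)⟩

theorem sb_la (h : Line γ) (y : ℤ) : {k | (γ k).2 ≤ y}.Nonempty ∧ BddAbove {k | (γ k).2 ≤ y} := by
  refine ⟨(h.down.eventually_le_atBot y).exists, ?_⟩
  obtain ⟨b, hb⟩ := eventually_atTop.1 (h.up.eventually_gt_atTop y)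
  exact ⟨b, fun k hk => by_contra fun e => absurd (hb k (not_le.1 e).le) (not_lt.2 hk)⟩

theorem sb_row (h : Line γ) (k : ℤ) : (γ (k + 1)).2 ≤ (γ k).2 + 1 := lip1_snd _ _ (h.adj k)

theorem Line.lt_fi (h : Line γ) (hk : k < fi γ y) : (γ k).2 < y := by
  exact not_le.1 fun e => not_le.2 hk (csInf_le (sb_fi h y).2 e)
theorem Line.fi_le (h : Line γ) (hk : y ≤ (γ k).2) : fi γ y ≤ k := by
  exact csInf_le (sb_fi h y).2 hk
theorem Line.fi_row (h : Line γ) (y : ℤ) : (γ (fi γ y)).2 = y := by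
  have h1 : y ≤ (γ (fi γ y)).2 := Int.csInf_mem (sb_fi h y).1 (sb_fi h y).2
  have h2 := h.lt_fi (show fi γ y - 1 < fi γ y by omega)
  have h3 := sb_row h (fi γ y - 1)
  rw [sub_add_cancel] at h3
  omega
theorem Line.first_fi (h : Line γ) (y : ℤ) : First γ (fi γ y) := by
  intro m hm
  rw [h.fi_row]
  exact h.lt_fi hm
theorem Line.fi_eq (h : Line γ) (hl : First γ l) : fi γ (γ l).2 = l := by
  refine le_antisymm (h.fi_le le_rfl) (not_lt.1 fun e => ?_)
  exact absurd (hl _ e) (by rw [h.fi_row]; exact lt_irrefl _)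
theorem Line.la_lt (h : Line γ) (hk : la γ y < k) : y < (γ k).2 := by
  exact not_le.1 fun e => not_le.2 hk (le_csSup (sb_la h y).2 e)
theorem Line.le_la (h : Line γ) (hk : (γ k).2 ≤ y) : k ≤ la γ y := by
  exact le_csSup (sb_la h y).2 hk
theorem Line.la_row (h : Line γ) (y : ℤ) : (γ (la γ y)).2 = y := by
  have h1 : (γ (la γ y)).2 ≤ y := Int.csSup_mem (sb_la h y).1 (sb_la h y).2
  have h2 := h.la_lt (show la γ y < la γ y + 1 by omega)
  have h3 := sb_row h (la γ y)
  omega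
theorem Line.last_la (h : Line γ) (y : ℤ) : Last γ (la γ y) := by
  intro m hm
  rw [h.la_row]
  exact h.la_lt hm
theorem Line.la_eq (h : Line γ) (hk : Last γ k) : la γ (γ k).2 = k := by
  refine le_antisymm (not_lt.1 fun e => ?_) (h.le_la le_rfl)
  exact absurd (hk _ e) (by rw [h.la_row]; exact lt_irrefl _)
theorem Line.last_succ (h : Line γ) (hk : Last γ k) : γ (k + 1) = γ k + (0, 1) := by
  have h1 := hk (k + 1) (by omega)
  have h2 := (adj_iff _ _).1 (h.adj k)
  refine Prod.ext ?_ ?_ <;> simp only [Prod.fst_add, Prod.snd_add] <;> omega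
theorem Line.first_pred (h : Line γ) (hl : First γ l) : γ (l - 1) = γ l - (0, 1) := by
  have h1 := hl (l - 1) (by omega)
  have h2 := (adj_iff _ _).1 (h.adj (l - 1))
  rw [sub_add_cancel] at h2
  refine Prod.ext ?_ ?_ <;> simp only [Prod.fst_sub, Prod.snd_sub] <;> omega
theorem Line.edge_last (h : Line γ) (hk : Last γ k) : edge γ k = upE (γ k) := by
  rw [edge, upE, h.last_succ hk]
theorem Line.fi_le_la_succ (h : Line γ) (y : ℤ) : fi γ (y + 1) ≤ la γ y + 1 := by
  exact h.fi_le (h.la_lt (show la γ y < la γ y + 1 by omega))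
theorem Line.tendsto_fi (h : Line γ) (c : ℤ) : Tendsto (fun N : ℕ => fi γ (c + N)) atTop atTop := by
  have h1 : ∀ N : ℕ, fi γ c + N ≤ fi γ (c + N) := by
    intro N
    induction N with
    | zero => simp
    | succ N ih =>
      push_cast
      have h4 := sb_row h (fi γ (c + (N + 1)) - 1)
      rw [sub_add_cancel, h.fi_row] at h4
      have h5 := h.fi_le (y := c + N) (k := fi γ (c + (N + 1)) - 1) (by omega)
      omega
  exact tendsto_atTop_mono h1 (tendsto_atTop_add_const_left _ _ tendsto_natCast_atTop_atTop)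
theorem Line.tendsto_la (h : Line γ) (c : ℤ) : Tendsto (fun N : ℕ => la γ (c - N)) atTop atBot := by
  have h1 : ∀ N : ℕ, la γ (c - N) ≤ la γ c + -N := by
    intro N
    induction N with
    | zero => simp
    | succ N ih =>
      push_cast
      have h4 := sb_row h (la γ (c - (N + 1)))
      rw [h.la_row] at h4
      have h5 := h.le_la (y := c - N) (k := la γ (c - (N + 1)) + 1) (by omega)
      omega
  exact tendsto_atBot_mono h1 (tendsto_atBot_add_const_left _ _
    (tendsto_neg_atTop_atBot.comp tendsto_natCast_atTop_atTop))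
/-- the part of `γ` from the exit at the gap `j` to the first visit of row `j + 1 + N` -/
theorem Line.pathIn_up (h : Line γ) (j : ℤ) : ∀ᶠ N : ℕ in atTop,
    PathIn (rows (j + 1) (j + 1 + N)) γ (la γ j + 1) (fi γ (j + 1 + N)) := by
  filter_upwards [(h.tendsto_fi (j + 1)).eventually_ge_atTop (la γ j + 1)] with N hN
  refine (h.pathIn hN).restrict fun k h1 h2 => ⟨h.la_lt (by omega), ?_⟩
  rcases h2.eq_or_lt with rfl | h2
  exacts [(h.fi_row _).le, (h.lt_fi h2).le]
/-- the part of `γ` from the last visit of row `j - N` to the entry at the gap `j` -/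
theorem Line.pathIn_down (h : Line γ) (j : ℤ) : ∀ᶠ N : ℕ in atTop,
    PathIn (rows (j - N) j) γ (la γ (j - N)) (fi γ (j + 1) - 1) := by
  filter_upwards [(h.tendsto_la j).eventually_le_atBot (fi γ (j + 1) - 1)] with N hN
  refine (h.pathIn hN).restrict fun k h1 h2 => ⟨?_, Int.lt_add_one_iff.1 (h.lt_fi (by omega))⟩
  rcases h1.eq_or_lt with rfl | h1
  exacts [(h.la_row _).ge, (h.la_lt h1).le]
/-- between the entry and the exit a tame curve stays close -/
theorem Tame.mid {L : ℕ} (hl : Line γ) (h : Tame L γ k) {m : ℤ} (h1 : fi γ ((γ k).2 + 1) - 1 ≤ m) (h2 : m ≤ k) :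
    |(γ m).1 - (γ k).1| ≤ L := by
  exact h.2 _ m (by rw [hl.fi_row]; omega) h1 h2
theorem Line.entry_le (h : Line γ) (hk : Last γ k) : fi γ ((γ k).2 + 1) - 1 ≤ k := by
  have := h.fi_le (y := (γ k).2 + 1) (hk (k + 1) (by omega))
  omega
theorem Line.entry_row (h : Line γ) (y : ℤ) : (γ (fi γ (y + 1) - 1)).2 = y := by
  rw [h.first_pred (h.first_fi _), Prod.snd_sub, h.fi_row]
  simp

/-! changing one weight -/
theorem sb_nonneg (ht : ∀ e, 0 ≤ t e) (e₀ : Sym2 V) {c : ℝ} (h0 : 0 ≤ c) (e : Sym2 V) :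
    0 ≤ Function.update t e₀ c e := by
  rw [Function.update_apply]
  split_ifs
  exacts [h0, ht e]

/-- lowering an edge of the curve: `IsGeo.lower` on a larger index interval, then `IsGeo.sub` -/
theorem Bi.lower (ht : ∀ e, 0 ≤ t e) (h : Bi t γ) (k : ℤ) {c : ℝ} (h0 : 0 ≤ c) (hc : c ≤ t (edge γ k)) :
    Bi (Function.update t (edge γ k) c) γ := by
  intro i j hij
  refine ((h (min i k) (max j (k + 1)) (by omega)).lower (sb_nonneg ht _ h0) (fun e => ?_) fun e he => ?_).sub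
    (sb_nonneg ht _ h0) (by omega) hij (by omega)
  · rw [Function.update_apply]
    split_ifs with h1
    exacts [h1 ▸ hc, le_rfl]
  · exact ⟨k, by omega, by omega, by_contra fun h1 => he (Function.update_of_ne h1 _ _)⟩
theorem Curve.lower (ht : ∀ e, 0 ≤ t e) (h : Curve G t γ a) (k : ℤ) {c : ℝ} (h0 : 0 ≤ c) (hc : c ≤ t (edge γ k)) :
    Curve G (Function.update t (edge γ k) c) γ a := by
  exact ⟨h.bi.lower ht k h0 hc, h.lab, h.le⟩
theorem marg_of_lower (ht : ∀ e, 0 ≤ t e) (h : Bi t γ) (k : ℤ) {c δ : ℝ} (h0 : 0 ≤ c) (hδ : 0 ≤ δ)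
    (hc : c + δ ≤ t (edge γ k)) : Marg δ (Function.update t (edge γ k) c) γ k := by
  rw [Marg, Function.update_self, Function.update_idem]
  exact h.lower ht k (add_nonneg h0 hδ) hc
/-- a path avoiding an edge with margin `δ` costs `δ` more (in the raised environment `cost γ i j` grows by exactly `δ`
since `edge γ` is injective, the cost of `p` does not change) -/
theorem Marg.le_cost {δ : ℝ} (ht : ∀ e, 0 ≤ t e) (hδ : 0 ≤ δ) (h : Marg δ t γ k) (h1 : i ≤ k) (h2 : k < j)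
    {p : ℤ → V} {b c : ℤ} (hp : PathIn Set.univ p b c) (hb : p b = γ i) (hc : p c = γ j)
    (hav : ∀ m, b ≤ m → m < c → edge p m ≠ edge γ k) : cost t γ i j + δ ≤ cost t p b c := by
  have h3 := h i j (by omega)
  have h4 := TS_le_cost (sb_nonneg ht (edge γ k) (add_nonneg (ht (edge γ k)) hδ)) hp
  rw [hb, hc, ← h3.2.2, cost_congr_env (t' := t) (p := p) fun m h5 h6 => Function.update_of_ne (hav m h5 h6) _ _]
    at h4
  refine le_trans (le_of_eq ?_) h4
  have hk : k ∈ Finset.Ico i j := Finset.mem_Ico.2 ⟨h1, h2⟩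
  rw [cost, cost, ← Finset.add_sum_erase _ _ hk, ← Finset.add_sum_erase _ _ hk, Function.update_self,
    add_right_comm]
  congr 1
  refine Finset.sum_congr rfl fun m hm => (Function.update_of_ne (fun e => ?_) _ _).symm
  obtain ⟨h5, h6⟩ := Finset.mem_erase.1 hm
  exact h5 (edge_injOn h3.2.1 (Finset.mem_Ico.1 h6) ⟨h1, h2⟩ e)
theorem cost_update_of_ne {p : ℤ → V} {e : Sym2 V} {c : ℝ} (h : ∀ m, i ≤ m → m < j → edge p m ≠ e) :
    cost (Function.update t e c) p i j = cost t p i j := by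
  exact cost_congr_env fun m h1 h2 => Function.update_of_ne (h m h1 h2) _ _

/-! finite sets of lattice points -/
theorem mem_par {ξ r : ℝ} {y₀ : ℤ} {H : ℕ} {v : V} :
    v ∈ par ξ r y₀ H ↔ y₀ ≤ v.2 ∧ v.2 < y₀ + H ∧ |(v.1 : ℝ) - ξ * v.2| ≤ r := by
  obtain ⟨x, y⟩ := v
  simp only [par, Finset.mem_biUnion, Finset.mem_Ico, Finset.mem_image, Finset.mem_Icc, Int.ceil_le, Int.le_floor,
    Prod.mk.injEq, abs_le]
  constructor
  · rintro ⟨y', ⟨h1, h2⟩, x', ⟨h3, h4⟩, rfl, rfl⟩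
    exact ⟨h1, h2, by linarith, by linarith⟩
  · rintro ⟨h1, h2, h3, h4⟩
    exact ⟨y, ⟨h1, h2⟩, x, ⟨by linarith, by linarith⟩, rfl, rfl⟩
theorem card_par {ξ r : ℝ} (hr : 0 ≤ r) (y₀ : ℤ) (H : ℕ) : ((par ξ r y₀ H).card : ℝ) ≤ H * (2 * r + 1) := by
  have h1 : ∀ y ∈ Finset.Ico y₀ (y₀ + H),
      (((Finset.Icc ⌈ξ * y - r⌉ ⌊ξ * y + r⌋).image fun x => ((x, y) : V)).card : ℝ) ≤ 2 * r + 1 := fun y _ => by
    refine le_trans (Nat.cast_le.2 Finset.card_image_le) ?_
    rw [Int.card_Icc]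
    rcases le_total (⌊ξ * y + r⌋ + 1 - ⌈ξ * y - r⌉) 0 with e | e
    · rw [Int.toNat_of_nonpos e, Nat.cast_zero]
      linarith
    · have h2 : (((⌊ξ * y + r⌋ + 1 - ⌈ξ * y - r⌉).toNat : ℤ) : ℝ) = ((⌊ξ * y + r⌋ + 1 - ⌈ξ * y - r⌉ : ℤ) : ℝ) := by
        rw [Int.toNat_of_nonneg e]
      rw [Int.cast_natCast] at h2
      rw [h2]
      push_cast
      linarith [Int.floor_le (ξ * y + r), Int.le_ceil (ξ * y - r)]
  refine le_trans (Nat.cast_le.2 Finset.card_biUnion_le) ?_
  rw [Nat.cast_sum]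
  refine (Finset.sum_le_card_nsmul _ _ _ h1).trans (le_of_eq ?_)
  simp [mul_add]
theorem mem_sq {w : ℕ} {v : V} : v ∈ sq w ↔ (0 ≤ v.1 ∧ v.1 < w) ∧ 0 ≤ v.2 ∧ v.2 < w := by
  simp [sq]
theorem card_sq (w : ℕ) : (sq w).card = w ^ 2 := by
  simp [sq, pow_two]
theorem mem_seg {w : ℕ} {v : V} : v ∈ seg w ↔ (0 ≤ v.1 ∧ v.1 < w) ∧ v.2 = 0 := by
  rw [seg, Finset.mem_product, Finset.mem_Ico, Finset.mem_singleton]
theorem card_seg (w : ℕ) : (seg w).card = w := by
  simp [seg]
theorem upE_injective : Function.Injective upE := by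
  intro v w h
  rcases Sym2.eq_iff.1 h with ⟨e, -⟩ | ⟨e, e'⟩
  · exact e
  · have h1 := congrArg Prod.snd e
    have h2 := congrArg Prod.snd e'
    simp only [Prod.snd_add] at h1 h2
    omega
/-- every point of `[α, α + n h]` lies in one of the `n` cells -/
theorem exists_cell {α h x : ℝ} {n : ℕ} (hn : 0 < n) (hh : 0 < h) (h1 : α ≤ x) (h2 : x ≤ α + n * h) :
    ∃ i < n, x ∈ cell α h i := by
  induction n with
  | zero => omega
  | succ n ih =>
    by_cases hx : 0 < n ∧ x ≤ α + n * h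
    · obtain ⟨i, h3, h4⟩ := ih hx.1 hx.2
      exact ⟨i, by omega, h4⟩
    · refine ⟨n, by omega, ?_, by push_cast at h2; linarith⟩
      rcases Nat.eq_zero_or_pos n with rfl | h3
      · simpa using h1
      · exact (not_le.1 fun e => hx ⟨h3, e⟩).le
theorem cnt_eq_sum (A : Set Env) (Z : Finset V) (t : Env) :
    (cnt A Z t : ℝ≥0∞) = ∑ z ∈ Z, A.indicator 1 (shift z t) := by
  classical
  rw [cnt, Finset.card_filter, Nat.cast_sum]
  refine Finset.sum_congr rfl fun z _ => ?_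
  rw [Set.indicator_apply]
  split_ifs <;> simp
theorem cnt_le (A : Set Env) (Z : Finset V) (t : Env) : cnt A Z t ≤ Z.card := by
  classical
  exact Finset.card_filter_le _ _

end Crest.Agent.R151
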