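import Crest.Agent.R151.SBas

/-! R151 part C soft: covariance under translations, reindexing and the point reflection.  Helper prefix `ss_`. -/

set_option autoImplicit false

open MeasureTheory ProbabilityTheory Crest.ProbabilityR.FirstPassage Filter Topology
open scoped ENNReal

namespace Crest.Agent.R151

variable {G : Measure ℝ} [IsProbabilityMeasure G] [NullSingletonClass G]
variable {t : Env} {γ γ' : ℤ → V} {a : ℝ} {k : ℤ} {v : V} {L : ℕ} {q δ s : ℝ} {I : Set ℝ}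

/-! labels -/
theorem ss_slope_neg (v : V) : slope (-v) = slope v := by
  simp [slope, neg_div_neg_eq]

theorem ss_cone_iff {ξ₁ ξ₂ : ℝ} {v : V} (h : 0 < v.2) : v ∈ cone ξ₁ ξ₂ ↔ ξ₁ ≤ slope v ∧ slope v ≤ ξ₂ := by
  have h' : (0 : ℝ) < v.2 := by exact_mod_cast h
  rw [slope, le_div_iff₀ h', div_le_iff₀ h']
  exact ⟨fun h => h.2, fun h2 => ⟨h, h2⟩⟩

theorem ss_cone (H : HypC G) {l : Filter ℤ} {u : ℤ → V} (hu : Tendsto (fun k => (u k).2) l atTop)
    (hs : Tendsto (fun k => fp G (slope (u k))) l (𝓝 a)) {ξ₁ ξ₂ : ℝ} (h1 : fp G ξ₁ < a) (h2 : a < fp G ξ₂) :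
    ∀ᶠ k in l, u k ∈ cone ξ₁ ξ₂ := by
  filter_upwards [hu.eventually_gt_atTop 0, hs.eventually (lt_mem_nhds h1), hs.eventually (gt_mem_nhds h2)]
    with k a1 a2 a3
  exact (ss_cone_iff a1).2 ⟨((fp_mono H).reflect_lt a2).le, ((fp_mono H).reflect_lt a3).le⟩

theorem ss_lim (H : HypC G) {l : Filter ℤ} {u : ℤ → V}
    (h : ∀ η > (0 : ℝ), ∃ ξ₁ ξ₂ : ℝ, a - η < fp G ξ₁ ∧ fp G ξ₂ < a + η ∧ ∀ᶠ k in l, u k ∈ cone ξ₁ ξ₂) :
    Tendsto (fun k => fp G (slope (u k))) l (𝓝 a) := by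
  refine Metric.tendsto_nhds.2 fun η hη => ?_
  obtain ⟨ξ₁, ξ₂, h1, h2, h3⟩ := h η hη
  filter_upwards [h3] with k hk
  obtain ⟨a1, a2⟩ := (ss_cone_iff hk.1).1 hk
  rw [Real.dist_eq, abs_lt]
  constructor <;> linarith [fp_mono H a1, fp_mono H a2]

theorem ss_up {l : Filter ℤ} {u : ℤ → V} {ξ₁ ξ₂ : ℝ} (hn : Tendsto (fun k => nrm (u k)) l atTop)
    (hc : ∀ᶠ k in l, u k ∈ cone ξ₁ ξ₂) : Tendsto (fun k => (u k).2) l atTop := by
  obtain ⟨C, hC⟩ := exists_nat_ge (|ξ₁| + |ξ₂| + 1)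
  have a1 := abs_nonneg ξ₁
  have a2 := abs_nonneg ξ₂
  have hC0 : (0 : ℤ) < C := by exact_mod_cast (show (0 : ℝ) < C by linarith)
  refine tendsto_atTop.2 fun b => ?_
  filter_upwards [hn.eventually_ge_atTop (C * b), hc] with k h1 ⟨h2, h3, h4⟩
  have h2' : (0 : ℝ) < (u k).2 := by exact_mod_cast h2
  have b1 : |(u k).1| ≤ C * (u k).2 := by
    have : |((u k).1 : ℝ)| ≤ C * (u k).2 := by
      rw [abs_le]
      constructor <;> nlinarith [neg_abs_le ξ₁, le_abs_self ξ₂]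
    exact_mod_cast this
  have b2 : |(u k).2| ≤ C * (u k).2 := by
    rw [abs_of_pos h2]; nlinarith
  exact le_of_mul_le_mul_left (h1.trans (max_le b1 b2)) hC0

theorem ss_cone_sub {l : Filter ℤ} {u : ℤ → V} {ξ₁' ξ₁ ξ₂ ξ₂' : ℝ} (hu : Tendsto (fun k => (u k).2) l atTop)
    (hc : ∀ᶠ k in l, u k ∈ cone ξ₁ ξ₂) (h1 : ξ₁' < ξ₁) (h2 : ξ₂ < ξ₂') (v : V) :
    ∀ᶠ k in l, u k - v ∈ cone ξ₁' ξ₂' := by
  have hr : Tendsto (fun k => ((u k).2 : ℝ)) l atTop := tendsto_intCast_atTop_atTop.comp hu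
  filter_upwards [hc, hu.eventually_gt_atTop v.2,
    (hr.const_mul_atTop (sub_pos.2 h1)).eventually_ge_atTop (v.1 - ξ₁' * v.2),
    (hr.const_mul_atTop (sub_pos.2 h2)).eventually_ge_atTop (ξ₂' * v.2 - v.1)] with k ⟨_, a2, a3⟩ a4 a5 a6
  refine ⟨sub_pos.2 a4, ?_, ?_⟩ <;> simp only [Prod.fst_sub, Prod.snd_sub, Int.cast_sub] <;> linarith

theorem ss_down {u : ℤ → V} {l : Filter ℤ} :
    Tendsto (fun k => (-u k).2) l atTop ↔ Tendsto (fun k => (u k).2) l atBot := by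
  simp only [Prod.snd_neg]
  exact tendsto_neg_atTop_iff

/-- `fp ξ₁ < fp (slope) < fp ξ₂` eventually, `fp_mono`; the row is positive eventually -/
theorem HasLabel.eventually_cone (H : HypC G) (h : HasLabel G γ a) {ξ₁ ξ₂ : ℝ} (h1 : fp G ξ₁ < a) (h2 : a < fp G ξ₂) :
    (∀ᶠ k in atTop, γ k ∈ cone ξ₁ ξ₂) ∧ ∀ᶠ k in atBot, -γ k ∈ cone ξ₁ ξ₂ := by
  refine ⟨ss_cone H h.up h.top h1 h2, ss_cone H (u := fun k => -γ k) (ss_down.2 h.down) ?_ h1 h2⟩
  simpa only [ss_slope_neg] using h.bot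
theorem ss_rat (H : HypC G) {A B u w : ℝ} (hAB : fp G A < fp G B) (huw : u < w) (h1 : u < fp G B)
    (h2 : fp G A < w) : ∃ ξ : ℚ, u < fp G ξ ∧ fp G ξ < w := by
  obtain ⟨c, c1, c2⟩ := exists_between (show max u (fp G A) < min w (fp G B) from
    max_lt (lt_min huw h1) (lt_min h2 hAB))
  rw [max_lt_iff] at c1
  rw [lt_min_iff] at c2
  obtain ⟨x, hx⟩ := intermediate_value_univ A B (fp_cont H) ⟨c1.2.le, c2.2.le⟩
  exact Rat.denseRange_cast.exists_mem_open (isOpen_Ioo.preimage (fp_cont H))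
    (s := fp G ⁻¹' Set.Ioo u w) ⟨x, by rw [Set.mem_preimage, hx]; exact ⟨c1.1, c2.1⟩⟩

/-- labels are values of `fp`: IVT on `[-Ξ, Ξ]` (`fact0`, `fp_neg`, `fp_cont`), then density of `ℚ` -/
theorem exists_rat_fp (H : HypC G) (ha : |a| ≤ fp G 1) {η : ℝ} (hη : 0 < η) :
    ∃ ξ₁' ξ₁ ξ₂ ξ₂' : ℚ, a - η < fp G ξ₁' ∧ fp G ξ₁' < fp G ξ₁ ∧ fp G ξ₁ < a ∧ a < fp G ξ₂ ∧ fp G ξ₂ < fp G ξ₂' ∧
      fp G ξ₂' < a + η := by
  obtain ⟨Ξ, hΞ⟩ := fact0 H
  have e := fp_neg H Ξ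
  obtain ⟨a1, a2⟩ := abs_le.1 ha
  have hAB : fp G (-Ξ) < fp G Ξ := by linarith
  obtain ⟨ξ₁, b1, b2⟩ := ss_rat H (u := max (a - η) (fp G (-Ξ))) (w := a) hAB
    (max_lt (by linarith) (by linarith)) (max_lt (by linarith) hAB) (by linarith)
  rw [max_lt_iff] at b1
  obtain ⟨ξ₁', c1, c2⟩ := ss_rat H hAB b1.1 (by linarith) b1.2
  obtain ⟨ξ₂, d1, d2⟩ := ss_rat H (u := a) (w := min (a + η) (fp G Ξ)) hAB
    (lt_min (by linarith) (by linarith)) (by linarith) (lt_min (by linarith) hAB)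
  rw [lt_min_iff] at d2
  obtain ⟨ξ₂', f1, f2⟩ := ss_rat H hAB d2.1 d2.2 (by linarith)
  exact ⟨ξ₁', ξ₁, ξ₂, ξ₂', c1, c2, b2, d1, f1, f2⟩
/-- criterion: if for every `η` the points are eventually in a cone with `fp` of the slopes within `η` of `a` -/
theorem hasLabel_of_cones (H : HypC G) (hi : Function.Injective γ)
    (h : ∀ η > (0 : ℝ), ∃ ξ₁ ξ₂ : ℝ, a - η < fp G ξ₁ ∧ fp G ξ₂ < a + η ∧
      (∀ᶠ k in atTop, γ k ∈ cone ξ₁ ξ₂) ∧ ∀ᶠ k in atBot, -γ k ∈ cone ξ₁ ξ₂) : HasLabel G γ a := by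
  obtain ⟨ξ₁, ξ₂, -, -, a1, a2⟩ := h 1 one_pos
  refine ⟨ss_up (by simpa using tendsto_nrm_atTop hi 0) a1,
    ss_down.1 (ss_up (u := fun k => -γ k) (by simpa [nrm_neg] using tendsto_nrm_atBot hi 0) a2),
    ss_lim H fun η hη => ?_, ?_⟩
  · obtain ⟨ξ₁, ξ₂, b1, b2, b3, -⟩ := h η hη
    exact ⟨ξ₁, ξ₂, b1, b2, b3⟩
  · have := ss_lim H (l := atBot) (u := fun k => -γ k) (a := a) fun η hη => by
      obtain ⟨ξ₁, ξ₂, b1, b2, -, b3⟩ := h η hη
      exact ⟨ξ₁, ξ₂, b1, b2, b3⟩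
    simpa only [ss_slope_neg] using this
/-- translation: with `ξ₁' < ξ₁ < ξ₂ < ξ₂'` from `exists_rat_fp`, a far point of `cone ξ₁ ξ₂` minus `v` is in `cone ξ₁' ξ₂'`,
so `fp` of its slope lies between `fp ξ₁'` and `fp ξ₂'` -/
theorem HasLabel.sub (H : HypC G) (h : HasLabel G γ a) (ha : |a| ≤ fp G 1) (v : V) :
    HasLabel G (fun k => γ k - v) a := by
  refine ⟨tendsto_atTop_add_const_right _ (-v.2) h.up, tendsto_atBot_add_const_right _ (-v.2) h.down,
    ss_lim H fun η hη => ?_, ?_⟩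
  · obtain ⟨ξ₁', ξ₁, ξ₂, ξ₂', b1, b2, b3, b4, b5, b6⟩ := exists_rat_fp H ha hη
    exact ⟨ξ₁', ξ₂', b1, b6, ss_cone_sub h.up (h.eventually_cone H b3 b4).1 ((fp_mono H).reflect_lt b2)
      ((fp_mono H).reflect_lt b5) v⟩
  · have := ss_lim H (l := atBot) (u := fun k => -γ k - -v) (a := a) fun η hη => by
      obtain ⟨ξ₁', ξ₁, ξ₂, ξ₂', b1, b2, b3, b4, b5, b6⟩ := exists_rat_fp H ha hη
      exact ⟨ξ₁', ξ₂', b1, b6, ss_cone_sub (u := fun k => -γ k) (ss_down.2 h.down)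
        (h.eventually_cone H b3 b4).2 ((fp_mono H).reflect_lt b2) ((fp_mono H).reflect_lt b5) (-v)⟩
    simpa only [← neg_sub', ss_slope_neg] using this
omit [IsProbabilityMeasure G] [NullSingletonClass G] in
theorem HasLabel.reindex (h : HasLabel G γ a) (c : ℤ) : HasLabel G (fun k => γ (k + c)) a := by
  have a1 : Tendsto (fun k : ℤ => k + c) atTop atTop := tendsto_atTop_add_const_right _ c tendsto_id
  have a2 : Tendsto (fun k : ℤ => k + c) atBot atBot := tendsto_atBot_add_const_right _ c tendsto_id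
  exact ⟨h.up.comp a1, h.down.comp a2, h.top.comp a1, h.bot.comp a2⟩
omit [IsProbabilityMeasure G] [NullSingletonClass G] in
theorem HasLabel.neg_rev (h : HasLabel G γ a) : HasLabel G (fun k => -γ (-k)) a := by
  refine ⟨ss_down.2 (h.down.comp tendsto_neg_atTop_atBot),
    tendsto_neg_atTop_atBot.comp (h.up.comp tendsto_neg_atBot_atTop), ?_, ?_⟩ <;> simp only [ss_slope_neg]
  · exact h.bot.comp tendsto_neg_atTop_atBot
  · exact h.top.comp tendsto_neg_atBot_atTop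

/-! translations -/
theorem mv_mv (γ : ℤ → V) (c c' : ℤ) (v v' : V) : mv (mv γ c v) c' v' = mv γ (c' + c) (v + v') := by
  funext k
  simp only [mv, add_assoc, sub_sub]
theorem mv_zero (γ : ℤ → V) : mv γ 0 0 = γ := by
  funext k
  simp only [mv, add_zero, sub_zero]
theorem ss_inv (γ : ℤ → V) (c : ℤ) (v : V) : mv (mv γ c v) (-c) (-v) = γ := by
  rw [mv_mv, neg_add_cancel, add_neg_cancel, mv_zero]

theorem ss_surj (γ : ℤ → V) (v : V) : ∃ γ', γ = mv γ' 0 v :=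
  ⟨mv γ 0 (-v), by rw [mv_mv, neg_add_cancel, add_zero, mv_zero]⟩

theorem ss_back (t : Env) (v : V) : shift (-v) (shift v t) = t := by
  rw [shift_shift, add_neg_cancel, shift_zero]

theorem ss_add (γ : ℤ → V) (c : ℤ) (v : V) : (fun k => mv γ c v k + v) = fun k => γ (k + c) := by
  funext k
  rw [mv, sub_add_cancel]

theorem ss_edge_map (γ : ℤ → V) (c : ℤ) (v : V) (k : ℤ) :
    (edge (mv γ c v) k).map (fun x => x + v) = edge γ (k + c) := by
  simp only [edge, mv, Sym2.map_mk, sub_add_cancel, add_right_comm k 1 c]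

theorem ss_bi_reindex (h : Bi t γ) (c : ℤ) : Bi t fun k => γ (k + c) := fun i j hij => by
  simpa only [add_sub_cancel_right] using (h (i + c) (j + c) (by omega)).reindex c

theorem ss_image_univ {φ : V → V} (hφ : IsAut φ) : φ '' Set.univ = Set.univ :=
  Set.image_univ_of_surjective hφ.bij.2

theorem Line.mv (h : Line γ) (c : ℤ) (v : V) : Line (mv γ c v) := by
  have a1 : Tendsto (fun k : ℤ => k + c) atTop atTop := tendsto_atTop_add_const_right _ c tendsto_id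
  have a2 : Tendsto (fun k : ℤ => k + c) atBot atBot := tendsto_atBot_add_const_right _ c tendsto_id
  refine ⟨fun k => ?_, fun i j e => add_right_cancel (h.inj (sub_left_injective e)),
    tendsto_atTop_add_const_right _ (-v.2) (h.up.comp a1), tendsto_atBot_add_const_right _ (-v.2) (h.down.comp a2)⟩
  rw [← (isAut_add v).adj]
  simp only [R151.mv, sub_add_cancel, add_right_comm k 1 c]
  exact h.adj _
theorem bi_mv (c : ℤ) (v : V) : Bi (shift v t) (mv γ c v) ↔ Bi t γ := by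
  have e : Bi (shift v t) (mv γ c v) ↔ Bi t fun k => γ (k + c) := by
    simp only [Bi, shift, isGeo_act (isAut_add v), ss_image_univ (isAut_add v), ss_add]
  rw [e]
  refine ⟨fun h => ?_, fun h => ss_bi_reindex h c⟩
  simpa only [neg_add_cancel_right] using ss_bi_reindex h (-c)
theorem curve_mv (H : HypC G) (c : ℤ) (v : V) : Curve G (shift v t) (mv γ c v) a ↔ Curve G t γ a := by
  refine ⟨fun h => ⟨(bi_mv c v).1 h.bi, ?_, h.le⟩, fun h => ⟨(bi_mv c v).2 h.bi, (h.lab.reindex c).sub H h.le v, h.le⟩⟩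
  rw [← ss_inv γ c v]
  exact (h.lab.reindex (-c)).sub H h.le (-v)
theorem cost_mv (c : ℤ) (v : V) (i j : ℤ) : cost (shift v t) (mv γ c v) i j = cost t γ (i + c) (j + c) := by
  rw [shift, cost_act, ss_add, ← cost_reindex (p := γ) c, add_sub_cancel_right, add_sub_cancel_right]
theorem ss_tame (c : ℤ) (v : V) (h : Tame L γ (k + c)) : Tame L (mv γ c v) k := by
  refine ⟨fun m hm => sub_lt_sub_right (h.1 (m + c) (by omega)) v.2, fun l m h1 h2 h3 => ?_⟩
  have := h.2 (l + c) (m + c) ((sub_lt_sub_iff_right v.2).1 h1) (by omega) (by omega)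
  simpa only [mv, Prod.fst_sub, sub_sub_sub_cancel_right] using this

theorem ss_edge_mv (c : ℤ) (v : V) : shift v t (edge (mv γ c v) k) = t (edge γ (k + c)) := by
  rw [← ss_edge_map γ c v k]; rfl

theorem tame_mv (c : ℤ) (v : V) : Tame L (mv γ c v) k ↔ Tame L γ (k + c) := by
  refine ⟨fun h => ?_, ss_tame c v⟩
  rw [← ss_inv γ c v]
  exact ss_tame (-c) (-v) (by rwa [add_neg_cancel_right])
theorem good_mv (c : ℤ) (v : V) : Good L q (shift v t) (mv γ c v) k ↔ Good L q t γ (k + c) := by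
  rw [Good, Good, tame_mv, ss_edge_mv]
/-- `update (shift v t) (edge (mv γ c v) k) x = shift v (update t (edge γ (k+c)) x)` -/
theorem marg_mv (c : ℤ) (v : V) : Marg δ (shift v t) (mv γ c v) k ↔ Marg δ t γ (k + c) := by
  have e : ∀ x, Function.update (shift v t) (edge (mv γ c v) k) x =
      shift v (Function.update t (edge γ (k + c)) x) := fun x => by
    rw [← ss_edge_map γ c v k]
    exact (Function.update_comp_eq_of_injective t (Sym2.map.injective (add_left_injective v)) _ x).symm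
  rw [Marg, Marg, e, ss_edge_mv, bi_mv]
theorem Fragile.mv (h : Fragile t γ) (c : ℤ) (v : V) : Fragile (shift v t) (mv γ c v) := by
  intro ε hε i₀
  obtain ⟨i, hi, H⟩ := h ε hε (i₀ + c)
  refine ⟨i - c, by omega, fun k hk => ?_⟩
  obtain ⟨j, p, a, b, h1, h2, h3, h4, h5, h6⟩ := H (k + c) (by omega)
  refine ⟨j - c, R151.mv p 0 v, a, b, by omega, ?_, ?_, ?_, fun m l h7 h8 e => h5 m (l + c) h7 h8 ?_, ?_⟩
  · have := (h2.map (isAut_add (-v))).mono (Set.subset_univ _)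
    refine this.congr fun k _ _ => ?_
    rw [R151.mv, add_zero, sub_eq_add_neg]
  · rw [R151.mv, R151.mv, add_zero, sub_add_cancel, h3]
  · rw [R151.mv, R151.mv, add_zero, sub_add_cancel, h4]
  · rw [← ss_edge_map γ c v l, ← e, ss_edge_map, add_zero]
  · rwa [cost_mv, cost_mv, add_zero, add_zero, sub_add_cancel, sub_add_cancel]
theorem Line.fi_mv (h : Line γ) (c : ℤ) (v : V) (y : ℤ) : fi (R151.mv γ c v) y = fi γ (y + v.2) - c := by
  have h' := h.mv c v
  refine le_antisymm (h'.fi_le ?_) (sub_le_iff_le_add.2 (h.fi_le ?_))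
  · rw [R151.mv, sub_add_cancel, Prod.snd_sub, h.fi_row, add_sub_cancel_right]
  · have := h'.fi_row y
    rw [R151.mv, Prod.snd_sub] at this
    omega
theorem Line.la_mv (h : Line γ) (c : ℤ) (v : V) (y : ℤ) : la (R151.mv γ c v) y = la γ (y + v.2) - c := by
  have h' := h.mv c v
  refine le_antisymm (le_sub_iff_add_le.2 (h.le_la ?_)) (h'.le_la ?_)
  · have := h'.la_row y
    rw [R151.mv, Prod.snd_sub] at this
    omega
  · rw [R151.mv, sub_add_cancel, Prod.snd_sub, h.la_row, add_sub_cancel_right]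
theorem exc_mv (h : Line γ) (c : ℤ) (v : V) (j : ℤ) (N : ℕ) (x' x : ℤ) :
    Exc (shift v t) (mv γ c v) j N x' x = Exc t γ (j + v.2) N (x' + v.1) (x + v.1) := by
  have e1 : j - N + v.2 = j + v.2 - N := by ring
  have e2 : j + 1 + N + v.2 = j + v.2 + 1 + N := by ring
  have e3 : j + 1 + v.2 = j + v.2 + 1 := by ring
  have e4 : ∀ x y : ℤ, ((x, y) : V) + v = (x + v.1, y + v.2) := fun _ _ => rfl
  simp only [Exc, TD, TU, TS_shift_rows, T_shift, h.fi_mv, h.la_mv, mv, sub_add_cancel]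
  rw [e4 x', e4 x, e1, e2, e3]

theorem mem_shift_GE (H : HypC G) :
    shift v t ∈ GE G L q I ↔ ∃ γ a k, a ∈ I ∧ Curve G t γ a ∧ γ k = v ∧ Good L q t γ k := by
  constructor
  · rintro ⟨γ, a, h1, h2, h3, h4⟩
    obtain ⟨γ, rfl⟩ := ss_surj γ v
    exact ⟨γ, a, 0 + 0, h1, (curve_mv H 0 v).1 h2, sub_eq_zero.1 h3, (good_mv 0 v).1 h4⟩
  · rintro ⟨γ, a, k, h1, h2, h3, h4⟩
    exact ⟨mv γ k v, a, h1, (curve_mv H k v).2 h2, by rw [mv, zero_add, h3, sub_self],
      (good_mv k v).2 (by rwa [zero_add])⟩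
theorem mem_shift_MG (H : HypC G) :
    shift v t ∈ MG G L δ I ↔ ∃ γ a k, a ∈ I ∧ Curve G t γ a ∧ γ k = v ∧ Tame L γ k ∧ Marg δ t γ k := by
  constructor
  · rintro ⟨γ, a, h1, h2, h3, h4, h5⟩
    obtain ⟨γ, rfl⟩ := ss_surj γ v
    exact ⟨γ, a, 0 + 0, h1, (curve_mv H 0 v).1 h2, sub_eq_zero.1 h3, (tame_mv 0 v).1 h4, (marg_mv 0 v).1 h5⟩
  · rintro ⟨γ, a, k, h1, h2, h3, h4, h5⟩
    exact ⟨mv γ k v, a, h1, (curve_mv H k v).2 h2, by rw [mv, zero_add, h3, sub_self],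
      (tame_mv k v).2 (by rwa [zero_add]), (marg_mv k v).2 (by rwa [zero_add])⟩
theorem shift_mem_WE (H : HypC G) (ha : a ∈ I) (h : Curve G t γ a) (hg : Good L q t γ k) {D : ℤ}
    (hW : Wge L s t γ (γ k).2 D) : shift (γ k) t ∈ WE G L q s I (D - (γ k).1) := by
  refine ⟨mv γ k (γ k), a, ha, (curve_mv H k _).2 h, by rw [mv, zero_add, sub_self],
    (good_mv k _).2 (by rwa [zero_add]), fun x x' h1 h2 => ?_⟩
  simp only [exc_mv h.line, zero_add]
  exact hW _ _ (by omega) (by rwa [add_sub_add_right_eq_sub])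
theorem mem_shift_Br (H : HypC G) : shift v t ∈ Br G ↔ ∃ γ γ' a i i', Curve G t γ a ∧ Curve G t γ' a ∧ γ i = v ∧
    (∀ k, k ≤ 0 → γ (i + k) = γ' (i' + k)) ∧ γ (i + 1) ≠ γ' (i' + 1) := by
  constructor
  · rintro ⟨γ, γ', a, h1, h2, h3, h4, h5⟩
    obtain ⟨γ, rfl⟩ := ss_surj γ v
    obtain ⟨γ', rfl⟩ := ss_surj γ' v
    simp only [mv, add_zero, sub_left_inj, ne_eq] at h3 h4 h5
    refine ⟨γ, γ', a, 0, 0, (curve_mv H 0 v).1 h1, (curve_mv H 0 v).1 h2, sub_eq_zero.1 h3, ?_, ?_⟩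
    · simpa only [zero_add] using h4
    · simpa only [zero_add, ne_eq] using h5
  · rintro ⟨γ, γ', a, i, i', h1, h2, h3, h4, h5⟩
    refine ⟨mv γ i v, mv γ' i' v, a, (curve_mv H i v).2 h1, (curve_mv H i' v).2 h2,
      by rw [mv, zero_add, h3, sub_self], fun k hk => ?_, fun e => h5 ?_⟩
    · rw [mv, mv, add_comm k, add_comm k, h4 k hk]
    · rw [mv, mv, add_comm 1, add_comm 1] at e
      exact sub_left_injective e
theorem mem_shift_Sp (H : HypC G) : shift v t ∈ Sp G δ ↔ ∃ γ a k, Curve G t γ a ∧ γ k = v ∧ Marg δ t γ k ∧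
    ∀ m, k < m → ¬ Marg δ t γ m := by
  constructor
  · rintro ⟨γ, a, h2, h3, h4, h5⟩
    obtain ⟨γ, rfl⟩ := ss_surj γ v
    refine ⟨γ, a, 0 + 0, (curve_mv H 0 v).1 h2, sub_eq_zero.1 h3, (marg_mv 0 v).1 h4, fun m hm h => ?_⟩
    exact h5 m hm ((marg_mv 0 v).2 (by rwa [add_zero]))
  · rintro ⟨γ, a, k, h2, h3, h4, h5⟩
    exact ⟨mv γ k v, a, (curve_mv H k v).2 h2, by rw [mv, zero_add, h3, sub_self],
      (marg_mv k v).2 (by rwa [zero_add]), fun m hm h => h5 (m + k) (by omega) ((marg_mv k v).1 h)⟩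

/-! the point reflection -/
theorem isAut_rf : IsAut rf := by
  have e : rf = fun x : V => ((0, 1) : V) - x := by
    funext x; ext <;> simp [rf]
  rw [e]
  exact isAut_sub _
theorem rf_rf (v : V) : rf (rf v) = v := by
  ext <;> simp [rf]
theorem act_rf_rf (t : Env) : act rf (act rf t) = t := by
  funext e
  have : rf ∘ rf = id := funext rf_rf
  rw [act, act, Sym2.map_map, this, Sym2.map_id, id]
theorem rfc_rfc (γ : ℤ → V) : rfc (rfc γ) = γ := by
  funext k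
  rw [rfc, rfc, rf_rf, neg_neg]
theorem act_rf_shift (v : V) (t : Env) : act rf (shift v t) = shift (-v) (act rf t) := by
  rw [shift, shift, act_comp, act_comp]
  congr 1
  funext x
  ext <;> simp [rf] <;> ring
theorem Line.rfc (h : Line γ) : Line (rfc γ) := by
  refine ⟨fun k => ?_, fun i j e => neg_injective (h.inj (isAut_rf.bij.1 e)), ?_, ?_⟩
  · have := (h.adj (-(k + 1))).symm
    rw [show -(k + 1) + 1 = -k by ring] at this
    exact (isAut_rf.adj _ _).2 this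
  · exact tendsto_atTop_add_const_left _ 1
      (tendsto_neg_atBot_atTop.comp (h.down.comp tendsto_neg_atTop_atBot))
  · exact tendsto_atBot_add_const_left _ 1
      (tendsto_neg_atTop_atBot.comp (h.up.comp tendsto_neg_atBot_atTop))
/-- `rfc γ k = -γ (-k) - (0,-1)` -/
theorem Curve.rfc (H : HypC G) (h : Curve G t γ a) : Curve G (act rf t) (rfc γ) a := by
  refine ⟨fun i j hij => ?_, ?_, h.le⟩
  · rw [isGeo_act isAut_rf, ss_image_univ isAut_rf]
    simpa only [R151.rfc, rf_rf, neg_neg] using (h.bi (-j) (-i) (by omega)).rev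
  · have e : R151.rfc γ = fun k => -γ (-k) - (0, -1) := by
      funext k; ext <;> simp [R151.rfc, rf]; ring
    rw [e]
    exact h.lab.neg_rev.sub H h.le _
theorem Line.fi_rfc (h : Line γ) (y : ℤ) : fi (R151.rfc γ) y = -la γ (1 - y) := by
  have h' := h.rfc
  refine le_antisymm (h'.fi_le ?_) (neg_le.1 (h.le_la ?_))
  · have := h.la_row (1 - y)
    simp only [R151.rfc, rf, neg_neg]
    omega
  · have := h'.fi_row y
    simp only [R151.rfc, rf] at this
    omega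
theorem TD_eq_TU (t : Env) (N : ℕ) (x : ℤ) (u : V) : TD t 0 N x u = TU (act rf t) 0 N (-x) (rf u) := by
  have e : rf '' rows (0 + 1) (0 + 1 + N) = rows (0 - N) 0 := by
    ext w
    constructor
    · rintro ⟨z, ⟨h1, h2⟩, rfl⟩
      constructor <;> simp only [rf] <;> omega
    · rintro ⟨h1, h2⟩
      refine ⟨rf w, ?_, rf_rf w⟩
      constructor <;> simp only [rf] <;> omega
  rw [TD, TU, TS_act isAut_rf, e, rf_rf]
  simp [rf]
theorem dependsOnly_rf {α : Type} {f : Env → α} (h : DependsOnly f (edgesIn (upper 1))) (x : ℤ) :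
    DependsOnly (fun t => f (shift (x, 0) (act rf t))) (edgesIn (lower 0)) := by
  intro t t' H
  refine h _ _ fun e he => H _ fun w hw => ?_
  obtain ⟨z, hz, rfl⟩ := Sym2.mem_map.1 hw
  obtain ⟨y, hy, rfl⟩ := Sym2.mem_map.1 hz
  have : 1 ≤ y.2 := he y hy
  show 1 - (y.2 + 0) ≤ 0
  omega
theorem dependsOnly_shift_row {α : Type} {f : Env → α} (h : DependsOnly f (edgesIn (upper 1))) (x : ℤ) :
    DependsOnly (fun t => f (shift (x, 0) t)) (edgesIn (upper 1)) := by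
  intro t t' H
  refine h _ _ fun e he => H _ fun w hw => ?_
  obtain ⟨y, hy, rfl⟩ := Sym2.mem_map.1 hw
  have : 1 ≤ y.2 := he y hy
  show 1 ≤ y.2 + 0
  omega

/-! invariance of the law -/
omit [NullSingletonClass G] in
theorem ae_all_shift {P : Env → Prop} (h : ∀ᵐ t ∂iidLaw G, P t) : ∀ᵐ t ∂iidLaw G, ∀ v, P (shift v t) := by
  exact ae_all_iff.2 fun v => (measurePreserving_shift G v).quasiMeasurePreserving.ae h
omit [NullSingletonClass G] in
theorem ae_act {φ : V → V} (hφ : IsAut φ) {P : Env → Prop} (h : ∀ᵐ t ∂iidLaw G, P t) :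
    ∀ᵐ t ∂iidLaw G, P (act φ t) := by
  exact (measurePreserving_act G hφ.bij).quasiMeasurePreserving.ae h
omit [NullSingletonClass G] in
theorem nullMeas_shift {A : Set Env} (hA : NullMeasurableSet A (iidLaw G)) (v : V) :
    NullMeasurableSet (shift v ⁻¹' A) (iidLaw G) := by
  exact hA.preimage (measurePreserving_shift G v).quasiMeasurePreserving
omit [NullSingletonClass G] in
theorem measure_shift {A : Set Env} (hA : NullMeasurableSet A (iidLaw G)) (v : V) :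
    iidLaw G (shift v ⁻¹' A) = iidLaw G A := by
  exact (measurePreserving_shift G v).measure_preimage hA
omit [NullSingletonClass G] in
theorem lintegral_shift {f : Env → ℝ≥0∞} (hf : Measurable f) (v : V) :
    ∫⁻ t, f (shift v t) ∂iidLaw G = ∫⁻ t, f t ∂iidLaw G := by
  exact (measurePreserving_shift G v).lintegral_comp hf

end Crest.Agent.R151
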