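import Crest.Agent.R151.STree
import Crest.Agent.R151.SSym

/-! R151 part C soft, C6: deterministic count of branch vertices.  Helper prefix `s7_`. -/

set_option autoImplicit false

open MeasureTheory ProbabilityTheory Crest.ProbabilityR.FirstPassage Filter Topology
open scoped ENNReal

namespace Crest.Agent.R151

variable {G : Measure ℝ} [IsProbabilityMeasure G] [NullSingletonClass G] {L : ℕ} {q : ℝ}

/-- position of the points of a curve through the square: `Tube` with `ξ = 0`, `σ = Ξ`, `ε = 1`, `r = w` -/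
theorem tube_col {t : Env} {Ξ : ℝ} (hΞ : 0 ≤ Ξ) {w : ℕ} (ht : t ∈ Tube G 0 Ξ (-fp G 1) (fp G 1) 1 w) {γ : ℤ → V} {a : ℝ}
    (h : Curve G t γ a) {i k : ℤ} (hi : γ i ∈ sq w) (h1 : -(w : ℤ) ≤ (γ k).2) (h2 : (γ k).2 < 2 * w) :
    |((γ k).1 : ℝ)| ≤ (2 * Ξ + 3) * w := by
  have hab := abs_le.1 h.le
  have key := ht γ a h hab.1 hab.2 i k
  obtain ⟨⟨a1, a2⟩, a3, a4⟩ := mem_sq.1 hi
  have hn : nrm (γ i) ≤ w := by
    unfold nrm
    rw [abs_of_nonneg a1, abs_of_nonneg a3]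
    exact max_le a2.le a4.le
  have hn' : (nrm (γ i) : ℝ) ≤ w := by exact_mod_cast hn
  have hd : |(γ k).2 - (γ i).2| ≤ 2 * (w : ℤ) := abs_le.2 ⟨by omega, by omega⟩
  have hd' : |((γ k).2 - (γ i).2 : ℝ)| ≤ 2 * w := by exact_mod_cast hd
  have b1 : (0 : ℝ) ≤ (γ i).1 := by exact_mod_cast a1
  have b2 : ((γ i).1 : ℝ) ≤ w := by exact_mod_cast a2.le
  have hm := mul_le_mul_of_nonneg_left hd' hΞ
  rw [zero_mul, sub_zero, one_mul] at key
  have := abs_le.1 (key.trans (add_le_add (add_le_add hm hn') le_rfl))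
  rw [abs_le]
  constructor <;> nlinarith [this.1, this.2]

open Classical in
/-- the good rows of a curve through the square, below and above it -/
theorem str_rows {t : Env} {w : ℕ} (ht : t ∈ Str G L q (1 / 10) 2 w) {γ : ℤ → V} {a : ℝ} (h : Curve G t γ a) {i : ℤ}
    (hi : γ i ∈ sq w) {j₀ : ℤ} (hj : j₀ = -w ∨ j₀ = w) :
    9 / 10 * (w : ℝ) ≤ (((Finset.Ico j₀ (j₀ + w)).filter fun j => ∃ k, (γ k).2 = j ∧ Good L q t γ k).card : ℝ) := by
  obtain ⟨⟨a1, a2⟩, a3, a4⟩ := mem_sq.1 hi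
  have hn : nrm (γ i) ≤ ((2 : ℕ) : ℤ) * w := by
    unfold nrm
    rw [abs_of_nonneg a1, abs_of_nonneg a3]
    push_cast
    exact max_le (by omega) (by omega)
  have := ht γ a h ⟨i, hn⟩ j₀ (by push_cast; omega) (by push_cast; omega)
  norm_num at this ⊢
  exact this

/-- One branch vertex `z = γ i = γ' i'`, `γ` good at `k₁` in a row `< 0`, `γ`, `γ'` good at `k₂`, `k₂'` in rows `≥ w`.  The start of the entry edge
`p~ = γ l`, `l = fi γ ((γ k₁).2 + 1) - 1 < i`, is within `L` columns of `γ k₁` in the same row and lies on both curves;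
`i < k₂`, `i' < k₂'` because these are last visits. -/
theorem branch_of_good {t : Env} {γ γ' : ℤ → V} (hb : Bi t γ) (hl : Line γ) (hb' : Bi t γ') {i i' k₁ k₂ k₂' : ℤ}
    (hs : ∀ k, k ≤ 0 → γ (i + k) = γ' (i' + k)) (hn : γ (i + 1) ≠ γ' (i' + 1)) (h₁ : Tame L γ k₁)
    (hr₁ : (γ k₁).2 < (γ i).2) (h₂ : Last γ k₂) (hr₂ : (γ i).2 < (γ k₂).2) (h₂' : Last γ' k₂')
    (hr₂' : (γ i).2 < (γ' k₂').2) :
    ∃ d : ℤ, |d| ≤ L ∧ Branch t (γ k₁ + (d, 0)) (γ k₂) (γ' k₂') (γ i) := by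
  set l := fi γ ((γ k₁).2 + 1) - 1 with hl0
  have hrow : (γ l).2 = (γ k₁).2 := hl.entry_row _
  have hcol : |(γ l).1 - (γ k₁).1| ≤ L := h₁.mid hl le_rfl (hl.entry_le h₁.1)
  have hli : l < i := by
    have := hl.fi_le (y := (γ k₁).2 + 1) (k := i) (by omega)
    omega
  have h0 : γ i = γ' i' := by simpa using hs 0 le_rfl
  have hik : i < k₂ := by
    by_contra hc
    rcases (not_lt.1 hc).eq_or_lt with e | e
    · rw [e] at hr₂
      exact lt_irrefl _ hr₂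
    · have := h₂ i e
      omega
  have hik' : i' < k₂' := by
    by_contra hc
    rw [h0] at hr₂'
    rcases (not_lt.1 hc).eq_or_lt with e | e
    · rw [e] at hr₂'
      exact lt_irrefl _ hr₂'
    · have := h₂' i' e
      omega
  have hp : γ k₁ + ((γ l).1 - (γ k₁).1, 0) = γ l := by
    ext
    · simp
    · simp [hrow]
  refine ⟨(γ l).1 - (γ k₁).1, hcol, fun k => γ (k + i), fun k => γ' (k + i'), l - i, k₂ - i, k₂' - i', by omega,
    by omega, by omega, (hb l k₂ (by omega)).reindex i, ?_, ?_, ?_, by simp, by simp, by simp, by simp [h0], ?_⟩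
  · have := (hb' (l - i + i') k₂' (by omega)).reindex i'
    rwa [add_sub_cancel_right] at this
  · simp [hp]
  · have := hs (l - i) (by omega)
    rw [hp]
    simp only [add_sub_cancel] at this
    rw [this, add_comm]
  · simpa [add_comm] using hn

theorem s7_inter {A B C : Finset ℤ} (hA : A ⊆ C) (hB : B ⊆ C) {w : ℝ} (hC : (C.card : ℝ) = w)
    (h1 : 9 / 10 * w ≤ A.card) (h2 : 9 / 10 * w ≤ B.card) : 8 / 10 * w ≤ ((A ∩ B).card : ℝ) := by
  have e := Finset.card_union_add_card_inter A B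
  have e2 : (A ∪ B).card ≤ C.card := Finset.card_le_card (Finset.union_subset hA hB)
  have e' : ((A ∪ B).card : ℝ) + (A ∩ B).card = A.card + B.card := by exact_mod_cast e
  have e2' : ((A ∪ B).card : ℝ) ≤ C.card := by exact_mod_cast e2
  linarith

open Classical in
/-- the lower bound for one branch vertex -/
theorem s7_one (H : HypC G) {t : Env} {Ξ : ℝ} (hΞ : 0 ≤ Ξ) {w n : ℕ} (hn : 0 < n) {α h : ℝ} (hh : 0 < h)
    (hα : α ≤ -fp G 1) (hβ : fp G 1 ≤ α + n * h) (hs : t ∈ Str G L q (1 / 10) 2 w)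
    (ht : t ∈ Tube G 0 Ξ (-fp G 1) (fp G 1) 1 w) (P Y : ℕ → Finset V)
    (hP : ∀ i v, v ∈ par 0 ((2 * Ξ + 3) * w) (-w) w → shift v t ∈ GE G L q (cell α h i) → v ∈ P i)
    (hY : ∀ i v, v ∈ par 0 ((2 * Ξ + 3) * w) w w → shift v t ∈ GE G L q (cell α h i) → v ∈ Y i)
    {z : V} (hz : z ∈ sq w) (hb : shift z t ∈ Br G) :
    7 / 10 * (w : ℝ) ^ 2 ≤ ∑ i ∈ Finset.range n, ∑ p ∈ P i, ∑ j ∈ Finset.Ico (w : ℤ) (w + w),
      ∑ d ∈ Finset.Icc (-(L : ℤ)) L, if ∃ y ∈ (Y i).filter (fun y => y.2 = j), ∃ y' ∈ (Y i).filter (fun y => y.2 = j),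
        Branch t (p + (d, 0)) y y' z then (1 : ℝ) else 0 := by
  obtain ⟨γ, γ', a, i, i', hγ, hγ', hi, hsame, hne⟩ := (mem_shift_Br H).1 hb
  have h0 : γ i = γ' i' := by simpa using hsame 0 le_rfl
  have hz1 : γ i ∈ sq w := hi ▸ hz
  have hz2 : γ' i' ∈ sq w := h0 ▸ hz1
  obtain ⟨-, z1, z2⟩ := mem_sq.1 hz1
  have hab := abs_le.1 hγ.le
  obtain ⟨c, hc, hac⟩ := exists_cell hn hh (hα.trans hab.1) (hab.2.trans hβ)
  have r1 := str_rows hs hγ hz1 (Or.inl rfl)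
  have r2 := str_rows hs hγ hz1 (Or.inr rfl)
  have r2' := str_rows hs hγ' hz2 (Or.inr rfl)
  have r3 := s7_inter (Finset.filter_subset _ _) (Finset.filter_subset _ _) (by simp) r2 r2'
  set R := ((Finset.Ico (w : ℤ) (w + w)).filter fun j => ∃ k, (γ k).2 = j ∧ Good L q t γ k) ∩
    ((Finset.Ico (w : ℤ) (w + w)).filter fun j => ∃ k, (γ' k).2 = j ∧ Good L q t γ' k) with hR
  set P' := (P c).filter fun p => p.2 < 0 ∧ ∃ k, γ k = p ∧ Good L q t γ k with hP'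
  have hP'c : 9 / 10 * (w : ℝ) ≤ P'.card := by
    refine r1.trans ?_
    have : ((Finset.Ico (-(w : ℤ)) (-(w : ℤ) + w)).filter fun j => ∃ k, (γ k).2 = j ∧ Good L q t γ k) ⊆
        P'.image Prod.snd := by
      intro j hj
      obtain ⟨hj1, k, hk, hg⟩ := Finset.mem_filter.1 hj
      obtain ⟨j1, j2⟩ := Finset.mem_Ico.1 hj1
      refine Finset.mem_image.2 ⟨γ k, Finset.mem_filter.2 ⟨hP c _ ?_ ?_, by omega, k, rfl, hg⟩, hk⟩
      · refine mem_par.2 ⟨by omega, by omega, ?_⟩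
        rw [zero_mul, sub_zero]
        exact tube_col hΞ ht hγ hz1 (by omega) (by omega)
      · exact (mem_shift_GE H).2 ⟨γ, a, k, hac, hγ, rfl, hg⟩
    exact_mod_cast (Finset.card_le_card this).trans Finset.card_image_le
  have hnn : ∀ (i : ℕ) (p : V) (j d : ℤ), (0 : ℝ) ≤ if ∃ y ∈ (Y i).filter (fun y => y.2 = j),
      ∃ y' ∈ (Y i).filter (fun y => y.2 = j), Branch t (p + (d, 0)) y y' z then (1 : ℝ) else 0 := by
    intro i p j d
    split_ifs <;> norm_num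
  have hmemY : ∀ {g : ℤ → V} {m k : ℤ}, Curve G t g a → g m ∈ sq w → Good L q t g k → (w : ℤ) ≤ (g k).2 →
      (g k).2 < w + w → g k ∈ Y c := by
    intro g m k hg hm hk j1 j2
    refine hY c _ (mem_par.2 ⟨j1, j2, ?_⟩) ((mem_shift_GE H).2 ⟨g, a, k, hac, hg, rfl, hk⟩)
    rw [zero_mul, sub_zero]
    exact tube_col hΞ ht hg hm (by omega) (by omega)
  have key : ∀ p ∈ P', 8 / 10 * (w : ℝ) ≤ ∑ j ∈ Finset.Ico (w : ℤ) (w + w),
      ∑ d ∈ Finset.Icc (-(L : ℤ)) L, if ∃ y ∈ (Y c).filter (fun y => y.2 = j), ∃ y' ∈ (Y c).filter (fun y => y.2 = j),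
        Branch t (p + (d, 0)) y y' z then (1 : ℝ) else 0 := by
    intro p hp
    obtain ⟨-, p0, k₁, rfl, hg₁⟩ := Finset.mem_filter.1 hp
    refine r3.trans ?_
    have hsub : R ⊆ Finset.Ico (w : ℤ) (w + w) := Finset.inter_subset_left.trans (Finset.filter_subset _ _)
    refine le_trans ?_ (Finset.sum_le_sum_of_subset_of_nonneg hsub fun j _ _ =>
      Finset.sum_nonneg fun d _ => hnn c _ j d)
    rw [Finset.card_eq_sum_ones, Nat.cast_sum]
    refine Finset.sum_le_sum fun j hj => ?_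
    obtain ⟨hj1, hj2⟩ := Finset.mem_inter.1 hj
    obtain ⟨hjr, k₂, e₂, hg₂⟩ := Finset.mem_filter.1 hj1
    obtain ⟨-, k₂', e₂', hg₂'⟩ := Finset.mem_filter.1 hj2
    obtain ⟨j1, j2⟩ := Finset.mem_Ico.1 hjr
    obtain ⟨d, hd, hB⟩ := branch_of_good hγ.bi hγ.line hγ'.bi hsame hne hg₁.1 (by omega) hg₂.1.1 (by omega)
      hg₂'.1.1 (by omega)
    refine le_trans ?_ (Finset.single_le_sum (fun d _ => hnn c (γ k₁) j d) (Finset.mem_Icc.2 (abs_le.1 hd)))
    rw [if_pos]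
    · simp
    · refine ⟨γ k₂, Finset.mem_filter.2 ⟨hmemY hγ hz1 hg₂ (by omega) (by omega), e₂⟩, γ' k₂',
        Finset.mem_filter.2 ⟨hmemY hγ' hz2 hg₂' (by omega) (by omega), e₂'⟩, hi ▸ hB⟩
  refine le_trans ?_ (Finset.single_le_sum (f := fun i => ∑ p ∈ P i, ∑ j ∈ Finset.Ico (w : ℤ) (w + w),
      ∑ d ∈ Finset.Icc (-(L : ℤ)) L, if ∃ y ∈ (Y i).filter (fun y => y.2 = j), ∃ y' ∈ (Y i).filter (fun y => y.2 = j),
        Branch t (p + (d, 0)) y y' z then (1 : ℝ) else 0) (fun i _ => Finset.sum_nonneg fun p _ =>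
      Finset.sum_nonneg fun j _ => Finset.sum_nonneg fun d _ => hnn i p j d) (Finset.mem_range.2 hc))
  refine le_trans ?_ (Finset.sum_le_sum_of_subset_of_nonneg (Finset.filter_subset _ _ : P' ⊆ P c) fun p _ _ =>
      Finset.sum_nonneg fun j _ => Finset.sum_nonneg fun d _ => hnn c p j d)
  refine le_trans ?_ (Finset.sum_le_sum key)
  rw [Finset.sum_const, nsmul_eq_mul]
  have hw : (0 : ℝ) ≤ w := Nat.cast_nonneg w
  nlinarith [mul_le_mul_of_nonneg_right hP'c hw]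

/-- Double counting.  `Zb` = branch vertices in `sq w`.  For `z ∈ Zb` at least `(9/10 w)(8/10 w)` pairs of rows `(j₁, j₂) ∈ [-w,0) × [w,2w)` admit
`i < n`, `p ∈ P₁` in row `j₁`, `y, y' ∈ P₂` in row `j₂`, all three with `shift · t ∈ GE (cell i)`, and `|d| ≤ L` with `Branch t (p + (d,0)) y y' z`
(`mem_shift_Br`, `exists_cell`, `str_rows`, `tube_col`, `mem_shift_GE`, `branch_of_good`).  So
`0.72 w² |Zb| ≤ #{(z, j₁, j₂)} ≤ ∑_{i, p, d, j₂} #{z | ∃ y y' ∈ Y(i, j₂), Branch t (p + (d,0)) y y' z} ≤ ∑_{i,p,d,j₂} |Y(i,j₂)|` by `card_branch_le`,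
`Y(i,j₂)` = points of `P₂` in row `j₂` with `GE (cell i)`, and `∑_{j₂} |Y(i,j₂)| = cnt` (`Finset.card_eq_sum_card_fiberwise`). -/
theorem cnt_Br_le (H : HypC G) {t : Env} (hr : Reg t) {Ξ : ℝ} (hΞ : 0 ≤ Ξ) {w n : ℕ} (hn : 0 < n) {α h : ℝ} (hh : 0 < h)
    (hα : α ≤ -fp G 1) (hβ : fp G 1 ≤ α + n * h) (hs : t ∈ Str G L q (1 / 10) 2 w)
    (ht : t ∈ Tube G 0 Ξ (-fp G 1) (fp G 1) 1 w) :
    7 / 10 * (w : ℝ) ^ 2 * cnt (Br G) (sq w) t ≤ (2 * L + 1) * ∑ i ∈ Finset.range n,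
      (cnt (GE G L q (cell α h i)) (par 0 ((2 * Ξ + 3) * w) (-w) w) t : ℝ) *
        cnt (GE G L q (cell α h i)) (par 0 ((2 * Ξ + 3) * w) w w) t := by
  classical
  set P : ℕ → Finset V := fun i => (par 0 ((2 * Ξ + 3) * w) (-w) w).filter
    fun z => shift z t ∈ GE G L q (cell α h i) with hP
  set Y : ℕ → Finset V := fun i => (par 0 ((2 * Ξ + 3) * w) w w).filter
    fun z => shift z t ∈ GE G L q (cell α h i) with hY
  set Zb := (sq w).filter fun z => shift z t ∈ Br G with hZb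
  have e1 : ∀ i, cnt (GE G L q (cell α h i)) (par 0 ((2 * Ξ + 3) * w) (-w) w) t = (P i).card := fun i => rfl
  have e2 : ∀ i, cnt (GE G L q (cell α h i)) (par 0 ((2 * Ξ + 3) * w) w w) t = (Y i).card := fun i => rfl
  have e3 : cnt (Br G) (sq w) t = Zb.card := rfl
  simp only [e1, e2, e3]
  have h1 := Finset.sum_le_sum fun z (hz : z ∈ Zb) => s7_one H hΞ hn hh hα hβ hs ht P Y
    (fun i v h1 h2 => Finset.mem_filter.2 ⟨h1, h2⟩) (fun i v h1 h2 => Finset.mem_filter.2 ⟨h1, h2⟩)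
    (Finset.mem_filter.1 hz).1 (Finset.mem_filter.1 hz).2
  rw [Finset.sum_const, nsmul_eq_mul, mul_comm] at h1
  refine h1.trans ?_
  rw [Finset.sum_comm, Finset.mul_sum]
  refine Finset.sum_le_sum fun i _ => ?_
  rw [Finset.sum_comm]
  have key : ∀ p ∈ P i, (∑ z ∈ Zb, ∑ j ∈ Finset.Ico (w : ℤ) (w + w), ∑ d ∈ Finset.Icc (-(L : ℤ)) L,
      if ∃ y ∈ (Y i).filter (fun y => y.2 = j), ∃ y' ∈ (Y i).filter (fun y => y.2 = j),
        Branch t (p + (d, 0)) y y' z then (1 : ℝ) else 0) ≤ (2 * L + 1) * (Y i).card := by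
    intro p _
    have hfib : ((Y i).card : ℝ) = ∑ j ∈ Finset.Ico (w : ℤ) (w + w), (((Y i).filter fun y => y.2 = j).card : ℝ) := by
      rw [Finset.card_eq_sum_card_fiberwise (f := Prod.snd) (t := Finset.Ico (w : ℤ) (w + w)), Nat.cast_sum]
      intro y hy
      obtain ⟨a1, a2, -⟩ := mem_par.1 (Finset.mem_filter.1 hy).1
      exact Finset.mem_coe.2 (Finset.mem_Ico.2 ⟨a1, a2⟩)
    rw [Finset.sum_comm, hfib, Finset.mul_sum]
    refine Finset.sum_le_sum fun j _ => ?_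
    rw [Finset.sum_comm]
    have hd : ∀ d ∈ Finset.Icc (-(L : ℤ)) L, (∑ z ∈ Zb, if ∃ y ∈ (Y i).filter (fun y => y.2 = j),
        ∃ y' ∈ (Y i).filter (fun y => y.2 = j), Branch t (p + (d, 0)) y y' z then (1 : ℝ) else 0) ≤
        (((Y i).filter fun y => y.2 = j).card : ℝ) := by
      intro d _
      rw [Finset.sum_boole]
      exact_mod_cast card_branch_le hr (p + (d, 0)) _ _ fun z hz => (Finset.mem_filter.1 hz).2
    refine (Finset.sum_le_sum hd).trans ?_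
    rw [Finset.sum_const, nsmul_eq_mul, Int.card_Icc]
    have : ((L : ℤ) + 1 - -(L : ℤ)).toNat = 2 * L + 1 := by omega
    rw [this]
    push_cast
    exact le_rfl
  refine (Finset.sum_le_sum key).trans ?_
  rw [Finset.sum_const, nsmul_eq_mul]
  exact le_of_eq (by ring)

end Crest.Agent.R151
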