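import Crest.Agent.R151.SErg

/-! R151 part C soft: counting labels, lower law of large numbers, lowering into a null set, liminf Markov.
Helper prefix `sf_`. -/

set_option autoImplicit false

open MeasureTheory ProbabilityTheory Crest.ProbabilityR.FirstPassage Filter Topology
open scoped ENNReal

namespace Crest.Agent.R151

variable {G : Measure ℝ} [IsProbabilityMeasure G]

/-- `h n = (β - α)/(n+1)`, `ν₀ t = liminf_n ∑_{i ≤ n} 1_{E (α + i h n) (h n)} t`, `ν` a measurable modification.  Fatou gives the mean.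
For a finite set `S` of labels and `n` large every `a ∈ S` lies in a cell `i a` (`exists_cell`) with `t ∈ E`, and `i` is
injective on `S` as soon as `h n` is smaller than all gaps of `S`. -/
theorem exists_count {α β c : ℝ} (hαβ : α < β) (hc : 0 ≤ c) (E : ℝ → ℝ → Set Env)
    (hE : ∀ x h, 0 < h → NullMeasurableSet (E x h) (iidLaw G))
    (hP : ∀ x h, 0 < h → iidLaw G (E x h) ≤ ENNReal.ofReal (c * h)) (Φ : Env → ℝ → Prop)
    (hΦ : ∀ᵐ t ∂iidLaw G, ∀ a, Φ t a → a ∈ Set.Icc α β ∧
      ∃ h₀ > (0 : ℝ), ∀ h x, 0 < h → h < h₀ → a ∈ Set.Icc x (x + h) → t ∈ E x h) :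
    ∃ ν : Env → ℝ≥0∞, Measurable ν ∧ ∫⁻ t, ν t ∂iidLaw G ≤ ENNReal.ofReal (c * (β - α)) ∧
      ∀ᵐ t ∂iidLaw G, Counts Φ ν t := by
  have hh : ∀ n : ℕ, 0 < (β - α) / ((n : ℝ) + 1) := fun n => div_pos (sub_pos.2 hαβ) (by positivity)
  set f : ℕ → Env → ℝ≥0∞ := fun n t => ∑ i ∈ Finset.range (n + 1),
    (toMeasurable (iidLaw G) (E (α + i * ((β - α) / (n + 1))) ((β - α) / (n + 1)))).indicator 1 t with hf
  have hfm : ∀ n, Measurable (f n) := fun n =>
    Finset.measurable_sum _ fun i _ => measurable_one.indicator (measurableSet_toMeasurable _ _)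
  refine ⟨fun t => liminf (fun n => f n t) atTop, Measurable.liminf hfm, ?_, ?_⟩
  · refine (lintegral_liminf_le hfm).trans (liminf_le_of_frequently_le' (Frequently.of_forall fun n => ?_))
    rw [hf]
    simp only
    rw [lintegral_finsetSum _ fun i _ => measurable_one.indicator (measurableSet_toMeasurable _ _)]
    simp only [lintegral_indicator_one (measurableSet_toMeasurable _ _), measure_toMeasurable]
    refine (Finset.sum_le_sum fun i _ => hP _ _ (hh n)).trans (le_of_eq ?_)
    rw [Finset.sum_const, Finset.card_range, nsmul_eq_mul, ← ENNReal.ofReal_natCast,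
      ← ENNReal.ofReal_mul (Nat.cast_nonneg _)]
    congr 1
    push_cast
    field_simp
  · filter_upwards [hΦ] with t ht S hS
    have hlim : Tendsto (fun n : ℕ => (β - α) / ((n : ℝ) + 1)) atTop (𝓝 0) :=
      tendsto_const_nhds.div_atTop (tendsto_natCast_atTop_atTop.atTop_add tendsto_const_nhds)
    have e1 : ∀ᶠ n : ℕ in atTop, ∀ a ∈ S, ∀ x, a ∈ Set.Icc x (x + (β - α) / (n + 1)) →
        t ∈ E x ((β - α) / (n + 1)) := by
      refine (eventually_all_finset S).2 fun a ha => ?_
      obtain ⟨-, h₀, h0, H⟩ := ht a (hS a ha)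
      filter_upwards [hlim.eventually (gt_mem_nhds h0)] with n hn x hx
      exact H _ x (hh n) hn hx
    have e2 : ∀ᶠ n : ℕ in atTop, ∀ a ∈ S, ∀ b ∈ S, a < b → (β - α) / ((n : ℝ) + 1) < b - a := by
      refine (eventually_all_finset S).2 fun a _ => (eventually_all_finset S).2 fun b _ => ?_
      by_cases hab : a < b
      · filter_upwards [hlim.eventually (gt_mem_nhds (sub_pos.2 hab))] with n hn _ using hn
      · exact Eventually.of_forall fun n h => absurd h hab
    refine le_liminf_of_le (by isBoundedDefault) ?_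
    filter_upwards [e1, e2] with n h1 h2
    have hc : ∀ a ∈ S, ∃ i < n + 1, a ∈ cell α ((β - α) / (n + 1)) i := fun a ha => by
      refine exists_cell n.succ_pos (hh n) (ht a (hS a ha)).1.1 ((ht a (hS a ha)).1.2.trans (le_of_eq ?_))
      push_cast
      field_simp
      ring
    choose! i hi hi' using hc
    have hinj : Set.InjOn i S := fun a ha b hb hab => by
      have ha' := hi' a ha
      have hb' := hi' b hb
      rw [hab] at ha'
      rcases lt_trichotomy a b with h | h | h
      · have := h2 a ha b hb h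
        linarith [ha'.1, hb'.2]
      · exact h
      · have := h2 b hb a ha h
        linarith [ha'.2, hb'.1]
    calc (S.card : ℝ≥0∞) = ∑ j ∈ S.image i, (1 : ℝ≥0∞) := by
          rw [Finset.sum_const, Finset.card_image_of_injOn hinj, nsmul_eq_mul, mul_one]
      _ = ∑ j ∈ S.image i, (toMeasurable (iidLaw G)
          (E (α + j * ((β - α) / (n + 1))) ((β - α) / (n + 1)))).indicator 1 t := by
          refine Finset.sum_congr rfl fun j hj => ?_
          obtain ⟨a, ha, rfl⟩ := Finset.mem_image.1 hj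
          rw [Set.indicator_of_mem (subset_toMeasurable _ _ (h1 a ha _ (hi' a ha))), Pi.one_apply]
      _ ≤ f n t := Finset.sum_le_sum_of_subset fun j hj => by
          obtain ⟨a, ha, rfl⟩ := Finset.mem_image.1 hj
          exact Finset.mem_range.2 (hi a ha)

theorem Counts.finite {Φ : Env → ℝ → Prop} {ν : Env → ℝ≥0∞} {t : Env} (h : Counts Φ ν t) (hν : ν t < ⊤) :
    {a | Φ t a}.Finite := by
  by_contra hinf
  obtain ⟨n, hn⟩ := ENNReal.exists_nat_gt hν.ne
  obtain ⟨S, hS, hc⟩ := Set.Infinite.exists_subset_card_eq hinf n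
  have := h S fun a ha => hS ha
  rw [hc] at this
  exact absurd hn (not_lt.2 this)

open Classical in
/-- double counting: pairs `(y, a)`, `y ∈ Y`, with `Φ (shift y t) a` -/
theorem card_le_sum_counts {Φ : Env → ℝ → Prop} {ν : Env → ℝ≥0∞} {t : Env} (h : ∀ y, Counts Φ ν (shift y t))
    (Y : Finset V) (W : Finset (V × ℝ)) (hW : ∀ z ∈ W, z.1 ∈ Y ∧ Φ (shift z.1 t) z.2) :
    (W.card : ℝ≥0∞) ≤ ∑ y ∈ Y, ν (shift y t) := by
  rw [Finset.card_eq_sum_card_fiberwise (f := Prod.fst) (t := Y) fun z hz => (hW z hz).1, Nat.cast_sum]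
  refine Finset.sum_le_sum fun y _ => ?_
  have hinj : Set.InjOn Prod.snd (W.filter fun z => z.1 = y : Set (V × ℝ)) := fun z hz z' hz' e =>
    Prod.ext ((Finset.mem_filter.1 hz).2.trans (Finset.mem_filter.1 hz').2.symm) e
  rw [← Finset.card_image_of_injOn hinj]
  refine h y _ fun a ha => ?_
  obtain ⟨z, hz, rfl⟩ := Finset.mem_image.1 ha
  obtain ⟨hz', rfl⟩ := Finset.mem_filter.1 hz
  exact (hW z hz').2

theorem sf_cnt_seg (A : Set Env) (w : ℕ) (t : Env) : (cnt A (seg w) t : ℝ) =
    ∑ k ∈ Finset.range w, A.indicator (fun _ => (1 : ℝ)) (shift (0 + k • ((1, 0) : V)) t) := by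
  classical
  rw [cnt, Finset.card_filter, Nat.cast_sum]
  symm
  refine Finset.sum_bij (fun k _ => ((k : ℤ), (0 : ℤ))) (fun k hk => ?_) (fun k _ l _ h => ?_)
    (fun z hz => ?_) fun k _ => ?_
  · have := Finset.mem_range.1 hk
    exact mem_seg.2 ⟨⟨by simp, by simpa using this⟩, rfl⟩
  · simpa using h
  · obtain ⟨⟨h1, h2⟩, h3⟩ := mem_seg.1 hz
    refine ⟨z.1.toNat, Finset.mem_range.2 (by omega), Prod.ext ?_ h3.symm⟩
    simp only
    omega
  · have : (0 : V) + k • ((1, 0) : V) = ((k : ℤ), 0) := by simp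
    rw [this, Set.indicator_apply]
    split_ifs <;> simp

/-- `lln_row` with `v = (1,0)`, `x = 0`, Chebyshev -/
theorem lln_lower {A : Set Env} (hA : NullMeasurableSet A (iidLaw G)) (hm : 0 < (iidLaw G).real A) :
    Tendsto (fun w : ℕ => iidLaw G {t | (cnt A (seg w) t : ℝ) < w * (iidLaw G).real A / 2}) atTop (𝓝 0) := by
  refine ENNReal.tendsto_nhds_zero.2 fun ε hε => ?_
  rcases eq_or_ne ε ⊤ with rfl | hne
  · exact Eventually.of_forall fun _ => le_top
  have hε' : 0 < ε.toReal := ENNReal.toReal_pos hε.ne' hne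
  set m := (iidLaw G).real A with hm'
  have hv : ((1, 0) : V) ≠ 0 := by simp
  filter_upwards [lln_row G hA hv (ε := m ^ 2 / 4 * ε.toReal) (by positivity), eventually_gt_atTop 0]
    with w hw hw0
  replace hw := hw 0
  set F : Env → ℝ := fun t => ((∑ k ∈ Finset.range w,
    A.indicator (fun _ => (1 : ℝ)) (shift (0 + k • ((1, 0) : V)) t)) / w - m) ^ 2 with hF
  have hint : ∀ k : ℕ, MemLp (fun t => A.indicator (fun _ => (1 : ℝ)) (shift (0 + k • ((1, 0) : V)) t)) 2
      (iidLaw G) := fun k =>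
    (MemLp.of_bound (f := A.indicator fun _ => (1 : ℝ)) (aestronglyMeasurable_const.indicator₀ hA) 1
      (Eventually.of_forall fun t => by
        by_cases h : t ∈ A <;> simp [h])).comp_measurePreserving (measurePreserving_shift G _)
  have hFi : Integrable F (iidLaw G) := by
    have := (((memLp_finsetSum (Finset.range w) fun k _ => hint k).mul_const (w : ℝ)⁻¹).sub
      (memLp_const m)).integrable_sq
    simpa only [hF, div_eq_mul_inv, Pi.sub_apply] using this
  have hM := mul_meas_ge_le_integral_of_nonneg (μ := iidLaw G) (f := F)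
    (Eventually.of_forall fun t => sq_nonneg _) hFi (m ^ 2 / 4)
  have h2 : (iidLaw G).real {t | m ^ 2 / 4 ≤ F t} ≤ ε.toReal :=
    le_of_mul_le_mul_left (hM.trans hw) (by positivity)
  refine le_trans (measure_mono fun t ht => ?_)
    ((ENNReal.toReal_le_toReal (measure_ne_top _ _) hne).1 h2)
  have hw' : (0 : ℝ) < w := Nat.cast_pos.2 hw0
  simp only [Set.mem_ofPred_eq, sf_cnt_seg] at ht
  simp only [Set.mem_ofPred_eq, hF]
  have h3 : (∑ k ∈ Finset.range w, A.indicator (fun _ => (1 : ℝ)) (shift (0 + k • ((1, 0) : V)) t)) / w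
      < m / 2 := by
    rw [div_lt_iff₀ hw']
    linarith
  nlinarith

/-- `measurePreserving_update` applied to `toMeasurable A'`, `Measure.measure_ae_null_of_prod_null`; no measurability of `A` -/
theorem lower_one_null (e : Sym2 V) {B : Set ℝ} (hB : 0 < G B) {A A' : Set Env} (hA' : iidLaw G A' = 0)
    (h : ∀ t ∈ A, ∀ c ∈ B, Function.update t e c ∈ A') : iidLaw G A = 0 := by
  have h0 : ((iidLaw G).prod G)
      ((fun x : Env × ℝ => Function.update x.1 e x.2) ⁻¹' toMeasurable (iidLaw G) A') = 0 := by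
    rw [(measurePreserving_update G e).measure_preimage (measurableSet_toMeasurable _ _).nullMeasurableSet,
      measure_toMeasurable, hA']
  refine measure_mono_null (fun t ht => ?_) (Measure.measure_ae_null_of_prod_null h0)
  refine fun h' => hB.ne' (measure_mono_null (fun c hc => ?_) h')
  exact subset_toMeasurable _ _ (h t ht c hc)

/-- Markov and Fatou -/
theorem measure_liminf_ge {Λ : ℕ → Env → ℝ≥0∞} (hΛ : ∀ N, Measurable (Λ N)) {b κ : ℝ} (hκ : 0 < κ)
    (hb : ∀ᶠ N in atTop, ∫⁻ t, Λ N t ∂iidLaw G ≤ ENNReal.ofReal b) :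
    iidLaw G {t | ENNReal.ofReal κ ≤ liminf (fun N => Λ N t) atTop} ≤ ENNReal.ofReal (b / κ) := by
  refine (meas_ge_le_lintegral_div (Measurable.liminf hΛ).aemeasurable (ENNReal.ofReal_pos.2 hκ).ne'
    ENNReal.ofReal_ne_top).trans ?_
  rw [ENNReal.ofReal_div_of_pos hκ]
  exact ENNReal.div_le_div_right ((lintegral_liminf_le hΛ).trans (liminf_le_of_frequently_le' hb.frequently)) _

/-- `tilt` without measurability of `A`: apply it to `(toMeasurable Aᶜ)ᶜ ⊆ A` -/
theorem tilt_half {q δ ϑ : ℝ} (hδ : 0 < δ) (hp : 0 < G.real (Set.Ico 0 (q - δ))) (S : Finset (Sym2 V))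
    (h0 : 0 ≤ ϑ) (h1 : ϑ ≤ 1) (hS : S.card * ϑ ^ 2 ≤ G.real (Set.Ico 0 (q - δ))) {A B : Set Env}
    (hA : iidLaw G Aᶜ ≤ 1 / 2)
    (h : ∀ t ∈ A, 4 / 5 ≤ coinProb S ϑ fun C => ∀ a : Sym2 V → ℝ, (∀ e, a e ∈ Set.Ico 0 (q - δ)) →
      lowerOn q C a t ∈ B) : ENNReal.ofReal (1 / 50) ≤ iidLaw G B := by
  have hm := measurableSet_toMeasurable (iidLaw G) Aᶜ
  have key := tilt G hδ hp S h0 h1 hS (by norm_num : (0 : ℝ) ≤ 4 / 5) hm.compl.nullMeasurableSet (B := B)
    fun t ht => h t (by
      by_contra hA'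
      exact ht (subset_toMeasurable _ _ hA'))
  have h2 : (iidLaw G).real (toMeasurable (iidLaw G) Aᶜ) ≤ 1 / 2 := by
    rw [measureReal_def, measure_toMeasurable]
    refine (ENNReal.toReal_mono (by simp) hA).trans (by simp)
  rw [probReal_compl_eq_one_sub hm] at key
  have h8 : Real.exp 2 ≤ 8 := by
    have := Real.exp_one_lt_d9
    have h' := Real.exp_pos 1
    rw [show (2 : ℝ) = 1 + 1 by norm_num, Real.exp_add]
    nlinarith
  have hB : 0 ≤ (iidLaw G).real B := measureReal_nonneg
  rw [ENNReal.ofReal_le_iff_le_toReal (measure_ne_top _ _), ← measureReal_def]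
  nlinarith [mul_le_mul_of_nonneg_right h8 hB]

end Crest.Agent.R151
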