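import Crest.Agent.R151.SBas

/-! R151 part C soft: measurability.  Helper prefix `sm_`.
The pattern: a property of `(t, γ, a)` is Borel on `Env × ((ℤ → V) × ℝ)` (countable Boolean combinations; a function of
`γ k` is handled by `measurable_comp_countable`), then `nullMeas_proj`. -/

set_option autoImplicit false

open MeasureTheory ProbabilityTheory Crest.ProbabilityR.FirstPassage Filter Topology
open scoped ENNReal

namespace Crest.Agent.R151

variable {G : Measure ℝ} [IsProbabilityMeasure G] [NullSingletonClass G]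

theorem sm_inf : Measurable fun S : ℤ → Prop => sInf {k | S k} := by
  refine measurable_to_countable' fun k => ?_
  have h : (fun S : ℤ → Prop => sInf {k | S k}) ⁻¹' {k} =
      {S | (S k ∧ ∀ m, S m → k ≤ m) ∨ (k = 0 ∧ ¬ ∃ l, S l ∧ ∀ m, S m → l ≤ m)} := by
    ext S
    have h1 : ∀ l, (S l ∧ ∀ m, S m → l ≤ m) → sInf {k | S k} = l := fun l hl =>
      IsLeast.csInf_eq ⟨hl.1, hl.2⟩
    have h2 : (¬ ∃ l, S l ∧ ∀ m, S m → l ≤ m) → sInf {k | S k} = 0 := fun hn => by
      by_cases a : BddBelow {k | S k}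
      · rcases Set.eq_empty_or_nonempty {k | S k} with b | b
        · rw [b, Int.csInf_empty]
        · exact (hn ⟨_, Int.csInf_mem b a, fun m hm => csInf_le a hm⟩).elim
      · exact Int.csInf_of_not_bddBelow a
    simp only [Set.mem_preimage, Set.mem_singleton_iff, Set.mem_setOf_eq]
    constructor
    · rintro rfl
      by_cases hn : ∃ l, S l ∧ ∀ m, S m → l ≤ m
      · obtain ⟨l, hl⟩ := hn
        rw [h1 l hl]
        exact Or.inl hl
      · exact Or.inr ⟨h2 hn, hn⟩
    · rintro (h | ⟨rfl, h⟩)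
      · exact h1 k h
      · exact h2 h
  rw [h]
  have e : ∀ l, Measurable fun S : ℤ → Prop => S l ∧ ∀ m, S m → l ≤ m := fun l =>
    (measurable_pi_apply l).and (Measurable.forall fun m => (measurable_pi_apply m).imp measurable_const)
  exact measurableSet_setOfPred.2 ((e k).or (measurable_const.and (Measurable.exists e).not))

theorem sm_sup : Measurable fun S : ℤ → Prop => sSup {k | S k} := by
  refine measurable_to_countable' fun k => ?_
  have h : (fun S : ℤ → Prop => sSup {k | S k}) ⁻¹' {k} =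
      {S | (S k ∧ ∀ m, S m → m ≤ k) ∨ (k = 0 ∧ ¬ ∃ l, S l ∧ ∀ m, S m → m ≤ l)} := by
    ext S
    have h1 : ∀ l, (S l ∧ ∀ m, S m → m ≤ l) → sSup {k | S k} = l := fun l hl =>
      IsGreatest.csSup_eq ⟨hl.1, hl.2⟩
    have h2 : (¬ ∃ l, S l ∧ ∀ m, S m → m ≤ l) → sSup {k | S k} = 0 := fun hn => by
      by_cases a : BddAbove {k | S k}
      · rcases Set.eq_empty_or_nonempty {k | S k} with b | b
        · rw [b, Int.csSup_empty]
        · exact (hn ⟨_, Int.csSup_mem b a, fun m hm => le_csSup a hm⟩).elim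
      · exact Int.csSup_of_not_bddAbove a
    simp only [Set.mem_preimage, Set.mem_singleton_iff, Set.mem_setOf_eq]
    constructor
    · rintro rfl
      by_cases hn : ∃ l, S l ∧ ∀ m, S m → m ≤ l
      · obtain ⟨l, hl⟩ := hn
        rw [h1 l hl]
        exact Or.inl hl
      · exact Or.inr ⟨h2 hn, hn⟩
    · rintro (h | ⟨rfl, h⟩)
      · exact h1 k h
      · exact h2 h
  rw [h]
  have e : ∀ l, Measurable fun S : ℤ → Prop => S l ∧ ∀ m, S m → m ≤ l := fun l =>
    (measurable_pi_apply l).and (Measurable.forall fun m => (measurable_pi_apply m).imp measurable_const)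
  exact measurableSet_setOfPred.2 ((e k).or (measurable_const.and (Measurable.exists e).not))

theorem sm_one {β : Type} [MeasurableSpace β] (a : ℤ) (f : V → β) : Measurable fun p : ℤ → V => f (p a) :=
  (measurable_of_countable f).comp (measurable_pi_apply a)

theorem sm_two {β : Type} [MeasurableSpace β] (a b : ℤ) (f : V → V → β) :
    Measurable fun p : ℤ → V => f (p a) (p b) :=
  (measurable_of_countable fun v : V × V => f v.1 v.2).comp (f := fun p : ℤ → V => (p a, p b))
    ((measurable_pi_apply a).prodMk (measurable_pi_apply b))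

theorem sm_at {f : (ℤ → V) → ℤ} (hf : Measurable f) : Measurable fun γ : ℤ → V => γ (f γ) :=
  measurable_comp_countable hf (F := fun k (γ : ℤ → V) => γ k) fun k => measurable_pi_apply k

theorem sm_ends (k : ℤ) : Measurable fun x : Env × (ℤ → V) => (x.2 k, x.2 (k + 1)) :=
  ((measurable_pi_apply k).comp measurable_snd).prodMk
    ((measurable_pi_apply (k + 1)).comp measurable_snd)

/-- `{γ | fi γ y = k}`: `k` is the least element, or there is none and `k = 0` (`Int.csInf_empty`, `Int.csInf_of_not_bddBelow`) -/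
theorem measurable_fi (y : ℤ) : Measurable fun γ : ℤ → V => fi γ y := by
  exact sm_inf.comp (f := fun (γ : ℤ → V) (k : ℤ) => y ≤ (γ k).2)
    (measurable_pi_lambda _ fun k => sm_one k fun v => y ≤ v.2)
theorem measurable_la (y : ℤ) : Measurable fun γ : ℤ → V => la γ y := by
  exact sm_sup.comp (f := fun (γ : ℤ → V) (k : ℤ) => (γ k).2 ≤ y)
    (measurable_pi_lambda _ fun k => sm_one k fun v => v.2 ≤ y)
theorem measurableSet_bi : MeasurableSet {x : Env × (ℤ → V) | Bi x.1 x.2} := by
  exact measurableSet_setOfPred.2 (Measurable.forall fun i => Measurable.forall fun j =>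
    measurable_const.imp (measurableSet_setOfPred.1 (measurableSet_isGeo Set.univ i j)))
omit [IsProbabilityMeasure G] [NullSingletonClass G] in
/-- `tendsto_atTop_atTop`, `Metric.tendsto_atTop` with `ε = 1/(n+1)`; every function on `V` is measurable -/
theorem measurableSet_curve : MeasurableSet {x : Env × (ℤ → V) × ℝ | Curve G x.1 x.2.1 x.2.2} := by
  have h : {x : Env × (ℤ → V) × ℝ | Curve G x.1 x.2.1 x.2.2} =
      {x | Bi x.1 x.2.1} ∩ ({x | Tendsto (fun k => (x.2.1 k).2) atTop atTop} ∩
        ({x | Tendsto (fun k => (x.2.1 k).2) atBot atBot} ∩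
        ({x | Tendsto (fun k => fp G (slope (x.2.1 k)) - x.2.2) atTop (𝓝 0)} ∩
        ({x | Tendsto (fun k => fp G (slope (x.2.1 k)) - x.2.2) atBot (𝓝 0)} ∩
          {x | |x.2.2| ≤ fp G 1})))) := by
    ext x
    simp only [Set.mem_inter_iff, Set.mem_setOf_eq, tendsto_sub_nhds_zero_iff]
    exact ⟨fun h => ⟨h.bi, h.lab.up, h.lab.down, h.lab.top, h.lab.bot, h.le⟩,
      fun h => ⟨h.1, ⟨h.2.1, h.2.2.1, h.2.2.2.1, h.2.2.2.2.1⟩, h.2.2.2.2.2⟩⟩
  have m1 : ∀ k, Measurable fun x : Env × (ℤ → V) × ℝ => (x.2.1 k).2 := fun k =>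
    (sm_one k Prod.snd).comp measurable_snd.fst
  have m2 : ∀ k, Measurable fun x : Env × (ℤ → V) × ℝ => fp G (slope (x.2.1 k)) - x.2.2 := fun k =>
    ((sm_one k fun v => fp G (slope v)).comp measurable_snd.fst).sub measurable_snd.snd
  rw [h]
  exact (measurableSet_bi.preimage (measurable_fst.prodMk measurable_snd.fst)).inter
    ((measurableSet_tendsto _ m1).inter ((measurableSet_tendsto _ m1).inter
      ((measurableSet_tendsto _ m2).inter ((measurableSet_tendsto _ m2).inter
        (measurableSet_le measurable_snd.snd.abs measurable_const)))))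
theorem measurableSet_tame (L : ℕ) (k : ℤ) : MeasurableSet {γ : ℤ → V | Tame L γ k} := by
  refine measurableSet_setOfPred.2 (Measurable.and ?_ ?_)
  · exact Measurable.forall fun m => measurable_const.imp (sm_two k m fun u v => u.2 < v.2)
  · exact Measurable.forall fun l => Measurable.forall fun m =>
      (sm_two k l fun u v => u.2 < v.2).imp (measurable_const.imp (measurable_const.imp
        (sm_two m k fun u v => |u.1 - v.1| ≤ L)))
theorem measurableSet_good (L : ℕ) (q : ℝ) (k : ℤ) : MeasurableSet {x : Env × (ℤ → V) | Good L q x.1 x.2 k} := by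
  have h : Measurable fun x : Env × (ℤ → V) => x.1 (edge x.2 k) :=
    measurable_comp_countable (sm_ends k) (F := fun a (x : Env × (ℤ → V)) => x.1 s(a.1, a.2))
      fun a => (measurable_pi_apply _).comp measurable_fst
  exact ((measurableSet_tame L k).preimage measurable_snd).inter (measurableSet_le measurable_const h)
theorem measurableSet_marg (δ : ℝ) (k : ℤ) : MeasurableSet {x : Env × (ℤ → V) | Marg δ x.1 x.2 k} := by
  have h : Measurable fun x : Env × (ℤ → V) =>
      Function.update x.1 (edge x.2 k) (x.1 (edge x.2 k) + δ) :=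
    measurable_comp_countable (sm_ends k)
      (F := fun a (x : Env × (ℤ → V)) => Function.update x.1 s(a.1, a.2) (x.1 s(a.1, a.2) + δ))
      fun a => (measurable_update' (a := s(a.1, a.2))).comp
        (f := fun x : Env × (ℤ → V) => (x.1, x.1 s(a.1, a.2) + δ)) (measurable_fst.prodMk
        (((measurable_pi_apply s(a.1, a.2)).comp measurable_fst).add measurable_const))
  exact measurableSet_bi.preimage (h.prodMk measurable_snd)
theorem measurable_exc (j : ℤ) (N : ℕ) (x' x : ℤ) : Measurable fun z : Env × (ℤ → V) => Exc z.1 z.2 j N x' x := by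
  exact measurable_comp_countable
    (X := fun z : Env × (ℤ → V) => (z.2 (la z.2 (j - N)), z.2 (fi z.2 (j + 1 + N))))
    (((sm_at (measurable_la _)).comp measurable_snd).prodMk
      ((sm_at (measurable_fi _)).comp measurable_snd))
    (F := fun a (z : Env × (ℤ → V)) => TD z.1 j N x' a.1 + T z.1 (x', j) (x, j + 1) +
      TU z.1 j N x a.2 - T z.1 a.1 a.2)
    fun a => ((((measurable_TS _ _ _).add (measurable_T _ _)).add (measurable_TS _ _ _)).sub
      (measurable_T _ _)).comp measurable_fst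
theorem measurableSet_wge (L : ℕ) (s : ℝ) (j D : ℤ) : MeasurableSet {x : Env × (ℤ → V) | Wge L s x.1 x.2 j D} := by
  simp only [Wge, eventually_atTop]
  exact measurableSet_setOfPred.2 (Measurable.forall fun x => Measurable.forall fun x' =>
    measurable_const.imp (measurable_const.imp (Measurable.exists fun _ => Measurable.forall fun N =>
      measurable_const.imp (measurable_const.le' (measurable_exc j N x' x)))))

theorem sm_proj {P : Env → (ℤ → V) → ℝ → Prop}
    (h : Measurable fun x : Env × (ℤ → V) × ℝ => P x.1 x.2.1 x.2.2) :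
    NullMeasurableSet {t | ∃ γ a, P t γ a} (iidLaw G) := by
  have := nullMeas_proj (iidLaw G) (measurableSet_setOfPred.2 h)
  simpa only [Set.mem_setOf_eq, Prod.exists] using this

theorem sm_all {P : Env → (ℤ → V) → ℝ → Prop}
    (h : Measurable fun x : Env × (ℤ → V) × ℝ => P x.1 x.2.1 x.2.2) :
    NullMeasurableSet {t | ∀ γ a, P t γ a} (iidLaw G) := by
  have := (sm_proj (G := G) (P := fun t γ a => ¬ P t γ a) h.not).compl
  simpa only [Set.compl_setOf, not_exists, not_not] using this

theorem sm_p2 {P : Env × (ℤ → V) → Prop} (h : MeasurableSet {x | P x}) :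
    Measurable fun x : Env × (ℤ → V) × ℝ => P (x.1, x.2.1) :=
  (measurableSet_setOfPred.1 h).comp (measurable_fst.prodMk measurable_snd.fst)

theorem sm_p1 {β : Type} [MeasurableSpace β] {P : (ℤ → V) → β} (h : Measurable P) :
    Measurable fun x : Env × (ℤ → V) × ℝ => P x.2.1 :=
  h.comp measurable_snd.fst

theorem sm_mem {I : Set ℝ} (hI : MeasurableSet I) : Measurable fun x : Env × (ℤ → V) × ℝ => x.2.2 ∈ I :=
  hI.mem.comp measurable_snd.snd

theorem sm_cv : Measurable fun x : Env × (ℤ → V) × ℝ => Curve G x.1 x.2.1 x.2.2 :=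
  measurableSet_setOfPred.1 measurableSet_curve

theorem sm_zero : Measurable fun x : Env × (ℤ → V) × ℝ => x.2.1 0 = 0 := sm_p1 (sm_one 0 (· = 0))

theorem nullMeas_GE (L : ℕ) (q : ℝ) {I : Set ℝ} (hI : MeasurableSet I) :
    NullMeasurableSet (GE G L q I) (iidLaw G) := by
  exact sm_proj ((sm_mem hI).and (sm_cv.and (sm_zero.and (sm_p2 (measurableSet_good L q 0)))))
theorem nullMeas_MG (L : ℕ) (δ : ℝ) {I : Set ℝ} (hI : MeasurableSet I) :
    NullMeasurableSet (MG G L δ I) (iidLaw G) := by
  exact sm_proj ((sm_mem hI).and (sm_cv.and (sm_zero.and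
    ((sm_p1 (measurableSet_setOfPred.1 (measurableSet_tame L 0))).and
      (sm_p2 (measurableSet_marg δ 0))))))
theorem nullMeas_WE (L : ℕ) (q s : ℝ) {I : Set ℝ} (hI : MeasurableSet I) (D : ℤ) :
    NullMeasurableSet (WE G L q s I D) (iidLaw G) := by
  exact sm_proj ((sm_mem hI).and (sm_cv.and (sm_zero.and ((sm_p2 (measurableSet_good L q 0)).and
    (sm_p2 (measurableSet_wge L s 0 D))))))
/-- project along `(ℤ → V) × (ℤ → V) × ℝ` -/
theorem nullMeas_Br : NullMeasurableSet (Br G) (iidLaw G) := by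
  have e : ∀ k, Measurable fun x : Env × (ℤ → V) × (ℤ → V) × ℝ => x.2.1 k = x.2.2.1 k := fun k =>
    (measurable_of_countable fun v : V × V => v.1 = v.2).comp
      (f := fun x : Env × (ℤ → V) × (ℤ → V) × ℝ => (x.2.1 k, x.2.2.1 k))
      (((measurable_pi_apply k).comp measurable_snd.fst).prodMk
        ((measurable_pi_apply k).comp measurable_snd.snd.fst))
  have h : Measurable fun x : Env × (ℤ → V) × (ℤ → V) × ℝ => Curve G x.1 x.2.1 x.2.2.2 ∧
      Curve G x.1 x.2.2.1 x.2.2.2 ∧ x.2.1 0 = 0 ∧ (∀ k, k ≤ 0 → x.2.1 k = x.2.2.1 k) ∧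
        x.2.1 1 ≠ x.2.2.1 1 :=
    (sm_cv.comp (measurable_fst.prodMk (measurable_snd.fst.prodMk measurable_snd.snd.snd))).and
      ((sm_cv.comp (measurable_fst.prodMk measurable_snd.snd)).and
        (((sm_one 0 (· = 0)).comp measurable_snd.fst).and
          ((Measurable.forall fun k => measurable_const.imp (e k)).and (e 1).not)))
  have := nullMeas_proj (iidLaw G) (measurableSet_setOfPred.2 h)
  simp only [Set.mem_setOf_eq, Prod.exists] at this
  exact this
theorem nullMeas_Sp (δ : ℝ) : NullMeasurableSet (Sp G δ) (iidLaw G) := by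
  exact sm_proj (sm_cv.and (sm_zero.and ((sm_p2 (measurableSet_marg δ 0)).and
    (Measurable.forall fun k => measurable_const.imp (sm_p2 (measurableSet_marg δ k)).not))))
theorem sm_card {Ω : Type} [MeasurableSpace Ω] (S : Finset ℤ) {P : Ω → ℤ → Prop}
    [∀ x, DecidablePred (P x)] (h : ∀ j, Measurable fun x => P x j) :
    Measurable fun x => ((S.filter (P x)).card : ℝ) := by
  simp only [Finset.card_filter, Nat.cast_sum]
  exact Finset.measurable_sum _ fun j _ => measurable_from_top.comp
    (Measurable.ite (measurableSet_setOfPred.2 (h j)) measurable_const measurable_const)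

/-- the complement is a projection; the cardinality is a finite sum of indicators -/
theorem nullMeas_Str (L : ℕ) (q η : ℝ) (K w : ℕ) : NullMeasurableSet (Str G L q η K w) (iidLaw G) := by
  classical
  refine sm_all (sm_cv.imp ((Measurable.exists fun k => sm_p1 (sm_one k fun v => nrm v ≤ K * w)).imp
    (Measurable.forall fun j₀ => measurable_const.imp (measurable_const.imp
      (measurable_const.le' (sm_card _ fun j => ?_))))))
  exact Measurable.exists fun k => (sm_p1 (sm_one k fun v => v.2 = j)).and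
    (sm_p2 (measurableSet_good L q k))
theorem nullMeas_Tube (ξ σ α β ε r : ℝ) : NullMeasurableSet (Tube G ξ σ α β ε r) (iidLaw G) := by
  exact sm_all (sm_cv.imp ((measurable_const.le' measurable_snd.snd).imp
    ((measurable_snd.snd.le' measurable_const).imp (Measurable.forall fun i => Measurable.forall fun k =>
      sm_p1 (sm_two i k fun u v => |(v.1 - u.1 : ℝ) - ξ * (v.2 - u.2)| ≤
        σ * |(v.2 - u.2 : ℝ)| + ε * nrm u + r)))))

/-- `⋃_{w' ≥ w} (S w')ᶜ` decreases to a null set (`tendsto_measure_iInter_atTop`) -/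
theorem tendsto_measure_compl {Ω : Type} [MeasurableSpace Ω] (μ : Measure Ω) [IsFiniteMeasure μ] (S : ℕ → Set Ω)
    (hS : ∀ w, NullMeasurableSet (S w) μ) (h : ∀ᵐ t ∂μ, ∀ᶠ w in atTop, t ∈ S w) :
    Tendsto (fun w => μ (S w)ᶜ) atTop (𝓝 0) := by
  have h1 := tendsto_measure_iInter_atTop (μ := μ) (s := fun w => ⋃ w' ∈ Set.Ici w, (S w')ᶜ)
    (fun w => NullMeasurableSet.biUnion (Set.to_countable _) fun w' _ => (hS w').compl)
    (fun a b hab => Set.biUnion_subset_biUnion_left (Set.Ici_subset_Ici.2 hab)) ⟨0, measure_ne_top _ _⟩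
  have h2 : μ (⋂ w, ⋃ w' ∈ Set.Ici w, (S w')ᶜ) = 0 := by
    refine measure_mono_null ?_ (ae_iff.1 h)
    intro t ht hq
    obtain ⟨w, hw⟩ := eventually_atTop.1 hq
    obtain ⟨w', h3, h4⟩ := Set.mem_iUnion₂.1 (Set.mem_iInter.1 ht w)
    exact h4 (hw w' h3)
  rw [h2] at h1
  exact tendsto_of_tendsto_of_tendsto_of_le_of_le tendsto_const_nhds h1 (fun _ => zero_le)
    fun w => measure_mono (Set.subset_biUnion_of_mem (u := fun w' => (S w')ᶜ) Set.self_mem_Ici)
theorem str_tendsto {L : ℕ} {q δ : ℝ} (P : CPar G L q δ) (K : ℕ) :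
    Tendsto (fun w : ℕ => iidLaw G (Str G L q (1 / 10) K w)ᶜ) atTop (𝓝 0) := by
  exact tendsto_measure_compl _ _ (fun w => nullMeas_Str L q _ K w) (P.str K)
theorem tube_tendsto (H : HypC G) {ξ σ α β ε : ℝ} (h₁ : fp G (ξ - σ) < α) (h₂ : β < fp G (ξ + σ)) (hε : 0 < ε) :
    Tendsto (fun w : ℕ => iidLaw G (Tube G ξ σ α β ε w)ᶜ) atTop (𝓝 0) := by
  refine tendsto_measure_compl _ (fun w : ℕ => Tube G ξ σ α β ε w)
    (fun w => nullMeas_Tube ξ σ α β ε w) ?_
  filter_upwards [ae_tube H h₁ h₂ hε] with t ⟨r₀, hr⟩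
  filter_upwards [tendsto_natCast_atTop_atTop.eventually_ge_atTop r₀] with w hw γ a hc h1 h2 i k
  exact (hr γ a hc h1 h2 i k).trans (add_le_add_right hw _)
/-- `CPar.str` with `K = 1`, `w ≥ max (nrm (γ 0)) 1`, `j₀ = 0` -/
theorem ae_exists_good {L : ℕ} {q δ : ℝ} (P : CPar G L q δ) :
    ∀ᵐ t ∂iidLaw G, ∀ γ a, Curve G t γ a → ∃ k, Good L q t γ k := by
  classical
  filter_upwards [P.str 1] with t ht γ a hc
  obtain ⟨w, hw, h1⟩ := (ht.and (eventually_ge_atTop ((nrm (γ 0)).toNat + 1))).exists
  have h2 := hw γ a hc ⟨0, by omega⟩ 0 (by omega) (by omega)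
  have h3 : (0 : ℝ) < (1 - 1 / 10) * w := by
    have : (0 : ℝ) < w := by exact_mod_cast (by omega : 0 < w)
    positivity
  obtain ⟨j, hj⟩ := Finset.card_pos.1 (Nat.cast_pos.1 (h3.trans_le h2))
  obtain ⟨k, -, hk⟩ := (Finset.mem_filter.1 hj).2
  exact ⟨k, hk⟩
/-- `Iio (q - δ) ⊆ Iio 0 ∪ Ico 0 (q - δ)` -/
theorem CPar.pos_Ico {L : ℕ} {q δ : ℝ} (H : HypC G) (P : CPar G L q δ) : 0 < G.real (Set.Ico 0 (q - δ)) := by
  refine ENNReal.toReal_pos (fun h => P.p_pos.ne' ?_) (measure_ne_top _ _)
  refine measure_mono_null (fun x hx => ?_) (measure_union_null H.hyp.nonneg h)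
  rcases lt_or_ge x 0 with h0 | h0
  · exact Or.inl h0
  · exact Or.inr ⟨h0, hx⟩

end Crest.Agent.R151
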