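import Crest.Agent.R151.SSwap
import Crest.Agent.R151.SMeas
import Crest.Agent.R151.SErg2

/-! R151 part C soft, C5: the intensity of good exits is at most linear in the length of the label interval.
Helper prefix `s5_`. -/

set_option autoImplicit false

open MeasureTheory ProbabilityTheory Crest.ProbabilityR.FirstPassage Filter Topology
open scoped ENNReal

namespace Crest.Agent.R151

/-- a path from `x` to `y` of cost `c` that avoids `e` -/
def s5_Av (t : Env) (e : Sym2 V) (x y : V) (c : ℝ) : Prop :=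
  ∃ p i j, PathIn Set.univ p i j ∧ p i = x ∧ p j = y ∧ (∀ m, i ≤ m → m < j → edge p m ≠ e) ∧ cost t p i j = c

theorem s5_trans {t : Env} {e : Sym2 V} {x y z : V} {c c' : ℝ} (h : s5_Av t e x y c) (h' : s5_Av t e y z c') :
    s5_Av t e x z (c + c') := by
  obtain ⟨p, i, j, hp, rfl, rfl, ha, rfl⟩ := h
  obtain ⟨q, i', j', hq, e1, rfl, ha', rfl⟩ := h'
  have a1 := hp.1
  have a2 := hq.1
  refine ⟨glue p j q i', i, j + (j' - i'), hp.glue hq e1.symm, glue_of_le a1, ?_, fun m m1 m2 => ?_,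
    cost_glue a1 a2 e1.symm⟩
  · rw [glue_of_ge e1.symm (by omega)]
    congr 1
    ring
  · rcases lt_or_ge m j with h | h
    · have : edge (glue p j q i') m = edge p m := by
        unfold edge
        rw [glue_of_le h.le, glue_of_le (by omega)]
      rw [this]
      exact ha m m1 h
    · have : edge (glue p j q i') m = edge q (m - j + i') := by
        unfold edge
        rw [glue_of_ge e1.symm h, glue_of_ge e1.symm (by omega), show m + 1 - j + i' = m - j + i' + 1 by ring]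
      rw [this]
      exact ha' _ (by omega) (by omega)

theorem s5_geo {t : Env} (hr : Reg t) {e : Sym2 V} {S : Set V} {x y : V} (hc : Conn S x y)
    (he : e ∉ edgesIn S) : s5_Av t e x y (TS t S x y) := by
  obtain ⟨p, n, hg, rfl, rfl⟩ := exists_geo hr hc
  exact ⟨p, 0, n, hg.1.mono (Set.subset_univ _), rfl, rfl,
    fun m m1 m2 h => he (h ▸ hg.1.edge_mem m1 m2), hg.2.2⟩

variable {G : Measure ℝ} [IsProbabilityMeasure G] [NullSingletonClass G] {L : ℕ} {q δ : ℝ}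

/-- Take geodesics (`exists_geo`, `conn_rows`) `p₁` in the lower strip from `γ (la γ (0-N))` to `(x~', 0)`, `p₃` in the upper strip from
`(x', 1)` to `γ (fi γ (1+N))` and the middle part `γ'[fi γ' 1 - 1, k' + 1]` (its cost is `T (x~',0) (x',1)` by `Bi.T_eq`; columns `≥ x' - L > 0`
by `Tame.mid`, `Line.last_succ`).  None of them uses `edge γ 0 = s((0,0),(0,1))`; glue twice, `Marg.le_cost`, `Bi.T_eq`. -/
theorem marg_le_exc {t : Env} (hr : Reg t) (hδ : 0 ≤ δ) {γ γ' : ℤ → V} (hb : Bi t γ) (hl : Line γ) (h0 : γ 0 = 0)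
    (hla : Last γ 0) (hm : Marg δ t γ 0) (hb' : Bi t γ') (hl' : Line γ') {k' : ℤ} (hk : (γ' k').2 = 0)
    (ht : Tame L γ' k') (hx : (L : ℤ) < (γ' k').1) :
    ∀ᶠ N : ℕ in atTop, δ ≤ Exc t γ 0 N (γ' (fi γ' 1 - 1)).1 (γ' k').1 := by
  filter_upwards [(hl.tendsto_fi (0 + 1)).eventually_gt_atTop 0, (hl.tendsto_la 0).eventually_le_atBot 0]
    with N hj hi
  have hN : (0 : ℤ) ≤ N := Int.natCast_nonneg N
  have he : edge γ 0 = s((0, 0), (0, 1)) := by
    rw [hl.edge_last hla, h0]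
    rfl
  have e0 : ((0, 0) : V) ∈ edge γ 0 := by
    rw [he]
    exact Sym2.mem_mk_left _ _
  have e1 : ((0, 1) : V) ∈ edge γ 0 := by
    rw [he]
    exact Sym2.mem_mk_right _ _
  have ri := hl.la_row (0 - N)
  have rj := hl.fi_row (0 + 1 + N)
  have a1 : s5_Av t (edge γ 0) (γ (la γ (0 - N))) ((γ' (fi γ' 1 - 1)).1, 0)
      (TD t 0 N (γ' (fi γ' 1 - 1)).1 (γ (la γ (0 - N)))) := by
    rw [TD, TS_comm]
    refine s5_geo hr (conn_rows ⟨by omega, by omega⟩ ⟨by simp, le_rfl⟩) fun h => ?_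
    have := (h _ e1).2
    simp at this
  have a3 : s5_Av t (edge γ 0) ((γ' k').1, 0 + 1) (γ (fi γ (0 + 1 + N)))
      (TU t 0 N (γ' k').1 (γ (fi γ (0 + 1 + N)))) := by
    refine s5_geo hr (conn_rows ⟨le_rfl, by simp⟩ ⟨by omega, by omega⟩) fun h => ?_
    have := (h _ e0).1
    simp at this
  have hle := hl'.entry_le ht.1
  have hmid := fun m => ht.mid hl' (m := m)
  rw [hk, zero_add] at hle hmid
  have p1 : γ' (fi γ' 1 - 1) = ((γ' (fi γ' 1 - 1)).1, 0) := by
    have := hl'.entry_row 0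
    rw [zero_add] at this
    exact Prod.ext rfl this
  have p2 : γ' (k' + 1) = ((γ' k').1, 0 + 1) := by
    rw [hl'.last_succ ht.1]
    exact Prod.ext (by simp) (by simp [hk])
  have a2 : s5_Av t (edge γ 0) ((γ' (fi γ' 1 - 1)).1, 0) ((γ' k').1, 0 + 1)
      (T t ((γ' (fi γ' 1 - 1)).1, 0) ((γ' k').1, 0 + 1)) := by
    refine ⟨γ', fi γ' 1 - 1, k' + 1, hl'.pathIn (by omega), p1, p2, fun m m1 m2 h => ?_, ?_⟩
    · have h1 := abs_le.1 (hmid m m1 (by omega))
      have h2 : γ' m ∈ edge γ 0 := by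
        rw [← h]
        exact Sym2.mem_mk_left _ _
      rw [he, Sym2.mem_iff] at h2
      have h3 : (γ' m).1 = 0 := by rcases h2 with h2 | h2 <;> rw [h2]
      omega
    · rw [← p2, ← p1]
      exact (hb' _ _ (by omega)).2.2
  obtain ⟨p, b, c, hp, hb1, hc1, hav, hcost⟩ := s5_trans (s5_trans a1 a2) a3
  have h1 := hm.le_cost hr.nonneg hδ hi hj hp hb1 hc1 hav
  have h2 : cost t γ (la γ (0 - N)) (fi γ (0 + 1 + N)) = T t (γ (la γ (0 - N))) (γ (fi γ (0 + 1 + N))) :=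
    (hb _ _ (by omega)).2.2
  unfold Exc
  linarith

/-- `charge` with `X = X' = MG`, `exists_bud`, `mem_shift_MG`, `marg_le_exc`, `ae_reg` -/
theorem measure_MG_le (H : HypC G) (L : ℕ) (hδ : 0 < δ) (α : ℝ) {h : ℝ} (hh : 0 < h) :
    ENNReal.ofReal δ * iidLaw G (MG G L δ (Set.Icc α (α + h))) ≤ (4 * L + 2) * ENNReal.ofReal (6 * h) := by
  obtain ⟨Λ, B⟩ := exists_bud H L α hh
  refine charge (nullMeas_MG L δ measurableSet_Icc) (nullMeas_MG L δ measurableSet_Icc) subset_rfl L B.meas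
    B.int ?_
  filter_upwards [ae_reg G H.hyp.nonneg] with t hr
  rintro ⟨γ, a, ha, hc, h0, ht, hm⟩ x' hx hx' -
  obtain ⟨γ', a', k', ha', hc', hk, ht', -⟩ := (mem_shift_MG H).1 hx'
  have k1 : (γ' k').1 = x' := by rw [hk]
  have k2 : (γ' k').2 = 0 := by rw [hk]
  have hL : (0 : ℤ) ≤ L := Int.natCast_nonneg L
  filter_upwards [B.swap t hr γ a γ' a' k' ha ha' hc hc' h0 ht k2 ht' (by omega),
    marg_le_exc hr hδ.le hc.bi hc.line h0 ht.1 hm hc'.bi hc'.line k2 ht' (by omega)] with N h1 h2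
  rw [← k1]
  exact (ENNReal.ofReal_le_ofReal h2).trans h1

/-- `lower_one` with `e = upE 0`, `B = Ico 0 (q - δ)`, `A = GE ∩ {t | Reg t}`, `A' = MG` (`Curve.lower`, `marg_of_lower`, `Line.edge_last`) -/
theorem measure_GE_le (H : HypC G) (P : CPar G L q δ) : ∃ C : ℝ, 0 < C ∧ ∀ α h : ℝ, 0 < h →
    iidLaw G (GE G L q (Set.Icc α (α + h))) ≤ ENNReal.ofReal (C * h) := by
  have hp := P.pos_Ico H
  have hδ := P.δ_pos
  refine ⟨(4 * L + 2) * 6 / (G.real (Set.Ico 0 (q - δ)) * δ), by positivity, fun α h hh => ?_⟩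
  have h1 := lower_one G (upE 0) (B := Set.Ico 0 (q - δ)) measurableSet_Ico
    (A := GE G L q (Set.Icc α (α + h)) ∩ {t | Reg t}) (A' := MG G L δ (Set.Icc α (α + h)))
    ((nullMeas_GE L q measurableSet_Icc).inter measurableSet_reg.nullMeasurableSet)
    (nullMeas_MG L δ measurableSet_Icc) (by
      rintro t ⟨⟨γ, a, ha, hc, h0, hg⟩, hr⟩ c ⟨c0, c1⟩
      have he : upE 0 = edge γ 0 := by rw [hc.line.edge_last hg.1.1, h0]
      have h2 := hg.2
      rw [he]
      exact ⟨γ, a, ha, hc.lower hr.nonneg 0 c0 (by linarith), h0, hg.1,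
        marg_of_lower hr.nonneg hc.bi 0 c0 hδ.le (by linarith)⟩)
  have h2 : iidLaw G (GE G L q (Set.Icc α (α + h)) ∩ {t | Reg t}) = iidLaw G (GE G L q (Set.Icc α (α + h))) :=
    measure_congr (inter_ae_eq_left_of_ae_eq_univ (ae_eq_univ.2 (ae_reg G H.hyp.nonneg)))
  rw [h2] at h1
  have h3 := measure_MG_le H L hδ α hh
  have h4 := (mul_le_mul_right h1 (ENNReal.ofReal δ)).trans h3
  rw [← ofReal_measureReal (μ := G), ← mul_assoc, ← ENNReal.ofReal_mul hδ.le] at h4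
  have h5 : (4 * L + 2 : ℝ≥0∞) = ENNReal.ofReal (4 * L + 2) := by
    rw [ENNReal.ofReal_add (by positivity) (by positivity), ENNReal.ofReal_mul (by positivity)]
    simp
  rw [h5, ← ENNReal.ofReal_mul (by positivity)] at h4
  have h6 : 0 < δ * G.real (Set.Ico 0 (q - δ)) := by positivity
  refine (ENNReal.mul_le_mul_iff_right (ENNReal.ofReal_pos.2 h6).ne' ENNReal.ofReal_ne_top).1 (h4.trans ?_)
  rw [← ENNReal.ofReal_mul h6.le]
  refine ENNReal.ofReal_le_ofReal (le_of_eq ?_)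
  field_simp

/-- `exists_count` on `[-A-1, A+1]`, `A = |fp G 1|`, `E x h = GE (Icc x (x+h))` -/
theorem exists_nu0 (H : HypC G) (P : CPar G L q δ) : ∃ ν : Env → ℝ≥0∞, Measurable ν ∧ ∫⁻ t, ν t ∂iidLaw G < ⊤ ∧
    ∀ᵐ t ∂iidLaw G, Counts (fun t a => t ∈ GE G L q {a}) ν t := by
  obtain ⟨C, hC, h⟩ := measure_GE_le H P
  have hA := abs_nonneg (fp G 1)
  obtain ⟨ν, h1, h2, h3⟩ := exists_count (G := G) (α := -|fp G 1| - 1) (β := |fp G 1| + 1) (by linarith) hC.le
    (fun x h => GE G L q (Set.Icc x (x + h))) (fun x h _ => nullMeas_GE L q measurableSet_Icc) h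
    (fun t a => t ∈ GE G L q {a}) (Eventually.of_forall fun t a => by
      rintro ⟨γ, a, rfl, hc, h0, hg⟩
      have h4 := abs_le.1 (hc.le.trans (le_abs_self _))
      exact ⟨⟨by linarith [h4.1], by linarith [h4.2]⟩, 1, one_pos, fun h x _ _ hx => ⟨γ, a, hx, hc, h0, hg⟩⟩)
  exact ⟨ν, h1, h2.trans_lt ENNReal.ofReal_lt_top, h3⟩

/-- `ae_lt_top`, `Counts.finite`, `ae_all_shift` -/
theorem ae_finite_labels (H : HypC G) (P : CPar G L q δ) :
    ∀ᵐ t ∂iidLaw G, ∀ v, {a | shift v t ∈ GE G L q {a}}.Finite := by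
  obtain ⟨ν, h1, h2, h3⟩ := exists_nu0 H P
  refine ae_all_shift (P := fun t => {a | t ∈ GE G L q {a}}.Finite) ?_
  filter_upwards [h3, ae_lt_top h1 h2.ne] with t a b
  exact a.finite b

end Crest.Agent.R151
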