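import Crest.Agent.R151.SBr
import Crest.Agent.R151.SH

/-! R151 part C soft, C6: no branching.  Helper prefix `s8_`. -/

set_option autoImplicit false

open MeasureTheory ProbabilityTheory Crest.ProbabilityR.FirstPassage Filter Topology
open scoped ENNReal

namespace Crest.Agent.R151

variable {G : Measure ℝ} [IsProbabilityMeasure G] [NullSingletonClass G] {L : ℕ} {q δ : ℝ}

/-- the tube of all labels: `Ξ` from `fact0`, `fp (0 - Ξ) < -fp 1` by `fp_neg` -/
theorem exists_tube_all (H : HypC G) : ∃ Ξ : ℝ, 0 ≤ Ξ ∧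
    Tendsto (fun w : ℕ => iidLaw G (Tube G 0 Ξ (-fp G 1) (fp G 1) 1 w)ᶜ) atTop (𝓝 0) := by
  obtain ⟨Ξ, hΞ⟩ := fact0 H
  have h1 : fp G 1 < fp G (max Ξ 0) := hΞ.trans_le (fp_mono H (le_max_left _ _))
  exact ⟨max Ξ 0, le_max_right _ _, tube_tendsto H (by rw [zero_sub, fp_neg H]; linarith)
    (by rwa [zero_add]) one_pos⟩

/-- `intensity_zero` with `S = Reg ∩ Str 2 w ∩ Tube`, `F = ofReal ((2L+1)/(0.7 w²)) ∑_i cnt · cnt`; `α = -B`, `h = 2B/n`, `B = |fp 1| + 1`;
`lintegral_cnt_mul` for each of the `n` cells (points of the two parallelograms are more than `w` rows apart), `card_par ≤ (4Ξ+7) w²`,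
`measure_GE_le`: `∫ F ≤ C' w² n ((C h)² + ε')`; first `n` large, then `ε'` small, then `w` large. -/
theorem measure_Br (H : HypC G) (P : CPar G L q δ) : iidLaw G (Br G) = 0 := by
  obtain ⟨Ξ, hΞ, htube⟩ := exists_tube_all H
  obtain ⟨C, hC, hGE⟩ := measure_GE_le H P
  refine intensity_zero nullMeas_Br fun ε hε => ?_
  obtain ⟨B, hB⟩ : ∃ B, B = |fp G 1| + 1 := ⟨_, rfl⟩
  have B0 : 0 < B := by rw [hB]; positivity
  obtain ⟨c, hc⟩ : ∃ c : ℝ, c = (2 * L + 1) * (10 / 7) * (4 * Ξ + 7) ^ 2 := ⟨_, rfl⟩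
  have c0 : 0 < c := by rw [hc]; positivity
  obtain ⟨n, hn⟩ := exists_nat_gt (8 * c * C ^ 2 * B ^ 2 / ε)
  have n0 : (0 : ℝ) < n := lt_trans (by positivity) hn
  rw [div_lt_iff₀ hε] at hn
  obtain ⟨h, hh⟩ : ∃ h : ℝ, h = 2 * B / n := ⟨_, rfl⟩
  have h0 : 0 < h := by rw [hh]; positivity
  obtain ⟨ε', hε'⟩ : ∃ ε' : ℝ, ε' = ε / (2 * c * n) := ⟨_, rfl⟩
  have ε0 : 0 < ε' := by rw [hε']; positivity
  have hnum : c * (n * ((C * h) ^ 2 + ε')) ≤ ε := by
    have e : c * (n * ((C * h) ^ 2 + ε')) = 4 * c * C ^ 2 * B ^ 2 / n + ε / 2 := by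
      rw [hh, hε']; field_simp; ring
    have : 4 * c * C ^ 2 * B ^ 2 / n ≤ ε / 2 := by
      rw [div_le_iff₀ n0]; linarith
    linarith
  have hA : ∀ i, NullMeasurableSet (GE G L q (cell (-B) h i)) (iidLaw G) := fun i =>
    nullMeas_GE L q measurableSet_Icc
  choose R hR using fun i => lintegral_cnt_mul (hA i) ε0
  have e1 := (str_tendsto P 2).add htube
  rw [add_zero] at e1
  have e2 : ∀ᶠ w : ℕ in atTop, ∀ i ∈ Finset.range n, R i ≤ w :=
    (eventually_all_finset _).2 fun i _ => tendsto_natCast_atTop_atTop.eventually_ge_atTop _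
  obtain ⟨w, ⟨w1, w2⟩, w3⟩ := (((e1.eventually (ge_mem_nhds (ENNReal.ofReal_pos.2 hε))).and e2).and
    (eventually_ge_atTop 1)).exists
  have w4 : (1 : ℝ) ≤ w := by exact_mod_cast w3
  obtain ⟨κ, hκ⟩ : ∃ κ : ℝ, κ = (2 * L + 1) * (10 / 7) / (w : ℝ) ^ 2 := ⟨_, rfl⟩
  have κ0 : 0 ≤ κ := by rw [hκ]; positivity
  refine ⟨w, {t | Reg t} ∩ (Str G L q (1 / 10) 2 w ∩ Tube G 0 Ξ (-fp G 1) (fp G 1) 1 w),
    fun t => ENNReal.ofReal κ * ∑ i ∈ Finset.range n,
      (cnt (GE G L q (cell (-B) h i)) (par 0 ((2 * Ξ + 3) * w) (-w) w) t : ℝ≥0∞) *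
        cnt (GE G L q (cell (-B) h i)) (par 0 ((2 * Ξ + 3) * w) w w) t, w3, ?_, ?_, fun t ht => ?_⟩
  · refine le_trans (measure_mono_ae ?_) ((measure_union_le _ _).trans w1)
    filter_upwards [ae_reg G H.hyp.nonneg] with t ht h1
    exact not_and_or.1 fun h2 => h1 ⟨ht, h2⟩
  · have hcard : ∀ y₀ : ℤ, ((par 0 ((2 * Ξ + 3) * w) y₀ w).card : ℝ) ≤ (4 * Ξ + 7) * (w : ℝ) ^ 2 := fun y₀ =>
      (card_par (by positivity) y₀ w).trans (by nlinarith)
    rw [lintegral_const_mul' _ _ ENNReal.ofReal_ne_top, lintegral_finsetSum' _ fun i _ =>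
      (aemeasurable_cnt (hA i) _).fun_mul (aemeasurable_cnt (hA i) _)]
    refine le_trans (mul_le_mul_right (Finset.sum_le_card_nsmul _ _ (ENNReal.ofReal
      (((4 * Ξ + 7) * (w : ℝ) ^ 2) ^ 2 * ((C * h) ^ 2 + ε'))) fun i hi => ?_) _) ?_
    · refine (hR i _ _ fun p hp y hy => (w2 i hi).trans ?_).trans (ENNReal.ofReal_le_ofReal ?_)
      · have a1 := (mem_par.1 hp).2.1
        have a2 := (mem_par.1 hy).1
        refine le_trans ?_ ((le_abs_self _).trans (le_max_right _ _))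
        simp only [Prod.snd_sub]
        omega
      · have a1 : (iidLaw G).real (GE G L q (cell (-B) h i)) ≤ C * h :=
          ENNReal.toReal_le_of_le_ofReal (by positivity) (hGE _ h h0)
        rw [pow_two ((4 * Ξ + 7) * (w : ℝ) ^ 2)]
        gcongr
        exacts [hcard _, hcard _]
    · rw [Finset.card_range, nsmul_eq_mul, ← ENNReal.ofReal_natCast, ← ENNReal.ofReal_mul n0.le,
        ← ENNReal.ofReal_mul κ0]
      refine ENNReal.ofReal_le_ofReal (le_trans (le_of_eq ?_) (mul_le_mul_of_nonneg_right hnum (by positivity)))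
      rw [hκ, hc]
      field_simp
  · have h1 := cnt_Br_le H ht.1 hΞ (n := n) (by exact_mod_cast n0) (α := -B) h0
      (by rw [hB]; linarith [le_abs_self (fp G 1)])
      (by rw [hh, mul_div_cancel₀ _ n0.ne', hB]; linarith [le_abs_self (fp G 1)]) ht.2.1 ht.2.2
    simp only [← Nat.cast_mul, ← Nat.cast_sum] at h1 ⊢
    rw [← ENNReal.ofReal_natCast, ← ENNReal.ofReal_natCast, ← ENNReal.ofReal_mul κ0]
    refine ENNReal.ofReal_le_ofReal ?_
    rw [hκ, div_mul_eq_mul_div, le_div_iff₀ (by positivity)]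
    linarith

/-- at the first index where they differ there is a branch vertex (`mem_shift_Br`, `ae_all_shift`; induction on `k ≥ 0`) -/
theorem ae_back (H : HypC G) : ∀ᵐ t ∂iidLaw G, ∀ γ γ' a i i', Curve G t γ a → Curve G t γ' a →
    (∀ k, k ≤ 0 → γ (i + k) = γ' (i' + k)) → ∀ k, γ (i + k) = γ' (i' + k) := by
  obtain ⟨L, q, δ, P⟩ := exists_str H
  filter_upwards [ae_all_shift (measure_eq_zero_iff_ae_notMem.1 (measure_Br H P))] with t ht γ γ' a i i' h1 h2 h3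
  have key : ∀ n : ℕ, ∀ k : ℤ, k ≤ n → γ (i + k) = γ' (i' + k) := fun n => by
    induction n with
    | zero => exact h3
    | succ n ih =>
      intro k hk
      by_cases h : k ≤ n
      · exact ih k h
      obtain rfl : k = n + 1 := by omega
      by_contra hne
      refine ht (γ (i + n)) ((mem_shift_Br H).2 ⟨γ, γ', a, i + n, i' + n, h1, h2, rfl, fun k hk => ?_, ?_⟩)
      · rw [add_assoc, add_assoc]
        exact ih _ (by omega)
      · rwa [add_assoc, add_assoc]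
  exact fun k => key k.toNat k (Int.self_le_toNat k)

/-- `ae_back` in `act rf t` for `rfc γ`, `rfc γ'`, indices `-i`, `-i'` -/
theorem ae_fwd (H : HypC G) : ∀ᵐ t ∂iidLaw G, ∀ γ γ' a i i', Curve G t γ a → Curve G t γ' a →
    (∀ k, 0 ≤ k → γ (i + k) = γ' (i' + k)) → ∀ k, γ (i + k) = γ' (i' + k) := by
  filter_upwards [ae_act isAut_rf (ae_back H)] with t ht γ γ' a i i' h1 h2 h3 k
  have e : ∀ i k : ℤ, -(-i + k) = i + -k := fun i k => by ring
  have := ht _ _ a (-i) (-i') (h1.rfc H) (h2.rfc H) (fun k hk => by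
    simp only [rfc, e, h3 (-k) (by omega)]) (-k)
  simp only [rfc, e, neg_neg] at this
  exact isAut_rf.bij.1 this

end Crest.Agent.R151
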