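import Crest.Agent.R151.SBud1

/-! R151 part C soft, C4: the budget of the upper half plane.  Helper prefix `s2_`. -/

set_option autoImplicit false

open MeasureTheory ProbabilityTheory Crest.ProbabilityR.FirstPassage Filter Topology
open scoped ENNReal

namespace Crest.Agent.R151

variable {G : Measure ℝ} [IsProbabilityMeasure G] [NullSingletonClass G]

/-- the increment `D_N(x, u)` -/
noncomputable def DN (t : Env) (N : ℕ) (x u : ℤ) : ℝ := TU t 0 N (x + 1) (u, 1 + N) - TU t 0 N x (u, 1 + N)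

/-- `monge` -/
theorem DN_anti {t : Env} (ht : ∀ e, 0 ≤ t e) (N : ℕ) (x : ℤ) {u u' : ℤ} (h : u ≤ u') : DN t N x u' ≤ DN t N x u := by
  have := monge ht (a := 1) (b := 1 + N) (x := x) (x' := x + 1) (by omega) (by omega) h
  simp only [DN, TU, zero_add]
  linarith
/-- `TS_shift_rows` -/
theorem DN_shift (t : Env) (N : ℕ) (x u : ℤ) : DN (shift (x, 0) t) N 0 u = DN t N x (u + x) := by
  simp only [DN, TU, TS_shift_rows, zero_add, add_zero, Prod.mk_add_mk, add_comm (1 : ℤ) x]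
theorem measurable_DN (N : ℕ) (x u : ℤ) : Measurable fun t => DN t N x u := by
  exact (measurable_TS _ _ _).sub (measurable_TS _ _ _)
theorem dependsOnly_DN (N : ℕ) (x u : ℤ) : DependsOnly (fun t => DN t N x u) (edgesIn (upper 1)) := by
  intro t t' h
  have hs : ∀ e ∈ edgesIn (rows (0 + 1) (0 + 1 + N)), t e = t' e := fun e he => h e fun v hv => (he v hv).1
  exact congrArg₂ (· - ·) (dependsOnly_TS _ _ _ t t' hs) (dependsOnly_TS _ _ _ t t' hs)
theorem s2_TU (t : Env) (N : ℕ) (x u : ℤ) :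
    TU t 0 N x (u, 1 + N) = TS (shift (x, 1) t) (rows 0 N) (0, 0) (u - x, N) := by
  simp only [TU, TS_shift_rows, zero_add, Prod.mk_add_mk, sub_add_cancel, add_comm (N : ℤ) 1]

omit [NullSingletonClass G] in
theorem s2_int {N : ℕ} (x u : ℤ) (h : Integrable (fun t => TS t (rows 0 N) (0, 0) (u - x, N)) (iidLaw G)) :
    Integrable (fun t => TU t 0 N x (u, 1 + N)) (iidLaw G) ∧
      ∫ t, TU t 0 N x (u, 1 + N) ∂iidLaw G = mS G N (u - x) := by
  have hp := measurePreserving_shift G (x, 1)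
  have hm := (measurable_TS (rows 0 N) (0, 0) (u - x, N)).aestronglyMeasurable (μ := iidLaw G)
  simp only [s2_TU]
  refine ⟨(hp.integrable_comp hm).2 h, ?_⟩
  have e := integral_map (f := fun t => TS t (rows 0 N) (0, 0) (u - x, N)) hp.measurable.aemeasurable
    (by rwa [hp.map_eq])
  rw [hp.map_eq] at e
  exact e.symm

/-- `TU t 0 N x (u, 1+N) = TS (shift (x,1) t) (rows 0 N) (0,0) (u - x, N)`, `measurePreserving_shift`, `strip_mean` -/
theorem integral_DN (H : HypC G) (K : ℝ) : ∀ᶠ N : ℕ in atTop, ∀ u : ℤ, (|u| : ℝ) ≤ K * N →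
    Integrable (fun t => DN t N 0 u) (iidLaw G) ∧ ∫ t, DN t N 0 u ∂iidLaw G = mS G N (u - 1) - mS G N u := by
  filter_upwards [strip_mean G H.hyp (K + 1) one_pos, eventually_ge_atTop 1] with N hN h1 u hu
  have n1 : (1 : ℝ) ≤ N := Nat.one_le_cast.2 h1
  have a1 := s2_int (0 + 1) u (hN (u - (0 + 1)) (by
    have := abs_sub (u : ℝ) 1
    push_cast
    rw [abs_one] at this
    linarith)).1
  have a2 := s2_int 0 u (hN (u - 0) (by
    rw [sub_zero]
    linarith)).1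
  refine ⟨a1.1.sub a2.1, ?_⟩
  simp only [DN]
  rw [integral_sub a1.1 a2.1, a1.2, a2.2, zero_add, sub_zero]
/-- the upper end seen from `(x, 1)`: `HasLabel.sub`, `HasLabel.eventually_cone`, `Line.tendsto_fi`, `Line.fi_row` -/
theorem Curve.eventually_end (H : HypC G) {t : Env} {γ : ℤ → V} {a ξ₂ ξ₃ : ℝ} (h : Curve G t γ a) (h2 : fp G ξ₂ < a)
    (h3 : a < fp G ξ₃) (x : ℤ) : ∀ᶠ N : ℕ in atTop, ∃ u : ℤ, γ (fi γ (1 + N)) = (u + x, 1 + (N : ℤ)) ∧
      ξ₂ * N ≤ u ∧ (u : ℝ) ≤ ξ₃ * N := by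
  filter_upwards [(h.line.tendsto_fi 1).eventually
    ((h.lab.sub H h.le (x, 1)).eventually_cone H h2 h3).1] with N hN
  have e := h.line.fi_row (1 + N)
  obtain ⟨-, b1, b2⟩ := hN
  simp only [Prod.fst_sub, Prod.snd_sub, e, add_sub_cancel_left, Int.cast_natCast] at b1 b2
  exact ⟨(γ (fi γ (1 + N))).1 - x, Prod.ext (by simp) e, b1, b2⟩

/-- If no label of the interval has `|a| ≤ fp 1` take `Λ = 0`.  Else `exists_slopes`; `um N ∈ [ξ₁ N, ξ₂ N]` from `exists_target_ge`,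
`up N ∈ [ξ₃ N, ξ₄ N]` from `exists_target_le` (`η = h/2`, `choose` with a default value), `Λ N t = ofReal (DN t N 0 (um N) - DN t N 0 (up N))`;
the difference is `≥ 0` a.e. (`DN_anti`), `ofReal_integral_eq_lintegral_ofReal`. -/
theorem exists_budU (H : HypC G) (α : ℝ) {h : ℝ} (hh : 0 < h) :
    ∃ Λ, BudU G (Set.Icc α (α + h)) (3 * h) Λ := by
  by_cases hex : ∃ a₀ ∈ Set.Icc α (α + h), |a₀| ≤ fp G 1
  swap
  · exact ⟨fun _ _ => 0, fun _ => measurable_const, fun _ _ _ _ => rfl, Eventually.of_forall fun _ => by simp,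
      fun t _ γ a γ' a' ha _ hc _ _ => (hex ⟨a, ha, hc.le⟩).elim⟩
  obtain ⟨a₀, h0, hA⟩ := hex
  obtain ⟨ξ₁, ξ₂, ξ₃, ξ₄, s1, s2, s3, s4, s5⟩ := exists_slopes H hh h0 hA
  obtain ⟨um, hm⟩ := (exists_target_ge H s1 (half_pos hh)).choice
  obtain ⟨up, hp⟩ := (exists_target_le H s3 (half_pos hh)).choice
  refine ⟨fun N t => ENNReal.ofReal (DN t N 0 (um N) - DN t N 0 (up N)),
    fun N => ((measurable_DN N 0 _).sub (measurable_DN N 0 _)).ennreal_ofReal,
    fun N t t' ht => congrArg ENNReal.ofReal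
      (congrArg₂ (· - ·) (dependsOnly_DN N 0 _ t t' ht) (dependsOnly_DN N 0 _ t t' ht)), ?_, ?_⟩
  · filter_upwards [hm, hp, integral_DN H (|ξ₁| + |ξ₄|)] with N ⟨m1, m2, m3⟩ ⟨p1, p2, p3⟩ hI
    have n0 : (0 : ℝ) ≤ N := Nat.cast_nonneg N
    have b2 := mul_le_mul_of_nonneg_right s2.le n0
    have hle : um N ≤ up N := by exact_mod_cast m2.trans (b2.trans p1)
    have hle' : (um N : ℝ) ≤ up N := by exact_mod_cast hle
    have c1 := mul_le_mul_of_nonneg_right (neg_abs_le ξ₁) n0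
    have c2 := mul_le_mul_of_nonneg_right (le_abs_self ξ₄) n0
    have c3 := mul_nonneg (abs_nonneg ξ₁) n0
    have c4 := mul_nonneg (abs_nonneg ξ₄) n0
    obtain ⟨i1, e1⟩ := hI (um N) (abs_le.2 ⟨by linarith, by linarith⟩)
    obtain ⟨i2, e2⟩ := hI (up N) (abs_le.2 ⟨by linarith, by linarith⟩)
    rw [← ofReal_integral_eq_lintegral_ofReal (f := fun t => DN t N 0 (um N) - DN t N 0 (up N)) (i1.sub i2)
      ((ae_nonneg G H.hyp.nonneg).mono fun t ht => sub_nonneg.2 (DN_anti ht N 0 hle))]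
    refine ENNReal.ofReal_le_ofReal ?_
    rw [integral_sub i1 i2, e1, e2]
    linarith
  · intro t hr γ a γ' a' ha ha' hc hc' x
    filter_upwards [hm, hp, hc.eventually_end H (s5 a ha hc.le).1 (s5 a ha hc.le).2 x,
      hc'.eventually_end H (s5 a' ha' hc'.le).1 (s5 a' ha' hc'.le).2 x] with
      N ⟨_, m2, _⟩ ⟨p1, _, _⟩ ⟨u, e, u1, _⟩ ⟨u', e', _, u2⟩
    have b1 : um N ≤ u := by exact_mod_cast m2.trans u1
    have b2 : u' ≤ up N := by exact_mod_cast u2.trans p1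
    refine ENNReal.ofReal_le_ofReal ?_
    rw [DN_shift, DN_shift, incU, incU, e, e']
    exact sub_le_sub (DN_anti hr.nonneg N x (by omega)) (DN_anti hr.nonneg N x (by omega))

end Crest.Agent.R151
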