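import Crest.Agent.R151.SSym
import Crest.Agent.R151.CFact0

/-! R151 part C soft, C4: the deterministic targets (pigeonhole).  Helper prefix `s1_`. -/

set_option autoImplicit false

open MeasureTheory ProbabilityTheory Crest.ProbabilityR.FirstPassage Filter Topology
open scoped ENNReal

namespace Crest.Agent.R151

/-- pigeonhole: some increment is at least the average -/
theorem exists_incr_ge (m : ℤ → ℝ) {u₁ u₂ : ℤ} (h : u₁ < u₂) {c : ℝ} (hc : c * (u₂ - u₁) ≤ m u₂ - m u₁) :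
    ∃ u, u₁ < u ∧ u ≤ u₂ ∧ c ≤ m u - m (u - 1) := by
  by_contra hn
  push Not at hn
  have key : ∀ n : ℕ, u₁ + 1 + n ≤ u₂ → m (u₁ + 1 + n) - m u₁ < c * (n + 1) := fun n => by
    induction n with
    | zero =>
      intro h1
      simpa using hn (u₁ + 1) (by omega) (by omega)
    | succ n ih =>
      intro h1
      have h2 := ih (by omega)
      have h3 := hn (u₁ + 1 + (n + 1 : ℕ)) (by omega) h1
      rw [show u₁ + 1 + (n + 1 : ℕ) - 1 = u₁ + 1 + n by omega] at h3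
      push_cast at h3 ⊢
      linarith
  obtain ⟨n, rfl⟩ : ∃ n : ℕ, u₂ = u₁ + 1 + n := ⟨(u₂ - u₁ - 1).toNat, by omega⟩
  have := key n le_rfl
  push_cast at hc
  linarith
theorem exists_incr_le (m : ℤ → ℝ) {u₁ u₂ : ℤ} (h : u₁ < u₂) {c : ℝ} (hc : m u₂ - m u₁ ≤ c * (u₂ - u₁)) :
    ∃ u, u₁ < u ∧ u ≤ u₂ ∧ m u - m (u - 1) ≤ c := by
  obtain ⟨u, h1, h2, h3⟩ := exists_incr_ge (fun u => -m u) h (c := -c) (by linarith)
  exact ⟨u, h1, h2, by linarith⟩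

variable {G : Measure ℝ} [IsProbabilityMeasure G] [NullSingletonClass G]

/-- tangent line: `f = mu (·, 1)` is convex and differentiable, `mu (u, N) = N f (u / N)` (`symNorm_mu`; `fs_tangent`, `fs_eq` of `CFact0`) -/
theorem mu_tangent (H : HypC G) {N : ℝ} (hN : 0 < N) (u u' : ℝ) :
    mu G (u, N) + fp G (u / N) * (u' - u) ≤ mu G (u', N) := by
  have hs := symNorm_mu G H.hyp
  have h1 := mul_le_mul_of_nonneg_left (fs_tangent hs H.diff (u / N) (u' / N)) hN.le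
  rw [fs_eq hs (p := (u, N)) hN, fs_eq hs (p := (u', N)) hN]
  refine le_of_eq_of_le ?_ h1
  change N * fs (mu G) (u / N) + deriv (fs (mu G)) (u / N) * (u' - u) = _
  field_simp

/-- mean passage time across the strip -/
noncomputable def mS (G : Measure ℝ) (N : ℕ) (u : ℤ) : ℝ := ∫ t, TS t (rows 0 N) (0, 0) (u, N) ∂iidLaw G

theorem s1_setup (H : HypC G) {ξ₁ ξ₂ ε : ℝ} (h : ξ₁ < ξ₂) (hε : 0 < ε) : ∀ᶠ N : ℕ in atTop, ∃ u₁ u₂ : ℤ,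
    u₁ < u₂ ∧ ξ₁ * N ≤ u₁ ∧ (u₂ : ℝ) ≤ ξ₂ * N ∧ (ξ₂ - ξ₁) / 2 * N ≤ u₂ - u₁ ∧
      fp G ξ₁ * (u₂ - u₁) - ε * N ≤ mS G N u₂ - mS G N u₁ ∧ mS G N u₂ - mS G N u₁ ≤ fp G ξ₂ * (u₂ - u₁) + ε * N := by
  have hd : 0 < ξ₂ - ξ₁ := sub_pos.2 h
  filter_upwards [strip_mean G H.hyp (|ξ₁| + |ξ₂|) hε,
    tendsto_natCast_atTop_atTop.eventually_ge_atTop (4 / (ξ₂ - ξ₁))] with N h1 h2
  have hN : (0 : ℝ) < N := lt_of_lt_of_le (by positivity) h2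
  rw [div_le_iff₀ hd] at h2
  have a1 := Int.le_ceil (ξ₁ * N)
  have a2 := Int.ceil_lt_add_one (ξ₁ * N)
  have a3 := Int.floor_le (ξ₂ * N)
  have a4 := Int.lt_floor_add_one (ξ₂ * N)
  generalize ⌈ξ₁ * N⌉ = u₁ at a1 a2
  generalize ⌊ξ₂ * N⌋ = u₂ at a3 a4
  have a5 : (u₁ : ℝ) < u₂ := by linarith
  have b1 := mul_le_mul_of_nonneg_right (neg_abs_le ξ₁) hN.le
  have b2 := mul_le_mul_of_nonneg_right (le_abs_self ξ₂) hN.le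
  have b3 := mul_nonneg (abs_nonneg ξ₁) hN.le
  have b4 := mul_nonneg (abs_nonneg ξ₂) hN.le
  obtain ⟨-, c1, c2⟩ := h1 u₁ (abs_le.2 ⟨by linarith, by linarith⟩)
  obtain ⟨-, c3, c4⟩ := h1 u₂ (abs_le.2 ⟨by linarith, by linarith⟩)
  have d1 := mu_tangent H hN u₁ u₂
  have d2 := mu_tangent H hN u₂ u₁
  have d3 := mul_le_mul_of_nonneg_right (fp_mono H ((le_div_iff₀ hN).2 a1)) (sub_pos.2 a5).le
  have d4 := mul_le_mul_of_nonneg_right (fp_mono H ((div_le_iff₀ hN).2 a3)) (sub_pos.2 a5).le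
  refine ⟨u₁, u₂, by exact_mod_cast a5, a1, a3, by linarith, ?_, ?_⟩
  · simp only [mS]
    linarith
  · simp only [mS]
    linarith

/-- `u₁ = ⌈ξ₁ N⌉`, `u₂ = ⌊ξ₂ N⌋`, `u₂ - u₁ ≥ (ξ₂ - ξ₁) N / 2` for large `N`;
`mS u₂ - mS u₁ ≥ mu (u₂,N) - mu (u₁,N) - ε N ≥ fp ξ₁ (u₂ - u₁) - ε N` (`strip_mean`, `mu_tangent`, `fp_mono`), `ε = η (ξ₂ - ξ₁)/2` -/
theorem exists_target_ge (H : HypC G) {ξ₁ ξ₂ η : ℝ} (h : ξ₁ < ξ₂) (hη : 0 < η) : ∀ᶠ N : ℕ in atTop, ∃ u : ℤ,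
    ξ₁ * N ≤ u ∧ (u : ℝ) ≤ ξ₂ * N ∧ fp G ξ₁ - η ≤ mS G N u - mS G N (u - 1) := by
  have hd : 0 < ξ₂ - ξ₁ := sub_pos.2 h
  filter_upwards [s1_setup H h (ε := η * ((ξ₂ - ξ₁) / 2)) (by positivity)] with N ⟨u₁, u₂, a1, a2, a3, a4, a5, _⟩
  have b := mul_le_mul_of_nonneg_left a4 hη.le
  obtain ⟨u, c1, c2, c3⟩ := exists_incr_ge (mS G N) a1 (c := fp G ξ₁ - η) (by linarith)
  exact ⟨u, a2.trans (by exact_mod_cast c1.le), le_trans (by exact_mod_cast c2) a3, c3⟩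
theorem exists_target_le (H : HypC G) {ξ₁ ξ₂ η : ℝ} (h : ξ₁ < ξ₂) (hη : 0 < η) : ∀ᶠ N : ℕ in atTop, ∃ u : ℤ,
    ξ₁ * N ≤ u ∧ (u : ℝ) ≤ ξ₂ * N ∧ mS G N u - mS G N (u - 1) ≤ fp G ξ₂ + η := by
  have hd : 0 < ξ₂ - ξ₁ := sub_pos.2 h
  filter_upwards [s1_setup H h (ε := η * ((ξ₂ - ξ₁) / 2)) (by positivity)] with N ⟨u₁, u₂, a1, a2, a3, a4, _, a5⟩
  have b := mul_le_mul_of_nonneg_left a4 hη.le
  obtain ⟨u, c1, c2, c3⟩ := exists_incr_le (mS G N) a1 (c := fp G ξ₂ + η) (by linarith)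
  exact ⟨u, a2.trans (by exact_mod_cast c1.le), le_trans (by exact_mod_cast c2) a3, c3⟩

/-- slopes just outside a label interval.  `lo = max α (-A)`, `hi = min (α + h) A`; IVT between `fp (-Ξ) < -A`, `A < fp Ξ`:
choose values `lo - 2η', lo - η', hi + η', hi + 2η'` with `η' = min (h/4) ((fp Ξ - A)/2)`; the slopes are ordered by `fp_mono`. -/
theorem exists_slopes (H : HypC G) {α h a₀ : ℝ} (hh : 0 < h) (h0 : a₀ ∈ Set.Icc α (α + h)) (hA : |a₀| ≤ fp G 1) :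
    ∃ ξ₁ ξ₂ ξ₃ ξ₄ : ℝ, ξ₁ < ξ₂ ∧ ξ₂ < ξ₃ ∧ ξ₃ < ξ₄ ∧ fp G ξ₄ - fp G ξ₁ ≤ 2 * h ∧
      ∀ a ∈ Set.Icc α (α + h), |a| ≤ fp G 1 → fp G ξ₂ < a ∧ a < fp G ξ₃ := by
  obtain ⟨Ξ, hΞ⟩ := fact0 H
  have key : ∀ a, |a| < fp G Ξ → ∃ ξ, fp G ξ = a := fun a ha =>
    let ⟨ξ, _, h⟩ := exists_dfs_eq (symNorm_mu G H.hyp) H.diff ha
    ⟨ξ, h⟩
  obtain ⟨η, e0, e1, e2⟩ : ∃ η : ℝ, 0 < η ∧ η ≤ h / 4 ∧ η ≤ (fp G Ξ - fp G 1) / 4 :=
    ⟨min _ _, lt_min (by linarith) (by linarith), min_le_left _ _, min_le_right _ _⟩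
  obtain ⟨b1, b2⟩ := abs_le.1 hA
  have l1 := le_max_left α (-fp G 1)
  have l2 := le_max_right α (-fp G 1)
  have l3 : max α (-fp G 1) ≤ a₀ := max_le h0.1 b1
  have r1 := min_le_left (α + h) (fp G 1)
  have r2 := min_le_right (α + h) (fp G 1)
  have r3 : a₀ ≤ min (α + h) (fp G 1) := le_min h0.2 b2
  obtain ⟨ξ₁, x1⟩ := key (max α (-fp G 1) - 2 * η) (abs_lt.2 ⟨by linarith, by linarith⟩)
  obtain ⟨ξ₂, x2⟩ := key (max α (-fp G 1) - η) (abs_lt.2 ⟨by linarith, by linarith⟩)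
  obtain ⟨ξ₃, x3⟩ := key (min (α + h) (fp G 1) + η) (abs_lt.2 ⟨by linarith, by linarith⟩)
  obtain ⟨ξ₄, x4⟩ := key (min (α + h) (fp G 1) + 2 * η) (abs_lt.2 ⟨by linarith, by linarith⟩)
  refine ⟨ξ₁, ξ₂, ξ₃, ξ₄, (fp_mono H).reflect_lt (by linarith), (fp_mono H).reflect_lt (by linarith),
    (fp_mono H).reflect_lt (by linarith), by linarith, fun a ha ha' => ?_⟩
  obtain ⟨c1, c2⟩ := abs_le.1 ha'
  have := max_le ha.1 c1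
  have := le_min ha.2 c2
  exact ⟨by linarith, by linarith⟩

end Crest.Agent.R151
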