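import Crest.Agent.R151.SBas

/-! R151 part C soft, C7: Busemann functions of the upper ends.  Helper prefix `s9_`. -/

set_option autoImplicit false

open MeasureTheory ProbabilityTheory Crest.ProbabilityR.FirstPassage Filter Topology
open scoped ENNReal

namespace Crest.Agent.R151

variable {t : Env} {γ γ' : ℤ → V}

theorem s9_rows {p : ℤ → V} {n : ℤ} (hp : PathIn (upper 1) p 0 n) :
    ∀ᶠ N : ℕ in atTop, PathIn (rows 1 (1 + N)) p 0 n := by
  obtain ⟨B, hB⟩ := ((Set.finite_Icc 0 n).image fun k => (p k).2).bddAbove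
  filter_upwards [(tendsto_natCast_atTop_atTop (R := ℤ)).eventually_ge_atTop B] with N hN
  refine hp.restrict fun k h1 h2 => ⟨hp.2.1 k h1 h2, ?_⟩
  have := hB ⟨k, ⟨h1, h2⟩, rfl⟩
  dsimp only at this
  omega

/-- `φ k = TS t (upper 1) (x,1) (γ k) - pot t γ k` is antitone on `k ≥ k₀ = la γ 0 + 1` (`TS_triangle`, `TS_le_edge`, `pot_sub`) and bounded below by
`-T t (γ 0) (x,1)` for `k ≥ 0` (`T_le_TS`, `T_triangle`, `Bi.T_eq`).  Put `b x = sInf (φ '' Ici k₀)`.  `le`: the hypothesis forces `k ≥ k₀` (`Line.la_row`).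
`lim`: from below `TU ≥ TS (upper 1)` (`TS_anti`) and `fi γ (1+N) ≥ k₀` eventually.  From above: take `k ≥ k₀` with `φ k < b + ε` and a path in `upper 1`
from `(x,1)` to `γ k` of cost `< TS + ε` (`exists_path_lt`); for large `N` it lies in the rows `≤ 1 + N` and `fi γ (1+N) ≥ k`; `TS_triangle` in the strip and
`Bi.TS_eq` (sub-path of `Line.pathIn_up`). -/
theorem exists_busU (ht : ∀ e, 0 ≤ t e) (hb : Bi t γ) (hl : Line γ) : ∃ b, BusU t γ b := by
  set k₀ := la γ 0 + 1 with hk₀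
  have hup : ∀ k, k₀ ≤ k → γ k ∈ upper 1 := fun k hk => hl.la_lt (y := 0) (by omega)
  let φ : ℤ → ℤ → ℝ := fun x k => TS t (upper 1) (x, 1) (γ k) - pot t γ k
  have hx : ∀ x : ℤ, ((x, 1) : V) ∈ upper 1 := fun x => le_refl (1 : ℤ)
  have hbd : ∀ x, BddBelow (φ x '' Set.Ici k₀) := fun x => by
    refine ⟨-T t (γ k₀) (x, 1) - pot t γ k₀, ?_⟩
    rintro _ ⟨k, hk, rfl⟩
    have h1 := T_le_TS ht (conn_upper (hx x) (hup k hk))
    have h2 := T_triangle (x := γ k₀) (y := (x, 1)) (z := γ k) ht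
    rw [hb.T_eq hk] at h2
    simp only [φ]
    linarith
  have hle : ∀ x k, k₀ ≤ k → sInf (φ x '' Set.Ici k₀) ≤ φ x k := fun x k hk => csInf_le (hbd x) ⟨k, hk, rfl⟩
  refine ⟨fun x => sInf (φ x '' Set.Ici k₀), fun x => ?_, fun x k hk => hle x k ?_⟩
  · have hfi := hl.tendsto_fi 1
    have hmem : ∀ N : ℕ, γ (fi γ (1 + N)) ∈ rows 1 (1 + N) := fun N =>
      ⟨by rw [hl.fi_row]; omega, (hl.fi_row _).le⟩
    have hxm : ∀ N : ℕ, ((x, 1) : V) ∈ rows 1 (1 + N) := fun N => ⟨le_rfl, by show (1 : ℤ) ≤ 1 + N; omega⟩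
    have hTU : ∀ (N : ℕ) (u : V), TU t 0 N x u = TS t (rows 1 (1 + N)) (x, 1) u := fun N u => by
      rw [TU, zero_add]
    refine tendsto_order.2 ⟨fun c hc => ?_, fun c hc => ?_⟩
    · filter_upwards [hfi.eventually_ge_atTop k₀] with N hN
      have h1 := TS_anti (S' := upper 1) ht (fun v hv => hv.1) (conn_rows (hxm N) (hmem N))
      have h2 := hle x _ hN
      rw [hTU]
      simp only [φ] at h2
      linarith
    · obtain ⟨_, ⟨k, hk, rfl⟩, h1⟩ := exists_lt_of_csInf_lt (Set.nonempty_Ici.image _) hc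
      obtain ⟨p, n, hp, -, e1, e2, h2⟩ := exists_path_lt (c := c + pot t γ k) ht (conn_upper (hx x) (hup k hk))
        (by simp only [φ] at h1; linarith)
      filter_upwards [hfi.eventually_ge_atTop k, s9_rows hp, hl.pathIn_up 0] with N h3 h4 h5
      rw [zero_add] at h5
      have h6 := h5.sub hk h3 le_rfl
      have h7 := TS_le_cost ht h4
      have h8 := TS_triangle ht h4.conn (e2 ▸ h6.conn)
      rw [e1, e2] at h7 h8
      rw [hb.TS_eq ht h3 h6.2.1] at h8
      rw [hTU]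
      linarith
  · by_contra e
    have := hk (la γ 0) (by omega)
    rw [hl.la_row] at this
    omega

theorem SameU.symm (h : SameU t γ γ') : SameU t γ' γ := by
  obtain ⟨b, β, h1, h2⟩ := h
  exact ⟨fun x => b x - β, -β, h2, by simpa using h1⟩

theorem s9_inc {b : ℤ → ℝ} (h : BusU t γ b) (x : ℤ) :
    Tendsto (fun N : ℕ => incU t γ N x) atTop (𝓝 (b (x + 1) - b x)) := by
  refine ((h.lim (x + 1)).sub (h.lim x)).congr fun N => ?_
  rw [incU]
  ring

/-- If all increments of the two Busemann functions agree then `b' x = b x - (b 0 - b' 0)` (`Int.induction_on`).  Otherwise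
`incU t γ N x - incU t γ' N x` tends to a nonzero limit (the `pot` terms cancel); take `1/(n+1)` below its absolute value. -/
theorem jump_of_not_same (ht : ∀ e, 0 ≤ t e) (hb : Bi t γ) (hl : Line γ) (hb' : Bi t γ') (hl' : Line γ')
    (h : ¬ SameU t γ γ') : ∃ (x : ℤ) (n : ℕ), (∀ᶠ N : ℕ in atTop, 1 / ((n : ℝ) + 1) ≤ incU t γ N x - incU t γ' N x) ∨
      ∀ᶠ N : ℕ in atTop, 1 / ((n : ℝ) + 1) ≤ incU t γ' N x - incU t γ N x := by
  obtain ⟨b, h1⟩ := exists_busU ht hb hl
  obtain ⟨b', h2⟩ := exists_busU ht hb' hl'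
  have : ∃ x, b (x + 1) - b x - (b' (x + 1) - b' x) ≠ 0 := by
    by_contra e
    push Not at e
    refine h ⟨b, b 0 - b' 0, h1, ?_⟩
    have : b' = fun x => b x - (b 0 - b' 0) := by
      funext x
      induction x using Int.induction_on with
      | zero => ring
      | succ n ih => linarith [e n]
      | pred n ih =>
        have := e (-n - 1)
        rw [sub_add_cancel] at this
        linarith
    exact this ▸ h2
  obtain ⟨x, hx⟩ := this
  rcases hx.lt_or_gt with hx | hx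
  · obtain ⟨n, hn⟩ := exists_nat_one_div_lt (show 0 < b' (x + 1) - b' x - (b (x + 1) - b x) by linarith)
    exact ⟨x, n, Or.inr (((s9_inc h2 x).sub (s9_inc h1 x)).eventually_const_le hn)⟩
  · obtain ⟨n, hn⟩ := exists_nat_one_div_lt hx
    exact ⟨x, n, Or.inl (((s9_inc h1 x).sub (s9_inc h2 x)).eventually_const_le hn)⟩

end Crest.Agent.R151
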