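import Crest.Agent.R151.Base
import Crest.Agent.R151.CGeom

/-!
# R151 part C, soft part (C4–C10): definitions and map of the files (owner helper41; DO NOT EDIT, msg helper41)

`SBas` (curve API), `SSym` (covariance under translations and the point reflection), `SMeas` (measurability),
`SErg`, `SErg2` (charge lemma, intensity, counting labels), `SBud1`, `SBud`, `SSwap` (C4), `SH` (C5),
`STree`, `SBr`, `SBr2` (C6), `SBus`, `SJump` (C7), `SRung`, `SFrag`, `SSpec` (C8), `SW` (C9),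
`SKon`, `SLab`, `SWge`, `STilt1`, `STilt2` (C10), `SFin`, `PartC`.
Differences with `BlueC`: the ladder runs UPWARDS (forward ends); the margin of an edge is defined by raising its weight
(`Marg`); step (M) is replaced by `Fragile` (stable under lowering an edge of the curve).
-/

set_option autoImplicit false

open MeasureTheory ProbabilityTheory Crest.ProbabilityR.FirstPassage Filter Topology
open scoped ENNReal

namespace Crest.Agent.R151

/-- a self-avoiding doubly infinite path going from the rows `-∞` to the rows `+∞` -/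
structure Line (γ : ℤ → V) : Prop where
  adj : ∀ k, Adj (γ k) (γ (k + 1))
  inj : Function.Injective γ
  up : Tendsto (fun k => (γ k).2) atTop atTop
  down : Tendsto (fun k => (γ k).2) atBot atBot

/-- signed cost along `γ` from the index `0` -/
noncomputable def pot (t : Env) (γ : ℤ → V) (k : ℤ) : ℝ := cost t γ 0 k - cost t γ k 0

/-- first index in the rows `≥ y` -/
noncomputable def fi (γ : ℤ → V) (y : ℤ) : ℤ := sInf {k | y ≤ (γ k).2}

/-- last index in the rows `≤ y` -/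
noncomputable def la (γ : ℤ → V) (y : ℤ) : ℤ := sSup {k | (γ k).2 ≤ y}

/-- reindexed and translated path; it lives in the environment `shift v t` -/
def mv (γ : ℤ → V) (c : ℤ) (v : V) : ℤ → V := fun k => γ (k + c) - v

/-- the point reflection exchanging the rows `≥ 1` and the rows `≤ 0` -/
def rf (v : V) : V := (-v.1, 1 - v.2)

/-- reflected and reversed path; it lives in the environment `act rf t` -/
def rfc (γ : ℤ → V) : ℤ → V := fun k => rf (γ (-k))

/-- passage time in the strip above the gap `j` -/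
noncomputable def TU (t : Env) (j : ℤ) (N : ℕ) (x : ℤ) (u : V) : ℝ := TS t (rows (j + 1) (j + 1 + N)) (x, j + 1) u

/-- passage time in the strip below the gap `j` -/
noncomputable def TD (t : Env) (j : ℤ) (N : ℕ) (x : ℤ) (u : V) : ℝ := TS t (rows (j - N) j) (x, j) u

/-- excess of the best path between the two ends of `γ` through `(x', j)` and `(x, j + 1)` -/
noncomputable def Exc (t : Env) (γ : ℤ → V) (j : ℤ) (N : ℕ) (x' x : ℤ) : ℝ :=
  TD t j N x' (γ (la γ (j - N))) + T t (x', j) (x, j + 1) + TU t j N x (γ (fi γ (j + 1 + N))) -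
    T t (γ (la γ (j - N))) (γ (fi γ (j + 1 + N)))

/-- `W_j(γ) ≥ s` beyond the column `D` -/
def Wge (L : ℕ) (s : ℝ) (t : Env) (γ : ℤ → V) (j D : ℤ) : Prop :=
  ∀ x x' : ℤ, D ≤ x → |x' - x| ≤ L → ∀ᶠ N : ℕ in atTop, s ≤ Exc t γ j N x' x

/-- the `k`-th edge of `γ` has margin `≥ δ`: `γ` survives raising its weight by `δ` -/
def Marg (δ : ℝ) (t : Env) (γ : ℤ → V) (k : ℤ) : Prop :=
  Bi (Function.update t (edge γ k) (t (edge γ k) + δ)) γ

/-- good exit at the origin, label in `I` -/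
def GE (G : Measure ℝ) (L : ℕ) (q : ℝ) (I : Set ℝ) : Set Env :=
  {t | ∃ γ a, a ∈ I ∧ Curve G t γ a ∧ γ 0 = 0 ∧ Good L q t γ 0}

/-- tame exit at the origin with margin -/
def MG (G : Measure ℝ) (L : ℕ) (δ : ℝ) (I : Set ℝ) : Set Env :=
  {t | ∃ γ a, a ∈ I ∧ Curve G t γ a ∧ γ 0 = 0 ∧ Tame L γ 0 ∧ Marg δ t γ 0}

/-- good exit at the origin with `W ≥ s` beyond `D` -/
def WE (G : Measure ℝ) (L : ℕ) (q s : ℝ) (I : Set ℝ) (D : ℤ) : Set Env :=
  {t | ∃ γ a, a ∈ I ∧ Curve G t γ a ∧ γ 0 = 0 ∧ Good L q t γ 0 ∧ Wge L s t γ 0 D}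

/-- the origin is a branch vertex -/
def Br (G : Measure ℝ) : Set Env :=
  {t | ∃ γ γ' a, Curve G t γ a ∧ Curve G t γ' a ∧ γ 0 = 0 ∧ (∀ k, k ≤ 0 → γ k = γ' k) ∧ γ 1 ≠ γ' 1}

/-- the origin is the start of the last edge with margin `≥ δ` of a curve -/
def Sp (G : Measure ℝ) (δ : ℝ) : Set Env :=
  {t | ∃ γ a, Curve G t γ a ∧ γ 0 = 0 ∧ Marg δ t γ 0 ∧ ∀ k, 0 < k → ¬ Marg δ t γ k}

/-- the conclusion of `ae_tube` with the constant `r` -/
def Tube (G : Measure ℝ) (ξ σ α β ε r : ℝ) : Set Env :=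
  {t | ∀ γ a, Curve G t γ a → α ≤ a → a ≤ β → ∀ i k,
    |((γ k).1 - (γ i).1 : ℝ) - ξ * ((γ k).2 - (γ i).2)| ≤ σ * |((γ k).2 - (γ i).2 : ℝ)| + ε * nrm (γ i) + r}

/-- horizontal increment of the passage time to the upper end of `γ` -/
noncomputable def incU (t : Env) (γ : ℤ → V) (N : ℕ) (x : ℤ) : ℝ :=
  TU t 0 N (x + 1) (γ (fi γ (1 + N))) - TU t 0 N x (γ (fi γ (1 + N)))

/-- budget of the upper half plane for the labels in `I` -/
structure BudU (G : Measure ℝ) (I : Set ℝ) (b : ℝ) (Λ : ℕ → Env → ℝ≥0∞) : Prop where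
  meas : ∀ N, Measurable (Λ N)
  dep : ∀ N, DependsOnly (Λ N) (edgesIn (upper 1))
  int : ∀ᶠ N in atTop, ∫⁻ t, Λ N t ∂iidLaw G ≤ ENNReal.ofReal b
  bd : ∀ t, Reg t → ∀ γ a γ' a', a ∈ I → a' ∈ I → Curve G t γ a → Curve G t γ' a' → ∀ x : ℤ,
    ∀ᶠ N in atTop, ENNReal.ofReal (incU t γ N x - incU t γ' N x) ≤ Λ N (shift (x, 0) t)

/-- two-sided budget: the SWAP inequality -/
structure Bud (G : Measure ℝ) (L : ℕ) (I : Set ℝ) (b : ℝ) (Λ : ℕ → Env → ℝ≥0∞) : Prop where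
  meas : ∀ N, Measurable (Λ N)
  int : ∀ᶠ N in atTop, ∫⁻ t, Λ N t ∂iidLaw G ≤ ENNReal.ofReal b
  swap : ∀ t, Reg t → ∀ γ a γ' a' k', a ∈ I → a' ∈ I → Curve G t γ a → Curve G t γ' a' → γ 0 = 0 → Tame L γ 0 →
    (γ' k').2 = 0 → Tame L γ' k' → 0 ≤ (γ' k').1 → ∀ᶠ N in atTop,
      ENNReal.ofReal (Exc t γ 0 N (γ' (fi γ' 1 - 1)).1 (γ' k').1) ≤
        ∑ y ∈ Finset.Icc (-(L : ℤ)) ((γ' k').1 + L), Λ N (shift (y, 0) t)

/-- `b` is the Busemann function, on row `1`, of the upper end of `γ` in the half plane of the rows `≥ 1` -/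
structure BusU (t : Env) (γ : ℤ → V) (b : ℤ → ℝ) : Prop where
  lim : ∀ x, Tendsto (fun N : ℕ => TU t 0 N x (γ (fi γ (1 + N))) - pot t γ (fi γ (1 + N))) atTop (𝓝 (b x))
  le : ∀ x k, (∀ m, k ≤ m → 1 ≤ (γ m).2) → b x ≤ TS t (upper 1) (x, 1) (γ k) - pot t γ k

/-- the Busemann functions differ by a constant -/
def SameU (t : Env) (γ γ' : ℤ → V) : Prop := ∃ b β, BusU t γ b ∧ BusU t γ' fun x => b x - β

/-- cheap rungs from every point of `γ` to the far points of `γ'` -/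
def Rung (t : Env) (γ γ' : ℤ → V) (β : ℝ) : Prop :=
  ∀ ε > 0, ∀ k, ∀ᶠ k' in atTop, T t (γ k) (γ' k') + pot t γ k - pot t γ' k' + β ≤ ε

/-- cheap detours, edge-disjoint from `γ`, around all far edges -/
def Fragile (t : Env) (γ : ℤ → V) : Prop :=
  ∀ ε > 0, ∀ i₀, ∃ i, i₀ ≤ i ∧ ∀ k, i ≤ k → ∃ j p a b, k < j ∧ PathIn Set.univ p a b ∧ p a = γ i ∧ p b = γ j ∧
    (∀ m l, a ≤ m → m < b → edge p m ≠ edge γ l) ∧ cost t p a b ≤ cost t γ i j + ε

/-- `γ'` is a limit of `t'`-geodesics between far points of `γ` -/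
def Approx (t' : Env) (γ γ' : ℤ → V) : Prop :=
  ∀ n : ℤ, ∃ (k : ℤ) (g : ℤ → V) (i j : ℤ), n ≤ k ∧ IsGeo t' Set.univ g i j ∧ g i = γ (-k) ∧ g j = γ k ∧
    i ≤ -n ∧ n ≤ j ∧ ∀ m, |m| ≤ n → g m = γ' m

/-- at most one curve per label -/
def Uniq (G : Measure ℝ) (t : Env) : Prop :=
  ∀ γ γ' a, Curve G t γ a → Curve G t γ' a → ∃ c, ∀ k, γ' k = γ (k + c)

/-- the lattice points of the parallelogram `y₀ ≤ y < y₀ + H`, `|x - ξ y| ≤ r` -/
noncomputable def par (ξ r : ℝ) (y₀ : ℤ) (H : ℕ) : Finset V :=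
  (Finset.Ico y₀ (y₀ + H)).biUnion fun y => (Finset.Icc ⌈ξ * y - r⌉ ⌊ξ * y + r⌋).image fun x => (x, y)

/-- the square `[0, w)²` -/
noncomputable def sq (w : ℕ) : Finset V := Finset.Ico (0 : ℤ) w ×ˢ Finset.Ico (0 : ℤ) w

/-- the segment `[0, w) × {0}` -/
noncomputable def seg (w : ℕ) : Finset V := Finset.Ico (0 : ℤ) w ×ˢ {0}

open Classical in
/-- number of points of `Z` at which the event `A` occurs -/
noncomputable def cnt (A : Set Env) (Z : Finset V) (t : Env) : ℕ := (Z.filter fun z => shift z t ∈ A).card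

/-- the geodesics from `p` to `y` and from `p` to `y'` separate at `z` -/
def Branch (t : Env) (p y y' z : V) : Prop :=
  ∃ (g g' : ℤ → V) (i j j' : ℤ), i ≤ 0 ∧ 0 < j ∧ 0 < j' ∧ IsGeo t Set.univ g i j ∧ IsGeo t Set.univ g' i j' ∧
    g i = p ∧ g' i = p ∧ g j = y ∧ g' j' = y' ∧ g 0 = z ∧ g' 0 = z ∧ g 1 ≠ g' 1

/-- the `i`-th cell of width `h` from `α` on -/
def cell (α h : ℝ) (i : ℕ) : Set ℝ := Set.Icc (α + i * h) (α + i * h + h)

/-- the vertical edge above `v` -/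
def upE (v : V) : Sym2 V := s(v, v + (0, 1))

/-- `ν` counts the labels `a` with `Φ t a` -/
def Counts (Φ : Env → ℝ → Prop) (ν : Env → ℝ≥0∞) (t : Env) : Prop :=
  ∀ S : Finset ℝ, (∀ a ∈ S, Φ t a) → (S.card : ℝ≥0∞) ≤ ν t

end Crest.Agent.R151
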