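import Crest.Agent.R151.SSym

/-! R151 part C soft: the charge lemma (mass transport), events of zero intensity.  Helper prefix `se_`. -/

set_option autoImplicit false

open MeasureTheory ProbabilityTheory Crest.ProbabilityR.FirstPassage Filter Topology
open scoped ENNReal

namespace Crest.Agent.R151

variable {G : Measure ℝ} [IsProbabilityMeasure G]

open Classical in
/-- At most `4L+2` points charge the origin.  `X ⊆ X'` sets of integers; `x` charges `0` if `x ∈ X`, `x - L ≤ 0` and no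
point of `X'` lies in `(x + 2L, -L)`.  At most `2L+1` chargers lie in `[-L, L]`; two chargers `x₁ < x₂ < -L` satisfy
`x₂ ≤ x₁ + 2L`, so those below `-L` lie in a window `[m, m + 2L]`, `m` the least of them. -/
theorem card_chargers (L : ℕ) (X X' : Set ℤ) (h : X ⊆ X') (C : Finset ℤ)
    (hC : ∀ x ∈ C, x ∈ X ∧ x ≤ L ∧ ∀ z, x + 2 * L < z → z < -L → z ∉ X') : C.card ≤ 4 * L + 2 := by
  by_cases hne : (C.filter fun x => x < -(L : ℤ)).Nonempty
  · obtain ⟨m, hm, hmin⟩ := Finset.exists_min_image _ id hne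
    obtain ⟨hmC, -⟩ := Finset.mem_filter.1 hm
    have hsub : C ⊆ Finset.Icc (-(L : ℤ)) L ∪ Finset.Icc m (m + 2 * L) := by
      intro x hx
      rw [Finset.mem_union, Finset.mem_Icc, Finset.mem_Icc]
      by_cases hx' : x < -(L : ℤ)
      · refine Or.inr ⟨hmin x (Finset.mem_filter.2 ⟨hx, hx'⟩), ?_⟩
        by_contra hc
        exact (hC m hmC).2.2 x (not_le.1 hc) hx' (h (hC x hx).1)
      · exact Or.inl ⟨not_lt.1 hx', (hC x hx).2.1⟩
    refine (Finset.card_le_card hsub).trans ((Finset.card_union_le _ _).trans ?_)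
    rw [Int.card_Icc, Int.card_Icc]
    omega
  · have hsub : C ⊆ Finset.Icc (-(L : ℤ)) L := by
      intro x hx
      rw [Finset.mem_Icc]
      refine ⟨?_, (hC x hx).2.1⟩
      by_contra hc
      exact hne ⟨x, Finset.mem_filter.2 ⟨hx, not_le.1 hc⟩⟩
    refine (Finset.card_le_card hsub).trans ?_
    rw [Int.card_Icc]
    omega

theorem se_null {A : Set Env} (hA : NullMeasurableSet A (iidLaw G)) (v : V) :
    NullMeasurableSet (shift v ⁻¹' A) (iidLaw G) :=
  hA.preimage (measurePreserving_shift G v).quasiMeasurePreserving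

/-- the event that the origin charges `y` -/
def se_E (X X' : Set Env) (L : ℕ) (y : ℤ) : Set Env :=
  {t | t ∈ X ∧ -(L : ℤ) ≤ y ∧ ∀ z : ℤ, 2 * L < z → z < y - L → shift (z, 0) t ∉ X'}

theorem se_E_null {X X' : Set Env} (hX : NullMeasurableSet X (iidLaw G))
    (hX' : NullMeasurableSet X' (iidLaw G)) (L : ℕ) (y : ℤ) :
    NullMeasurableSet (se_E X X' L y) (iidLaw G) := by
  have e : se_E X X' L y = X ∩ ({_t | -(L : ℤ) ≤ y} ∩
      ⋂ z : ℤ, ⋂ _ : 2 * (L : ℤ) < z, ⋂ _ : z < y - L, (shift (z, 0) ⁻¹' X')ᶜ) := by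
    ext t
    simp only [se_E, Set.mem_ofPred_eq, Set.mem_inter_iff, Set.mem_iInter, Set.mem_compl_iff,
      Set.mem_preimage]
  rw [e]
  exact hX.inter ((MeasurableSet.const _).nullMeasurableSet.inter
    (NullMeasurableSet.iInter fun z => NullMeasurableSet.iInter fun _ =>
      NullMeasurableSet.iInter fun _ => (se_null hX' _).compl))

theorem se_received {X X' : Set Env} (hsub : X ⊆ X') (L : ℕ) (Λ : Env → ℝ≥0∞) (t : Env) :
    ∑' y : ℤ, (se_E X X' L y).indicator (fun t => Λ (shift (y, 0) t)) (shift (-y, 0) t) ≤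
      (4 * L + 2) * Λ t := by
  classical
  rw [ENNReal.tsum_eq_iSup_sum]
  refine iSup_le fun s => ?_
  have e : ∀ y : ℤ, (se_E X X' L y).indicator (fun t => Λ (shift (y, 0) t)) (shift (-y, 0) t) =
      if shift (-y, 0) t ∈ se_E X X' L y then Λ t else 0 := by
    intro y
    rw [Set.indicator_apply, shift_shift]
    have : ((-y, 0) + (y, 0) : V) = 0 := by ext <;> simp
    rw [this, shift_zero]
  simp only [e]
  rw [← Finset.sum_filter, Finset.sum_const, nsmul_eq_mul]
  refine mul_le_mul_left ?_ _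
  have hc := card_chargers L {x | shift (x, 0) t ∈ X} {x | shift (x, 0) t ∈ X'}
    (fun x hx => hsub hx) ((s.filter fun y => shift (-y, 0) t ∈ se_E X X' L y).image Neg.neg) (by
      intro x hx
      obtain ⟨y, hy, rfl⟩ := Finset.mem_image.1 hx
      obtain ⟨h1, h2, h3⟩ := (Finset.mem_filter.1 hy).2
      refine ⟨h1, by omega, fun z hz hz' => ?_⟩
      have h4 := h3 (z + y) (by omega) (by omega)
      rw [shift_shift] at h4
      have : ((-y, 0) + (z + y, 0) : V) = (z, 0) := by ext <;> simp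
      rwa [this] at h4)
  rw [Finset.card_image_of_injective _ neg_injective] at hc
  exact_mod_cast hc

/-- Charge lemma.  Put `E y = X ∩ {-L ≤ y} ∩ ⋂_{2L < z < y - L} (shift (z,0))⁻¹ X'ᶜ` (null-measurable) and
`g N t y = 1_{E y}(t) Λ N (shift (y,0) t)`.  By `recurrence` (for `X'`, `v = (1,0)`, `x = 0`) a.e. `t ∈ X` has a next point `x'`;
`t ∈ E y` for `y ∈ [-L, x' + L]`, so `s 1_X ≤ liminf_N ∑' y, g N t y`.  Fatou (`lintegral_liminf_le'`), `mass_transport_row`:
`g N (shift (-y,0) t) y = 1_{E y}(shift (-y,0) t) Λ N t` and `∑' y, 1_{E y}(shift (-y,0) t) ≤ 4L+2` by `card_chargers`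
(`x = -y`, `ENNReal.tsum_eq_iSup_sum`). -/
theorem charge {X X' : Set Env} (hX : NullMeasurableSet X (iidLaw G)) (hX' : NullMeasurableSet X' (iidLaw G))
    (hsub : X ⊆ X') (L : ℕ) {Λ : ℕ → Env → ℝ≥0∞} (hΛ : ∀ N, Measurable (Λ N)) {b s : ℝ≥0∞}
    (hb : ∀ᶠ N in atTop, ∫⁻ t, Λ N t ∂iidLaw G ≤ b)
    (h : ∀ᵐ t ∂iidLaw G, t ∈ X → ∀ x' : ℤ, 2 * L < x' → shift (x', 0) t ∈ X' →
      (∀ z : ℤ, 2 * L < z → z < x' → shift (z, 0) t ∉ X') →
      ∀ᶠ N in atTop, s ≤ ∑ y ∈ Finset.Icc (-(L : ℤ)) (x' + L), Λ N (shift (y, 0) t)) :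
    s * iidLaw G X ≤ (4 * L + 2) * b := by
  have hg : ∀ N y, AEMeasurable
      (fun t => (se_E X X' L y).indicator (fun t => Λ N (shift (y, 0) t)) t) (iidLaw G) :=
    fun N y => ((hΛ N).comp (measurable_shift _)).aemeasurable.indicator₀ (se_E_null hX hX' L y)
  have h1 : ∀ᵐ t ∂iidLaw G, X.indicator (fun _ => s) t ≤ liminf
      (fun N => ∑' y : ℤ, (se_E X X' L y).indicator (fun t => Λ N (shift (y, 0) t)) t) atTop := by
    filter_upwards [h, recurrence G hX' (1, 0)] with t ht hrec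
    by_cases hx : t ∈ X
    · rw [Set.indicator_of_mem hx]
      have h0 := hrec 0 (by rw [shift_zero]; exact hsub hx)
      obtain ⟨n, hn, hn'⟩ := (h0.and_eventually (eventually_gt_atTop (2 * L))).exists
      have e : ((0 : V) + n • ((1, 0) : V)) = ((n : ℤ), 0) := by ext <;> simp
      rw [e] at hn
      obtain ⟨x', ⟨hx1, hx2⟩, hx3⟩ := Int.exists_least_of_bdd
        (P := fun x : ℤ => 2 * (L : ℤ) < x ∧ shift (x, 0) t ∈ X') ⟨2 * L, fun z hz => hz.1.le⟩
        ⟨n, by exact_mod_cast hn', hn⟩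
      have hx4 : ∀ z : ℤ, 2 * L < z → z < x' → shift (z, 0) t ∉ X' := fun z hz hz' hc =>
        absurd (hx3 z ⟨hz, hc⟩) (not_le.2 hz')
      refine le_liminf_of_le (by isBoundedDefault) ?_
      filter_upwards [ht hx x' hx1 hx2 hx4] with N hN
      refine hN.trans (le_trans (le_of_eq ?_) (ENNReal.sum_le_tsum (Finset.Icc (-(L : ℤ)) (x' + L))))
      refine Finset.sum_congr rfl fun y hy => ?_
      rw [Finset.mem_Icc] at hy
      rw [Set.indicator_of_mem]
      exact ⟨hx, hy.1, fun z hz hz' => hx4 z hz (by omega)⟩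
    · rw [Set.indicator_of_notMem hx]
      exact zero_le
  have h2 := (lintegral_mono_ae h1).trans
    (lintegral_liminf_le' fun N => AEMeasurable.tsum fun y => hg N y)
  rw [lintegral_indicator_const₀ hX] at h2
  refine h2.trans (liminf_le_of_frequently_le' (Eventually.frequently ?_))
  filter_upwards [hb] with N hN
  rw [mass_transport_row G
    (fun t y => (se_E X X' L y).indicator (fun t => Λ N (shift (y, 0) t)) t) (hg N)]
  refine (lintegral_mono fun t => se_received hsub L (Λ N) t).trans ?_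
  rw [lintegral_const_mul _ (hΛ N)]
  exact mul_le_mul_right hN _

theorem se_cnt (A : Set Env) (Z : Finset V) (t : Env) :
    (cnt A Z t : ℝ≥0∞) = ∑ z ∈ Z, (shift z ⁻¹' A).indicator (fun _ => (1 : ℝ≥0∞)) t := by
  classical
  unfold cnt
  rw [Finset.card_filter, Nat.cast_sum]
  refine Finset.sum_congr rfl fun z _ => ?_
  by_cases hz : shift z t ∈ A
  · rw [if_pos hz, Set.indicator_of_mem (show t ∈ shift z ⁻¹' A from hz), Nat.cast_one]
  · rw [if_neg hz, Set.indicator_of_notMem (show t ∉ shift z ⁻¹' A from hz), Nat.cast_zero]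

theorem aemeasurable_cnt {A : Set Env} (hA : NullMeasurableSet A (iidLaw G)) (Z : Finset V) :
    AEMeasurable (fun t => (cnt A Z t : ℝ≥0∞)) (iidLaw G) := by
  simp only [se_cnt]
  exact Finset.aemeasurable_fun_sum _ fun z _ => aemeasurable_const.indicator₀ (se_null hA z)
theorem lintegral_cnt {A : Set Env} (hA : NullMeasurableSet A (iidLaw G)) (Z : Finset V) :
    ∫⁻ t, (cnt A Z t : ℝ≥0∞) ∂iidLaw G = Z.card * iidLaw G A := by
  simp only [se_cnt]
  rw [lintegral_finsetSum' _ fun z _ => aemeasurable_const.indicator₀ (se_null hA z)]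
  rw [Finset.sum_congr rfl fun z _ => by
    rw [lintegral_indicator_const₀ (se_null hA z), one_mul,
      (measurePreserving_shift G z).measure_preimage hA]]
  rw [Finset.sum_const, nsmul_eq_mul]
/-- second moment: `cnt * cnt` is the sum of the indicators of `shift p ⁻¹' A ∩ shift y ⁻¹' A`, whose measure is that of
`A ∩ shift (y - p) ⁻¹' A`; `mixing` -/
theorem lintegral_cnt_mul {A : Set Env} (hA : NullMeasurableSet A (iidLaw G)) {ε : ℝ} (hε : 0 < ε) :
    ∃ R : ℤ, ∀ Z Z' : Finset V, (∀ p ∈ Z, ∀ y ∈ Z', R ≤ nrm (y - p)) →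
      ∫⁻ t, (cnt A Z t : ℝ≥0∞) * cnt A Z' t ∂iidLaw G ≤
        ENNReal.ofReal (Z.card * Z'.card * ((iidLaw G).real A ^ 2 + ε)) := by
  obtain ⟨R, hR⟩ := mixing G hA hA hε
  refine ⟨R, fun Z Z' hZ => ?_⟩
  have e : ∀ t, (cnt A Z t : ℝ≥0∞) * cnt A Z' t = ∑ q ∈ Z ×ˢ Z',
      (shift q.1 ⁻¹' (A ∩ shift (q.2 - q.1) ⁻¹' A)).indicator (fun _ => (1 : ℝ≥0∞)) t := by
    intro t
    rw [se_cnt, se_cnt, Finset.sum_mul_sum, Finset.sum_product]
    refine Finset.sum_congr rfl fun p _ => Finset.sum_congr rfl fun y _ => ?_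
    have e1 : shift p ⁻¹' (A ∩ shift (y - p) ⁻¹' A) = shift p ⁻¹' A ∩ shift y ⁻¹' A := by
      ext u
      simp only [Set.mem_preimage, Set.mem_inter_iff, shift_shift, add_sub_cancel]
    simp only [e1]
    rw [← Set.inter_indicator_mul]
    simp
  have hn : ∀ v, NullMeasurableSet (A ∩ shift v ⁻¹' A) (iidLaw G) := fun v =>
    hA.inter (se_null hA v)
  simp only [e]
  rw [lintegral_finsetSum' _ fun q _ => aemeasurable_const.indicator₀ (se_null (hn _) _)]
  have hb : ∀ q ∈ Z ×ˢ Z', ∫⁻ t, (shift q.1 ⁻¹' (A ∩ shift (q.2 - q.1) ⁻¹' A)).indicator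
      (fun _ => (1 : ℝ≥0∞)) t ∂iidLaw G ≤ ENNReal.ofReal ((iidLaw G).real A ^ 2 + ε) := by
    intro q hq
    obtain ⟨h1, h2⟩ := Finset.mem_product.1 hq
    rw [lintegral_indicator_const₀ (se_null (hn _) _), one_mul,
      (measurePreserving_shift G _).measure_preimage (hn _),
      ← ofReal_measureReal (measure_ne_top _ _)]
    refine ENNReal.ofReal_le_ofReal ?_
    have := (abs_le.1 (hR _ (hZ _ h1 _ h2))).2
    rw [pow_two]
    linarith
  refine (Finset.sum_le_sum hb).trans (le_of_eq ?_)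
  rw [Finset.sum_const, nsmul_eq_mul, Finset.card_product,
    ENNReal.ofReal_mul (by positivity), ← Nat.cast_mul, ENNReal.ofReal_natCast]

/-- `cnt ≤ F + w² 1_{toMeasurable Sᶜ}`, so `w² P A ≤ ∫ F + w² P Sᶜ ≤ 2 ε w²` (`lintegral_add_right`) -/
theorem intensity_zero {A : Set Env} (hA : NullMeasurableSet A (iidLaw G))
    (h : ∀ ε > (0 : ℝ), ∃ (w : ℕ) (S : Set Env) (F : Env → ℝ≥0∞), 1 ≤ w ∧ iidLaw G Sᶜ ≤ ENNReal.ofReal ε ∧
      ∫⁻ t, F t ∂iidLaw G ≤ ENNReal.ofReal (ε * w ^ 2) ∧ ∀ t ∈ S, (cnt A (sq w) t : ℝ≥0∞) ≤ F t) :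
    iidLaw G A = 0 := by
  classical
  refine le_antisymm (ENNReal.le_of_forall_pos_le_add fun ε hε _ => ?_) zero_le
  obtain ⟨w, S, F, hw, hS, hF, hc⟩ := h (ε / 2) (by positivity)
  have hcard : (sq w).card = w ^ 2 := by
    simp [sq, pow_two]
  have h1 : ∀ t, (cnt A (sq w) t : ℝ≥0∞) ≤
      F t + (toMeasurable (iidLaw G) Sᶜ).indicator (fun _ => ((w ^ 2 : ℕ) : ℝ≥0∞)) t := by
    intro t
    by_cases ht : t ∈ S
    · exact (hc t ht).trans le_self_add
    · rw [Set.indicator_of_mem (subset_toMeasurable _ _ (show t ∈ Sᶜ from ht))]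
      refine le_trans ?_ le_add_self
      rw [← hcard]
      unfold cnt
      exact_mod_cast Finset.card_filter_le _ _
  have h2 := lintegral_mono (μ := iidLaw G) h1
  rw [lintegral_cnt hA, lintegral_add_right _
    (measurable_const.indicator (measurableSet_toMeasurable _ _)),
    lintegral_indicator_const (measurableSet_toMeasurable _ _), measure_toMeasurable, hcard] at h2
  have h3 : ENNReal.ofReal ((ε : ℝ) / 2 * w ^ 2) =
      ((w ^ 2 : ℕ) : ℝ≥0∞) * ENNReal.ofReal ((ε : ℝ) / 2) := by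
    rw [ENNReal.ofReal_mul (by positivity), mul_comm, ← Nat.cast_pow, ENNReal.ofReal_natCast]
  have h4 := h2.trans (add_le_add (hF.trans h3.le) (mul_le_mul_right hS _))
  rw [← mul_add, ← ENNReal.ofReal_add (by positivity) (by positivity), add_halves,
    ENNReal.ofReal_coe_nnreal] at h4
  rw [zero_add]
  refine (ENNReal.mul_le_mul_iff_right ?_ (ENNReal.natCast_ne_top _)).1 h4
  have : w ^ 2 ≠ 0 := by positivity
  exact_mod_cast this

end Crest.Agent.R151
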