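import Crest.Agent.R151.STilt2

/-! R151 part C soft: no good exits, no curves.  Helper prefix `sz_`. -/

set_option autoImplicit false

open MeasureTheory ProbabilityTheory Crest.ProbabilityR.FirstPassage Filter Topology
open scoped ENNReal

namespace Crest.Agent.R151

/-- a monotone chain covers the interval between its ends -/
theorem exists_step (v : ℕ → ℝ) {n : ℕ} {a : ℝ} (hn : 0 < n) (h0 : v 0 ≤ a) (h1 : a ≤ v n) :
    ∃ i < n, v i ≤ a ∧ a ≤ v (i + 1) := by
  by_contra hc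
  push Not at hc
  have key : ∀ i, i ≤ n → v i ≤ a := by
    intro i
    induction i with
    | zero => exact fun _ => h0
    | succ i ih => exact fun hi => (hc i hi (ih (Nat.le_of_succ_le hi))).le
  obtain ⟨m, rfl⟩ : ∃ m, n = m + 1 := ⟨n - 1, by omega⟩
  exact absurd (hc m (Nat.lt_succ_self m) (key m (Nat.le_succ m))) (not_lt.2 h1)

variable {G : Measure ℝ} [IsProbabilityMeasure G] [NullSingletonClass G] {L : ℕ} {q δ : ℝ}

theorem sz_cell (H : HypC G) {C C' η : ℝ} {R : ℕ} (hC : 0 < C) (hC' : 0 < C') (hη : 0 < η) (hR : 0 < R)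
    (h1 : ∀ α h : ℝ, 0 < h → iidLaw G (GE G L q (Set.Icc α (α + h))) ≤ ENNReal.ofReal (C * h))
    (h2 : ∀ ξ α β : ℝ, α < β → fp G (ξ - 1 / R) < α → β < fp G (ξ + 1 / R) →
      iidLaw G (GE G L q (Set.Icc α β)) ≤ ENNReal.ofReal (C' * (β - α) / √R)) (ξ : ℝ) :
    iidLaw G (GE G L q (Set.Icc (fp G ξ) (fp G (ξ + 1 / R)))) ≤
      ENNReal.ofReal (4 * C * η + C' * (fp G (ξ + 1 / R) - fp G ξ) / √R) := by
  have hR' : (0 : ℝ) < 1 / R := by positivity
  have m1 : fp G (ξ - 1 / R) ≤ fp G ξ := fp_mono H (by linarith)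
  have m2 : fp G ξ ≤ fp G (ξ + 1 / R) := fp_mono H (by linarith)
  generalize hu : fp G ξ = u at m1 m2 ⊢
  generalize hv : fp G (ξ + 1 / R) = v at m2 ⊢
  have hs : 0 < √(R : ℝ) := Real.sqrt_pos.2 (by exact_mod_cast hR)
  have e0 : 0 ≤ C' * (v - u) / √R := div_nonneg (mul_nonneg hC'.le (sub_nonneg.2 m2)) hs.le
  have e1 : 0 ≤ C * (2 * η) := by positivity
  let N : Set Env := {t | u + η < v - η ∧ t ∈ GE G L q (Set.Icc (u + η) (v - η))}
  have hN : iidLaw G N ≤ ENNReal.ofReal (C' * (v - u) / √R) := by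
    by_cases h : u + η < v - η
    · refine (measure_mono fun t ht => ht.2).trans ((h2 ξ _ _ h (by linarith) (by linarith)).trans
        (ENNReal.ofReal_le_ofReal ?_))
      exact div_le_div_of_nonneg_right (mul_le_mul_of_nonneg_left (by linarith) hC'.le) hs.le
    · have : N = ∅ := Set.eq_empty_of_forall_notMem fun t ht => h ht.1
      rw [this, measure_empty]
      exact zero_le
  have hsub : GE G L q (Set.Icc u v) ⊆ (GE G L q (Set.Icc (u - η) (u - η + 2 * η)) ∪
      GE G L q (Set.Icc (v - η) (v - η + 2 * η))) ∪ N := by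
    rintro t ⟨γ, a, ha, hγ⟩
    by_cases h3 : a ≤ u + η
    · exact Or.inl (Or.inl ⟨γ, a, ⟨by linarith [ha.1], by linarith⟩, hγ⟩)
    · by_cases h4 : v - η ≤ a
      · exact Or.inl (Or.inr ⟨γ, a, ⟨h4, by linarith [ha.2]⟩, hγ⟩)
      · push Not at h3 h4
        exact Or.inr ⟨h3.trans h4, γ, a, ⟨h3.le, h4.le⟩, hγ⟩
  refine (measure_mono hsub).trans ((measure_union_le _ _).trans ?_)
  refine (add_le_add ((measure_union_le _ _).trans (add_le_add (h1 _ _ (by linarith)) (h1 _ _ (by linarith)))) hN).trans ?_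
  rw [← ENNReal.ofReal_add e1 e1, ← ENNReal.ofReal_add (add_nonneg e1 e1) e0]
  exact ENNReal.ofReal_le_ofReal (le_of_eq (by ring))

/-- `Ξ ∈ ℕ` with `fp 1 < fp Ξ`.  For `R ≥ max R₀ 1` put `v i = fp (-Ξ + i/R)`, `i ≤ n = 2 Ξ R`.  A label `a` lies in some `[v i, v (i+1)]`, hence in
`[v i - η, v i + η]`, in `[v (i+1) - η, v (i+1) + η]`, or in `[v i + η, v (i+1) - η]` with `v i + η < v (i+1) - η`; the last class is narrow for `ξ = -Ξ + i/R`.
So `P (GE univ) ≤ (n+1) C 2η + C' (v n - v 0)/√R` (telescoping); `η → 0`, then `R → ∞`. -/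
theorem measure_GE_univ (H : HypC G) (P : CPar G L q δ) : iidLaw G (GE G L q Set.univ) = 0 := by
  obtain ⟨C, hC, h1⟩ := measure_GE_le H P
  obtain ⟨C', R₀, hC', h2⟩ := measure_narrow H P
  have key : ∀ R : ℕ, max R₀ 1 ≤ R → iidLaw G (GE G L q Set.univ) ≤
      ENNReal.ofReal ((8 * C + C' * (fp G 1 - fp G (-1))) / √R) := by
    intro R hR
    have hR0 : 0 < R := le_of_max_le_right hR
    have hRr : (0 : ℝ) < R := by exact_mod_cast hR0
    have hs : 0 < √(R : ℝ) := Real.sqrt_pos.2 hRr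
    let v : ℕ → ℝ := fun i => fp G (-1 + i / R)
    have hv : ∀ i : ℕ, v (i + 1) = fp G (-1 + i / R + 1 / R) := fun i => by
      simp only [v]; congr 1; push_cast; ring
    have hv0 : v 0 = fp G (-1) := by simp [v]
    have hvn : v (2 * R) = fp G 1 := by
      simp only [v]; congr 1; push_cast; field_simp; ring
    have hm : ∀ i : ℕ, v i ≤ v (i + 1) := fun i => by
      rw [hv]; exact fp_mono H (le_add_of_nonneg_right (by positivity))
    have hsub : GE G L q Set.univ ⊆ ⋃ i ∈ Finset.range (2 * R), GE G L q (Set.Icc (v i) (v (i + 1))) := by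
      rintro t ⟨γ, a, -, hγ, h3⟩
      have h4 := abs_le.1 hγ.le
      obtain ⟨i, hi, h5⟩ := exists_step v (n := 2 * R) (a := a) (by omega) (by rw [hv0, fp_neg H]; exact h4.1)
        (by rw [hvn]; exact h4.2)
      exact Set.mem_biUnion (Finset.mem_range.2 hi) ⟨γ, a, h5, hγ, h3⟩
    have hη : 0 < 1 / (R * √(R : ℝ)) := by positivity
    refine (measure_mono hsub).trans ((measure_biUnion_finset_le _ _).trans ?_)
    calc ∑ i ∈ Finset.range (2 * R), iidLaw G (GE G L q (Set.Icc (v i) (v (i + 1))))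
        ≤ ∑ i ∈ Finset.range (2 * R),
            ENNReal.ofReal (4 * C * (1 / (R * √(R : ℝ))) + C' * (v (i + 1) - v i) / √R) := by
          refine Finset.sum_le_sum fun i _ => ?_
          rw [hv]
          exact sz_cell H hC hC' hη hR0 h1 (h2 R (le_of_max_le_left hR)) _
      _ = _ := by
          rw [← ENNReal.ofReal_sum_of_nonneg fun i _ => add_nonneg (by positivity)
            (div_nonneg (mul_nonneg hC'.le (sub_nonneg.2 (hm i))) hs.le)]
          congr 1
          rw [Finset.sum_add_distrib, Finset.sum_const, Finset.card_range, nsmul_eq_mul, ← Finset.sum_div,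
            ← Finset.mul_sum, Finset.sum_range_sub, hv0, hvn]
          push_cast
          field_simp
          ring
  have lim : Tendsto (fun R : ℕ => ENNReal.ofReal ((8 * C + C' * (fp G 1 - fp G (-1))) / √R)) atTop (𝓝 0) := by
    rw [← ENNReal.ofReal_zero]
    exact ENNReal.tendsto_ofReal (tendsto_const_nhds.div_atTop
      (Real.tendsto_sqrt_atTop.comp tendsto_natCast_atTop_atTop))
  exact le_antisymm (ge_of_tendsto lim (eventually_atTop.2 ⟨_, key⟩)) zero_le

theorem ae_no_curve (H : HypC G) : ∀ᵐ t ∂iidLaw G, ∀ γ a, ¬ Curve G t γ a := by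
  obtain ⟨L, q, δ, P⟩ := exists_str H
  have h0 : ∀ᵐ t ∂iidLaw G, t ∉ GE G L q Set.univ := measure_eq_zero_iff_ae_notMem.1 (measure_GE_univ H P)
  filter_upwards [ae_all_shift h0, ae_exists_good P] with t h1 h2 γ a hγ
  obtain ⟨k, hk⟩ := h2 γ a hγ
  exact h1 (γ k) ((mem_shift_GE H).2 ⟨γ, a, k, trivial, hγ, rfl, hk⟩)

theorem no_bigeodesic (H : HypC G) : iidLaw G {t | ∃ v : ℤ → ℤ × ℤ, IsBigeodesic t v} = 0 := by
  rw [measure_eq_zero_iff_ae_notMem]
  filter_upwards [ae_no_curve H, ae_act isAut_swap (ae_no_curve H), ae_curve H, ae_nonneg G H.hyp.nonneg]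
    with t h1 h2 h3 h4
  rintro ⟨v, hv⟩
  obtain ⟨γ, a, h | h⟩ := h3 v ((isBigeodesic_iff h4 v).1 hv)
  exacts [h1 γ a h, h2 γ a h]

end Crest.Agent.R151
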