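import Crest.Agent.R151.SBas

/-! R151 part C soft, C8: disjoint curves with rungs are fragile.  Helper prefix `sg_`. -/

set_option autoImplicit false

open MeasureTheory ProbabilityTheory Crest.ProbabilityR.FirstPassage Filter Topology
open scoped ENNReal

namespace Crest.Agent.R151

variable {t : Env} {γ γ' : ℤ → V} {β : ℝ}

/-- `pot γ j - pot γ i = T (γ i) (γ j) ≤ T (γ i) (γ' k') + T (γ' k') (γ j)` with a far `j` from the reverse rung -/
theorem rung_nonneg (ht : ∀ e, 0 ≤ t e) (hb : Bi t γ) (h' : Rung t γ' γ (-β)) (i k' : ℤ) :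
    0 ≤ T t (γ i) (γ' k') + pot t γ i - pot t γ' k' + β := by
  refine le_of_forall_pos_le_add fun ε hε => ?_
  obtain ⟨j, h1, h2⟩ := ((h' ε hε k').and (eventually_ge_atTop i)).exists
  have h3 := hb.T_eq h2
  have h4 : T t (γ i) (γ j) ≤ T t (γ i) (γ' k') + T t (γ' k') (γ j) := T_triangle ht
  linarith

/-- Leaving `γ`.  Take `i₁` with `pot γ i₁ > pot γ i₀ + ε`, a rung from `γ i₁` to `γ' k'`, the geodesic `g` and its last visit `γ i` to `range γ`
(`Int.exists_greatest_of_bdd`).  `IsGeo.split` and `Bi.T_eq_abs`: `r(i,k') = r(i₁,k') - |pot i₁ - pot i| + pot i - pot i₁`, so `r(i,k') ≤ ε`, and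
`i < i₀` contradicts `rung_nonneg`. -/
theorem exists_leave (hr : Reg t) (hb : Bi t γ) (h : Rung t γ γ' β) (h' : Rung t γ' γ (-β)) {ε : ℝ} (hε : 0 < ε) (i₀ : ℤ) :
    ∃ i k' p a b, i₀ ≤ i ∧ PathIn Set.univ p a b ∧ p a = γ i ∧ p b = γ' k' ∧ (∀ m l, a < m → m ≤ b → p m ≠ γ l) ∧
      cost t p a b + pot t γ i - pot t γ' k' + β ≤ ε := by
  have ht := hr.nonneg
  obtain ⟨i₁, hi₁⟩ := ((hb.pot_tendsto hr).eventually_gt_atTop (pot t γ i₀ + ε)).exists
  obtain ⟨k', hk'⟩ := (h ε hε i₁).exists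
  obtain ⟨g, n, hg, g0, gn⟩ := exists_geo hr (conn_univ (γ i₁) (γ' k'))
  obtain ⟨m, ⟨m0, mn, i, hi⟩, hmax⟩ := Int.exists_greatest_of_bdd (P := fun m => 0 ≤ m ∧ m ≤ n ∧ ∃ l, g m = γ l)
    ⟨n, fun z hz => hz.2.1⟩ ⟨0, le_rfl, hg.1.1, i₁, g0⟩
  have e1 : T t (g 0) (g n) = T t (g 0) (g m) + T t (g m) (g n) := hg.split ht m0 mn
  have e2 : cost t g m n = T t (g m) (g n) := (hg.sub ht m0 mn le_rfl).2.2
  rw [g0, gn, hi, hb.T_eq_abs ht] at e1
  rw [gn, hi] at e2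
  have e3 := le_abs_self (pot t γ i - pot t γ i₁)
  have e4 := abs_nonneg (pot t γ i - pot t γ i₁)
  refine ⟨i, k', g, m, n, ?_, hg.1.sub m0 mn le_rfl, hi, gn, fun m' l h1 h2 e => ?_, by linarith⟩
  · by_contra hcon
    have h1 := pot_mono (γ := γ) ht (not_le.1 hcon).le
    have h2 := rung_nonneg ht hb h' i k'
    linarith
  · have := hmax m' ⟨by omega, h2, l, e⟩
    omega

/-- Returning to `γ`.  Take `k'' ≥ k₀` with `pot γ' k'' - β - ε > pot γ k`, a rung from `γ' k''` to `γ j'`, the geodesic and its first visit `γ j` to `range γ`;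
`r'(k'',j) ≤ r'(k'',j') ≤ ε`, hence `pot γ j > pot γ k`. -/
theorem exists_return (hr : Reg t) (hb : Bi t γ) (hb' : Bi t γ') (h' : Rung t γ' γ (-β)) {ε : ℝ} (hε : 0 < ε) (k k₀ : ℤ) :
    ∃ j k'' p a b, k < j ∧ k₀ ≤ k'' ∧ PathIn Set.univ p a b ∧ p a = γ' k'' ∧ p b = γ j ∧
      (∀ m l, a ≤ m → m < b → p m ≠ γ l) ∧ cost t p a b + pot t γ' k'' - pot t γ j - β ≤ ε := by
  have ht := hr.nonneg
  obtain ⟨k'', hk, hk₀⟩ := (((hb'.pot_tendsto hr).eventually_gt_atTop (pot t γ k + β + ε)).and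
    (eventually_ge_atTop k₀)).exists
  obtain ⟨j', hj'⟩ := (h' ε hε k'').exists
  obtain ⟨g, n, hg, g0, gn⟩ := exists_geo hr (conn_univ (γ' k'') (γ j'))
  obtain ⟨m, ⟨m0, mn, j, hj⟩, hmin⟩ := Int.exists_least_of_bdd (P := fun m => 0 ≤ m ∧ m ≤ n ∧ ∃ l, g m = γ l)
    ⟨0, fun z hz => hz.1⟩ ⟨n, hg.1.1, le_rfl, j', gn⟩
  have e1 : T t (g 0) (g n) = T t (g 0) (g m) + T t (g m) (g n) := hg.split ht m0 mn
  have e2 : cost t g 0 m = T t (g 0) (g m) := (hg.sub ht le_rfl m0 mn).2.2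
  rw [g0, gn, hj, hb.T_eq_abs ht] at e1
  rw [g0, hj] at e2
  have e3 := le_abs_self (pot t γ j' - pot t γ j)
  have e4 : 0 ≤ cost t g 0 m := cost_nonneg ht
  refine ⟨j, k'', g, 0, m, ?_, hk₀, hg.1.sub le_rfl m0 mn, g0, hj, fun m' l h1 h2 e => ?_, by linarith⟩
  · exact (pot_mono (γ := γ) ht).reflect_lt (by linarith)
  · have := hmin m' ⟨h1, by omega, l, e⟩
    omega

/-- a path from `x` to `y`, edge-disjoint from `γ`, of cost `≤ c` -/
def sg_D (t : Env) (γ : ℤ → V) (x y : V) (c : ℝ) : Prop :=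
  ∃ p a b, PathIn Set.univ p a b ∧ p a = x ∧ p b = y ∧ (∀ m l, a ≤ m → m < b → edge p m ≠ edge γ l) ∧ cost t p a b ≤ c

theorem sg_trans {x y z : V} {c d : ℝ} (h : sg_D t γ x y c) (h' : sg_D t γ y z d) : sg_D t γ x z (c + d) := by
  obtain ⟨p, a, b, h1, h2, h3, h4, h5⟩ := h
  obtain ⟨q, a', b', k1, k2, k3, k4, k5⟩ := h'
  have e : p b = q a' := h3.trans k2.symm
  have := k1.1
  refine ⟨_, _, _, h1.glue k1 e, (glue_of_le h1.1).trans h2, ?_, fun m l m1 m2 => ?_, ?_⟩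
  · rw [glue_of_ge e (by omega), ← k3]
    congr 1
    ring
  · rcases lt_or_ge m b with hm | hm
    · have : edge (glue p b q a') m = edge p m := by
        simp only [edge]
        rw [glue_of_le hm.le, glue_of_le (by omega)]
      rw [this]
      exact h4 m l m1 hm
    · have : edge (glue p b q a') m = edge q (m - b + a') := by
        simp only [edge]
        rw [glue_of_ge e hm, glue_of_ge e (by omega), show m + 1 - b + a' = m - b + a' + 1 by ring]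
      rw [this]
      exact k4 _ l (by omega) (by omega)
  · rw [cost_glue h1.1 k1.1 e]
    linarith

theorem sg_edge {p : ℤ → V} {m l : ℤ} (h : edge p m = edge γ l) : (∃ l, p m = γ l) ∧ ∃ l, p (m + 1) = γ l := by
  rcases Sym2.eq_iff.1 h with ⟨h1, h2⟩ | ⟨h1, h2⟩
  exacts [⟨⟨_, h1⟩, _, h2⟩, ⟨⟨_, h1⟩, _, h2⟩]

/-- glue the leaving path, `γ'[k', k'']` and the returning path; every edge has an endpoint off `γ` -/
theorem fragile_of_rungs (hr : Reg t) (hb : Bi t γ) (hb' : Bi t γ') (h : Rung t γ γ' β) (h' : Rung t γ' γ (-β))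
    (hd : ∀ i i', γ' i' ≠ γ i) : Fragile t γ := by
  intro ε hε i₀
  obtain ⟨i, k', p, a, b, hi, p1, p2, p3, p4, p5⟩ := exists_leave hr hb h h' (half_pos hε) i₀
  refine ⟨i, hi, fun k hk => ?_⟩
  obtain ⟨j, k'', q, a', b', hj, hk'', q1, q2, q3, q4, q5⟩ := exists_return hr hb hb' h' (half_pos hε) k k'
  have d1 : sg_D t γ (γ i) (γ' k') (cost t p a b) := ⟨p, a, b, p1, p2, p3, fun m l m1 m2 e => by
    obtain ⟨l', hl'⟩ := (sg_edge e).2
    exact p4 (m + 1) l' (by omega) (by omega) hl', le_rfl⟩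
  have d2 : sg_D t γ (γ' k') (γ' k'') (cost t γ' k' k'') := ⟨γ', k', k'', (hb' _ _ hk'').1, rfl, rfl, fun m l _ _ e => by
    obtain ⟨l', hl'⟩ := (sg_edge e).1
    exact hd l' m hl', le_rfl⟩
  have d3 : sg_D t γ (γ' k'') (γ j) (cost t q a' b') := ⟨q, a', b', q1, q2, q3, fun m l m1 m2 e => by
    obtain ⟨l', hl'⟩ := (sg_edge e).1
    exact q4 m l' m1 m2 hl', le_rfl⟩
  obtain ⟨w, c, d, w1, w2, w3, w4, w5⟩ := sg_trans (sg_trans d1 d2) d3
  refine ⟨j, w, c, d, hj, w1, w2, w3, w4, ?_⟩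
  rw [pot_sub hk''] at w5
  rw [pot_sub (show i ≤ j by omega)]
  linarith

/-- `ε = δ/2`, `Marg.le_cost` -/
theorem Fragile.eventually_not_marg (ht : ∀ e, 0 ≤ t e) (h : Fragile t γ) {δ : ℝ} (hδ : 0 < δ) :
    ∃ i, ∀ k, i ≤ k → ¬ Marg δ t γ k := by
  obtain ⟨i, -, hi⟩ := h (δ / 2) (half_pos hδ) 0
  refine ⟨i, fun k hk hm => ?_⟩
  obtain ⟨j, p, a, b, h1, h2, h3, h4, h5, h6⟩ := hi k hk
  have := hm.le_cost ht hδ.le hk h1 h2 h3 h4 fun m m1 m2 => h5 m k m1 m2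
  linarith

/-- the detours do not use the edge, and start after it (`cost_update_of_ne`, `edge γ` is injective) -/
theorem Fragile.update (hi : Function.Injective γ) (h : Fragile t γ) (k : ℤ) (c : ℝ) :
    Fragile (Function.update t (edge γ k) c) γ := by
  intro ε hε i₀
  obtain ⟨i, h0, h1⟩ := h ε hε (max i₀ (k + 1))
  refine ⟨i, le_of_max_le_left h0, fun k' hk' => ?_⟩
  obtain ⟨j, p, a, b, k1, k2, k3, k4, k5, k6⟩ := h1 k' hk'
  refine ⟨j, p, a, b, k1, k2, k3, k4, k5, ?_⟩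
  rw [cost_update_of_ne fun m m1 m2 => k5 m k m1 m2, cost_update_of_ne fun m m1 m2 e => ?_]
  · exact k6
  · have := le_of_max_le_right h0
    rcases Sym2.eq_iff.1 e with ⟨e1, -⟩ | ⟨-, e2⟩
    · have := hi e1
      omega
    · have := hi e2
      omega

end Crest.Agent.R151
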