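import Crest.Agent.R151.SBus
import Crest.Agent.R151.SBud
import Crest.Agent.R151.SErg2

/-! R151 part C soft, C7: no label jumps on both sides.  Helper prefix `sj_`. -/

set_option autoImplicit false

open MeasureTheory ProbabilityTheory Crest.ProbabilityR.FirstPassage Filter Topology
open scoped ENNReal

namespace Crest.Agent.R151

variable {G : Measure ℝ} [IsProbabilityMeasure G] [NullSingletonClass G]

/-- two curves with label `a` whose upper increments at `x` differ by `κ` -/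
def Jump (G : Measure ℝ) (κ : ℝ) (x : ℤ) (t : Env) (a : ℝ) : Prop :=
  ∃ γ γ', Curve G t γ a ∧ Curve G t γ' a ∧ ∀ᶠ N : ℕ in atTop, κ ≤ incU t γ N x - incU t γ' N x

omit [IsProbabilityMeasure G] [NullSingletonClass G] in
/-- `BudU.bd`, `le_liminf_of_le` -/
theorem Jump.le_liminf {I : Set ℝ} {b κ a : ℝ} {Λ : ℕ → Env → ℝ≥0∞} (B : BudU G I b Λ) {t : Env} (hr : Reg t) {x : ℤ}
    (ha : a ∈ I) (h : Jump G κ x t a) : ENNReal.ofReal κ ≤ liminf (fun N => Λ N (shift (x, 0) t)) atTop := by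
  obtain ⟨γ, γ', h1, h2, h3⟩ := h
  refine le_liminf_of_le (by isBoundedDefault) ?_
  filter_upwards [h3, B.bd t hr γ a γ' a ha ha h1 h2 x] with N k1 k2
  exact (ENNReal.ofReal_le_ofReal k1).trans k2

/-- `f t = liminf_N Λ N t` is measurable and reads `edgesIn (upper 1)`; `dependsOnly_shift_row`, `dependsOnly_rf`, `disjoint_edgesIn`,
`indepFun_of_dependsOnly`, `measure_liminf_ge`, invariance under `shift` and `act rf` -/
theorem measure_two_le {I : Set ℝ} {b κ : ℝ} (hκ : 0 < κ) {Λ : ℕ → Env → ℝ≥0∞} (B : BudU G I b Λ) (x₁ x₂ : ℤ) :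
    iidLaw G {t | ENNReal.ofReal κ ≤ liminf (fun N => Λ N (shift (x₁, 0) t)) atTop ∧
      ENNReal.ofReal κ ≤ liminf (fun N => Λ N (shift (x₂, 0) (act rf t))) atTop} ≤ ENNReal.ofReal (b / κ) ^ 2 := by
  set f : Env → ℝ≥0∞ := fun t => liminf (fun N => Λ N t) atTop with hf
  have hm : Measurable f := Measurable.liminf B.meas
  have hd : DependsOnly f (edgesIn (upper 1)) := fun t t' h => by
    simp only [hf, fun N => B.dep N t t' h]
  have p1 := measurePreserving_shift G (x₁, 0)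
  have p2 := (measurePreserving_shift G (x₂, 0)).comp (measurePreserving_act G isAut_rf.bij)
  have hi := indepFun_of_dependsOnly G (hm.comp p1.measurable) (hm.comp p2.measurable)
    (dependsOnly_shift_row hd x₁) (dependsOnly_rf hd x₂)
    (disjoint_edgesIn (Set.disjoint_left.2 fun v h1 h2 => by
      have a1 : 1 ≤ v.2 := h1
      have a2 : v.2 ≤ 0 := h2
      omega))
  have hS : MeasurableSet (Set.Ici (ENNReal.ofReal κ)) := measurableSet_Ici
  have e := hi.measure_inter_preimage_eq_mul _ _ hS hS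
  have h0 : iidLaw G (f ⁻¹' Set.Ici (ENNReal.ofReal κ)) ≤ ENNReal.ofReal (b / κ) :=
    measure_liminf_ge B.meas hκ B.int
  rw [Set.preimage_comp, Set.preimage_comp (g := f), p1.measure_preimage (hm hS).nullMeasurableSet,
    p2.measure_preimage (hm hS).nullMeasurableSet] at e
  rw [pow_two]
  exact e.le.trans (mul_le_mul' h0 h0)

/-- cover `[-B, B]` by `n` cells of width `h = 2B/n`; the event (inside `Reg`) is contained in the union of the events of `measure_two_le`,
total mass `≤ n (3h/κ)² → 0` -/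
theorem measure_jump (H : HypC G) {κ : ℝ} (hκ : 0 < κ) (x₁ x₂ : ℤ) :
    iidLaw G {t | ∃ a, Jump G κ x₁ t a ∧ Jump G κ x₂ (act rf t) a} = 0 := by
  set B : ℝ := |fp G 1| + 1 with hB
  have hB0 : 0 < B := by positivity
  have key : ∀ n : ℕ, iidLaw G {t | ∃ a, Jump G κ x₁ t a ∧ Jump G κ x₂ (act rf t) a} ≤
      ENNReal.ofReal ((6 * B / κ) ^ 2 / ((n : ℝ) + 1)) := by
    intro n
    set h : ℝ := 2 * B / ((n : ℝ) + 1) with hh
    have hh0 : 0 < h := by positivity
    choose Λ hΛ using fun i : ℕ => exists_budU H (-B + i * h) hh0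
    refine (measure_mono_ae (t := ⋃ i ∈ Finset.range (n + 1),
      {t | ENNReal.ofReal κ ≤ liminf (fun N => Λ i N (shift (x₁, 0) t)) atTop ∧
        ENNReal.ofReal κ ≤ liminf (fun N => Λ i N (shift (x₂, 0) (act rf t))) atTop}) ?_).trans ?_
    · filter_upwards [ae_reg G H.hyp.nonneg, ae_act isAut_rf (ae_reg G H.hyp.nonneg)] with t r1 r2
      rintro ⟨a, j1, j2⟩
      have ha : |a| ≤ B := by
        obtain ⟨γ, -, hγ, -⟩ := j1
        linarith [hγ.le, le_abs_self (fp G 1)]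
      obtain ⟨i, hi, hc⟩ := exists_cell (α := -B) (x := a) (Nat.succ_pos n) hh0 (abs_le.1 ha).1 (by
        have : ((n + 1 : ℕ) : ℝ) * h = 2 * B := by
          rw [hh]; push_cast; field_simp
        rw [this]
        linarith [(abs_le.1 ha).2])
      exact Set.mem_biUnion (Finset.mem_coe.2 (Finset.mem_range.2 hi))
        ⟨j1.le_liminf (hΛ i) r1 hc, j2.le_liminf (hΛ i) r2 hc⟩
    · refine (measure_biUnion_finset_le _ _).trans ((Finset.sum_le_sum fun i _ =>
        measure_two_le hκ (hΛ i) x₁ x₂).trans (le_of_eq ?_))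
      rw [Finset.sum_const, Finset.card_range, nsmul_eq_mul, ← ENNReal.ofReal_pow (by positivity),
        ← ENNReal.ofReal_natCast, ← ENNReal.ofReal_mul (by positivity)]
      congr 1
      rw [hh]
      push_cast
      field_simp
      ring
  have ht : Tendsto (fun n : ℕ => ENNReal.ofReal ((6 * B / κ) ^ 2 / ((n : ℝ) + 1))) atTop (𝓝 0) := by
    rw [← ENNReal.ofReal_zero]
    exact ENNReal.tendsto_ofReal (tendsto_const_nhds.div_atTop
      (tendsto_atTop_add_const_right _ _ tendsto_natCast_atTop_atTop))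
  exact le_antisymm (ge_of_tendsto' ht key) zero_le

omit [IsProbabilityMeasure G] [NullSingletonClass G] in
theorem sj_jump {t : Env} (hr : Reg t) {γ γ' : ℤ → V} {a : ℝ} (c1 : Curve G t γ a) (c2 : Curve G t γ' a)
    (h : ¬ SameU t γ γ') : ∃ (x : ℤ) (n : ℕ), ∀ m : ℕ, n ≤ m → Jump G (1 / ((m : ℝ) + 1)) x t a := by
  obtain ⟨x, n, hx⟩ := jump_of_not_same (fun e => (hr.pos e).le) c1.bi c1.line c2.bi c2.line h
  refine ⟨x, n, fun m hm => ?_⟩
  have h1 : 1 / ((m : ℝ) + 1) ≤ 1 / ((n : ℝ) + 1) := Nat.one_div_le_one_div hm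
  rcases hx with hx | hx
  · exact ⟨γ, γ', c1, c2, hx.mono fun N hN => h1.trans hN⟩
  · exact ⟨γ', γ, c2, c1, hx.mono fun N hN => h1.trans hN⟩

/-- `jump_of_not_same` twice, `κ` the smaller one; countable union -/
theorem ae_same (H : HypC G) : ∀ᵐ t ∂iidLaw G, ∀ γ γ' a, Curve G t γ a → Curve G t γ' a →
    SameU t γ γ' ∨ SameU (act rf t) (rfc γ) (rfc γ') := by
  have h0 : ∀ᵐ t ∂iidLaw G, ∀ (n : ℕ) (x₁ x₂ : ℤ),
      ¬ ∃ a, Jump G (1 / ((n : ℝ) + 1)) x₁ t a ∧ Jump G (1 / ((n : ℝ) + 1)) x₂ (act rf t) a :=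
    ae_all_iff.2 fun n => ae_all_iff.2 fun x₁ => ae_all_iff.2 fun x₂ =>
      measure_eq_zero_iff_ae_notMem.1 (measure_jump H (by positivity) x₁ x₂)
  filter_upwards [h0, ae_reg G H.hyp.nonneg, ae_act isAut_rf (ae_reg G H.hyp.nonneg)]
    with t k r1 r2 γ γ' a c1 c2
  by_contra hn
  obtain ⟨x₁, n₁, j1⟩ := sj_jump r1 c1 c2 (fun h => hn (Or.inl h))
  obtain ⟨x₂, n₂, j2⟩ := sj_jump r2 (c1.rfc H) (c2.rfc H) (fun h => hn (Or.inr h))
  exact k (max n₁ n₂) x₁ x₂ ⟨a, j1 _ (le_max_left _ _), j2 _ (le_max_right _ _)⟩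

end Crest.Agent.R151
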