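import Crest.Agent.R151.SBas

/-! R151 part C soft, C10: the König limit in the tilted environment.  Helper prefix `sk_`. -/

set_option autoImplicit false

open MeasureTheory ProbabilityTheory Crest.ProbabilityR.FirstPassage Filter Topology
open scoped ENNReal

namespace Crest.Agent.R151

variable {t t' : Env} {γ γ' : ℤ → V} {s : ℝ} {n₀ : ℤ} {S : Finset (Sym2 V)}

theorem sk_mem (p : ℤ → V) (k : ℤ) : p k ∈ edge p k := Sym2.mem_mk_left _ _

theorem sk_fin (S : Finset (Sym2 V)) : {v : V | ∃ e ∈ S, v ∈ e}.Finite :=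
  (S.biUnion Sym2.toFinset).finite_toSet.subset fun v ⟨e, he, hv⟩ => by
    simpa using ⟨e, he, hv⟩

/-- For `n ≥ n₀` let `g n` be the `t'`-geodesic from `γ (-n)` to `γ n`.  `cost t' (g n) ≤ cost t' γ ≤ cost t γ - s = T t - s < cost t (g n)`, so `g n` uses an edge of `S`
(`cost_congr_env`), in particular it visits a vertex `v n` of the finite set `F = {v | ∃ e ∈ S, v ∈ e}`.  One `v` occurs infinitely often
(`Filter.frequently..`, `extraction_of_frequently_atTop`); reindex so that `v` has index `0`; the end indices tend to `∓∞` (`PathIn.nrm_le`, `tendsto_nrm_atTop`);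
`exists_line_limit`. -/
theorem exists_approx (hr : Reg t') (hle : ∀ e, t' e ≤ t e) (hS : ∀ e, e ∉ S → t e = t' e) (hb : Bi t γ) (hs : 0 < s)
    (hg : ∀ i j, i ≤ -n₀ → n₀ ≤ j → cost t' γ i j + s ≤ cost t γ i j) :
    ∃ γ', Bi t' γ' ∧ (∃ e ∈ S, γ' 0 ∈ e) ∧ Approx t' γ γ' := by
  have ht : ∀ e, 0 ≤ t e := fun e => (hr.nonneg e).trans (hle e)
  let N : ℕ → ℤ := fun n => |n₀| + n
  have hN : Tendsto N atTop atTop := tendsto_atTop_add_const_left _ _ tendsto_natCast_atTop_atTop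
  have hN0 : ∀ n, n₀ ≤ N n ∧ 0 ≤ N n := fun n => by
    have := le_abs_self n₀
    have := abs_nonneg n₀
    simp only [N]
    omega
  choose g len hgeo h0 h1 using fun n => exists_geo hr (conn_univ (γ (-N n)) (γ (N n)))
  have hk : ∀ n, ∃ k, 0 ≤ k ∧ k < len n ∧ edge (g n) k ∈ S := fun n => by
    by_contra e
    push Not at e
    have hij : -N n ≤ N n := by have := hN0 n; omega
    have e1 : cost t (g n) 0 (len n) = cost t' (g n) 0 (len n) := cost_congr_env fun k a b => hS _ (e k a b)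
    have e2 := T_le_cost ht (hgeo n).1
    have e3 := T_le_cost hr.nonneg (hb _ _ hij).1
    have e4 := hg (-N n) (N n) (by have := hN0 n; omega) (hN0 n).1
    have e5 : cost t γ (-N n) (N n) = T t (γ (-N n)) (γ (N n)) := (hb _ _ hij).2.2
    have e6 : cost t' (g n) 0 (len n) = T t' (g n 0) (g n (len n)) := (hgeo n).2.2
    rw [h0, h1] at e2 e6
    linarith
  choose k k0 k1 kS using hk
  obtain ⟨v, hv, hfr⟩ : ∃ v ∈ {v : V | ∃ e ∈ S, v ∈ e}, ∃ᶠ n in atTop, g n (k n) = v := by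
    by_contra e
    push Not at e
    obtain ⟨n, hn⟩ := ((eventually_all_finite (sk_fin S)).2 e).exists
    exact hn _ ⟨_, kS n, sk_mem _ _⟩ rfl
  obtain ⟨φ, hφ, hφv⟩ := extraction_of_frequently_atTop hfr
  have hP := fun n => (hgeo (φ n)).reindex (k (φ n))
  have hNφ := hN.comp hφ.tendsto_atTop
  have ha : Tendsto (fun n => 0 - k (φ n)) atTop atBot := by
    refine tendsto_atBot_mono (fun n => ?_) (tendsto_neg_atTop_atBot.comp ((tendsto_nrm_atBot hb.inj v).comp
      (tendsto_neg_atTop_atBot.comp hNφ)))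
    have := ((hgeo (φ n)).1.sub le_rfl (k0 _) (k1 _).le).nrm_le
    rw [hφv, h0, nrm_sub_comm] at this
    simp only [Function.comp]
    omega
  have hb' : Tendsto (fun n => len (φ n) - k (φ n)) atTop atTop := by
    refine tendsto_atTop_mono (fun n => ?_) ((tendsto_nrm_atTop hb.inj v).comp hNφ)
    have := ((hgeo (φ n)).1.sub (k0 _) (k1 _).le le_rfl).nrm_le
    rwa [hφv, h1] at this
  obtain ⟨q, ψ, hψ, hq, q0, hlim⟩ := exists_line_limit (x := v) _ _ _ hr.nonneg hP
    (fun n => by rw [zero_add, hφv]) ha hb'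
  refine ⟨q, hq, q0 ▸ hv, fun n => ?_⟩
  obtain ⟨m, m1, m2, m3, m4⟩ := (((hNφ.comp hψ.tendsto_atTop).eventually_ge_atTop n).and
    (((ha.comp hψ.tendsto_atTop).eventually_le_atBot (-n)).and
      (((hb'.comp hψ.tendsto_atTop).eventually_ge_atTop n).and
        ((eventually_all_finset (Finset.Icc (-n) n)).2 fun l _ => hlim l)))).exists
  refine ⟨N (φ (ψ m)), _, _, _, m1, hP (ψ m), ?_, ?_, m2, m3, fun l hl => m4 l (Finset.mem_Icc.2 (abs_le.1 hl))⟩
  · rw [sub_add_cancel, h0]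
  · rw [sub_add_cancel, h1]

/-- Let `M` bound `T t' (γ' 0) f`, `f ∈ F`, and `n₁` with `|pot t' γ' m| > M` for `|m| ≥ n₁`.  For `m ≤ -n₁`, `m' ≥ n₁` take `g` from `Approx` with `n ≥ |m|, |m'|, n₀`.
For `l ≥ m'`: `T t' (g 0) (g l) = cost t' g 0 l ≥ cost t' g 0 m' = pot t' γ' m' > M`, so `g l ∉ F`; same for `l ≤ m`.  Hence `cost t = cost t'` on the two outer parts and
`cost t' g i m + T t' (γ' m) (γ' m') + cost t' g m' j + s = T t' (γ (-k)) (γ k) + s ≤ T t (γ (-k)) (γ k) ≤ cost t g i m + T t (γ' m) (γ' m') + cost t g m' j`. -/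
theorem gain_transfer (hr : Reg t') (hle : ∀ e, t' e ≤ t e) (hS : ∀ e, e ∉ S → t e = t' e) (hb : Bi t γ)
    (hg : ∀ i j, i ≤ -n₀ → n₀ ≤ j → cost t' γ i j + s ≤ cost t γ i j) (hb' : Bi t' γ') (hA : Approx t' γ γ') :
    ∃ n₁ : ℤ, ∀ m m', m ≤ -n₁ → n₁ ≤ m' → T t' (γ' m) (γ' m') + s ≤ T t (γ' m) (γ' m') := by
  have ht : ∀ e, 0 ≤ t e := fun e => (hr.nonneg e).trans (hle e)
  obtain ⟨M, hM⟩ := ((sk_fin S).image fun f => T t' (γ' 0) f).bddAbove
  obtain ⟨A, hA'⟩ := eventually_atTop.1 ((hb'.pot_tendsto hr).eventually_gt_atTop M)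
  obtain ⟨B, hB'⟩ := eventually_atBot.1 ((hb'.pot_tendsto_atBot hr).eventually_lt_atBot (-M))
  refine ⟨max (max A (-B)) 0, fun m m' hm hm' => ?_⟩
  obtain ⟨k, g, i, j, hk, hgeo, gi, gj, hi, hj, hγ⟩ := hA (max (max (-m) m') n₀)
  have hγ' : ∀ l, m ≤ l → l ≤ m' → g l = γ' l := fun l a b => hγ l (abs_le.2 ⟨by omega, by omega⟩)
  have hav : ∀ l, M < T t' (γ' 0) (g l) → t (edge g l) = t' (edge g l) := fun l hl =>
    hS _ fun e => absurd (hM ⟨g l, ⟨_, e, sk_mem _ _⟩, rfl⟩) (not_le.2 hl)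
  have g0 := hγ' 0 (by omega) (by omega)
  have c1 : cost t g i m = cost t' g i m := cost_congr_env fun l a b => hav l <| by
    have e1 : cost t' g l 0 = T t' (g l) (g 0) := (hgeo.sub hr.nonneg a (by omega) (by omega)).2.2
    have e2 : cost t' g m 0 ≤ cost t' g l 0 := cost_sub_le hr.nonneg b.le le_rfl
    rw [cost_congr (p := γ') fun l a b => hγ' l a (by omega), pot_sub (by omega), pot_zero] at e2
    rw [T_comm, ← g0, ← e1]
    linarith [hB' m (by omega)]
  have c2 : cost t g m' j = cost t' g m' j := cost_congr_env fun l a b => hav l <| by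
    have e1 : cost t' g 0 l = T t' (g 0) (g l) := (hgeo.sub hr.nonneg (by omega) (by omega) b.le).2.2
    have e2 : cost t' g 0 m' ≤ cost t' g 0 l := cost_sub_le hr.nonneg le_rfl a
    rw [cost_congr (p := γ') fun l a b => hγ' l (by omega) b, pot_sub (by omega), pot_zero] at e2
    rw [← g0, ← e1]
    linarith [hA' m' (by omega)]
  have him : i ≤ m := by omega
  have hmm : m ≤ m' := by omega
  have hmj : m' ≤ j := by omega
  have hkk : -k ≤ k := by omega
  have d1 : cost t' g i j = T t' (g i) (g j) := hgeo.2.2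
  have d2 : cost t' g m m' = T t' (g m) (g m') := (hgeo.sub hr.nonneg him hmm hmj).2.2
  have d3 := T_le_cost hr.nonneg (hb _ _ hkk).1
  have d4 := hg (-k) k (by omega) (by omega)
  have d5 : cost t γ (-k) k = T t (γ (-k)) (γ k) := (hb _ _ hkk).2.2
  have d6 := T_le_cost ht (hgeo.1.sub le_rfl him (hmm.trans hmj))
  have d7 := T_le_cost ht (hgeo.1.sub (him.trans hmm) hmj le_rfl)
  have d8 := T_triangle (x := g i) (y := g m) (z := g j) ht
  have d9 := T_triangle (x := g m) (y := g m') (z := g j) ht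
  rw [cost_add him (hmm.trans hmj), cost_add hmm hmj] at d1
  rw [← gi, ← gj] at d3 d5
  rw [← hγ' m le_rfl hmm, ← hγ' m' hmm le_rfl]
  linarith

/-- if a `t'`-geodesic inside `R` avoids the endpoints of `S` then `T t ≤ TS t' R` -/
theorem T_le_of_avoid (ht : ∀ e, 0 ≤ t e) (hS : ∀ e, e ∉ S → t e = t' e) {R : Set V} {p : ℤ → V} {i j : ℤ}
    (hp : IsGeo t' R p i j) (hav : ∀ m, i ≤ m → m ≤ j → ∀ e ∈ S, p m ∉ e) : T t (p i) (p j) ≤ TS t' R (p i) (p j) := by
  rw [← hp.2.2, ← cost_congr_env fun m a b => hS _ fun e => hav m a b.le _ e (sk_mem p m)]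
  exact T_le_cost ht hp.1

end Crest.Agent.R151
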