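import Crest.Agent.R151.SSym

/-! R151 part C soft, C10: the label of the König limit; far middle geodesics.  Helper prefix `sl_`. -/

set_option autoImplicit false

open MeasureTheory ProbabilityTheory Crest.ProbabilityR.FirstPassage Filter Topology
open scoped ENNReal

namespace Crest.Agent.R151

variable {G : Measure ℝ} [IsProbabilityMeasure G] [NullSingletonClass G]

/-- `ae_wedge` (`ε = 1`) for all rational quadruples.  Put `v = γ' 0`; `γ - v` has the label `a` (`HasLabel.sub`).  Given `η` take `exists_rat_fp`; for `m ≥ 0` use `Approx` with `n ≥ m` so large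
that `γ k - v`, `v - γ (-k)` lie in `cone ξ₁ ξ₂` and have norm `≥ r₁` for all `k ≥ n`; the sub-geodesics `g[0,j]`, `g[i,0]` (`IsGeo.sub`) give
`γ' m - v ∈ cone ξ₁' ξ₂'` or `nrm (γ' m - v) ≤ nrm v + r₀`, the second fails eventually (`tendsto_nrm_atTop`).  `hasLabel_of_cones` for `γ' - v`, `HasLabel.sub` with `-v`. -/
theorem ae_label (H : HypC G) : ∀ᵐ t' ∂iidLaw G, ∀ (γ γ' : ℤ → V) (a : ℝ), Function.Injective γ → HasLabel G γ a →
    |a| ≤ fp G 1 → Bi t' γ' → Approx t' γ γ' → HasLabel G γ' a := by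
  filter_upwards [ae_nonneg G H.hyp.nonneg, ae_wedge_id H, ae_wedge_act H isAut_neg] with t ht w₁ w₂ γ γ' a hi h ha hb hA
  have key : HasLabel G (fun k => γ' k - γ' 0) a := by
    refine hasLabel_of_cones H (fun k l e => hb.inj (sub_left_injective e)) fun η hη => ?_
    obtain ⟨ξ₁', ξ₁, ξ₂, ξ₂', a₁, a₂, a₃, a₄, a₅, a₆⟩ := exists_rat_fp H ha hη
    obtain ⟨r₀, hr₀⟩ := wedge_both w₁ w₂ a₂ ((fp_mono H).reflect_lt (a₃.trans a₄)).le a₅ one_pos
    obtain ⟨r₁, hr₁⟩ := hr₀ (γ' 0)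
    obtain ⟨c₁, c₂⟩ := (h.sub H ha (γ' 0)).eventually_cone H a₃ a₄
    obtain ⟨n₀, hn₀⟩ := eventually_atTop.1 ((c₁.and ((tendsto_nrm_atTop hi (γ' 0)).eventually_ge_atTop r₁)).and
      (tendsto_neg_atTop_atBot.eventually (c₂.and ((tendsto_nrm_atBot hi (γ' 0)).eventually_ge_atTop r₁))))
    obtain ⟨M, hM⟩ := exists_int_gt (1 * nrm (γ' 0) + r₀ : ℝ)
    refine ⟨ξ₁', ξ₂', a₁, a₆, ?_, ?_⟩
    · filter_upwards [eventually_ge_atTop 0, (tendsto_nrm_atTop hb.inj (γ' 0)).eventually_ge_atTop M] with m m0 hm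
      obtain ⟨k, g, i, j, hk, hg, gi, gj, hi', hj', e⟩ := hA (max n₀ m)
      obtain ⟨⟨d₁, d₂⟩, -⟩ := hn₀ k (le_of_max_le_left hk)
      have e0 := e 0 (by rw [abs_zero]; omega)
      have := (hr₁ g 0 j (hg.sub ht (by omega) (by omega) le_rfl) (by rwa [gj, e0]) (by rwa [gj, e0]) m m0
        (by omega)).1 e0
      rw [e m (by rw [abs_of_nonneg m0]; omega)] at this
      refine this.resolve_right fun h => ?_
      have : (M : ℝ) ≤ nrm (γ' m - γ' 0) := by exact_mod_cast hm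
      linarith
    · filter_upwards [eventually_le_atBot 0, (tendsto_nrm_atBot hb.inj (γ' 0)).eventually_ge_atTop M] with m m0 hm
      obtain ⟨k, g, i, j, hk, hg, gi, gj, hi', hj', e⟩ := hA (max n₀ (-m))
      obtain ⟨-, d₁, d₂⟩ := hn₀ k (le_of_max_le_left hk)
      have e0 := e 0 (by rw [abs_zero]; omega)
      have := (hr₁ g i 0 (hg.sub ht le_rfl (by omega) (by omega)) (by rwa [gi, e0, nrm_sub_comm])
        (by rwa [gi, e0, ← neg_sub]) m (by omega) m0).2 e0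
      rw [e m (by rw [abs_of_nonpos m0]; omega)] at this
      rw [neg_sub]
      refine this.resolve_right fun h => ?_
      have : (M : ℝ) ≤ nrm (γ' m - γ' 0) := by exact_mod_cast hm
      linarith
  simpa using key.sub H ha (-γ' 0)

/-- If the geodesic visits `f ∈ F` then `T (x',j) (x,j+1) ≥ T f (x,j+1)` (`IsGeo.split`).  `ae_shape` with `ε = c/8` (`c ‖v‖ ≤ mu v ≤ C ‖v‖`):
the left side is `≤ C (L+1) + 2 ε (|x| + L + |j| + 1) + r₀`, the right side is `≥ c (x - |f|) - ε (|f| + |x| + |j| + 1) - r₀`. -/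
theorem ae_far (H : HypC G) : ∀ᵐ t ∂iidLaw G, ∀ (F : Finset V) (j : ℤ) (L : ℕ), ∃ D : ℤ, ∀ x x' : ℤ, D ≤ x → |x' - x| ≤ L →
    ∀ p i i', IsGeo t Set.univ p i i' → p i = (x', j) → p i' = (x, j + 1) → ∀ m, i ≤ m → m ≤ i' → p m ∉ F := by
  obtain ⟨c, hc, hlow⟩ := (symNorm_mu G H.hyp).lower
  obtain ⟨C, hC, hup⟩ := (symNorm_mu G H.hyp).upper
  filter_upwards [ae_nonneg G H.hyp.nonneg, ae_shape G H.hyp] with t ht hs F j L
  obtain ⟨r, hr⟩ := hs (c / 8) (by positivity)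
  obtain ⟨R, hR⟩ := (F.finite_toSet.image nrm).bddAbove
  obtain ⟨D, hD⟩ := exists_nat_gt ((C * (L + 1) + c * (L + 2 * |(j : ℝ)| + 2 * |(R : ℝ)| + 1) + 2 * r) / (c / 2))
  rw [div_lt_iff₀ (by positivity)] at hD
  refine ⟨D, fun x x' hx hx' p i i' hp pi pi' m h1 h2 hm => ?_⟩
  have e : T t (p i) (p i') = T t (p i) (p m) + T t (p m) (p i') := hp.split ht h1 h2
  rw [pi, pi'] at e
  have e0 : 0 ≤ T t (x', j) (p m) := T_nonneg ht
  have f₁ : nrm (p m) ≤ |R| := (hR ⟨_, hm, rfl⟩).trans (le_abs_self R)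
  have x0 : 0 ≤ x := le_trans (by positivity) hx
  obtain ⟨l1, l2⟩ := abs_le.1 hx'
  have j1 := le_abs_self j
  have j2 := neg_abs_le j
  have n₁ : nrm (x', j) ≤ x + L + |j| := max_le (abs_le.2 ⟨by omega, by omega⟩) (abs_le.2 ⟨by omega, by omega⟩)
  have n₂ : nrm (x, j + 1) ≤ x + |j| + 1 := max_le (abs_le.2 ⟨by omega, by omega⟩) (abs_le.2 ⟨by omega, by omega⟩)
  have n₃ : nrm ((x, j + 1) - (x', j)) ≤ L + 1 :=
    max_le (abs_le.2 ⟨by simp only [Prod.fst_sub]; omega, by simp only [Prod.fst_sub]; omega⟩) (by simp)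
  have n₄ : x - |R| ≤ nrm ((x, j + 1) - p m) := by
    have a1 := (abs_le.1 (le_of_max_le_left f₁)).2
    refine le_trans ?_ ((le_abs_self _).trans (le_max_left _ _))
    simp only [Prod.fst_sub]
    omega
  have u₁ := (abs_le.1 (hr (x', j) (x, j + 1))).2
  have u₂ := (abs_le.1 (hr (p m) (x, j + 1))).1
  have u₃ := hup (toR ((x, j + 1) - (x', j)))
  have u₄ := hlow (toR ((x, j + 1) - p m))
  rw [norm_toR] at u₃ u₄
  have n₁' : (nrm (x', j) : ℝ) ≤ x + L + |(j : ℝ)| := by exact_mod_cast n₁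
  have n₂' : (nrm (x, j + 1) : ℝ) ≤ x + |(j : ℝ)| + 1 := by exact_mod_cast n₂
  have n₃' : (nrm ((x, j + 1) - (x', j)) : ℝ) ≤ L + 1 := by exact_mod_cast n₃
  have n₄' : (x : ℝ) - |(R : ℝ)| ≤ nrm ((x, j + 1) - p m) := by exact_mod_cast n₄
  have f₁' : (nrm (p m) : ℝ) ≤ |(R : ℝ)| := by exact_mod_cast f₁
  have hx'' : (D : ℝ) ≤ x := by exact_mod_cast hx
  have v₁ := mul_le_mul_of_nonneg_left n₁' hc.le
  have v₂ := mul_le_mul_of_nonneg_left n₂' hc.le
  have v₃ := mul_le_mul_of_nonneg_left n₃' hC.le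
  have v₄ := mul_le_mul_of_nonneg_left n₄' hc.le
  have v₅ := mul_le_mul_of_nonneg_left f₁' hc.le
  have v₆ := mul_le_mul_of_nonneg_left hx'' hc.le
  have v₇ : 0 ≤ c * L := by positivity
  have v₈ : 0 ≤ c * |(j : ℝ)| := by positivity
  have v₉ : 0 ≤ c * |(R : ℝ)| := by positivity
  have v₀ : 0 ≤ c * D := by positivity
  linarith

end Crest.Agent.R151
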