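import Crest.Agent.R151.SJump
import Crest.Agent.R151.SBr2

/-! R151 part C soft, C8: rungs; two curves with rungs that meet are equal.  Helper prefix `sr_`. -/

set_option autoImplicit false

open MeasureTheory ProbabilityTheory Crest.ProbabilityR.FirstPassage Filter Topology
open scoped ENNReal

namespace Crest.Agent.R151

variable {G : Measure ℝ} [IsProbabilityMeasure G] [NullSingletonClass G] {t : Env} {γ γ' : ℤ → V} {β : ℝ}

/-- the upper half of the conclusion of `ae_barrier` at row `1` -/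
def BarU (t : Env) (γ : ℤ → V) : Prop :=
  ∀ F : Finset V, ∃ D : ℤ, ∀ x : ℤ, D ≤ |x| → ∀ᶠ N : ℕ in atTop, ∀ p i i', p i = (x, 1) → p i' = γ (fi γ (1 + N)) →
    IsGeo t (rows 1 (1 + N)) p i i' → ∀ m, i ≤ m → m ≤ i' → p m ∉ F

theorem ae_barU (H : HypC G) : ∀ᵐ t ∂iidLaw G, ∀ γ a, Curve G t γ a → BarU t γ := by
  filter_upwards [ae_barrier H] with t ht γ a hγ F
  obtain ⟨D, hD⟩ := ht γ a hγ 1 F
  refine ⟨D, fun x hx => ?_⟩
  filter_upwards [hD x hx] with N hN p i i' h1 h2 h3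
  exact hN _ p i i' h1 h2 (Or.inl ⟨hγ.line.first_fi _, hγ.line.fi_row _, h3⟩)

/-- one cheap rung gives all: `k' ↦ T (γ k) (γ' k') - pot γ' k'` is antitone -/
theorem rung_of_exists (ht : ∀ e, 0 ≤ t e) (hb' : Bi t γ')
    (h : ∀ ε > 0, ∀ k, ∃ k', T t (γ k) (γ' k') + pot t γ k - pot t γ' k' + β ≤ ε) : Rung t γ γ' β := by
  intro ε hε k
  obtain ⟨k', hk'⟩ := h ε hε k
  filter_upwards [eventually_ge_atTop k'] with k'' hk''
  have h1 : T t (γ k) (γ' k'') ≤ T t (γ k) (γ' k') + T t (γ' k') (γ' k'') := T_triangle ht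
  rw [hb'.T_eq hk''] at h1
  linarith

/-- `k₀ = la γ 0 + 1`, `F = γ '' [k₀, k]`, `D` from the barrier of `γ'`, `xL = min (-|D|) (γ k₀).1`, `xR = max |D| (γ k₀).1`.  For large `N` let `u = γ (fi γ (1+N))`,
`u' = γ' (fi γ' (1+N))`, `x = xL` if `u.1 ≤ u'.1` and `xR` otherwise, `g` the strip geodesic from `(x,1)` to `u'`.  By `cross_strip` it meets the crossing
`γ[k₀, fi γ (1+N)]` (`Line.pathIn_up`) at `γ m`, `m > k` by the barrier.  `IsGeo.split`, `TS_anti`, `BusU.le`, `T_le_TS`: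
`TU x u' ≥ b x + pot γ m + T (γ m) u'`, and `TU x u' - pot γ' (fi ..) ≤ b x - β + ε` by `BusU.lim`; finally
`T (γ k) u' + pot γ k ≤ T (γ m) u' + pot γ m`. -/
theorem rung_of_bus (hr : Reg t) (hb : Bi t γ) (hl : Line γ) (hb' : Bi t γ') (hl' : Line γ') (hB : BarU t γ')
    {b : ℤ → ℝ} (h : BusU t γ b) (h' : BusU t γ' fun x => b x - β) : Rung t γ γ' β := by
  have ht := hr.nonneg
  refine rung_of_exists ht hb' fun ε hε k => ?_
  obtain ⟨D, hD⟩ := hB ((Finset.Icc (la γ 0 + 1) k).image γ)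
  have lim : ∀ x, ∀ᶠ N : ℕ in atTop,
      TU t 0 N x (γ' (fi γ' (1 + N))) - pot t γ' (fi γ' (1 + N)) < b x - β + ε := fun x =>
    (h'.lim x).eventually_lt_const (by linarith)
  have xL : D ≤ |min (-|D|) (γ (la γ 0 + 1)).1| := by
    have := le_abs_self D
    have := min_le_left (-|D|) (γ (la γ 0 + 1)).1
    have := neg_le_abs (min (-|D|) (γ (la γ 0 + 1)).1)
    omega
  have xR : D ≤ |max |D| (γ (la γ 0 + 1)).1| := (le_abs_self D).trans ((le_max_left _ _).trans (le_abs_self _))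
  obtain ⟨N, b₁, b₂, l₁, l₂, hp⟩ := ((hD _ xL).and ((hD _ xR).and ((lim (min (-|D|) (γ (la γ 0 + 1)).1)).and
    ((lim (max |D| (γ (la γ 0 + 1)).1)).and (hl.pathIn_up 0))))).exists
  simp only [zero_add] at hp
  have r₀ : (γ (la γ 0 + 1)).2 = 1 := by
    rw [hl.last_succ (hl.last_la 0), Prod.snd_add, hl.la_row]
    rfl
  have key : ∀ x : ℤ, (∀ p i i', p i = (x, 1) → p i' = γ' (fi γ' (1 + N)) → IsGeo t (rows 1 (1 + N)) p i i' →
      ∀ m, i ≤ m → m ≤ i' → p m ∉ (Finset.Icc (la γ 0 + 1) k).image γ) →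
      TU t 0 N x (γ' (fi γ' (1 + N))) - pot t γ' (fi γ' (1 + N)) < b x - β + ε →
      (∀ g n, PathIn (rows 1 (1 + N)) g 0 n → g 0 = (x, 1) → g n = γ' (fi γ' (1 + N)) →
        ∃ c m, 0 ≤ c ∧ c ≤ n ∧ la γ 0 + 1 ≤ m ∧ g c = γ m) →
      T t (γ k) (γ' (fi γ' (1 + N))) + pot t γ k - pot t γ' (fi γ' (1 + N)) + β ≤ ε := by
    intro x hbar hlim hmeet
    obtain ⟨g, n, hg, g0, gn⟩ := exists_geo hr (conn_rows (a := 1) (b := 1 + N) (x := (x, 1)) (y := γ' (fi γ' (1 + N)))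
      ⟨le_rfl, by simp⟩ ⟨by rw [hl'.fi_row]; omega, (hl'.fi_row _).le⟩)
    obtain ⟨c, m, c0, cn, hm, e⟩ := hmeet g n hg.1 g0 gn
    have hkm : k ≤ m := by
      by_contra hcon
      exact hbar g 0 n g0 gn hg c c0 cn (Finset.mem_image.2 ⟨m, Finset.mem_Icc.2 ⟨hm, by omega⟩, e.symm⟩)
    have e1 := hg.split ht c0 cn
    have e2 := TS_anti ht (show rows 1 (1 + N) ⊆ upper 1 from fun v hv => hv.1) (hg.1.sub le_rfl c0 cn).conn
    have e3 := T_le_TS ht (hg.1.sub c0 cn le_rfl).conn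
    have e4 := h.le x m fun m' hm' => hl.la_lt (y := 0) (by omega)
    have e5 : T t (γ k) (γ' (fi γ' (1 + N))) ≤ T t (γ k) (γ m) + T t (γ m) (γ' (fi γ' (1 + N))) := T_triangle ht
    rw [hb.T_eq hkm] at e5
    rw [g0, e] at e2
    rw [g0, gn, e] at e1
    rw [gn, e] at e3
    simp only [TU, zero_add] at hlim
    linarith
  refine ⟨fi γ' (1 + N), ?_⟩
  rcases le_total (γ (fi γ (1 + N))).1 (γ' (fi γ' (1 + N))).1 with hu | hu
  · refine key _ b₁ l₁ fun g n hg g0 gn => ?_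
    obtain ⟨c, m, c0, cn, m0, -, e⟩ := cross_strip hg (by rw [g0]) (by rw [gn, hl'.fi_row]) hp r₀ (hl.fi_row _)
      (by rw [g0]; exact min_le_right _ _) (by rw [gn]; exact hu)
    exact ⟨c, m, c0, cn, m0, e⟩
  · refine key _ b₂ l₂ fun g n hg g0 gn => ?_
    obtain ⟨m, c, m0, -, c0, cn, e⟩ := cross_strip hp r₀ (hl.fi_row _) hg (by rw [g0]) (by rw [gn, hl'.fi_row])
      (by rw [g0]; exact le_max_right _ _) (by rw [gn]; exact hu)
    exact ⟨c, m, c0, cn, m0, e.symm⟩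

theorem rungs_of_same (hr : Reg t) (hb : Bi t γ) (hl : Line γ) (hb' : Bi t γ') (hl' : Line γ') (hB : BarU t γ)
    (hB' : BarU t γ') (h : SameU t γ γ') : ∃ β, Rung t γ γ' β ∧ Rung t γ' γ (-β) := by
  obtain ⟨b, β, h1, h2⟩ := h
  exact ⟨β, rung_of_bus hr hb hl hb' hl' hB' h1 h2, rung_of_bus hr hb' hl' hb hl hB h2 (by simpa using h1)⟩

/-- The rungs from the common vertex give `β = pot γ' i' - pot γ i`.  For `m ≤ i'`, `k ≥ i` and far `k'`:
`T (γ' m) (γ k) ≥ T (γ' m) (γ' k') - T (γ k) (γ' k') ≥ (pot γ k - pot γ i) + (pot γ' i' - pot γ' m) - ε`; `bi_of_le`. -/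
theorem bi_glue (hr : Reg t) (hb : Bi t γ) (hb' : Bi t γ') (h : Rung t γ γ' β) (h' : Rung t γ' γ (-β)) {i i' : ℤ}
    (hi : γ' i' = γ i) : Bi t (glue γ' i' γ i) := by
  have ht := hr.nonneg
  have hβ : pot t γ' i' - pot t γ i ≤ β := by
    refine le_of_forall_pos_le_add fun ε hε => ?_
    obtain ⟨j, h1, h2⟩ := ((h' ε hε i').and (eventually_ge_atTop i)).exists
    rw [hi, hb.T_eq h2] at h1
    linarith
  refine bi_of_le hr.pos (fun k => ?_) fun a c hac => ?_
  · rcases lt_or_ge k i' with hk | hk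
    · rw [glue_of_le hk.le, glue_of_le (by omega)]
      exact hb'.adj k
    · rw [glue_of_ge hi hk, glue_of_ge hi (by omega), show k + 1 - i' + i = k - i' + i + 1 by ring]
      exact hb.adj _
  rcases le_total c i' with hc | hc
  · rw [cost_congr (p := γ') fun k _ h2 => glue_of_le (h2.trans hc), glue_of_le hc, glue_of_le (hac.trans hc)]
    exact (hb' a c hac).2.2.le
  rcases le_total i' a with ha | ha
  · rw [cost_congr (p := fun k => γ (k + (i - i'))) fun k h1 _ => by rw [glue_of_ge hi (ha.trans h1)]; congr 1; ring,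
      glue_of_ge hi ha, glue_of_ge hi hc]
    have := cost_reindex (t := t) (p := γ) (i := a - i' + i) (j := c - i' + i) (i - i')
    rw [show a - i' + i - (i - i') = a by ring, show c - i' + i - (i - i') = c by ring] at this
    rw [this]
    exact (hb _ _ (by omega)).2.2.le
  have e := cost_glue (t := t) ha (show i ≤ c - i' + i by omega) hi
  rw [show i' + (c - i' + i - i) = c by ring] at e
  rw [e, glue_of_le ha, glue_of_ge hi hc, pot_sub ha, pot_sub (show i ≤ c - i' + i by omega)]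
  refine le_of_forall_pos_le_add fun ε hε => ?_
  obtain ⟨k', h1, h2⟩ := ((h ε hε (c - i' + i)).and (eventually_ge_atTop a)).exists
  have h3 : T t (γ' a) (γ' k') ≤ T t (γ' a) (γ (c - i' + i)) + T t (γ (c - i' + i)) (γ' k') := T_triangle ht
  rw [hb'.T_eq h2] at h3
  linarith

omit [IsProbabilityMeasure G] [NullSingletonClass G] in
theorem HasLabel.glue {a : ℝ} (h : HasLabel G γ a) (h' : HasLabel G γ' a) (i i' : ℤ) : HasLabel G (glue γ' i' γ i) a := by
  have e1 : (fun k => γ (k - i' + i)) =ᶠ[atTop] R151.glue γ' i' γ i := by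
    filter_upwards [eventually_gt_atTop i'] with k hk
    simp [R151.glue, not_le.2 hk]
  have e2 : γ' =ᶠ[atBot] R151.glue γ' i' γ i := by
    filter_upwards [eventually_le_atBot i'] with k hk
    rw [glue_of_le hk]
  have s : Tendsto (fun k : ℤ => k - i' + i) atTop atTop :=
    tendsto_atTop_add_const_right _ _ (tendsto_atTop_add_const_right _ _ tendsto_id)
  exact ⟨(h.up.comp s).congr' (e1.fun_comp Prod.snd), h'.down.congr' (e2.fun_comp Prod.snd),
    (h.top.comp s).congr' (e1.fun_comp fun v => fp G (slope v)), h'.bot.congr' (e2.fun_comp fun v => fp G (slope v))⟩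

/-- the glued curve shares its backward half with `γ'` (`ae_back`) and its forward half with `γ` (`ae_fwd`) -/
theorem ae_meet (H : HypC G) : ∀ᵐ t ∂iidLaw G, ∀ γ γ' a β i i', Curve G t γ a → Curve G t γ' a → Rung t γ γ' β →
    Rung t γ' γ (-β) → γ' i' = γ i → ∀ k, γ' (i' + k) = γ (i + k) := by
  filter_upwards [ae_reg G H.hyp.nonneg, ae_back H, ae_fwd H] with t hr h1 h2 γ γ' a β i i' hγ hγ' r r' e k
  have hc : Curve G t (glue γ' i' γ i) a := ⟨bi_glue hr hγ.bi hγ'.bi r r' e, hγ.lab.glue hγ'.lab i i', hγ.le⟩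
  rw [h1 γ' _ a i' i' hγ' hc (fun k hk => (glue_of_le (by omega)).symm) k]
  refine h2 _ γ a i' i hc hγ (fun k hk => ?_) k
  rw [glue_of_ge e (by omega)]
  congr 1
  ring

/-- `ae_same`; in the second case `ae_barU`, `ae_meet` in `act rf t` -/
theorem ae_shared (H : HypC G) : ∀ᵐ t ∂iidLaw G, ∀ γ γ' a i i', Curve G t γ a → Curve G t γ' a → γ' i' = γ i →
    ∀ k, γ' (i' + k) = γ (i + k) := by
  have key : ∀ᵐ t ∂iidLaw G, ∀ γ γ' a i i', Curve G t γ a → Curve G t γ' a → SameU t γ γ' → γ' i' = γ i →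
      ∀ k, γ' (i' + k) = γ (i + k) := by
    filter_upwards [ae_reg G H.hyp.nonneg, ae_barU H, ae_meet H] with t hr h1 h2 γ γ' a i i' hγ hγ' hs e
    obtain ⟨β, r, r'⟩ := rungs_of_same hr hγ.bi hγ.line hγ'.bi hγ'.line (h1 γ a hγ) (h1 γ' a hγ') hs
    exact h2 γ γ' a β i i' hγ hγ' r r' e
  filter_upwards [key, ae_act isAut_rf key, ae_same H] with t h1 h2 h3 γ γ' a i i' hγ hγ' e k
  rcases h3 γ γ' a hγ hγ' with h | h
  · exact h1 γ γ' a i i' hγ hγ' h e k
  · have := h2 _ _ a (-i) (-i') (hγ.rfc H) (hγ'.rfc H) h (by simp [rfc, e]) (-k)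
    simp only [rfc, neg_add, neg_neg] at this
    exact isAut_rf.bij.1 this

end Crest.Agent.R151
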