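import Crest.Agent.R151.SRung
import Crest.Agent.R151.SFrag

/-! R151 part C soft, C8: no special points, no fragile curves, uniqueness.  Helper prefix `sp_`. -/

set_option autoImplicit false

open MeasureTheory ProbabilityTheory Crest.ProbabilityR.FirstPassage Filter Topology
open scoped ENNReal

namespace Crest.Agent.R151

variable {G : Measure ℝ} [IsProbabilityMeasure G] [NullSingletonClass G] {L : ℕ} {q δ : ℝ}

/-- For `z ∈ sq w` with `shift z t ∈ Sp` choose `γ_z, a_z, k_z` (`mem_shift_Sp`); each of the `≥ 0.9 w` good rows `j ∈ [w, 2w)` (`str_rows`) gives a good exit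
`y(z,j)` in the parallelogram (`tube_col`) with `shift y t ∈ GE {a_z}` (`mem_shift_GE`).  The map `(z,j) ↦ (y, a_z)` is injective: `j = y.2`; two curves with the same
label through `y` differ by a reindexing `c` (`hsh`), `marg_mv c 0` shows that the last edges with margin correspond.  `card_le_sum_counts`. -/
theorem cnt_Sp_le (H : HypC G) {t : Env} {Ξ κ : ℝ} (hΞ : 0 ≤ Ξ) {w : ℕ} (hs : t ∈ Str G L q (1 / 10) 2 w)
    (ht : t ∈ Tube G 0 Ξ (-fp G 1) (fp G 1) 1 w) {ν : Env → ℝ≥0∞}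
    (hν : ∀ y, Counts (fun t a => t ∈ GE G L q {a}) ν (shift y t))
    (hsh : ∀ γ γ' a i i', Curve G t γ a → Curve G t γ' a → γ' i' = γ i → ∀ k, γ' (i' + k) = γ (i + k)) :
    ENNReal.ofReal (9 / 10 * w) * cnt (Sp G κ) (sq w) t ≤ ∑ y ∈ par 0 ((2 * Ξ + 3) * w) w w, ν (shift y t) := by
  classical
  set Z := (sq w).filter fun z => shift z t ∈ Sp G κ with hZ
  have hc : cnt (Sp G κ) (sq w) t = Z.card := by
    rw [cnt, hZ]
  choose! γ a k h1 h2 h3 h4 using fun z (hz : z ∈ Z) => (mem_shift_Sp H).1 (Finset.mem_filter.1 hz).2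
  have hsq : ∀ z ∈ Z, γ z (k z) ∈ sq w := fun z hz => (h2 z hz).symm ▸ (Finset.mem_filter.1 hz).1
  set R : V → Finset ℤ := fun z => (Finset.Ico (w : ℤ) (w + w)).filter fun j =>
    ∃ k, (γ z k).2 = j ∧ Good L q t (γ z) k with hR
  have hRc : ∀ z ∈ Z, 9 / 10 * (w : ℝ) ≤ (R z).card := fun z hz => by
    convert str_rows hs (h1 z hz) (hsq z hz) (Or.inr rfl)
  set φ : (Σ _ : V, ℤ) → V × ℝ := fun x => (γ x.1 (la (γ x.1) x.2), a x.1) with hφ
  have hinj : Set.InjOn φ (Z.sigma R : Finset (Σ _ : V, ℤ)) := by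
    rintro ⟨z, j⟩ hx ⟨z', j'⟩ hx' e
    have hz : z ∈ Z := (Finset.mem_sigma.1 hx).1
    have hz' : z' ∈ Z := (Finset.mem_sigma.1 hx').1
    obtain ⟨e1, e2⟩ : γ z (la (γ z) j) = γ z' (la (γ z') j') ∧ a z = a z' := Prod.ext_iff.1 e
    have ej : j = j' := by
      rw [← (h1 z hz).line.la_row j, e1, (h1 z' hz').line.la_row]
    have e3 := hsh (γ z) (γ z') (a z) _ _ (h1 z hz) (e2 ▸ h1 z' hz') e1.symm
    set c := la (γ z) j - la (γ z') j' with hc'
    have e4 : ∀ m, γ z' m = γ z (m + c) := fun m => by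
      have := e3 (m - la (γ z') j')
      rwa [add_sub_cancel, show la (γ z) j + (m - la (γ z') j') = m + c by rw [hc']; ring] at this
    have e5 : γ z' = mv (γ z) c 0 := funext fun m => by rw [mv, sub_zero, e4]
    have e6 : ∀ m, Marg κ t (γ z') m ↔ Marg κ t (γ z) (m + c) := fun m => by
      rw [← marg_mv c 0, ← e5, shift_zero]
    have e7 : k z' + c ≤ k z := not_lt.1 fun h => h4 z hz _ h ((e6 _).1 (h3 z' hz'))
    have e8 : k z - c ≤ k z' := not_lt.1 fun h => h4 z' hz' _ h ((e6 _).2 (by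
      rw [sub_add_cancel]; exact h3 z hz))
    have e9 : z = z' := by
      have := e4 (k z')
      rwa [h2 z' hz', show k z' + c = k z by omega, h2 z hz, eq_comm] at this
    subst e9 ej
    rfl
  have hW := card_le_sum_counts hν (par 0 ((2 * Ξ + 3) * w) w w) ((Z.sigma R).image φ) (by
    intro x hx
    obtain ⟨⟨z, j⟩, hx', rfl⟩ := Finset.mem_image.1 hx
    have hz : z ∈ Z := (Finset.mem_sigma.1 hx').1
    have hj : j ∈ R z := (Finset.mem_sigma.1 hx').2
    obtain ⟨hj1, m, hm, hg⟩ := Finset.mem_filter.1 hj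
    obtain ⟨j1, j2⟩ := Finset.mem_Ico.1 hj1
    have e : la (γ z) j = m := by rw [← hm, (h1 z hz).line.la_eq hg.1.1]
    simp only [hφ, e]
    refine ⟨mem_par.2 ⟨by omega, by omega, ?_⟩, (mem_shift_GE H).2 ⟨γ z, a z, m, rfl, h1 z hz, rfl, hg⟩⟩
    rw [zero_mul, sub_zero]
    exact tube_col hΞ ht (h1 z hz) (hsq z hz) (by omega) (by omega))
  refine le_trans ?_ hW
  rw [Finset.card_image_of_injOn hinj, Finset.card_sigma, hc, ← ENNReal.ofReal_natCast,
    ← ENNReal.ofReal_natCast (∑ z ∈ Z, (R z).card), ← ENNReal.ofReal_mul (by positivity)]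
  refine ENNReal.ofReal_le_ofReal ?_
  rw [Nat.cast_sum, mul_comm, ← nsmul_eq_mul]
  exact Finset.card_nsmul_le_sum _ _ _ hRc

/-- `intensity_zero`, `F = (0.9 w)⁻¹ ∑ ν (shift y t)`, `∫ F ≤ (4Ξ+7) w ∫ν / 0.9` (`card_par`, `lintegral_shift`, `exists_nu0`, `exists_tube_all`, `ae_shared`) -/
theorem measure_Sp (H : HypC G) (κ : ℝ) : iidLaw G (Sp G κ) = 0 := by
  obtain ⟨L, q, δ, P⟩ := exists_str H
  obtain ⟨ν, hm, hfin, hν⟩ := exists_nu0 H P
  obtain ⟨Ξ, hΞ, hT⟩ := exists_tube_all H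
  refine intensity_zero (nullMeas_Sp κ) fun ε hε => ?_
  set m := (∫⁻ t, ν t ∂iidLaw G).toReal with hm'
  have hm0 : 0 ≤ m := ENNReal.toReal_nonneg
  have hε2 : (0 : ℝ≥0∞) < ENNReal.ofReal (ε / 2) := ENNReal.ofReal_pos.2 (half_pos hε)
  have ev : ∀ᶠ w : ℕ in atTop, 10 / 9 * (4 * Ξ + 7) * m / ε ≤ w :=
    tendsto_natCast_atTop_atTop.eventually_ge_atTop _
  obtain ⟨w, ⟨hw1, hw2⟩, hw3, hw4⟩ := (((eventually_ge_atTop 1).and ev).and
    (((str_tendsto P 2).eventually (eventually_le_nhds hε2)).and (hT.eventually (eventually_le_nhds hε2)))).exists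
  have hw : (1 : ℝ) ≤ w := by exact_mod_cast hw1
  have hae := (ae_all_shift hν).and (ae_shared H)
  refine ⟨w, Str G L q (1 / 10) 2 w ∩ Tube G 0 Ξ (-fp G 1) (fp G 1) 1 w ∩
      {t | (∀ y, Counts (fun t a => t ∈ GE G L q {a}) ν (shift y t)) ∧ ∀ γ γ' a i i', Curve G t γ a →
        Curve G t γ' a → γ' i' = γ i → ∀ k, γ' (i' + k) = γ (i + k)},
    fun t => ENNReal.ofReal (10 / (9 * w)) * ∑ y ∈ par 0 ((2 * Ξ + 3) * w) w w, ν (shift y t), hw1, ?_, ?_,
    fun t ht => ?_⟩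
  · rw [Set.compl_inter, Set.compl_inter]
    refine (measure_union_le _ _).trans ?_
    rw [show iidLaw G {t | (∀ y, Counts (fun t a => t ∈ GE G L q {a}) ν (shift y t)) ∧ ∀ γ γ' a i i',
      Curve G t γ a → Curve G t γ' a → γ' i' = γ i → ∀ k, γ' (i' + k) = γ (i + k)}ᶜ = 0 from hae, add_zero]
    refine (measure_union_le _ _).trans ((add_le_add hw3 hw4).trans (le_of_eq ?_))
    rw [← ENNReal.ofReal_add (half_pos hε).le (half_pos hε).le, add_halves]
  · rw [lintegral_const_mul' _ _ ENNReal.ofReal_ne_top,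
      lintegral_finsetSum (f := fun y t => ν (shift y t)) _ fun y _ => hm.comp (measurable_shift y)]
    simp only [lintegral_shift hm, Finset.sum_const, nsmul_eq_mul]
    rw [← ENNReal.ofReal_toReal hfin.ne, ← hm', ← ENNReal.ofReal_natCast, ← ENNReal.ofReal_mul (by positivity),
      ← ENNReal.ofReal_mul (by positivity)]
    refine ENNReal.ofReal_le_ofReal ?_
    have h1 := card_par (ξ := 0) (r := (2 * Ξ + 3) * w) (by positivity) w w
    have h2 : ((par 0 ((2 * Ξ + 3) * w) w w).card : ℝ) ≤ w * ((4 * Ξ + 7) * w) :=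
      h1.trans (mul_le_mul_of_nonneg_left (by linarith) (by positivity))
    rw [div_le_iff₀ hε] at hw2
    calc 10 / (9 * (w : ℝ)) * (((par 0 ((2 * Ξ + 3) * w) w w).card : ℝ) * m)
        ≤ 10 / (9 * (w : ℝ)) * (w * ((4 * Ξ + 7) * w) * m) := by gcongr
      _ = (10 / 9 * (4 * Ξ + 7) * m) * w := by field_simp
      _ ≤ (w * ε) * w := by gcongr
      _ = _ := by ring
  · refine le_trans (le_of_eq ?_) (mul_le_mul_right (cnt_Sp_le (κ := κ) H hΞ ht.1.1 ht.1.2 ht.2.1 ht.2.2) _)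
    rw [← mul_assoc, ← ENNReal.ofReal_mul (by positivity),
      show 10 / (9 * (w : ℝ)) * (9 / 10 * w) = 1 by field_simp, ENNReal.ofReal_one, one_mul]

/-- a fragile curve with an edge of margin `κ` has a last such edge (`Fragile.eventually_not_marg`, `Int.exists_greatest_of_bdd`) -/
theorem ae_fragile_not_marg (H : HypC G) {κ : ℝ} (hκ : 0 < κ) :
    ∀ᵐ t ∂iidLaw G, ∀ γ a k, Curve G t γ a → Fragile t γ → ¬ Marg κ t γ k := by
  have h0 : ∀ᵐ t ∂iidLaw G, t ∉ Sp G κ := measure_eq_zero_iff_ae_notMem.1 (measure_Sp H κ)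
  filter_upwards [ae_all_shift h0, ae_reg G H.hyp.nonneg] with t h1 hr γ a k hγ hf hk
  obtain ⟨i, hi⟩ := hf.eventually_not_marg (fun e => (hr.pos e).le) hκ
  obtain ⟨m, hm, hm'⟩ := Int.exists_greatest_of_bdd (P := Marg κ t γ)
    ⟨i, fun z hz => (not_le.1 fun h => hi z h hz).le⟩ ⟨k, hk⟩
  exact h1 (γ m) ((mem_shift_Sp H).2 ⟨γ, a, m, hγ, rfl, hm, fun l hl h => not_le.2 hl (hm' l h)⟩)

/-- `A = {t ≥ 0, ∃ γ a, Curve, γ 0 = 0, Good at 0, Fragile}` is null by `lower_one_null` (`e = upE 0`, `B = Ico 0 (q - δ)`; `Curve.lower`, `marg_of_lower`,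
`Fragile.update`, `ae_fragile_not_marg`); then `ae_all_shift`, `ae_exists_good`, `curve_mv`, `good_mv`, `Fragile.mv` -/
theorem ae_not_fragile (H : HypC G) : ∀ᵐ t ∂iidLaw G, ∀ γ a, Curve G t γ a → ¬ Fragile t γ := by
  obtain ⟨L, q, δ, P⟩ := exists_str H
  have hδ := P.δ_pos
  have hA : iidLaw G {t | (∀ e, 0 ≤ t e) ∧ ∃ γ a, Curve G t γ a ∧ γ 0 = 0 ∧ Good L q t γ 0 ∧ Fragile t γ} = 0 := by
    refine lower_one_null (upE 0) (B := Set.Ico 0 (q - δ)) (ENNReal.toReal_pos_iff.1 (P.pos_Ico H)).1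
      (ae_iff.1 (ae_fragile_not_marg H hδ)) ?_
    rintro t ⟨ht, γ, a, hγ, h0, hg, hf⟩ c ⟨c0, c1⟩ h
    have e : upE 0 = edge γ 0 := by rw [hγ.line.edge_last hg.1.1, h0]
    rw [e] at h
    have := hg.2
    exact h γ a 0 (hγ.lower ht 0 c0 (by linarith)) (hf.update hγ.bi.inj 0 c)
      (marg_of_lower ht hγ.bi 0 c0 hδ.le (by linarith))
  filter_upwards [ae_all_shift (measure_eq_zero_iff_ae_notMem.1 hA), ae_reg G H.hyp.nonneg, ae_exists_good P]
    with t h1 hr h2 γ a hγ hf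
  obtain ⟨k, hk⟩ := h2 γ a hγ
  refine h1 (γ k) ⟨fun e => (hr.pos _).le, mv γ k (γ k), a, (curve_mv H _ _).2 hγ, ?_, (good_mv _ _).2 ?_,
    hf.mv _ _⟩
  · rw [mv, zero_add, sub_self]
  · rwa [zero_add]

/-- two curves with the same label meet: `ae_same`, `rungs_of_same`, `fragile_of_rungs` (in `t` or in `act rf t`); then `ae_shared` -/
theorem ae_uniq (H : HypC G) : ∀ᵐ t ∂iidLaw G, Uniq G t := by
  have hr := ae_reg G H.hyp.nonneg
  filter_upwards [hr, ae_same H, ae_barU H, ae_not_fragile H, ae_shared H, ae_act isAut_rf hr,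
    ae_act isAut_rf (ae_barU H), ae_act isAut_rf (ae_not_fragile H)] with t r1 h1 b1 f1 h2 r2 b2 f2 γ γ' a hγ hγ'
  obtain ⟨i, i', e⟩ : ∃ i i', γ' i' = γ i := by
    by_contra hd
    push Not at hd
    rcases h1 γ γ' a hγ hγ' with h | h
    · obtain ⟨β, g1, g2⟩ := rungs_of_same r1 hγ.bi hγ.line hγ'.bi hγ'.line (b1 _ _ hγ) (b1 _ _ hγ') h
      exact f1 γ a hγ (fragile_of_rungs r1 hγ.bi hγ'.bi g1 g2 hd)
    · have c := hγ.rfc H
      have c' := hγ'.rfc H
      obtain ⟨β, g1, g2⟩ := rungs_of_same r2 c.bi c.line c'.bi c'.line (b2 _ _ c) (b2 _ _ c') h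
      exact f2 _ a c (fragile_of_rungs r2 c.bi c'.bi g1 g2 fun i i' e => hd _ _ (isAut_rf.bij.1 e))
  refine ⟨i - i', fun k => ?_⟩
  have := h2 γ γ' a i i' hγ hγ' e (k - i')
  rwa [add_sub_cancel, show i + (k - i') = k + (i - i') by ring] at this

omit [IsProbabilityMeasure G] [NullSingletonClass G] in
/-- the exit at a given row is determined by the label -/
theorem Uniq.exit_eq {t : Env} (h : Uniq G t) {γ γ' : ℤ → V} {a : ℝ} (hγ : Curve G t γ a) (hγ' : Curve G t γ' a) {k k' : ℤ}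
    (hk : Last γ k) (hk' : Last γ' k') (hr : (γ k).2 = (γ' k').2) : γ k = γ' k' := by
  obtain ⟨c, hc⟩ := h γ γ' a hγ hγ'
  rw [hc] at hr ⊢
  rcases lt_trichotomy k (k' + c) with h1 | h1 | h1
  · exact absurd (hk _ h1) (by omega)
  · rw [h1]
  · have := hk' (k - c) (by omega)
    rw [hc, hc, sub_add_cancel] at this
    omega

end Crest.Agent.R151
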