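import Crest.Agent.R151.SBud

/-! R151 part C soft, C4: the SWAP inequality.  Helper prefix `s3_`. -/

set_option autoImplicit false

open MeasureTheory ProbabilityTheory Crest.ProbabilityR.FirstPassage Filter Topology
open scoped ENNReal

namespace Crest.Agent.R151

variable {G : Measure ℝ} [IsProbabilityMeasure G] [NullSingletonClass G] {t : Env} {γ γ' : ℤ → V}

/-- triangle inequality, `T_le_TS` (`conn_rows`, `Line.la_row`, `Line.fi_row`) -/
theorem exc_nonneg (ht : ∀ e, 0 ≤ t e) (h : Line γ) (j : ℤ) (N : ℕ) (x' x : ℤ) : 0 ≤ Exc t γ j N x' x := by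
  have h1 := T_le_TS ht (conn_rows (a := j - N) (b := j) (x := (x', j)) (y := γ (la γ (j - N)))
    ⟨by simp, le_rfl⟩ ⟨(h.la_row _).ge, by rw [h.la_row]; omega⟩)
  have h2 := T_le_TS ht (conn_rows (a := j + 1) (b := j + 1 + N) (x := (x, j + 1)) (y := γ (fi γ (j + 1 + N)))
    ⟨le_rfl, by simp⟩ ⟨by rw [h.fi_row]; omega, (h.fi_row _).le⟩)
  have h3 : T t (γ (la γ (j - N))) (γ (fi γ (j + 1 + N))) ≤
      T t (γ (la γ (j - N))) (x', j) + T t (x', j) (γ (fi γ (j + 1 + N))) := T_triangle ht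
  have h4 : T t (x', j) (γ (fi γ (j + 1 + N))) ≤
      T t (x', j) (x, j + 1) + T t (x, j + 1) (γ (fi γ (j + 1 + N))) := T_triangle ht
  rw [T_comm (y := (x', j))] at h3
  unfold Exc TD TU
  linarith

/-- the curve itself: `Line.pathIn_up`, `Line.pathIn_down`, `Bi.TS_eq`, `Bi.T_eq`; `γ (fi γ 1 - 1) = (x~, 0)`, `γ (k + 1) = (x, 1)` -/
theorem exc_self (ht : ∀ e, 0 ≤ t e) (hb : Bi t γ) (h : Line γ) {k : ℤ} (hk : Last γ k) (h0 : (γ k).2 = 0) :
    ∀ᶠ N : ℕ in atTop, Exc t γ 0 N (γ (fi γ 1 - 1)).1 (γ k).1 = 0 := by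
  have e0 : la γ 0 = k := h0 ▸ h.la_eq hk
  have e1 : (((γ (fi γ 1 - 1)).1, 0) : V) = γ (fi γ (0 + 1) - 1) := Prod.ext rfl (h.entry_row 0).symm
  have e2 : (((γ k).1, 0 + 1) : V) = γ (k + 1) := by
    rw [h.last_succ hk]
    ext <;> simp [h0]
  have e3 : fi γ (0 + 1) - 1 ≤ k := h0 ▸ h.entry_le hk
  filter_upwards [h.pathIn_up 0, h.pathIn_down 0] with N hu hd
  rw [e0] at hu
  have := hu.1
  have := hd.1
  unfold Exc TD TU
  rw [e1, e2, TS_comm (x := γ (fi γ (0 + 1) - 1)), hb.TS_eq ht hd.1 hd.2.1, hb.TS_eq ht hu.1 hu.2.1,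
    hb.T_eq (by omega), hb.T_eq (by omega)]
  ring

theorem s3_tele (f : ℤ → ℝ) {x x' : ℤ} (h : x ≤ x') : ∑ y ∈ Finset.Ico x x', (f (y + 1) - f y) = f x' - f x := by
  induction x', h using Int.leInduction with
  | base => simp
  | succ n hn ih =>
    rw [← Finset.insert_Ico_right_eq_Ico_add_one hn, Finset.sum_insert Finset.right_notMem_Ico, ih]
    ring

theorem s3_ofReal {ι : Type} (s : Finset ι) (f : ι → ℝ) :
    ENNReal.ofReal (∑ i ∈ s, f i) ≤ ∑ i ∈ s, ENNReal.ofReal (f i) := by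
  classical
  induction s using Finset.induction_on with
  | empty => simp
  | insert a s ha ih =>
    rw [Finset.sum_insert ha, Finset.sum_insert ha]
    exact ENNReal.ofReal_add_le.trans (add_le_add le_rfl ih)

/-- telescoping of the upper increments -/
theorem sum_incU (t : Env) (γ : ℤ → V) (N : ℕ) {x x' : ℤ} (h : x ≤ x') :
    ∑ y ∈ Finset.Ico x x', incU t γ N y =
      TU t 0 N x' (γ (fi γ (1 + N))) - TU t 0 N x (γ (fi γ (1 + N))) := by
  exact s3_tele (fun y => TU t 0 N y (γ (fi γ (1 + N)))) h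

/-- the lower passage times through the reflection: `TD_eq_TU`, `Line.fi_rfc` -/
theorem TD_eq (h : Line γ) (N : ℕ) (x : ℤ) :
    TD t 0 N x (γ (la γ (0 - N))) = TU (act rf t) 0 N (-x) (rfc γ (fi (rfc γ) (1 + N))) := by
  rw [TD_eq_TU, h.fi_rfc, rfc, neg_neg, show (1 : ℤ) - (1 + N) = 0 - N by ring]

/-- the upper part of SWAP, for both orders of `x, x'` -/
theorem BudU.swap_up {I : Set ℝ} {b : ℝ} {Λ : ℕ → Env → ℝ≥0∞} (B : BudU G I b Λ) (hr : Reg t) {a a' : ℝ} (ha : a ∈ I)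
    (ha' : a' ∈ I) (h : Curve G t γ a) (h' : Curve G t γ' a') (x x' : ℤ) : ∀ᶠ N : ℕ in atTop,
    ENNReal.ofReal (TU t 0 N x' (γ (fi γ (1 + N))) - TU t 0 N x (γ (fi γ (1 + N))) -
      (TU t 0 N x' (γ' (fi γ' (1 + N))) - TU t 0 N x (γ' (fi γ' (1 + N))))) ≤
      ∑ y ∈ Finset.Ico (min x x') (max x x'), Λ N (shift (y, 0) t) := by
  rcases le_total x x' with hx | hx
  · filter_upwards [(eventually_all_finset (Finset.Ico x x')).2 fun y _ => B.bd t hr γ a γ' a' ha ha' h h' y] with N hN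
    rw [← sum_incU t γ N hx, ← sum_incU t γ' N hx, ← Finset.sum_sub_distrib, min_eq_left hx, max_eq_right hx]
    exact (s3_ofReal _ _).trans (Finset.sum_le_sum hN)
  · filter_upwards [(eventually_all_finset (Finset.Ico x' x)).2 fun y _ => B.bd t hr γ' a' γ a ha' ha h' h y] with N hN
    rw [min_eq_right hx, max_eq_left hx]
    refine le_trans (le_of_eq ?_) ((s3_ofReal _ _).trans (Finset.sum_le_sum hN))
    rw [Finset.sum_sub_distrib, sum_incU t γ N hx, sum_incU t γ' N hx]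
    congr 1
    ring

/-- `Λ' N t = Λ N t + Λ N (shift (-1,0) (act rf t))`.  With `x = 0`, `x~`, `x'`, `x~'`:
`E(γ;x~',x') ≤ E(γ;x~',x') + E(γ';x~,x) - E(γ;x~,x) - E(γ';x~',x')` = upper part + lower part (all `T` terms cancel).
Lower part: `swap_up` in `act rf t` for `rfc γ`, `rfc γ'` at the columns `-x~`, `-x~'`; substitute `y ↦ -y-1`,
`shift (-y-1,0) (act rf t) = shift (-1,0) (act rf (shift (y,0) t))` (`act_rf_shift`, `shift_shift`);
`|x~| ≤ L`, `|x~' - x'| ≤ L` by `Tame.mid`. -/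
theorem BudU.exists_bud (H : HypC G) {I : Set ℝ} {b : ℝ} (hb : 0 ≤ b) {Λ : ℕ → Env → ℝ≥0∞} (B : BudU G I b Λ) (L : ℕ) :
    ∃ Λ', Bud G L I (2 * b) Λ' := by
  have mp : MeasurePreserving (fun t => shift (-1, 0) (act rf t)) (iidLaw G) (iidLaw G) :=
    (measurePreserving_shift G _).comp (measurePreserving_act G isAut_rf.bij)
  refine ⟨fun N t => Λ N t + Λ N (shift (-1, 0) (act rf t)), fun N => (B.meas N).add ((B.meas N).comp mp.measurable), ?_, ?_⟩
  · filter_upwards [B.int] with N hN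
    rw [lintegral_add_left (B.meas N), mp.lintegral_comp (B.meas N), two_mul, ENNReal.ofReal_add hb hb]
    exact add_le_add hN hN
  intro t hr γ a γ' a' k' ha ha' h h' h0 hT h0' hT' hx
  have ht := hr.nonneg
  have r0 : (γ 0).2 = 0 := by rw [h0]; rfl
  have c0 : (γ 0).1 = 0 := by rw [h0]; rfl
  have m₁ := hT.mid h.line le_rfl (h.line.entry_le hT.1)
  have m₂ := hT'.mid h'.line le_rfl (h'.line.entry_le hT'.1)
  rw [r0, zero_add, c0, sub_zero, abs_le] at m₁
  rw [h0', zero_add, abs_le] at m₂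
  filter_upwards [exc_self ht h.bi h.line hT.1 r0, exc_self ht h'.bi h'.line hT'.1 h0',
    B.swap_up hr ha ha' h h' 0 (γ' k').1,
    B.swap_up (hr.act isAut_rf) ha ha' (h.rfc H) (h'.rfc H) (-(γ (fi γ 1 - 1)).1) (-(γ' (fi γ' 1 - 1)).1)] with N e₁ e₂ u d
  have e₃ := exc_nonneg ht h'.line 0 N (γ (fi γ 1 - 1)).1 0
  rw [c0] at e₁
  rw [← TD_eq h.line, ← TD_eq h.line, ← TD_eq h'.line, ← TD_eq h'.line] at d
  rw [Finset.sum_add_distrib]
  refine le_trans (ENNReal.ofReal_le_ofReal ?_) (ENNReal.ofReal_add_le.trans (add_le_add (u.trans ?_) (d.trans ?_)))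
  · simp only [Exc, zero_add] at e₁ e₂ e₃ ⊢
    linarith
  · refine Finset.sum_le_sum_of_subset fun y hy => ?_
    rw [Finset.mem_Ico] at hy
    rw [Finset.mem_Icc]
    omega
  · have inj : Function.Injective fun y : ℤ => -y - 1 := fun y y' e => by simpa using e
    refine le_trans (le_of_eq ?_) (Finset.sum_le_sum_of_subset (s := (Finset.Ico (min (-(γ (fi γ 1 - 1)).1)
      (-(γ' (fi γ' 1 - 1)).1)) (max (-(γ (fi γ 1 - 1)).1) (-(γ' (fi γ' 1 - 1)).1))).image fun y => -y - 1) fun y hy => ?_)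
    · rw [Finset.sum_image inj.injOn]
      refine Finset.sum_congr rfl fun y _ => ?_
      rw [act_rf_shift, shift_shift]
      congr 2
      ext <;> simp
    · obtain ⟨y, hy', rfl⟩ := Finset.mem_image.1 hy
      rw [Finset.mem_Ico] at hy'
      rw [Finset.mem_Icc]
      omega

theorem exists_bud (H : HypC G) (L : ℕ) (α : ℝ) {h : ℝ} (hh : 0 < h) :
    ∃ Λ, Bud G L (Set.Icc α (α + h)) (6 * h) Λ := by
  obtain ⟨Λ, B⟩ := exists_budU H α hh
  obtain ⟨Λ', B'⟩ := B.exists_bud H (by positivity) L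
  exact ⟨Λ', by rwa [show 2 * (3 * h) = 6 * h by ring] at B'⟩

end Crest.Agent.R151
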