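import Crest.Agent.R151.SWge
import Crest.Agent.R151.SSpec

/-! R151 part C soft, C10: deterministic part of the tilt.  Helper prefix `st_`. -/

set_option autoImplicit false

open MeasureTheory ProbabilityTheory Crest.ProbabilityR.FirstPassage Filter Topology
open scoped ENNReal

namespace Crest.Agent.R151

variable {G : Measure ℝ} [IsProbabilityMeasure G] [NullSingletonClass G] {L : ℕ} {q δ ξ α β : ℝ} {R w : ℕ}

/-- the vertical edges of the tube -/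
noncomputable def tubeE (ξ : ℝ) (R w : ℕ) : Finset (Sym2 V) := (par ξ (4 * w) 0 (R * w)).image upE

theorem card_tubeE (hw : 1 ≤ w) : ((tubeE ξ R w).card : ℝ) ≤ 9 * R * w ^ 2 := by
  have h1 : ((tubeE ξ R w).card : ℝ) ≤ (par ξ (4 * w) 0 (R * w)).card :=
    Nat.cast_le.2 Finset.card_image_le
  have h2 := card_par (ξ := ξ) (r := 4 * w) (by positivity) 0 (R * w)
  have hw' : (1 : ℝ) ≤ w := by exact_mod_cast hw
  have hR : (0 : ℝ) ≤ R := by positivity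
  push_cast at h2
  have : (R * w : ℝ) * (2 * (4 * w) + 1) ≤ 9 * R * w ^ 2 := by
    have : 0 ≤ (R * w : ℝ) * (w - 1) := by apply mul_nonneg <;> [positivity; linarith]
    nlinarith
  linarith

/-- a choice of indices for the good rows -/
theorem st_choose {t : Env} {γ : ℤ → V} (J : Finset ℤ) (h : ∀ j ∈ J, ∃ k, (γ k).2 = j ∧ Good L q t γ k) :
    ∃ κ : ℤ → ℤ, ∀ j ∈ J, (γ (κ j)).2 = j ∧ Good L q t γ (κ j) := by
  choose! κ hκ using h
  exact ⟨κ, hκ⟩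

theorem st_nrm_le {v : V} {c : ℝ} (h1 : |(v.1 : ℝ)| ≤ c) (h2 : |(v.2 : ℝ)| ≤ c) : (nrm v : ℝ) ≤ c := by
  unfold nrm
  push_cast
  exact max_le h1 h2

omit [IsProbabilityMeasure G] [NullSingletonClass G] in
/-- Before the tilt.  `Str 1 (R w)` with `j₀ = 0` gives `≥ 0.9 R w` good rows `j ∈ [0, R w)`; the exit `γ k_j` satisfies
`|x - ξ j| ≤ w + (j/R + w + w) ≤ 4w` by `Tube` from `γ k₀`; `D` = the exit edges `upE (γ k_j) = edge γ k_j` (`Line.edge_last`, `upE_injective`);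
`n₀` bounds the finitely many indices. -/
theorem exists_useful (hR : 1 ≤ R) {t : Env} (hs : t ∈ Str G L q (1 / 10) 1 (R * w)) (ht : t ∈ Tube G ξ (1 / R) α β 1 w)
    {γ : ℤ → V} {a : ℝ} (h : Curve G t γ a) (ha : a ∈ Set.Icc α β) {k₀ : ℤ} (h0 : γ k₀ ∈ seg w) :
    ∃ (D : Finset (Sym2 V)) (n₀ : ℤ), D ⊆ tubeE ξ R w ∧ 9 / 10 * (R * w : ℝ) ≤ D.card ∧
      ∀ e ∈ D, q ≤ t e ∧ ∃ k, -n₀ ≤ k ∧ k < n₀ ∧ e = edge γ k := by
  classical
  obtain ⟨⟨hx0, hxw⟩, hy0⟩ := mem_seg.1 h0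
  have hR' : (1 : ℝ) ≤ R := by exact_mod_cast hR
  have hRz : (1 : ℤ) ≤ R := by exact_mod_cast hR
  have hx0' : (0 : ℝ) ≤ (γ k₀).1 := by exact_mod_cast hx0
  have hxw' : ((γ k₀).1 : ℝ) ≤ w := by exact_mod_cast hxw.le
  have hw0 : (0 : ℝ) ≤ w := by positivity
  have hn : (nrm (γ k₀) : ℝ) ≤ w := st_nrm_le (by rwa [abs_of_nonneg hx0']) (by simp [hy0])
  have hnz : nrm (γ k₀) ≤ w := by exact_mod_cast hn
  have hwz : (0 : ℤ) ≤ w := by positivity
  have hst := hs γ a h ⟨k₀, by push_cast; nlinarith⟩ 0 (by push_cast; nlinarith) (by push_cast; omega)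
  set J := (Finset.Ico (0 : ℤ) (0 + ((R * w : ℕ) : ℤ))).filter fun j => ∃ k, (γ k).2 = j ∧ Good L q t γ k with hJ
  obtain ⟨κ, hκ⟩ := st_choose (L := L) (q := q) (t := t) (γ := γ) J fun j hj => (Finset.mem_filter.1 hj).2
  obtain ⟨n₀, hn₀⟩ : ∃ n₀ : ℤ, ∀ j ∈ J, |κ j| < n₀ := by
    obtain ⟨n, hn⟩ := (J.image fun j => |κ j|).bddAbove
    exact ⟨n + 1, fun j hj => Int.lt_add_one_of_le (hn (Finset.mem_coe.2 (Finset.mem_image_of_mem _ hj)))⟩
  refine ⟨J.image fun j => upE (γ (κ j)), n₀, ?_, ?_, ?_⟩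
  · intro e he
    obtain ⟨j, hj, rfl⟩ := Finset.mem_image.1 he
    refine Finset.mem_image_of_mem _ (mem_par.2 ?_)
    obtain ⟨hj0, hj1⟩ := Finset.mem_Ico.1 (Finset.mem_filter.1 hj).1
    have hr := (hκ j hj).1
    refine ⟨by omega, by omega, ?_⟩
    have h1 := ht γ a h ha.1 ha.2 k₀ (κ j)
    have hj0' : (0 : ℝ) ≤ j := by exact_mod_cast hj0
    have hj1' : (j : ℝ) ≤ R * w := by
      have : j ≤ R * w := by push_cast at hj1; omega
      exact_mod_cast this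
    have hr' : ((γ (κ j)).2 : ℝ) = j := by exact_mod_cast hr
    have hy0' : ((γ k₀).2 : ℝ) = 0 := by exact_mod_cast hy0
    rw [hr', hy0', sub_zero, abs_of_nonneg hj0'] at h1
    have h2 : 1 / (R : ℝ) * j ≤ w := by
      rw [one_div, inv_mul_le_iff₀ (by linarith)]; exact hj1'
    rw [hr']
    rw [abs_le] at h1 ⊢
    constructor <;> linarith [h1.1, h1.2]
  · rw [Finset.card_image_of_injOn]
    · push_cast at hst ⊢
      linarith
    · intro j hj j' hj' e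
      have := upE_injective e
      rw [← (hκ j hj).1, ← (hκ j' hj').1, this]
  · intro e he
    obtain ⟨j, hj, rfl⟩ := Finset.mem_image.1 he
    have hg := (hκ j hj).2
    have he := h.line.edge_last hg.1.1
    have := abs_lt.1 (hn₀ j hj)
    exact ⟨he ▸ hg.2, κ j, by omega, this.2, he.symm⟩

/-- `cost_lowerOn_le`: `C ∩ D` is contained in the filtered image -/
theorem gain_of_inter (hδ : 0 < δ) {t : Env} {γ : ℤ → V} {C D : Finset (Sym2 V)} {n₀ : ℤ} {b : Sym2 V → ℝ}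
    (hb : ∀ e, b e ∈ Set.Ico 0 (q - δ)) (hD : ∀ e ∈ D, q ≤ t e ∧ ∃ k, -n₀ ≤ k ∧ k < n₀ ∧ e = edge γ k) {s : ℝ}
    (hs : s ≤ δ * (C ∩ D).card) (i j : ℤ) (hi : i ≤ -n₀) (hj : n₀ ≤ j) :
    cost (lowerOn q C b t) γ i j + s ≤ cost t γ i j := by
  classical
  have h1 := cost_lowerOn_le (C := C) (t := t) hδ hb γ i j
  have h2 : (C ∩ D).card ≤ (((Finset.Ico i j).image (edge γ)).filter fun e => e ∈ C ∧ q ≤ t e).card := by
    refine Finset.card_le_card fun e he => ?_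
    obtain ⟨hC, hD'⟩ := Finset.mem_inter.1 he
    obtain ⟨hq, k, h3, h4, rfl⟩ := hD e hD'
    exact Finset.mem_filter.2 ⟨Finset.mem_image_of_mem _ (Finset.mem_Ico.2 ⟨by omega, by omega⟩), hC, hq⟩
  have h3 : ((C ∩ D).card : ℝ) ≤ _ := Nat.cast_le.2 h2
  have h4 := mul_le_mul_of_nonneg_left h3 hδ.le
  linarith

/-- After the tilt.  `v = γ' 0` is an endpoint of an edge of the tube: `0 ≤ v.2 ≤ R w`, `|v.1 - ξ v.2| ≤ 4 w + |ξ|`, `nrm v ≤ K w`.  `Str K w` with `j₀ = 0` gives `≥ 0.9 w` good rows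
`j ∈ [0, w)`; by `Tube` from `v` the exit `y` has `|y.1 - ξ j| ≤ (4w + |ξ|) + w + w + w ≤ 8 w`; `shift_mem_WE`. -/
theorem exists_exits (H : HypC G) (hR : 1 ≤ R) (hw : |ξ| ≤ w) (hw1 : 1 ≤ w) {K : ℕ} (hK : (|ξ| + 1) * R + 5 ≤ K) {t' : Env}
    (hs : t' ∈ Str G L q (1 / 10) K w) (ht : t' ∈ Tube G ξ (1 / R) α β (1 / K) w) {γ' : ℤ → V} {a s : ℝ}
    (h : Curve G t' γ' a) (ha : a ∈ Set.Icc α β) (h0 : ∃ e ∈ tubeE ξ R w, γ' 0 ∈ e) (hW : ∀ j, ∃ D, Wge L s t' γ' j D) :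
    ∃ Y : Finset V, Y ⊆ par ξ (8 * w) 0 w ∧ 9 / 10 * (w : ℝ) ≤ Y.card ∧
      ∀ y ∈ Y, ∃ D, shift y t' ∈ WE G L q s {a} D := by
  classical
  have hR' : (1 : ℝ) ≤ R := by exact_mod_cast hR
  have hw' : (1 : ℝ) ≤ w := by exact_mod_cast hw1
  have hξ := abs_nonneg ξ
  have hK0 : (5 : ℝ) ≤ K := by nlinarith
  obtain ⟨e, he, hve⟩ := h0
  obtain ⟨p, hp, rfl⟩ := Finset.mem_image.1 he
  obtain ⟨hp0, hp1, hp2⟩ := mem_par.1 hp
  have hv : 0 ≤ (γ' 0).2 ∧ (γ' 0).2 ≤ R * w ∧ |((γ' 0).1 : ℝ) - ξ * (γ' 0).2| ≤ 5 * w := by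
    push_cast at hp1
    rcases Sym2.mem_iff.1 hve with hv | hv <;> rw [hv]
    · exact ⟨hp0, by omega, by linarith⟩
    · refine ⟨by simp; omega, by simp; omega, ?_⟩
      have : ((p + (0, 1) : V).1 : ℝ) - ξ * (p + (0, 1) : V).2 = ((p.1 : ℝ) - ξ * p.2) - ξ := by
        simp; ring
      rw [this]
      exact (abs_sub _ _).trans (by linarith)
  obtain ⟨hv0, hv1, hv2⟩ := hv
  have hv0' : (0 : ℝ) ≤ (γ' 0).2 := by exact_mod_cast hv0
  have hv1' : ((γ' 0).2 : ℝ) ≤ R * w := by exact_mod_cast hv1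
  have hn : (nrm (γ' 0) : ℝ) ≤ K * w := by
    have hKw : ((|ξ| + 1) * R + 5) * w ≤ K * w := mul_le_mul_of_nonneg_right hK (by linarith)
    refine st_nrm_le ?_ ?_
    · have h1 : |((γ' 0).1 : ℝ)| ≤ |((γ' 0).1 : ℝ) - ξ * (γ' 0).2| + |ξ * (γ' 0).2| := by
        simpa using abs_add_le (((γ' 0).1 : ℝ) - ξ * (γ' 0).2) (ξ * (γ' 0).2)
      rw [abs_mul, abs_of_nonneg hv0'] at h1
      have h2 : |ξ| * (γ' 0).2 ≤ |ξ| * (R * w) := mul_le_mul_of_nonneg_left hv1' hξ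
      nlinarith
    · rw [abs_of_nonneg hv0']
      have : 0 ≤ |ξ| * (R * w) := by positivity
      nlinarith
  have hKz : (1 : ℤ) ≤ K := by
    have : (1 : ℝ) ≤ K := by linarith
    exact_mod_cast this
  have hwz : (0 : ℤ) ≤ w := by positivity
  have hst := hs γ' a h ⟨0, by exact_mod_cast hn⟩ 0 (by nlinarith) (by nlinarith)
  set J := (Finset.Ico (0 : ℤ) (0 + (w : ℤ))).filter fun j => ∃ k, (γ' k).2 = j ∧ Good L q t' γ' k with hJ
  obtain ⟨κ, hκ⟩ := st_choose (L := L) (q := q) (t := t') (γ := γ') J fun j hj => (Finset.mem_filter.1 hj).2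
  refine ⟨J.image fun j => γ' (κ j), ?_, ?_, ?_⟩
  · intro y hy
    obtain ⟨j, hj, rfl⟩ := Finset.mem_image.1 hy
    obtain ⟨hj0, hj1⟩ := Finset.mem_Ico.1 (Finset.mem_filter.1 hj).1
    have hr := (hκ j hj).1
    refine mem_par.2 ⟨by omega, by omega, ?_⟩
    have h1 := ht γ' a h ha.1 ha.2 0 (κ j)
    have hj0' : (0 : ℝ) ≤ j := by exact_mod_cast hj0
    have hj1' : (j : ℝ) ≤ w := by
      have : j ≤ w := by omega
      exact_mod_cast this
    have hr' : ((γ' (κ j)).2 : ℝ) = j := by exact_mod_cast hr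
    rw [hr'] at h1 ⊢
    have h2 : 1 / (R : ℝ) * |(j : ℝ) - (γ' 0).2| ≤ w := by
      rw [one_div, inv_mul_le_iff₀ (by linarith), abs_le]
      constructor <;> nlinarith
    have h3 : 1 / (K : ℝ) * nrm (γ' 0) ≤ w := by
      rw [one_div, inv_mul_le_iff₀ (by linarith)]; exact hn
    rw [abs_le] at h1 hv2 ⊢
    constructor <;> linarith [h1.1, h1.2, hv2.1, hv2.2]
  · rw [Finset.card_image_of_injOn]
    · linarith
    · intro j hj j' hj' e
      have e' : γ' (κ j) = γ' (κ j') := e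
      rw [← (hκ j hj).1, ← (hκ j' hj').1, e']
  · intro y hy
    obtain ⟨j, hj, rfl⟩ := Finset.mem_image.1 hy
    obtain ⟨D, hD⟩ := hW (γ' (κ j)).2
    exact ⟨_, shift_mem_WE H (Set.mem_singleton a) h (hκ j hj).2 hD⟩

/-- Let `X = {x ∈ seg w | shift x t ∈ GE [α,β]}`; choose `γ x, a x` (`mem_shift_GE`) and `D x, n₀ x` (`exists_useful`); `a` is injective on `X` (`Uniq.exit_eq`).
`P x C := |D x| ϑ / 2 ≤ |C ∩ D x|` has `coinProb ≥ 1 - 4/(|D x| ϑ) ≥ 9/10`; `coinProb_majority` with `η = 1/10`, `coinProb_mono`.  For such `C ⊆ tubeE` and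
`t' = lowerOn q C b t` with the four properties, every `x` with `P x C` gives a curve of `t'` (`TiltOK` with `S = tubeE`, `gain_of_inter`, `lowerOn_le`) and a set `Y x`
(`exists_exits`); the pairs `(y, a x)` are distinct; `card_le_sum_counts`. -/
theorem tilt_count (H : HypC G) (hδ : 0 < δ) (hR : 1 ≤ R) (hw : |ξ| ≤ w) (hw1 : 1 ≤ w) {K : ℕ} (hK : (|ξ| + 1) * R + 5 ≤ K)
    {ϑ s m : ℝ} (h0 : 0 < ϑ) (h1 : ϑ ≤ 1) (hϑ : 40 ≤ 9 / 10 * (R * w) * ϑ) (hs0 : 0 < s) (hs : s ≤ δ * (9 / 10 * (R * w) * ϑ / 2))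
    {ν : Env → ℝ≥0∞} {t : Env} (hu : Uniq G t) (hst : t ∈ Str G L q (1 / 10) 1 (R * w))
    (ht : t ∈ Tube G ξ (1 / R) α β 1 w) (hm : w * m / 2 ≤ cnt (GE G L q (Set.Icc α β)) (seg w) t) :
    4 / 5 ≤ coinProb (tubeE ξ R w) ϑ fun C => ∀ b : Sym2 V → ℝ, (∀ e, b e ∈ Set.Ico 0 (q - δ)) →
      lowerOn q C b t ∈ {t' | TiltOK G L t' → t' ∈ Str G L q (1 / 10) K w → t' ∈ Tube G ξ (1 / R) α β (1 / K) w →
        (∀ y, Counts (fun t a => a ∈ Set.Icc α β ∧ ∃ D, t ∈ WE G L q s {a} D) ν (shift y t')) →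
        ENNReal.ofReal (w ^ 2 * m / 5) ≤ ∑ y ∈ par ξ (8 * w) 0 w, ν (shift y t')} := by
  classical
  set X := (seg w).filter fun z => shift z t ∈ GE G L q (Set.Icc α β) with hX
  have hXc : w * m / 2 ≤ (X.card : ℝ) := by
    refine hm.trans (le_of_eq ?_)
    unfold cnt
    congr
  have hex : ∀ x ∈ X, ∃ (γ : ℤ → V) (a : ℝ) (k : ℤ) (D : Finset (Sym2 V)) (n₀ : ℤ), a ∈ Set.Icc α β ∧ Curve G t γ a ∧ γ k = x ∧
      Last γ k ∧ D ⊆ tubeE ξ R w ∧ 9 / 10 * (R * w : ℝ) ≤ D.card ∧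
      ∀ e ∈ D, q ≤ t e ∧ ∃ k, -n₀ ≤ k ∧ k < n₀ ∧ e = edge γ k := by
    intro x hx
    obtain ⟨hxs, hxG⟩ := Finset.mem_filter.1 hx
    obtain ⟨γ, a, k, ha, hγ, hk, hg⟩ := (mem_shift_GE H).1 hxG
    obtain ⟨D, n₀, h1, h2, h3⟩ := exists_useful hR hst ht hγ ha (hk ▸ hxs)
    exact ⟨γ, a, k, D, n₀, ha, hγ, hk, hg.1.1, h1, h2, h3⟩
  choose! γ a k D n₀ ha hγ hk hla hDS hDc hD using hex
  have hinj : ∀ x ∈ X, ∀ x' ∈ X, a x = a x' → x = x' := by
    intro x hx x' hx' e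
    have h1 := (mem_seg.1 (Finset.mem_filter.1 hx).1).2
    have h2 := (mem_seg.1 (Finset.mem_filter.1 hx').1).2
    have := hu.exit_eq (hγ x hx) (e ▸ hγ x' hx') (hla x hx) (hla x' hx') (by rw [hk x hx, hk x' hx', h1, h2])
    rwa [hk x hx, hk x' hx'] at this
  have hP : ∀ x ∈ X, 1 - 1 / 10 ≤ coinProb (tubeE ξ R w) ϑ fun C => (D x).card * ϑ / 2 ≤ ((C ∩ D x).card : ℝ) := by
    intro x hx
    have h40 : 40 ≤ (D x).card * ϑ := hϑ.trans (mul_le_mul_of_nonneg_right (hDc x hx) h0.le)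
    have hne : (D x).Nonempty := by
      rw [← Finset.card_pos]
      by_contra hc
      have : (D x).card = 0 := by omega
      rw [this] at h40
      norm_num at h40
    refine le_trans ?_ (coinProb_card_inter h0 h1 (hDS x hx) hne)
    have : 4 / ((D x).card * ϑ) ≤ 1 / 10 := by
      rw [div_le_iff₀ (by linarith)]; linarith
    linarith
  have hmaj := coinProb_majority h0.le h1 X _ (η := 1 / 10) (by norm_num) hP
  refine le_trans (by norm_num) (hmaj.trans (coinProb_mono h0.le h1 fun C hC hCm b hb hT hS' hT' hν => ?_))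
  set t' := lowerOn q C b t with ht'
  set X' := X.filter fun x => (D x).card * ϑ / 2 ≤ ((C ∩ D x).card : ℝ) with hX'
  have hX'c : (X.card : ℝ) ≤ 2 * X'.card := by convert hCm
  have hY : ∀ x ∈ X', ∃ Y : Finset V, Y ⊆ par ξ (8 * w) 0 w ∧ 9 / 10 * (w : ℝ) ≤ Y.card ∧
      ∀ y ∈ Y, ∃ D, shift y t' ∈ WE G L q s {a x} D := by
    intro x hx
    obtain ⟨hx, hc⟩ := Finset.mem_filter.1 hx
    have hs' : s ≤ δ * (C ∩ D x).card := by
      refine hs.trans (mul_le_mul_of_nonneg_left (le_trans ?_ hc) hδ.le)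
      have := mul_le_mul_of_nonneg_right (hDc x hx) h0.le
      linarith
    obtain ⟨γ', h1', h2', h3'⟩ := hT t (tubeE ξ R w) (γ x) (a x) s (n₀ x) hs0 (lowerOn_le hδ hb)
      (fun e he => by
        have : e ∉ C := fun h => he (hC h)
        simp [ht', lowerOn, this]) (hγ x hx) (gain_of_inter hδ hb (hD x hx) hs')
    exact exists_exits H hR hw hw1 hK hS' hT' h1' (ha x hx) h2' h3'
  choose! Y hYs hYc hYW using hY
  set W : Finset (V × ℝ) := X'.biUnion fun x => (Y x).image fun y => (y, a x) with hW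
  have hWc : W.card = ∑ x ∈ X', (Y x).card := by
    rw [hW, Finset.card_biUnion]
    · exact Finset.sum_congr rfl fun x _ => Finset.card_image_of_injective _ fun y y' e => (Prod.ext_iff.1 e).1
    · intro x hx x' hx' hne
      refine Finset.disjoint_left.2 fun z hz hz' => hne ?_
      obtain ⟨y, -, rfl⟩ := Finset.mem_image.1 hz
      obtain ⟨y', -, e⟩ := Finset.mem_image.1 hz'
      exact hinj x (Finset.mem_filter.1 hx).1 x' (Finset.mem_filter.1 hx').1 (Prod.ext_iff.1 e).2.symm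
  have hle := card_le_sum_counts hν (par ξ (8 * w) 0 w) W fun z hz => by
    obtain ⟨x, hx, hz⟩ := Finset.mem_biUnion.1 hz
    obtain ⟨y, hy, rfl⟩ := Finset.mem_image.1 hz
    exact ⟨hYs x hx hy, ha x (Finset.mem_filter.1 hx).1, hYW x hx y hy⟩
  refine le_trans ?_ hle
  rw [← ENNReal.ofReal_natCast]
  refine ENNReal.ofReal_le_ofReal ?_
  have h2 : X'.card * (9 / 10 * (w : ℝ)) ≤ W.card := by
    rw [hWc, Nat.cast_sum, ← nsmul_eq_mul]
    exact Finset.card_nsmul_le_sum _ _ _ hYc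
  have hw0 : (0 : ℝ) ≤ w := by positivity
  have h3 : w * m / 4 ≤ (X'.card : ℝ) := by linarith
  have h4 := mul_le_mul_of_nonneg_right h3 hw0
  have h5 : (0 : ℝ) ≤ X'.card * w := by positivity
  nlinarith

end Crest.Agent.R151
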