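import Crest.Agent.R151.SSpec

/-! R151 part C soft, C9: labels with a large `W` are rare.  Helper prefix `sw_`. -/

set_option autoImplicit false

open MeasureTheory ProbabilityTheory Crest.ProbabilityR.FirstPassage Filter Topology
open scoped ENNReal

namespace Crest.Agent.R151

variable {G : Measure ℝ} [IsProbabilityMeasure G] [NullSingletonClass G] {L : ℕ} {q δ : ℝ}

/-- good exit at the origin with `W ≥ s` beyond `D`, and no good exit of the class in `(2L, D)` -/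
def WI (G : Measure ℝ) (L : ℕ) (q s : ℝ) (I : Set ℝ) : Set Env :=
  ⋃ D : ℤ, (WE G L q s I D ∩ ⋂ y : ℤ, ⋂ _ : 2 * (L : ℤ) < y ∧ y < D, (shift (y, 0) ⁻¹' GE G L q I)ᶜ)

theorem nullMeas_WI (L : ℕ) (q s : ℝ) {I : Set ℝ} (hI : MeasurableSet I) :
    NullMeasurableSet (WI G L q s I) (iidLaw G) := by
  exact NullMeasurableSet.iUnion fun D => (nullMeas_WE L q s hI D).inter (NullMeasurableSet.iInter fun y =>
    NullMeasurableSet.iInter fun _ => (nullMeas_shift (nullMeas_GE L q hI) _).compl)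

/-- `charge` with `X = WI`, `X' = GE`; the next point `x'` is `≥ D`; `mem_shift_GE`, `Tame.mid`, `Bud.swap` -/
theorem measure_WI_le (H : HypC G) (L : ℕ) (q : ℝ) {s : ℝ} (hs : 0 < s) (α : ℝ) {h : ℝ} (hh : 0 < h) :
    iidLaw G (WI G L q s (Set.Icc α (α + h))) ≤ ENNReal.ofReal ((24 * L + 12) / s * h) := by
  obtain ⟨Λ, B⟩ := exists_bud H L α hh
  have key := charge (nullMeas_WI (G := G) L q s (I := Set.Icc α (α + h)) measurableSet_Icc)
    (nullMeas_GE (G := G) L q (I := Set.Icc α (α + h)) measurableSet_Icc) (by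
      intro t ht
      obtain ⟨D, ⟨γ, a, h1, h2, h3, h4, -⟩, -⟩ := Set.mem_iUnion.1 ht
      exact ⟨γ, a, h1, h2, h3, h4⟩) L B.meas (s := ENNReal.ofReal s) B.int (by
      filter_upwards [ae_reg G H.hyp.nonneg] with t hr ht x' hx' hm _
      obtain ⟨D, ⟨γ, a, h1, h2, h3, h4, h5⟩, h6⟩ := Set.mem_iUnion.1 ht
      have hD : D ≤ x' := by
        by_contra hcon
        exact Set.mem_iInter₂.1 h6 x' ⟨hx', not_le.1 hcon⟩ hm
      obtain ⟨γ', a', k', k1, k2, k3, k4⟩ := (mem_shift_GE H).1 hm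
      have r0 : (γ' k').2 = 0 := by rw [k3]
      have c0 : (γ' k').1 = x' := by rw [k3]
      have m := k4.1.mid k2.line le_rfl (k2.line.entry_le k4.1.1)
      rw [r0, zero_add] at m
      filter_upwards [B.swap t hr γ a γ' a' k' h1 k1 h2 k2 h3 h4.1 r0 k4.1 (by omega), h5 _ _ (c0 ▸ hD) m] with N e1 e2
      rw [← c0]
      exact (ENNReal.ofReal_le_ofReal e2).trans e1)
  rw [← ENNReal.mul_le_mul_iff_right (a := ENNReal.ofReal s) (by simpa using hs) ENNReal.ofReal_ne_top]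
  refine key.trans (le_of_eq ?_)
  rw [← ENNReal.ofReal_mul hs.le, show s * ((24 * L + 12) / s * h) = (4 * L + 2) * (6 * h) by field_simp; ring,
    ENNReal.ofReal_mul (p := 4 * L + 2) (by positivity), ENNReal.ofReal_add (by positivity) (by positivity),
    ENNReal.ofReal_mul (p := 4) (by positivity)]
  simp

/-- `exists_count` with `E x h = WI (Icc x (x+h))`.  If `t ∈ WE {a} D`: the finitely many labels with a good exit at some `(y,0)`, `2L < y < D`
(`ae_finite_labels`) differ from `a` (`Uniq.exit_eq`), so they are at distance `≥ h₀ > 0` from `a`. -/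
theorem exists_nuW (H : HypC G) (P : CPar G L q δ) {s α β : ℝ} (hs : 0 < s) (hαβ : α < β) :
    ∃ ν : Env → ℝ≥0∞, Measurable ν ∧ ∫⁻ t, ν t ∂iidLaw G ≤ ENNReal.ofReal ((24 * L + 12) / s * (β - α)) ∧
      ∀ᵐ t ∂iidLaw G, Counts (fun t a => a ∈ Set.Icc α β ∧ ∃ D, t ∈ WE G L q s {a} D) ν t := by
  refine exists_count hαβ (by positivity) (fun x h => WI G L q s (Set.Icc x (x + h)))
    (fun x h _ => nullMeas_WI L q s measurableSet_Icc) (fun x h hh => measure_WI_le H L q hs x hh) _ ?_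
  filter_upwards [ae_uniq H, ae_finite_labels H P] with t hu hf a ⟨ha, D, γ, a', h1, h2, h3, h4, h5⟩
  obtain rfl : a' = a := h1
  refine ⟨ha, ?_⟩
  have hA : (⋃ y ∈ Set.Ioo (2 * (L : ℤ)) D, {a | shift (y, 0) t ∈ GE G L q {a}}).Finite :=
    (Set.finite_Ioo _ _).biUnion fun y _ => hf _
  obtain ⟨h₀, hh₀, hb⟩ := Metric.isOpen_iff.1 hA.isClosed.isOpen_compl a' (by
    intro hm
    obtain ⟨y, hy, hm⟩ := Set.mem_iUnion₂.1 hm
    obtain ⟨γ', a'', k', k1, k2, k3, k4⟩ := (mem_shift_GE H).1 hm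
    obtain rfl : a'' = a' := k1
    have := hu.exit_eq h2 k2 h4.1.1 k4.1.1 (by rw [h3, k3]; rfl)
    rw [h3, k3] at this
    have h0 : (0 : ℤ) = y := congrArg Prod.fst this
    have := hy.1
    omega)
  refine ⟨h₀, hh₀, fun h x h0 hh hx => Set.mem_iUnion.2 ⟨D, ⟨γ, a', hx, h2, h3, h4, h5⟩, ?_⟩⟩
  refine Set.mem_iInter₂.2 fun y hy ⟨γ', a'', k1, k2⟩ => ?_
  refine hb (a := a'') ?_ (Set.mem_iUnion₂.2 ⟨y, hy, γ', a'', rfl, k2⟩)
  rw [Metric.mem_ball, Real.dist_eq, abs_lt]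
  constructor <;> linarith [hx.1, hx.2, k1.1, k1.2]

end Crest.Agent.R151
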