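import Crest.Agent.R151.STilt1
import Crest.Agent.R151.SW

/-! R151 part C soft, C10: the tilt estimate for a narrow class of labels.  Helper prefix `su_`. -/

set_option autoImplicit false

open MeasureTheory ProbabilityTheory Crest.ProbabilityR.FirstPassage Filter Topology
open scoped ENNReal

namespace Crest.Agent.R151

variable {G : Measure ℝ} [IsProbabilityMeasure G] [NullSingletonClass G] {L : ℕ} {q δ : ℝ}

omit [NullSingletonClass G] in
/-- Markov's inequality for the sum over the parallelogram -/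
theorem su_markov {ν : Env → ℝ≥0∞} (hν : Measurable ν) {b κ ξ : ℝ} (hκ : 0 < κ)
    (hb : ∫⁻ t, ν t ∂iidLaw G ≤ ENNReal.ofReal b) {w : ℕ} (hw : 1 ≤ w) :
    iidLaw G {t | ENNReal.ofReal (w ^ 2 * κ) ≤ ∑ y ∈ par ξ (8 * w) 0 w, ν (shift y t)} ≤
      ENNReal.ofReal (17 * b / κ) := by
  have hw' : (1 : ℝ) ≤ w := by exact_mod_cast hw
  have hm : ∀ y : V, Measurable fun t : Env => ν (shift y t) := fun y =>
    hν.comp (measurePreserving_shift G y).measurable
  have hpos : 0 < (w : ℝ) ^ 2 * κ := by positivity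
  refine (meas_ge_le_lintegral_div (Finset.measurable_fun_sum _ fun y _ => hm y).aemeasurable
    (ENNReal.ofReal_pos.2 hpos).ne' ENNReal.ofReal_ne_top).trans ?_
  rw [lintegral_finsetSum _ fun y _ => hm y]
  simp only [lintegral_shift hν, Finset.sum_const, nsmul_eq_mul]
  have h1 : ((par ξ (8 * w) 0 w).card : ℝ) ≤ 17 * w ^ 2 :=
    (card_par (by positivity) 0 w).trans (by nlinarith)
  have h2 : ((par ξ (8 * w) 0 w).card : ℝ≥0∞) * ∫⁻ t, ν t ∂iidLaw G ≤ ENNReal.ofReal (17 * w ^ 2 * b) := by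
    rw [ENNReal.ofReal_mul (by positivity), ← ENNReal.ofReal_natCast]
    exact mul_le_mul' (ENNReal.ofReal_le_ofReal h1) hb
  refine (ENNReal.div_le_div_right h2 _).trans (le_of_eq ?_)
  rw [← ENNReal.ofReal_div_of_pos hpos]
  congr 1
  field_simp

/-- the core estimate, for a given `s` -/
theorem su_core (H : HypC G) (P : CPar G L q δ) {R : ℕ} (hR : 1 ≤ R) {ξ α β : ℝ} (hαβ : α < β)
    (h₁ : fp G (ξ - 1 / R) < α) (h₂ : β < fp G (ξ + 1 / R))
    (hσ : 134 ≤ √(G.real (Set.Ico 0 (q - δ))) * √R)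
    (hm : 0 < (iidLaw G).real (GE G L q (Set.Icc α β))) :
    (iidLaw G).real (GE G L q (Set.Icc α β)) ≤
      8500 * ((24 * L + 12) / (3 / 20 * δ * (√(G.real (Set.Ico 0 (q - δ))) * √R)) * (β - α)) := by
  have : IsProbabilityMeasure (iidLaw G) := by unfold iidLaw; infer_instance
  have hp := P.pos_Ico H
  have hδ := P.δ_pos
  set p' := G.real (Set.Ico 0 (q - δ)) with hp'
  set m := (iidLaw G).real (GE G L q (Set.Icc α β)) with hmdef
  have hp1 : p' ≤ 1 := measureReal_le_one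
  have hR' : (1 : ℝ) ≤ R := by exact_mod_cast hR
  set σ := √p' with hσdef
  set ρ := √(R : ℝ) with hρdef
  have hσ0 : 0 < σ := Real.sqrt_pos.2 hp
  have hσ1 : σ ≤ 1 := Real.sqrt_le_one.2 hp1
  have hσ2 : σ ^ 2 = p' := Real.sq_sqrt hp.le
  have hρ1 : 1 ≤ ρ := Real.one_le_sqrt.2 hR'
  have hρ2 : (R : ℝ) = ρ ^ 2 := (Real.sq_sqrt (by positivity)).symm
  set s := 3 / 20 * δ * (σ * ρ) with hsdef
  have hs : 0 < s := by positivity
  obtain ⟨ν, hν, hνi, hνc⟩ := exists_nuW H P hs hαβ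
  set b := (24 * L + 12) / s * (β - α) with hbdef
  have hb0 : 0 ≤ b := mul_nonneg (by positivity) (sub_pos.2 hαβ).le
  obtain ⟨K, hK⟩ := exists_nat_ge ((|ξ| + 1) * R + 5)
  have hK0 : (0 : ℝ) < K := lt_of_lt_of_le (by positivity) hK
  have hRw : Tendsto (fun w : ℕ => R * w) atTop atTop :=
    tendsto_atTop_mono (fun w => Nat.le_mul_of_pos_left w hR) tendsto_id
  have t1 := (((str_tendsto P 1).comp hRw).add (tube_tendsto H h₁ h₂ one_pos)).add
    (lln_lower (nullMeas_GE L q measurableSet_Icc) hm)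
  have t2 := (str_tendsto P K).add (tube_tendsto H h₁ h₂ (one_div_pos.2 hK0))
  rw [add_zero, add_zero] at t1
  rw [add_zero] at t2
  have e1 := t1.eventually (ge_mem_nhds (show (0 : ℝ≥0∞) < 1 / 2 by simp))
  have e2 := t2.eventually (ge_mem_nhds (show (0 : ℝ≥0∞) < ENNReal.ofReal (1 / 100) by simp))
  have e3 : ∀ᶠ w : ℕ in atTop, |ξ| ≤ (w : ℝ) := tendsto_natCast_atTop_atTop.eventually_ge_atTop _
  obtain ⟨w, hw1, hw2, hw3, hw⟩ := (e1.and (e2.and (e3.and (eventually_ge_atTop 1)))).exists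
  have hw' : (1 : ℝ) ≤ w := by exact_mod_cast hw
  set ϑ := σ / (3 * w * ρ) with hϑ
  have hϑ0 : 0 < ϑ := by positivity
  have hϑ1 : ϑ ≤ 1 := by
    rw [hϑ, div_le_one (by positivity)]
    nlinarith
  have hϑ2 : 9 / 10 * ((R : ℝ) * w) * ϑ = 3 / 10 * (σ * ρ) := by
    rw [hϑ, hρ2]
    field_simp
    ring
  have hϑ3 : ((tubeE ξ R w).card : ℝ) * ϑ ^ 2 ≤ p' := by
    refine (mul_le_mul_of_nonneg_right (card_tubeE hw) (sq_nonneg _)).trans (le_of_eq ?_)
    rw [hϑ, hρ2, ← hσ2]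
    field_simp
    ring
  have key := tilt_half hδ hp (tubeE ξ R w) hϑ0.le hϑ1 hϑ3
    (A := {t | Uniq G t ∧ t ∈ Str G L q (1 / 10) 1 (R * w) ∧ t ∈ Tube G ξ (1 / R) α β 1 w ∧
      w * m / 2 ≤ cnt (GE G L q (Set.Icc α β)) (seg w) t}) (by
      refine le_trans ?_ hw1
      refine le_trans (measure_mono_ae ?_) ((measure_union_le _ _).trans
        (add_le_add (measure_union_le _ _) le_rfl))
      filter_upwards [ae_uniq H] with t ht hA
      by_contra hc
      refine hA ⟨ht, ?_, ?_, ?_⟩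
      · exact by_contra fun h => hc (Or.inl (Or.inl h))
      · exact by_contra fun h => hc (Or.inl (Or.inr h))
      · exact not_lt.1 fun h => hc (Or.inr h))
    fun t ht => tilt_count (ν := ν) (s := s) H hδ hR hw3 hw hK hϑ0 hϑ1 (by rw [hϑ2]; linarith) hs
      (by rw [hϑ2, hsdef]; linarith) ht.1 ht.2.1 ht.2.2.1 ht.2.2.2
  have hM := su_markov (G := G) (ξ := ξ) hν (show 0 < m / 5 by positivity) hνi hw
  have h3 : ENNReal.ofReal (1 / 50) ≤ ENNReal.ofReal (1 / 100) + ENNReal.ofReal (17 * b / (m / 5)) := by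
    refine key.trans (le_trans ?_ (add_le_add hw2 hM))
    refine le_trans (measure_mono_ae ?_) ((measure_union_le _ _).trans
      (add_le_add (measure_union_le _ _) le_rfl))
    filter_upwards [ae_tiltOK H L, ae_all_shift hνc] with t h4 h5 hB
    by_contra hc
    refine hc (Or.inr ?_)
    have := hB h4 (by_contra fun h => hc (Or.inl (Or.inl h))) (by_contra fun h => hc (Or.inl (Or.inr h))) h5
    rwa [mul_div_assoc] at this
  rw [← ENNReal.ofReal_add (by norm_num) (by positivity), ENNReal.ofReal_le_ofReal_iff (by positivity)] at h3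
  have h4 : 1 / 100 ≤ 17 * b / (m / 5) := by linarith
  rw [le_div_iff₀ (by positivity)] at h4
  linarith

/-- `p' = G.real (Ico 0 (q - δ))` (`CPar.pos_Ico`), `R₀` with `√(p' R₀) ≥ 134`, `s = 0.15 δ √(p' R)`, `ν` from `exists_nuW`, `m = P.real (GE [α,β])`; assume `m > 0`.
For large `w`: `ϑ = √p' / (3 w √R)`, so `|tubeE| ϑ² ≤ p'` and `0.9 R w ϑ = 0.3 √(p' R) ≥ 40`.  `A = Uniq ∩ Str 1 (R w) ∩ Tube ∩ {cnt ≥ w m / 2}` has `P Aᶜ ≤ 1/2`
(`ae_uniq`, `str_tendsto` along `w ↦ R w`, `tube_tendsto`, `lln_lower`).  `tilt_half` and `tilt_count` give `1/50 ≤ P B`, and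
`B ⊆ TiltOKᶜ ∪ (Str K w)ᶜ ∪ Tubeᶜ ∪ Countsᶜ ∪ {w² m / 5 ≤ ∑ ν}`, so by Markov (`lintegral_shift`, `card_par ≤ 17 w²`)
`1/100 ≤ 85 (24 L + 12) (β - α) / (s m)`. -/
theorem measure_narrow (H : HypC G) (P : CPar G L q δ) : ∃ (C : ℝ) (R₀ : ℕ), 0 < C ∧ ∀ R : ℕ, R₀ ≤ R → ∀ ξ α β : ℝ, α < β →
    fp G (ξ - 1 / R) < α → β < fp G (ξ + 1 / R) →
    iidLaw G (GE G L q (Set.Icc α β)) ≤ ENNReal.ofReal (C * (β - α) / √R) := by
  have : IsProbabilityMeasure (iidLaw G) := by unfold iidLaw; infer_instance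
  have hp := P.pos_Ico H
  have hδ := P.δ_pos
  have hσ0 : 0 < √(G.real (Set.Ico 0 (q - δ))) := Real.sqrt_pos.2 hp
  obtain ⟨R₀, hR₀⟩ := exists_nat_ge (134 ^ 2 / G.real (Set.Ico 0 (q - δ)))
  refine ⟨8500 * ((24 * L + 12) / (3 / 20 * δ * √(G.real (Set.Ico 0 (q - δ))))), R₀ + 1, by positivity,
    fun R hR ξ α β hαβ h₁ h₂ => ?_⟩
  have hR1 : 1 ≤ R := le_trans (Nat.le_add_left 1 R₀) hR
  have hR2 : (R₀ : ℝ) ≤ R := by exact_mod_cast (Nat.le_succ R₀).trans hR
  have hρ : 0 < √(R : ℝ) := Real.sqrt_pos.2 (by exact_mod_cast hR1)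
  have hσ : 134 ≤ √(G.real (Set.Ico 0 (q - δ))) * √R := by
    rw [← Real.sqrt_mul hp.le]
    refine Real.le_sqrt_of_sq_le ?_
    rw [div_le_iff₀ hp] at hR₀
    nlinarith
  rw [← ofReal_measureReal]
  refine ENNReal.ofReal_le_ofReal ?_
  rcases (measureReal_nonneg (μ := iidLaw G) (s := GE G L q (Set.Icc α β))).eq_or_lt with h | h
  · rw [← h]
    have := sub_pos.2 hαβ
    positivity
  · refine (su_core H P hR1 hαβ h₁ h₂ hσ h).trans (le_of_eq ?_)
    field_simp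

end Crest.Agent.R151
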