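import Crest.Agent.R151.SBas

/-! R151 part C soft, C6: geodesics from one point form a tree.  Helper prefix `s6_`. -/

set_option autoImplicit false

open MeasureTheory ProbabilityTheory Crest.ProbabilityR.FirstPassage Filter Topology
open scoped ENNReal

namespace Crest.Agent.R151

/-- Abstract form.  `g y` is a sequence of length `n y`; two of them that agree at an index agree before.  Induction on `Y`:
for `insert y Y₀` (`Y₀` nonempty) let `m*` be the largest index at which `g y` agrees with some `g y*`, `y* ∈ Y₀`.  A separation point of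
`(y, y')` at an index `m < m*` is a separation point of `(y*, y')`; so at most the point `g y m*` is new. -/
theorem card_sep_le {ι α : Type} (g : ι → ℕ → α) (n : ι → ℕ)
    (hpre : ∀ y y' m, m ≤ n y → m ≤ n y' → g y m = g y' m → ∀ l ≤ m, g y l = g y' l) (Y : Finset ι) (Z : Finset α)
    (hZ : ∀ z ∈ Z, ∃ y ∈ Y, ∃ y' ∈ Y, ∃ m, m < n y ∧ m < n y' ∧ g y m = z ∧ g y' m = z ∧ g y (m + 1) ≠ g y' (m + 1)) :
    Z.card ≤ Y.card := by
  classical
  induction Y using Finset.induction_on generalizing Z with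
  | empty =>
    rw [Finset.card_empty, Nat.le_zero, Finset.card_eq_zero, Finset.eq_empty_iff_forall_notMem]
    intro z hz
    obtain ⟨y, hy, -⟩ := hZ z hz
    exact absurd hy (Finset.notMem_empty y)
  | insert y Y₀ hy ih =>
    rw [Finset.card_insert_of_notMem hy]
    -- the agreement indices of `y` with `Y₀`
    let A : Finset ℕ := (Finset.range (n y + 1)).filter fun m => ∃ y' ∈ Y₀, m ≤ n y' ∧ g y m = g y' m
    have hA : ∀ m, m ∈ A ↔ m ≤ n y ∧ ∃ y' ∈ Y₀, m ≤ n y' ∧ g y m = g y' m := fun m => by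
      simp only [A, Finset.mem_filter, Finset.mem_range, Nat.lt_add_one_iff]
    have key : ∀ z, z ≠ g y (A.sup id) → ∀ y' ∈ Y₀, ∀ m, m < n y → m < n y' → g y m = z → g y' m = z →
        g y (m + 1) ≠ g y' (m + 1) → ∃ y₁ ∈ Y₀, m < n y₁ ∧ g y₁ m = z ∧ g y₁ (m + 1) ≠ g y' (m + 1) := by
      intro z hz y' hy' m h1 h2 h3 h4 h5
      have hm : m ∈ A := (hA m).2 ⟨h1.le, y', hy', h2.le, h3.trans h4.symm⟩
      obtain ⟨m₁, hm₁, e⟩ := Finset.exists_mem_eq_sup A ⟨m, hm⟩ id
      have h6 : m ≤ m₁ := (Finset.le_sup (f := id) hm).trans e.le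
      rw [e] at hz
      have h7 : m < m₁ := lt_of_le_of_ne h6 fun e' => hz (h3.symm.trans (by rw [e']; rfl))
      obtain ⟨h8, y₁, hy₁, h9, h10⟩ := (hA m₁).1 hm₁
      have h11 := hpre y y₁ m₁ h8 h9 h10
      exact ⟨y₁, hy₁, by omega, (h11 m h6).symm.trans h3, (h11 (m + 1) h7) ▸ h5⟩
    have h := ih (Z.erase (g y (A.sup id))) fun z hz => by
      obtain ⟨hz1, hz2⟩ := Finset.mem_erase.1 hz
      obtain ⟨y₁, hy₁, y₂, hy₂, m, h1, h2, h3, h4, h5⟩ := hZ z hz2
      rcases Finset.mem_insert.1 hy₁ with e₁ | e₁ <;> rcases Finset.mem_insert.1 hy₂ with e₂ | e₂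
      · exact absurd (by rw [e₁, e₂]) h5
      · subst e₁
        obtain ⟨y₃, hy₃, g1, g2, g3⟩ := key z hz1 y₂ e₂ m h1 h2 h3 h4 h5
        exact ⟨y₃, hy₃, y₂, e₂, m, g1, h2, g2, h4, g3⟩
      · subst e₂
        obtain ⟨y₃, hy₃, g1, g2, g3⟩ := key z hz1 y₁ e₁ m h2 h1 h4 h3 h5.symm
        exact ⟨y₃, hy₃, y₁, e₁, m, g1, h1, g2, h3, g3⟩
      · exact ⟨y₁, e₁, y₂, e₂, m, h1, h2, h3, h4, h5⟩
    have := Finset.pred_card_le_card_erase (s := Z) (a := g y (A.sup id))
    omega

/-- choose the geodesics `g y` from `p` to `y` on `0..n y` (`exists_geo`); `geo_unique` identifies the geodesics in `Branch` with them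
(`m = -i`) and gives `hpre` -/
theorem card_branch_le {t : Env} (hr : Reg t) (p : V) (Y Z : Finset V)
    (hZ : ∀ z ∈ Z, ∃ y ∈ Y, ∃ y' ∈ Y, Branch t p y y' z) : Z.card ≤ Y.card := by
  choose g n hg h0 hn using fun y => exists_geo hr (conn_univ p y)
  have hn0 : ∀ y, 0 ≤ n y := fun y => (hg y).1.1
  have key : ∀ {y : V} {q : ℤ → V} {i j : ℤ}, i ≤ 0 → 0 < j → IsGeo t Set.univ q i j → q i = p → q j = y →
      (-i).toNat < (n y).toNat ∧ g y (-i).toNat = q 0 ∧ g y ((-i).toNat + 1 : ℕ) = q 1 := by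
    intro y q i j hi hj hq e1 e2
    obtain ⟨h1, h2⟩ := geo_unique hr (hg y) hq ((h0 y).trans e1.symm) ((hn y).trans e2.symm)
    have h3 : (((-i).toNat : ℕ) : ℤ) = -i := Int.toNat_of_nonneg (by omega)
    refine ⟨by omega, ?_, ?_⟩
    · have := h2 (-i) (by omega) (by omega)
      rwa [zero_add, add_neg_cancel, ← h3] at this
    · have := h2 (-i + 1) (by omega) (by omega)
      rw [zero_add, ← add_assoc, add_neg_cancel, zero_add] at this
      rw [Nat.cast_add, h3, Nat.cast_one, this]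
  refine card_sep_le (fun y m => g y m) (fun y => (n y).toNat) (fun y y' m h1 h2 e l hl => ?_) Y Z fun z hz => ?_
  · have := (geo_unique hr ((hg y).sub hr.nonneg le_rfl (Int.natCast_nonneg m) (by have := hn0 y; omega))
      ((hg y').sub hr.nonneg le_rfl (Int.natCast_nonneg m) (by have := hn0 y'; omega))
      ((h0 y).trans (h0 y').symm) e).2 l (Int.natCast_nonneg l) (by omega)
    rwa [zero_add] at this
  · obtain ⟨y, hy, y', hy', q, q', i, j, j', hi, hj, hj', hq, hq', e1, e2, e3, e4, e5, e6, e7⟩ := hZ z hz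
    obtain ⟨a1, a2, a3⟩ := key hi hj hq e1 e3
    obtain ⟨b1, b2, b3⟩ := key hi hj' hq' e2 e4
    exact ⟨y, hy, y', hy', (-i).toNat, a1, b1, a2.trans e5, b2.trans e6, by rw [a3, b3]; exact e7⟩

end Crest.Agent.R151
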