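import Crest.Agent.R151.SKon
import Crest.Agent.R151.SLab

/-! R151 part C soft, C10: the curve of the tilted environment has `W ≥ s` at every row.  Helper prefix `sx_`. -/

set_option autoImplicit false

open MeasureTheory ProbabilityTheory Crest.ProbabilityR.FirstPassage Filter Topology
open scoped ENNReal

namespace Crest.Agent.R151

variable {G : Measure ℝ} [IsProbabilityMeasure G] [NullSingletonClass G]

/-- `F` = endpoints of `S`.  `D` = max of the constants of `ae_barrier` (rows `j` and `j+1`, plus `L`) and of `ae_far`.  For `x ≥ D`, `|x'-x| ≤ L`, large `N` the three `t'`-geodesics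
(`exists_geo`) avoid `F`, so by `T_le_of_avoid` and `T_triangle` (in `t`) `TD + T + TU ≥ T t d u ≥ T t' d u + s`, `d = γ' (la ..)`, `u = γ' (fi ..)`
(`Line.tendsto_la`, `Line.tendsto_fi`; `Line.last_la`, `Line.first_fi`, `TS_comm`, `T_comm`). -/
theorem ae_wge (H : HypC G) (L : ℕ) : ∀ᵐ t' ∂iidLaw G, ∀ (t : Env) (S : Finset (Sym2 V)) (γ' : ℤ → V) (a s : ℝ) (n₁ : ℤ),
    (∀ e, 0 ≤ t e) → (∀ e, e ∉ S → t e = t' e) → Curve G t' γ' a →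
    (∀ m m', m ≤ -n₁ → n₁ ≤ m' → T t' (γ' m) (γ' m') + s ≤ T t (γ' m) (γ' m')) → ∀ j, ∃ D, Wge L s t' γ' j D := by
  filter_upwards [ae_reg G H.hyp.nonneg, ae_barrier H, ae_far H] with t' hr hb hf t S γ a s n₁ ht hS hγ hg j
  obtain ⟨F, hF⟩ : ∃ F : Finset V, ∀ e ∈ S, ∀ v ∈ e, v ∈ F :=
    ⟨S.biUnion Sym2.toFinset, fun e he v hv => Finset.mem_biUnion.2 ⟨e, he, Sym2.mem_toFinset.2 hv⟩⟩
  obtain ⟨D₁, h₁⟩ := hb γ a hγ j F
  obtain ⟨D₂, h₂⟩ := hb γ a hγ (j + 1) F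
  obtain ⟨D₃, h₃⟩ := hf F j L
  have hl := hγ.line
  refine ⟨max (max (|D₁| + L) |D₂|) D₃, fun x x' hx hx' => ?_⟩
  rw [max_le_iff, max_le_iff] at hx
  have b₁ : D₁ ≤ |x'| := by
    have := abs_le.1 hx'
    have := le_abs_self D₁
    have := le_abs_self x'
    omega
  filter_upwards [h₁ x' b₁, h₂ x ((le_abs_self _).trans (hx.1.2.trans (le_abs_self _))),
    (hl.tendsto_la j).eventually_le_atBot (-n₁), (hl.tendsto_fi (j + 1)).eventually_ge_atTop n₁] with N k₁ k₂ k₃ k₄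
  obtain ⟨p₁, m₁, g₁, s₁, e₁⟩ := exists_geo hr (conn_rows (a := j - N) (b := j) (x := (x', j)) (y := γ (la γ (j - N)))
    ⟨by simp, le_rfl⟩ ⟨(hl.la_row _).ge, by rw [hl.la_row]; omega⟩)
  obtain ⟨p₂, m₂, g₂, s₂, e₂⟩ := exists_geo hr (conn_rows (a := j + 1) (b := j + 1 + N) (x := (x, j + 1))
    (y := γ (fi γ (j + 1 + N))) ⟨le_rfl, by simp⟩ ⟨by rw [hl.fi_row]; omega, (hl.fi_row _).le⟩)
  obtain ⟨p₃, m₃, g₃, s₃, e₃⟩ := exists_geo hr (conn_univ (x', j) (x, j + 1))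
  have t₁ := T_le_of_avoid ht hS g₁ fun m a b e he hm =>
    k₁ _ p₁ 0 m₁ s₁ e₁ (Or.inr ⟨hl.last_la _, hl.la_row _, g₁⟩) m a b (hF e he _ hm)
  have t₂ := T_le_of_avoid ht hS g₂ fun m a b e he hm =>
    k₂ _ p₂ 0 m₂ s₂ e₂ (Or.inl ⟨hl.first_fi _, hl.fi_row _, g₂⟩) m a b (hF e he _ hm)
  have t₃ : T t (p₃ 0) (p₃ m₃) ≤ T t' (p₃ 0) (p₃ m₃) := T_le_of_avoid ht hS g₃ fun m a b e he hm =>
    h₃ x x' hx.2 hx' p₃ 0 m₃ g₃ s₃ e₃ m a b (hF e he _ hm)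
  rw [s₁, e₁] at t₁
  rw [s₂, e₂] at t₂
  rw [s₃, e₃] at t₃
  have h3 : T t (γ (la γ (j - N))) (γ (fi γ (j + 1 + N))) ≤
      T t (γ (la γ (j - N))) (x', j) + T t (x', j) (γ (fi γ (j + 1 + N))) := T_triangle ht
  have h4 : T t (x', j) (γ (fi γ (j + 1 + N))) ≤
      T t (x', j) (x, j + 1) + T t (x, j + 1) (γ (fi γ (j + 1 + N))) := T_triangle ht
  rw [T_comm (y := (x', j))] at h3
  have h5 := hg _ _ k₃ k₄
  unfold Exc TD TU
  linarith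

/-- the conclusion of the deterministic part of the tilt, as a property of the tilted environment -/
def TiltOK (G : Measure ℝ) (L : ℕ) (t' : Env) : Prop :=
  ∀ (t : Env) (S : Finset (Sym2 V)) (γ : ℤ → V) (a s : ℝ) (n₀ : ℤ), 0 < s → (∀ e, t' e ≤ t e) → (∀ e, e ∉ S → t e = t' e) →
    Curve G t γ a → (∀ i j, i ≤ -n₀ → n₀ ≤ j → cost t' γ i j + s ≤ cost t γ i j) →
    ∃ γ', Curve G t' γ' a ∧ (∃ e ∈ S, γ' 0 ∈ e) ∧ ∀ j, ∃ D, Wge L s t' γ' j D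

theorem ae_tiltOK (H : HypC G) (L : ℕ) : ∀ᵐ t' ∂iidLaw G, TiltOK G L t' := by
  filter_upwards [ae_reg G H.hyp.nonneg, ae_label H, ae_wge H L] with t' hr hl hw t S γ a s n₀ hs hle hS hγ hg
  obtain ⟨γ', hb', he, hA⟩ := exists_approx hr hle hS hγ.bi hs hg
  obtain ⟨n₁, hn⟩ := gain_transfer hr hle hS hγ.bi hg hb' hA
  have hc : Curve G t' γ' a := ⟨hb', hl γ γ' a hγ.bi.inj hγ.lab hγ.le hb' hA, hγ.le⟩
  exact ⟨γ', hc, he, hw t S γ' a s n₁ (fun e => (hr.nonneg e).trans (hle e)) hS hc hn⟩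

end Crest.Agent.R151
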